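import Vale.Agent.Q352.DefG
import Vale.Agent.N352.DefQ
import Vale.Agent.P352.H746.Curve

/-!
# P352, the global conformal action: translation of the definitions
-/

set_option linter.all false

open Filter Topology

namespace Vale.Agent.Q352.Cv

open N352

noncomputable section

variable {H : Type*} [NormedAddCommGroup H] [InnerProductSpace ℂ H] [CompleteSpace H]

/-- frames -/
@[reducible] def fr (K : Frame H) : Dh.Frame H :=
  ⟨K.Ω, K.Γ, K.U, K.norm, K.inv, K.herm, K.even, K.unitary, K.vac, K.comm, K.mul, K.spectrum⟩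

/-- frames -/
@[reducible] def rf (K : Dh.Frame H) : Frame H :=
  ⟨K.Ω, K.Γ, K.U, K.norm, K.inv, K.herm, K.even, K.unitary, K.vac, K.comm, K.mul, K.spectrum⟩

variable {K : Frame H}

/-- theories -/
@[reducible] def th (Q : Theory K) : Dh.Theory (fr K) where
  dom := Q.dom
  fld := Q.fld
  inv := Q.inv
  gam := Q.gam
  rep := Q.rep
  cyclic := Q.cyclic
  lin := Q.lin
  cont := Q.cont
  adj := Q.adj
  split A a := have ⟨B, C, b, c, p, q, e⟩ := Q.split A a; ⟨B, C, b, c, ⟨p⟩, ⟨q⟩, e⟩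
  transl := Q.transl
  loc A B f g a b i j s v m := have k := Q.loc A B f g a b i j s v m
    ⟨fun p => k.1 p.1, fun p q => k.2 p.1 q.1⟩

/-- theories -/
@[reducible] def ht (Q : Dh.Theory (fr K)) : Theory K where
  dom := Q.dom
  fld := Q.fld
  inv := Q.inv
  gam := Q.gam
  rep := Q.rep
  cyclic := Q.cyclic
  lin := Q.lin
  cont := Q.cont
  adj := Q.adj
  split A a := have ⟨B, C, b, c, p, q, e⟩ := Q.split A a; ⟨B, C, b, c, p.1, q.1, e⟩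
  transl := Q.transl
  loc A B f g a b i j s v m := have k := Q.loc A B f g a b i j s v m
    ⟨fun p => k.1 ⟨p⟩, fun p q => k.2 ⟨p⟩ ⟨q⟩⟩

/-- spins -/
@[reducible] def rp (k : Rp) : Dh.Rp := ⟨k.dm, k.ρ, k.sp, k.id, k.mul, k.der⟩

/-- spins -/
@[reducible] def pr (k : Dh.Rp) : Rp := ⟨k.dm, k.ρ, k.sp, k.id, k.mul, k.der⟩

variable {Q R : Theory K} {T t : Fin 4 → Fin 4 → Fld H} {A B C : Fld H}

theorem bose : Bose Q A ↔ Dh.Bose (th Q) A := ⟨fun h => ⟨h.1, ⟨h.2⟩⟩, fun h => ⟨h.1, h.2.1⟩⟩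

theorem stress : Stress Q T ↔ Dh.Stress (th Q) T :=
  ⟨fun h => ⟨fun m n => bose.1 (h.1 m n), h.2, h.3, h.4, h.5⟩,
    fun h => ⟨fun m n => bose.2 (h.1 m n), h.2, h.3, h.4, h.5⟩⟩

theorem pgen : PGen Q T ↔ Dh.PGen (th Q) T := Iff.rfl

theorem vir {J} : Vir Q T J ↔ Dh.Vir (th Q) T J :=
  ⟨fun h => ⟨fun m => bose.1 (h.1 m), h.2, h.3⟩, fun h => ⟨fun m => bose.2 (h.1 m), h.2, h.3⟩⟩

theorem uniq : Uniq K ↔ Dh.Uniq (fr K) := Iff.rfl

theorem fnt : Fnt Q ↔ Dh.Fin' (th Q) := forall₂_congr fun A _ => and_congr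
  ⟨fun ⟨n, k, Φ, a, p, q, r⟩ => ⟨n, fun i => rp (k i), Φ, a, p, q, r⟩,
    fun ⟨n, k, Φ, a, p, q, r⟩ => ⟨n, fun i => pr (k i), Φ, a, p, q, r⟩⟩
  ⟨fun ⟨F, B, p, q⟩ => ⟨F, B, p, q⟩, fun ⟨F, B, p, q⟩ => ⟨F, B, p, q⟩⟩

theorem cnt : Cnt Q ↔ Dh.Cnt (th Q) := ⟨fun h => ⟨h.1, h.2, h.3⟩, fun h => ⟨h.1, h.2, h.3⟩⟩

theorem net {N} : Net K N ↔ Dh.Net (fr K) N :=
  ⟨fun h => ⟨h.1, h.2, h.3, h.4⟩, fun h => ⟨h.1, h.2, h.3, h.4⟩⟩

theorem wk {O Y} : Wk Q O Y ↔ Dh.Wk (th Q) O Y := ⟨fun h => ⟨h⟩, fun h => h.1⟩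

theorem aff {N} : Aff Q N ↔ Dh.Aff (th Q) N :=
  ⟨fun h => ⟨fun O o Y y => wk.1 (h O o Y y)⟩, fun h O o Y y => wk.2 (h.1 O o Y y)⟩

theorem rel {N} : Rel Q N ↔ Dh.Rel (th Q) N :=
  ⟨fun h => ⟨h.1, fun O O' a b c X x => have k := h.2 O O' a b c X x; ⟨wk.1 k.1, wk.1 k.2⟩⟩,
    fun h => ⟨h.1, fun O O' a b c X x => have k := h.2 O O' a b c X x; ⟨wk.2 k.1, wk.2 k.2⟩⟩⟩

theorem rec' {N} (h : Rec Q N) : Dh.Rec (th Q) N :=
  ⟨fun l a b c d => h l a b c fun O f Z i z => d O f Z i ⟨z⟩⟩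

theorem rec'' {N} (h : Dh.Rec (th Q) N) : Rec Q N :=
  fun l a b c d => h.1 l a b c fun O f Z i z => d O f Z i z.1

theorem ebd : EBd Q ↔ Dh.EBd (th Q) := Iff.rfl

theorem fbt : FBT Q T ↔ Dh.FBT (th Q) T := Iff.rfl

theorem sl : SL Q T ↔ Dh.SL (th Q) T :=
  ⟨fun h => ⟨fun a b m n f p q r i e => (h a b m n f p q r i e).imp fun _ k =>
      ⟨fun Y y => wk.1 (k.1 Y y), k.2⟩⟩,
    fun h a b m n f p q r i e => (h.1 a b m n f p q r i e).imp fun _ k =>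
      ⟨fun Y y => wk.2 (k.1 Y y), k.2⟩⟩

theorem leb : LEB R Q ↔ Dh.LEB (th R) (th Q) := Iff.rfl

theorem ana : Ana R ↔ Dh.Ana (th R) := Iff.rfl

theorem rgl (h : Rgl Q T) : Dh.Rgl (th Q) T := by
  rcases h with ⟨N, a, b⟩ | ⟨a, b⟩ | ⟨R, a, b, c, d⟩
  · exact .net N ⟨net.1 a, b.imp aff.1 rel.1⟩
  · exact .energy ⟨a, b.imp id sl.1⟩
  · exact .sub (th R) ⟨⟨a, b, fnt.1 c⟩, d⟩

theorem hyp (h : Hyp Q T) : Dh.Hyr (th Q) T ∧ Dh.Rgl (th Q) T :=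
  ⟨⟨stress.1 h.1, h.2, h.3.imp (Exists.imp fun _ => vir.1) .inr, h.4.imp fnt.1 cnt.1⟩, rgl h.5⟩

theorem scalar (h : Dh.Scalar (th Q) A 2) : Scalar Q A :=
  ⟨bose.2 h.1, h.2, fun s L a f hs hL i v m => (h.3 s L a f hs hL i v m).trans (by
    norm_num
    rfl)⟩

theorem relLoc {D} : RelLoc Q D C ↔ Dh.RelLoc (th Q) D C :=
  ⟨fun h => ⟨h.1, h.2, h.3, h.4, h.5, fun A A' f g v w a b c d e p q =>
      have k := h.6 A A' f g v w a b c d e p q; ⟨fun x => k.1 x.1, fun x => k.2 x.1⟩⟩,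
    fun h => ⟨h.1, h.2, h.3, h.4, h.5, fun A A' f g v w a b c d e p q =>
      have k := h.6 A A' f g v w a b c d e p q; ⟨fun x => k.1 ⟨x⟩, fun x => k.2 ⟨x⟩⟩⟩⟩

theorem loc {p q : Fld H → Prop} (i : ∀ C, p C → q C) (h : Dh.Loc (th Q) q A B) : Loc Q p A B :=
  ⟨h.1, h.2, h.3, h.4, fun C C' f g a b c => h.5 C C' f g a b (i C c)⟩

theorem kil_of {p : Pm} (h : Skew p.2.1) : Dh.IsKil fun n x => kil p x n :=
  ⟨p.2.2.1, p.2.2.2, p.1, p.2.1, h, fun _ _ => rfl⟩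

theorem act (h : Dh.Act (th Q) t A B) : Act Q t A B :=
  have ⟨S, S', M, M', s, k, a⟩ := h
  have i : ∀ C, Bose Q A ∨ Bose Q C → Dh.Bose (th Q) A ∨ Dh.Bose (th Q) C :=
    fun _ => Or.imp bose.1 bose.1
  ⟨S, S', M, M', fun m n => loc i (s m n), fun m => loc i (k m),
    fun p f x => a _ f (kil_of x)⟩

theorem prim {e k d P P'} (h : Dh.Prim (th Q) t e k d P P') : Prim Q t e (pr k) d P P' :=
  ⟨fun a => (h.1 a).imp fun _ => loc fun _ => id, h.2, h.3, fun p a f x => h.4 _ a f (kil_of x)⟩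

theorem desc (h : Dh.Desc (th Q) t A) : Desc Q t A :=
  have ⟨n, e, k, d, c, α, a, P, P', p, s⟩ := h
  ⟨n, e, fun i => pr (k i), d, c, α, a, P, P', fun i => prim (p i), s⟩

theorem t_sum {ι : Type*} (s : Finset ι) (c : ι → ℂ) {g : ι → Fn} (h : ∀ i, IsTest (g i)) :
    IsTest fun x => ∑ i ∈ s, c i * g i x := by
  choose u e using h
  exact ⟨∑ i ∈ s, c i • u i, funext fun x => by simp [SchwartzMap.sum_apply, ← e]⟩

theorem t_xg (m : Fin 4) {g : Fn} (h : IsTest g) : IsTest (Dh.xg m g) := by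
  obtain ⟨u, rfl⟩ := h
  have k := (Complex.ofRealCLM.comp (ContinuousLinearMap.proj (R := ℝ)
    (φ := fun _ : Fin 4 => ℝ) m)).hasTemperateGrowth
  exact ⟨SchwartzMap.smulLeftCLM ℂ _ u, funext fun x => SchwartzMap.smulLeftCLM_apply_apply k u x⟩

theorem f_sum {ι : Type*} (s : Finset ι) (c : ι → ℂ) {g : ι → Fn} (h : ∀ i, IsTest (g i))
    (a : Q.fld A) {v} (m : v ∈ Q.dom) :
    A (fun x => ∑ i ∈ s, c i * g i x) v = ∑ i ∈ s, c i • A (g i) v := by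
  classical
  induction s using Finset.induction_on with
  | empty =>
    have := Q.lin A (fun _ => 0) (fun _ => 0) 1 a ⟨0, rfl⟩ ⟨0, rfl⟩ v m
    simpa using this
  | insert i s n k =>
    simp only [Finset.sum_insert n, add_comm (c i * _)]
    rw [Q.lin A _ _ _ a (t_sum s c h) (h i) v m, k, add_comm]

theorem v_sum {ι : Type*} (s : Finset ι) (c : ι → ℂ) {v : ι → H} (h : ∀ i, v i ∈ Q.dom)
    (a : Q.fld A) {f} (m : IsTest f) :
    A f (∑ i ∈ s, c i • v i) = ∑ i ∈ s, c i • A f (v i) := by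
  obtain ⟨B, -, d⟩ := Q.adj A a
  refine (Q.cyclic _ Q.inv).eq_of_inner_left ℂ fun z k => ?_
  simp only [d f m _ (sum_mem fun i _ => Q.dom.smul_mem _ (h i)) z k, sum_inner, inner_smul_left,
    fun i => d f m _ (h i) z k]

theorem cm_exp (s : ∀ m n, Q.fld (T m n)) (b : Q.fld B) {f g : Fn} (i : IsTest f) (j : IsTest g)
    {v} (m : v ∈ Q.dom) (w : Fin 4 → V) (a : V) :
    cur T (kil (0, w, a, 0)) g (B f v) - B f (cur T (kil (0, w, a, 0)) g v) =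
      ∑ n, ((eta n * a n : ℝ) : ℂ) • Dh.cm (T 0 n) g B f v +
        ∑ n, ∑ l, ((eta n * w l n : ℝ) : ℂ) • Dh.cm (T 0 n) (Dh.xg l g) B f v := by
  let G : Option (Fin 4) → Fn := fun o => o.elim g fun l => Dh.xg l g
  let c : Fin 4 × Option (Fin 4) → ℂ := fun p =>
    ((eta p.1 * p.2.elim (a p.1) fun l => w l p.1 : ℝ) : ℂ)
  have t : ∀ o, IsTest (G o) := fun o => o.casesOn j fun l => t_xg l j
  have e : ∀ u ∈ Q.dom, cur T (kil (0, w, a, 0)) g u = ∑ p, c p • T 0 p.1 (G p.2) u := fun u k => by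
    rw [Fintype.sum_prod_type]
    refine Finset.sum_congr rfl fun n _ => Eq.trans ?_ (f_sum _ (fun o => c (n, o)) t (s 0 n) k)
    congr 1
    ext x
    simp [c, G, kil, mdot, Dh.xg, Finset.mul_sum, mul_add, add_mul, Finset.sum_mul]
    exact Finset.sum_congr rfl fun l _ => by ring
  rw [e _ (Q.inv.2 B f b i v m), e v m,
    v_sum _ c (fun p => Q.inv.2 _ _ (s 0 p.1) (t p.2) v m) b i,
    ← Finset.sum_sub_distrib, Fintype.sum_prod_type, ← Finset.sum_add_distrib]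
  refine Finset.sum_congr rfl fun n _ => ?_
  simp only [Fintype.sum_option, ← smul_sub]
  rfl

theorem chg (s : ∀ m n, Q.fld (T m n)) (s' : ∀ m n, R.fld (t m n))
    (d : ∀ v, Cyc Q v → v ∈ R.dom) (h : Dh.Chg (th Q) (th R) T t) : Chg Q R T t := by
  intro w a F B C f hw hF b c x i
  obtain ⟨_, _, -, -, -, -, k⟩ := id hF
  filter_upwards [h F B C f hF b c x i, eventually_gt_atTop 0] with r p hr v y
  rw [cm_exp s b i.1 (k r hr).1 (y _ Q.inv), cm_exp s' c i.1 (k r hr).1 (d v y)]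
  have z : ∀ a : Fin 4 → Fin 4 → H, ∑ n, ∑ m, ((eta n * w m n : ℝ) : ℂ) • a m n =
      (2⁻¹ : ℂ) • ∑ n, ∑ m, ((eta n * w m n : ℝ) : ℂ) • (a m n - a n m) := fun a => by
    have : ∑ n, ∑ m, ((eta n * w m n : ℝ) : ℂ) • a n m =
        -∑ n, ∑ m, ((eta n * w m n : ℝ) : ℂ) • a m n := by
      rw [Finset.sum_comm]
      simp only [← Finset.sum_neg_distrib, ← neg_smul]
      exact Finset.sum_congr rfl fun n _ => Finset.sum_congr rfl fun m _ => by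
        rw [hw, Complex.ofReal_neg]
    simp only [smul_sub, Finset.sum_sub_distrib, this]
    module
  rw [z fun m n => Dh.cm (t 0 n) (Dh.xg m (F r)) C f v,
    z fun m n => Dh.cm (T 0 n) (Dh.xg m (F r)) B f v]
  have p1 : ∀ n, Dh.cm (t 0 n) (F r) C f v = Dh.cm (T 0 n) (F r) B f v := fun n => (p 0 n v y).1
  have p2 : ∀ l n, Dh.cm (t 0 n) (Dh.xg l (F r)) C f v - Dh.cm (t 0 l) (Dh.xg n (F r)) C f v =
    Dh.cm (T 0 n) (Dh.xg l (F r)) B f v - Dh.cm (T 0 l) (Dh.xg n (F r)) B f v :=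
      fun l n => (p l n v y).2
  simp only [p1, p2]

theorem ward {W} (h : Glob R t W) (q : Pm) (Y F) (s : Skew q.2.1) (m : Mon R Y) (hF : IsCutoff F) :
    ∀ᶠ r in atTop,
      inner ℂ K.Ω (cur t (kil q) (F r) (Y K.Ω) - Y (cur t (kil q) (F r) K.Ω)) = 0 := by
  obtain ⟨r, w, a, b⟩ := q
  obtain ⟨L, L0, hL, dL⟩ := P352.H746.exists_lor s
  let p : ℝ → Pm := fun e => (Real.exp (e * r), L e, e • a, e • b)
  have ad : ∀ e, Adm (p e) := fun e => ⟨Real.exp_pos _, hL e⟩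
  have d : HasDerivAt p (r, w, a, b) 0 := by
    refine HasDerivAt.prodMk ?_ ((hasDerivAt_pi.2 fun m => hasDerivAt_pi.2 (dL m)).prodMk
      (HasDerivAt.prodMk ?_ ?_))
    · simpa using (hasDerivAt_mul_const (x := (0 : ℝ)) r).exp
    · simpa using (hasDerivAt_id (0 : ℝ)).smul_const a
    · simpa using (hasDerivAt_id (0 : ℝ)).smul_const b
  filter_upwards [h.gen p _ Y F (by simp [p, L0]; rfl) ad d m hF] with r k
  have e := ((hasDerivAt_const (0 : ℝ) K.Ω).inner ℂ k).unique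
    ((hasDerivAt_const (0 : ℝ) (inner ℂ K.Ω (Y K.Ω))).congr_of_eventuallyEq (.of_forall fun e =>
      (congrArg (inner ℂ · _) (h.vac _ (ad e))).symm.trans
        (Unitary.inner_map_map ⟨_, h.uni _ (ad e)⟩ _ _)))
  rw [inner_smul_right, inner_zero_left, add_zero] at e
  exact (mul_eq_zero.1 e).resolve_left Complex.I_ne_zero

theorem glb {W} (h : Glob R t W) : Glb R t W :=
  ⟨h.uni, h.vac, h.gam, h.poi, h.mul, h.cont, fun p q Y F e a d1 d2 d3 d4 => h.gen p q Y F e a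
    (d1.prodMk ((hasDerivAt_pi.2 fun m => hasDerivAt_pi.2 (d2 m)).prodMk
      ((hasDerivAt_pi.2 d3).prodMk (hasDerivAt_pi.2 d4)))), h.scl⟩

end

end Vale.Agent.Q352.Cv
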