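import Vale.Agent.P352.MathlibUsed
import Mathlib.Analysis.VonNeumannAlgebra.Basic

open MeasureTheory Filter Topology
open scoped SchwartzMap

namespace Vale.Agent.Q352

noncomputable section

/-- Minkowski space. -/
abbrev V := Fin 4 → ℝ

/-- Complex functions on Minkowski space. -/
abbrev Fn := V → ℂ

/-- Test functions: Schwartz functions. -/
def IsTest (f : Fn) : Prop := ∃ g : 𝓢(V, ℂ), ⇑g = f

/-- Test functions with compact support in the region `O`. -/
def In (O : Set V) (f : Fn) : Prop := IsTest f ∧ HasCompactSupport f ∧ tsupport f ⊆ O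

/-- Diagonal of the metric, signature `(+,-,-,-)`. -/
def eta (m : Fin 4) : ℝ := if m = 0 then 1 else -1

/-- Minkowski product. -/
def mdot (x y : V) : ℝ := ∑ m, eta m * x m * y m

/-- `t` times the `m`-th coordinate unit vector. -/
def bas (m : Fin 4) (t : ℝ) : V := fun n => if n = m then t else 0

/-- Derivative in the `m`-th coordinate. -/
def pd (m : Fin 4) (f : Fn) : Fn := fun x => deriv (fun t => f fun n => x n + bas m t n) 0

/-- Complex conjugation. -/
def bar (f : Fn) : Fn := fun x => star (f x)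

/-- The similitude `x ↦ s L x + a`; the vector `L m` is the image of the `m`-th unit vector. -/
def sim (s : ℝ) (L : Fin 4 → V) (a x : V) : V := fun n => a n + s * ∑ m, x m * L m n

/-- The identity matrix. -/
def one : Fin 4 → V := fun m => bas m 1

/-- Proper orthochronous Lorentz transformations. -/
def IsLor (L : Fin 4 → V) : Prop :=
  (∀ m n, mdot (L m) (L n) = bas m (eta m) n) ∧ 0 < L 0 0 ∧ Matrix.det L = 1

/-- Space-like separated regions. -/
def Spc (O O' : Set V) : Prop := ∀ x ∈ O, ∀ y ∈ O', mdot (x - y) (x - y) < 0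

/-- Bounded open regions. -/
def Reg (O : Set V) : Prop := IsOpen O ∧ Bornology.IsBounded O

/-- Cutoffs `F R x = a(x⁰) c(x⃗ / R)` with smooth compactly supported `a`, `c`, `∫ a = 1` and
`c = 1` near zero. -/
def IsCutoff (F : ℝ → Fn) : Prop := ∃ (a : ℝ → ℝ) (c : V → ℝ), HasCompactSupport a ∧
  HasCompactSupport c ∧ ∫ t, a t = 1 ∧ (∀ᶠ x in 𝓝 0, c x = 1) ∧
  ∀ R > 0, IsTest (F R) ∧ ∀ x, F R x = a (x 0) * c fun n => if n = 0 then 0 else x n / R

/-- Parameters `(s, L, a, b)` of conformal maps, and `(r, w, a, b)` of conformal Killing fields. -/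
abbrev Pm := ℝ × (Fin 4 → V) × V × V

/-- The vector field `x ↦ a + r x + w x + 2 (b, x) x - (x, x) b`. -/
def kil (p : Pm) (x : V) : V := fun n =>
  p.2.2.1 n + p.1 * x n + ∑ m, x m * p.2.1 m n + 2 * mdot p.2.2.2 x * x n - mdot x x * p.2.2.2 n

/-- Infinitesimal Lorentz transformations. -/
def Skew (w : Fin 4 → V) : Prop := ∀ m n, eta n * w m n = -(eta m * w n m)

/-- The conformal factor of the special conformal transformation with parameter `b`. -/
def den (b x : V) : ℝ := 1 - 2 * mdot b x + mdot b b * mdot x x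

/-- The conformal map `x ↦ s L k(x) + a`, `k` the special conformal transformation with
parameter `b`. -/
def cf (p : Pm) (x : V) : V :=
  sim p.1 p.2.1 p.2.2.1 fun n => (x n - mdot x x * p.2.2.2 n) / den p.2.2.2 x

/-- Admissible parameters of conformal maps. -/
def Adm (p : Pm) : Prop := 0 < p.1 ∧ IsLor p.2.1

/-- The divergence of a vector field. -/
def dvg (X : V → V) : Fn := fun x => ∑ n, pd n (fun y => (X y n : ℂ)) x

/-- **Spins.** A finite dimensional representation `ρ`, up to sign, of the Lorentz group (tensors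
and spinors), with the spin matrices `sp`. -/
structure Rp where
  dm : ℕ
  ρ : (Fin 4 → V) → Matrix (Fin dm) (Fin dm) ℂ
  sp : Fin 4 → Fin 4 → Matrix (Fin dm) (Fin dm) ℂ
  id : ρ one = 1
  mul : ∀ L L', IsLor L → IsLor L' → ρ (fun m => sim 1 L 0 (L' m)) = ρ L' * ρ L ∨
    ρ (fun m => sim 1 L 0 (L' m)) = -(ρ L' * ρ L)
  der : ∀ (L : ℝ → Fin 4 → V) (w : Fin 4 → V) a b, L 0 = one → (∀ e, IsLor (L e)) →
    (∀ m n, HasDerivAt (fun e => L e m n) (w m n) 0) →
    HasDerivAt (fun e => ρ (L e) a b) (∑ m, ∑ n, w m n * sp m n a b) 0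

/-- Operator valued distributions; only the values on test functions and on a domain matter. -/
abbrev Fld (H : Type*) := Fn → H → H

variable (H : Type*) [NormedAddCommGroup H] [InnerProductSpace ℂ H] [CompleteSpace H]

/-- **Kinematics.** The vacuum `Ω` in the Hilbert space `H`, the grading `Γ = (-1)^F`, and a unitary
representation `U`, up to `Γ`, of the translations, Lorentz transformations and dilations, with
positive energy. -/
structure Frame where
  Ω : H
  Γ : H →L[ℂ] H
  U : ℝ → (Fin 4 → V) → V → H → H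
  norm : ‖Ω‖ = 1
  inv : Γ * Γ = 1
  herm : star Γ = Γ
  even : Γ Ω = Ω
  unitary : ∀ s L a v w, 0 < s → IsLor L → inner ℂ (U s L a v) (U s L a w) = inner ℂ v w
  vac : ∀ s L a, 0 < s → IsLor L → U s L a Ω = Ω
  comm : ∀ s L a v, 0 < s → IsLor L → U s L a (Γ v) = Γ (U s L a v)
  mul : ∀ s L a s' L' a', 0 < s → 0 < s' → IsLor L → IsLor L' →
    (∀ v, U s L a (U s' L' a' v) = U (s * s') (fun m => sim 1 L 0 (L' m)) (sim s L a a') v) ∨
    L ≠ one ∧ L' ≠ one ∧
      ∀ v, U s L a (U s' L' a' v) = Γ (U (s * s') (fun m => sim 1 L 0 (L' m)) (sim s L a a') v)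
  spectrum : ∀ v, ∃ ν : Measure V, IsFiniteMeasure ν ∧ (∀ᵐ p ∂ν, 0 ≤ p 0 ∧ 0 ≤ mdot p p) ∧
    ∀ a, inner ℂ v (U 1 one a v) = ∫ p, Complex.exp (Complex.I * mdot p a) ∂ν

variable {H}

/-- `B` is a formal adjoint of `A` on the domain `D`. -/
def Adj (D : Submodule ℂ H) (A B : Fld H) : Prop :=
  ∀ f, IsTest f → ∀ v ∈ D, ∀ w ∈ D, inner ℂ (A f v) w = inner ℂ v (B (bar f) w)

/-- `A` is even (`c = 1`) or odd (`c = -1`). -/
def Par (K : Frame H) (D : Submodule ℂ H) (c : ℂ) (A : Fld H) : Prop :=
  ∀ f, IsTest f → ∀ v ∈ D, A f (K.Γ v) = c • K.Γ (A f v)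

/-- The subspace `S` contains `z` and is invariant under the smeared fields in the class `p`. -/
def Inv (z : H) (p : Fld H → Prop) (S : Submodule ℂ H) : Prop :=
  z ∈ S ∧ ∀ A f, p A → IsTest f → ∀ v ∈ S, A f v ∈ S

/-- **Wightman theories**: a set of operator valued tempered distributions with a common
invariant domain `dom`, for which the vacuum is cyclic. It contains adjoints and the even (Bose) and
odd (Fermi) parts of its fields, and the fields are translation covariant and local. -/
structure Theory (K : Frame H) where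
  dom : Submodule ℂ H
  fld : Fld H → Prop
  inv : Inv K.Ω fld dom
  gam : ∀ v ∈ dom, K.Γ v ∈ dom
  rep : ∀ s L a, 0 < s → IsLor L → ∀ v ∈ dom, K.U s L a v ∈ dom
  cyclic : ∀ S, Inv K.Ω fld S → Dense (S : Set H)
  lin : ∀ A f g (c : ℂ), fld A → IsTest f → IsTest g → ∀ v ∈ dom,
    A (fun x => f x + c * g x) v = A f v + c • A g v
  cont : ∀ A, fld A → ∀ v ∈ dom, ∀ w ∈ dom, Continuous fun g : 𝓢(V, ℂ) => inner ℂ w (A g v)
  adj : ∀ A, fld A → ∃ B, fld B ∧ Adj dom A B
  split : ∀ A, fld A → ∃ B C, fld B ∧ fld C ∧ Par K dom 1 B ∧ Par K dom (-1) C ∧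
    ∀ f, IsTest f → ∀ v ∈ dom, A f v = B f v + C f v
  transl : ∀ A a f, fld A → IsTest f → ∀ v ∈ dom,
    A f (K.U 1 one a v) = K.U 1 one a (A (fun x => f (sim 1 one a x)) v)
  loc : ∀ A B f g, fld A → fld B → IsTest f → IsTest g → Spc (tsupport f) (tsupport g) →
    ∀ v ∈ dom, (Par K dom 1 A → A f (B g v) = B g (A f v)) ∧
      (Par K dom (-1) A → Par K dom (-1) B → A f (B g v) = -B g (A f v))

variable {K : Frame H}

/-- Bose fields. -/
def Bose (Q : Theory K) (A : Fld H) : Prop := Q.fld A ∧ Par K Q.dom 1 A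

/-- The vectors that the smeared fields generate from the vacuum. -/
def Cyc (Q : Theory K) (w : H) : Prop := ∀ S, Inv K.Ω Q.fld S → w ∈ S

/-- The density `X^n T_{0n}` of the current of `T` and the vector field `X`. -/
def cur (T : Fin 4 → Fin 4 → Fld H) (X : V → V) : Fld H := fun g u =>
  ∑ n, T 0 n (fun x => (eta n : ℂ) * X x n * g x) u

/-- The trace of a tensor field. -/
def tr (T : Fin 4 → Fin 4 → Fld H) : Fld H := fun f v => ∑ m, (eta m : ℂ) • T m m f v

/-- A symmetric conserved stress tensor with contravariant components `T m n`, a hermitian Bose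
tensor field. Its behaviour under dilations is not prescribed. -/
structure Stress (Q : Theory K) (T : Fin 4 → Fin 4 → Fld H) : Prop where
  bose : ∀ m n, Bose Q (T m n)
  herm : ∀ m n, Adj Q.dom (T m n) (T m n)
  symm : ∀ m n f, IsTest f → ∀ v ∈ Q.dom, T m n f v = T n m f v
  cov : ∀ m n L a f, IsLor L → IsTest f → ∀ v ∈ Q.dom, T m n f (K.U 1 L a v) =
    ∑ k, ∑ l, (L k m * L l n : ℂ) • K.U 1 L a (T k l (fun x => f (sim 1 L a x)) v)
  conserved : ∀ n f, IsTest f → ∀ v ∈ Q.dom, ∑ m, T m n (pd m f) v = 0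

/-- **The charge of the density `j` generates the transformations `u e`.** The commutator of the
regularized charge `q` with a smeared field `B f`, applied to the vacuum, converges weakly when the
cutoff is removed, and `i [q, B f] Ω` is the derivative of `u e (B f Ω)` at `e = 0`. -/
def Gen (Q : Theory K) (u : ℝ → H → H) (j : Fld H) : Prop :=
  ∀ F B f, IsCutoff F → Q.fld B → In Set.univ f → ∀ w ∈ Q.dom, ∃ c,
    Tendsto (fun R => inner ℂ w (j (F R) (B f K.Ω) - B f (j (F R) K.Ω))) atTop (𝓝 c) ∧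
      HasDerivAt (fun e => inner ℂ w (u e (B f K.Ω))) (Complex.I * c) 0

/-- **The charges of `T` generate the translations and the Lorentz transformations**: for every
curve of Poincaré transformations through the identity, with velocity field `X`, the charge of the
current `X^n T_{mn}` generates the curve. -/
def PGen (Q : Theory K) (T : Fin 4 → Fin 4 → Fld H) : Prop :=
  ∀ (L : ℝ → Fin 4 → V) (a : ℝ → V) (X : V → V), L 0 = one → a 0 = 0 → (∀ e, IsLor (L e)) →
    (∀ n x, HasDerivAt (fun e => sim 1 (L e) (a e) x n) (X x n) 0) →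
    Gen Q (fun e => K.U 1 (L e) (a e)) (cur T X)

/-- **Virial currents.** `J` is a local field with `T^m_m = ∂_m J^m`, and the charge of the current
`x^n T_{mn} - J_m` generates the dilations. -/
structure Vir (Q : Theory K) (T : Fin 4 → Fin 4 → Fld H) (J : Fin 4 → Fld H) : Prop where
  bose : ∀ m, Bose Q (J m)
  div : ∀ f, IsTest f → ∀ v ∈ Q.dom, tr T f v = -∑ m, J m (pd m f) v
  gen : Gen Q (fun e => K.U (Real.exp e) one 0) fun g v => cur T (fun x => x) g v - J 0 g v

/-- The vacuum is unique. -/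
def Uniq (K : Frame H) : Prop := ∀ z, (∀ a, K.U 1 one a z = z) → ∃ c : ℂ, z = c • K.Ω

/-- **Finite spin.** `A` is a finite sum of components of multiplets `Φ i` of fields. -/
inductive Spin (Q : Theory K) (A : Fld H) : Prop
  | mk (n : ℕ) (k : Fin n → Rp) (Φ : ∀ i, Fin (k i).dm → Fld H) (a : ∀ i, Fin (k i).dm)
    (mem : ∀ i b, Q.fld (Φ i b))
    (cov : ∀ i b L f, IsLor L → IsTest f → ∀ v ∈ Q.dom, Φ i b f (K.U 1 L 0 v) =
      ∑ c, (k i).ρ L c b • K.U 1 L 0 (Φ i c (fun x => f (sim 1 L 0 x)) v))
    (sum : ∀ f, IsTest f → ∀ v ∈ Q.dom, A f v = ∑ i, Φ i (a i) f v) : Spin Q A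

/-- **Finite scaling support.** The dilates of `A` are the sums over `(d, j)` in a finite set `F` of
`s ^ (4 - d) (log s) ^ j` times fields `B (d, j)`; the dimensions `d` are arbitrary. -/
inductive Scl (Q : Theory K) (A : Fld H) : Prop
  | mk (F : Finset (ℂ × ℕ)) (B : ℂ × ℕ → Fld H) (mem : ∀ p, Q.fld (B p))
    (law : ∀ (s : ℝ) f, 0 < s → IsTest f → ∀ v ∈ Q.dom, A f (K.U s one 0 v) =
      ∑ p ∈ F, ((s : ℂ) ^ (4 - p.1) * (Real.log s : ℂ) ^ p.2) •
        K.U s one 0 (B p (fun x => f (sim s one 0 x)) v)) : Scl Q A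

/-- **Countably many fields.** The fields form a vector space of countable dimension, which is
invariant under the dilations and the Lorentz transformations, and the dilations act continuously.
This holds if the fields are finite sums of generalized eigenvectors of the dilations, with a
discrete spectrum of finite multiplicity. -/
structure Cnt (Q : Theory K) : Prop where
  cnt : ∃ S : Set (Fld H), S.Countable ∧
    (∀ A ∈ Submodule.span ℂ S, ∃ B, Q.fld B ∧ ∀ f, IsTest f → ∀ v ∈ Q.dom, A f v = B f v) ∧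
    ∀ B, Q.fld B → ∃ A ∈ Submodule.span ℂ S, ∀ f, IsTest f → ∀ v ∈ Q.dom, A f v = B f v
  cov : ∀ s L B, 0 < s → IsLor L → Q.fld B → ∃ C, Q.fld C ∧ ∀ f, IsTest f → ∀ v ∈ Q.dom,
    K.U s L 0 (B (fun x => f (sim s L 0 x)) v) = C f (K.U s L 0 v)
  cts : ∀ v, ContinuousAt (fun s => K.U s one 0 v) 1

/-- **Haag-Kastler nets.** The von Neumann algebras `N O`, `O` a bounded open region, are isotonic,
covariant, graded, and local in the graded sense: the even part of `X` in `N O` and its odd part
times `Γ` commute with the algebras of space-like separated regions. -/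
structure Net (K : Frame H) (N : Set V → VonNeumannAlgebra H) : Prop where
  mono : ∀ O O', Reg O → Reg O' → O ⊆ O' → ∀ X ∈ N O, X ∈ N O'
  cov : ∀ s L y O, Reg O → ∀ X ∈ N O, 0 < s → IsLor L →
    ∃ Y ∈ N (sim s L y '' O), ∀ z, Y (K.U s L y z) = K.U s L y (X z)
  gam : ∀ O, Reg O → ∀ X ∈ N O, K.Γ * X * K.Γ ∈ N O
  loc : ∀ O O', Reg O → Reg O' → Spc O O' → ∀ X ∈ N O,
    X + K.Γ * X * K.Γ ∈ (N O').commutant ∧ (X - K.Γ * X * K.Γ) * K.Γ ∈ (N O').commutant

/-- The bounded operator `Y` commutes weakly with the fields smeared in `O`, on the vectors that the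
fields generate from the vacuum. -/
def Wk (Q : Theory K) (O : Set V) (Y : H →L[ℂ] H) : Prop :=
  ∀ B B' f v w, Q.fld B → Adj Q.dom B B' → In O f → Cyc Q v → Cyc Q w →
    inner ℂ (B' (bar f) w) (Y v) = inner ℂ w (Y (B f v))

/-- The fields smeared in `O` are affiliated to `N O`: they commute weakly with its commutant. -/
def Aff (Q : Theory K) (N : Set V → VonNeumannAlgebra H) : Prop :=
  ∀ O, Reg O → ∀ Y ∈ (N O).commutant, Wk Q O Y

/-- The vacuum is cyclic for the net, and the fields are local relative to the net. -/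
def Rel (Q : Theory K) (N : Set V → VonNeumannAlgebra H) : Prop :=
  Dense {z | ∃ O, Reg O ∧ ∃ X ∈ N O, z = X K.Ω} ∧
    ∀ O O', Reg O → Reg O' → Spc O O' → ∀ X ∈ N O,
      Wk Q O' (X + K.Γ * X * K.Γ) ∧ Wk Q O' ((X - K.Γ * X * K.Γ) * K.Γ)

/-- The wedge that is bounded by the null hyperplanes through `y` orthogonal to the null vectors
`a` and `b`. Its causal complement is the opposite wedge `Wdg b a y`. -/
def Wdg (a b y : V) : Set V := {x | mdot a (x - y) < 0 ∧ 0 < mdot b (x - y)}

/-- **Field reconstruction from the net.** Let `l` be a tempered distribution with values in `H`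
that transforms like the vectors `L(f) Ω` of a scalar field of dimension two and is local relative
to the net: `(Ω, Z L(f) Ω) = (Ω, L(f) Z Ω)` for `f` supported in `O` and `Z` in the von Neumann
algebra generated by the algebras `N O'` of the bounded regions `O'` in the causal complements of
the wedges that contain `O`. Then `l f = B(f) Ω` with a field `B` of the theory. -/
def Rec (Q : Theory K) (N : Set V → VonNeumannAlgebra H) : Prop := ∀ l : Fn → H,
  (∀ f g (c : ℂ), IsTest f → IsTest g → l (fun x => f x + c * g x) = l f + c • l g) →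
  (Continuous fun g : 𝓢(V, ℂ) => l g) →
  (∀ (s : ℝ) L a f, 0 < s → IsLor L → IsTest f →
    l f = (s : ℂ) ^ 2 • K.U s L a (l fun x => f (sim s L a x))) →
  (∀ O f (Z : H →L[ℂ] H), In O f → (∀ Y, (∀ a b y O', mdot a a = 0 ∧ 0 < a 0 →
      mdot b b = 0 ∧ 0 < b 0 → mdot a b = 1 → O ⊆ Wdg a b y → Reg O' → O' ⊆ Wdg b a y →
      Y ∈ (N O').commutant) → Y * Z = Z * Y) →
    inner ℂ K.Ω (Z (l f)) = inner ℂ (l (bar f)) (Z K.Ω)) →
  ∃ B, Q.fld B ∧ ∀ f, IsTest f → B f K.Ω = l f

/-- `C` agrees with `B` on the vectors that the fields of `Q` generate from the vacuum. -/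
def Agr (Q : Theory K) (B C : Fld H) : Prop := ∀ f v, IsTest f → Cyc Q v → C f v = B f v

/-- **Local fields.** `C` is a translation covariant operator valued tempered distribution that
leaves the domain `D` invariant, as does its adjoint, and `C` is local relative to the fields of
`Q`: at space-like distance it commutes with the Bose fields `A`, and for Fermi fields `A` the even
part of `C` commutes and the odd part anticommutes with `A` (that is, `A C = Γ C Γ A`). The
commutation relations are only required weakly, on the vectors generated by the fields of `Q`. -/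
structure RelLoc (Q : Theory K) (D : Submodule ℂ H) (C : Fld H) : Prop where
  inv : ∀ f, IsTest f → ∀ v ∈ D, C f v ∈ D
  lin : ∀ f g (c : ℂ), IsTest f → IsTest g → ∀ v ∈ D,
    C (fun x => f x + c * g x) v = C f v + c • C g v
  cont : ∀ v ∈ D, ∀ w ∈ D, Continuous fun g : 𝓢(V, ℂ) => inner ℂ w (C g v)
  adj : ∃ C', (∀ f, IsTest f → ∀ v ∈ D, C' f v ∈ D) ∧ Adj D C C'
  transl : ∀ a f, IsTest f → ∀ v ∈ D,
    C f (K.U 1 one a v) = K.U 1 one a (C (fun x => f (sim 1 one a x)) v)
  loc : ∀ A A' f g v w, Q.fld A → Adj Q.dom A A' → IsTest f → IsTest g →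
    Spc (tsupport f) (tsupport g) → Cyc Q v → Cyc Q w →
    (Par K Q.dom 1 A → inner ℂ (A' (bar g) w) (C f v) = inner ℂ w (C f (A g v))) ∧
      (Par K Q.dom (-1) A →
        inner ℂ (A' (bar g) w) (C f v) = inner ℂ w (K.Γ (C f (K.Γ (A g v)))))

/-- `t` has the same translation and Lorentz charges as `T`: for large cutoffs, the commutator of
the charge of `X^n t_{mn}`, `X` an infinitesimal Poincaré transformation, with the extension `C` of
a field `B` of `Q` is that of the charge of `X^n T_{mn}` with `B`. -/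
def Chg (Q R : Theory K) (T t : Fin 4 → Fin 4 → Fld H) : Prop :=
  ∀ w a F B C f, Skew w → IsCutoff F → Q.fld B → R.fld C → Agr Q B C → In Set.univ f →
    ∀ᶠ r in atTop, ∀ v, Cyc Q v →
      cur t (kil (0, w, a, 0)) (F r) (C f v) - C f (cur t (kil (0, w, a, 0)) (F r) v) =
        cur T (kil (0, w, a, 0)) (F r) (B f v) - B f (cur T (kil (0, w, a, 0)) (F r) v)

/-- The improved tensor `S^{mn} + (∂^m ∂^n - η^{mn} □) L`. -/
def improve (S : Fin 4 → Fin 4 → Fld H) (L : Fld H) : Fin 4 → Fin 4 → Fld H := fun m n f v =>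
  S m n f v + (eta m * eta n : ℂ) • L (pd m (pd n f)) v -
    (bas m (eta m) n : ℂ) • ∑ k, (eta k : ℂ) • L (pd k (pd k f)) v

/-- Hermitian scalar fields of scaling dimension two. -/
structure Scalar (Q : Theory K) (A : Fld H) : Prop where
  bose : Bose Q A
  herm : Adj Q.dom A A
  cov : ∀ (s : ℝ) L a f, 0 < s → IsLor L → IsTest f → ∀ v ∈ Q.dom, A f (K.U s L a v) =
    (s : ℂ) ^ 2 • K.U s L a (A (fun x => f (sim s L a x)) v)

/-- `P` is a local field, with formal adjoint `P'`: a translation covariant operator valued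
tempered distribution, whose operators map the domain into the Hilbert space, which commutes weakly
at space-like distance with every field `C` of `Q` in the class `p`. -/
structure Loc (Q : Theory K) (p : Fld H → Prop) (P P' : Fld H) : Prop where
  lin : ∀ f g (c : ℂ), IsTest f → IsTest g → ∀ v ∈ Q.dom,
    P (fun x => f x + c * g x) v = P f v + c • P g v
  cont : ∀ v ∈ Q.dom, Continuous fun g : 𝓢(V, ℂ) => P g v
  adj : Adj Q.dom P P'
  transl : ∀ a f, IsTest f → ∀ v ∈ Q.dom,
    P f (K.U 1 one a v) = K.U 1 one a (P (fun x => f (sim 1 one a x)) v)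
  loc : ∀ C C' f g, Q.fld C → Adj Q.dom C C' → p C → IsTest f → IsTest g →
    Spc (tsupport f) (tsupport g) →
    ∀ v ∈ Q.dom, ∀ z ∈ Q.dom, inner ℂ (C' (bar g) z) (P f v) = inner ℂ z (P f (C g v))

/-- The matrix element between `w` and `v` of the commutator of the charge of the current
`X^n t_{mn}` with an operator `Y` converges to `c` when the cutoff is removed; `y = Y v`, and
`y' = Y* w`. -/
def Comm (t : Fin 4 → Fin 4 → Fld H) (X : V → V) (w v y y' : H) (c : ℂ) : Prop :=
  ∀ F, IsCutoff F → Tendsto (fun R => inner ℂ (cur t X (F R) w) y - inner ℂ y' (cur t X (F R) v))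
    atTop (𝓝 c)

/-- For every conformal Killing vector field `X` the charge of the current `X^n t_{mn}` acts on the
field `A` (with adjoint `B`) by the infinitesimal conformal transformation
`-X^n ∂_n A - (∂_m X^n) S_mn A - (∂_m ∂_n X^n) M_m A` with local fields `S_mn A` and `M_m A`. -/
inductive Act (Q : Theory K) (t : Fin 4 → Fin 4 → Fld H) (A B : Fld H) : Prop
  | mk (S S' : Fin 4 → Fin 4 → Fld H) (M M' : Fin 4 → Fld H)
    (s : ∀ m n, Loc Q (fun C => Bose Q A ∨ Bose Q C) (S m n) (S' m n))
    (k : ∀ m, Loc Q (fun C => Bose Q A ∨ Bose Q C) (M m) (M' m))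
    (act : ∀ p f, Skew p.2.1 → In Set.univ f → ∀ w ∈ Q.dom, ∀ v ∈ Q.dom,
      Comm t (kil p) w v (A f v) (B (bar f) w)
        (Complex.I * inner ℂ w (∑ n, A (pd n fun x => kil p x n * f x) v -
          ∑ m, ∑ n, S m n (fun x => pd m (fun y => (kil p y n : ℂ)) x * f x) v -
          ∑ m, ∑ n, M m (fun x => pd m (pd n fun y => (kil p y n : ℂ)) x * f x) v))) : Act Q t A B

/-- **Conformal primaries** `P`, with formal adjoints `P'`, of spin `k` and dimension `d`: local Bose
(`e = false`) or Fermi fields (`e = true`: the twisted field `P Γ` is local relative to all fields).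
The commutator of the charge of `X^n t_{mn}` with `P` is
`i (-X^n ∂_n P - Re d / 4 (∂·X) P + (∂_m X^n - δ_m^n ∂·X / 4) S_mn P)`. -/
structure Prim (Q : Theory K) (t : Fin 4 → Fin 4 → Fld H) (e : Bool) (k : Rp) (d : ℂ)
    (P P' : Fin k.dm → Fld H) : Prop where
  loc : ∀ a, ∃ R, Loc Q (fun _ => True) (fun f v => P a f (if e then K.Γ v else v)) R
  adj : ∀ a, Adj Q.dom (P a) (P' a)
  cov : ∀ a (s : ℝ) L f, 0 < s → IsLor L → IsTest f → ∀ v ∈ Q.dom, P a f (K.U s L 0 v) =
    ∑ b, ((s : ℂ) ^ (4 - d) * k.ρ L b a) • K.U s L 0 (P b (fun x => f (sim s L 0 x)) v)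
  act : ∀ p a f, Skew p.2.1 → In Set.univ f → ∀ w ∈ Q.dom, ∀ v ∈ Q.dom,
    Comm t (kil p) w v (P a f v) (P' a (bar f) w)
      (Complex.I * inner ℂ w (∑ n, P a (pd n fun x => kil p x n * f x) v -
        ((d.re / 4 : ℝ) : ℂ) • P a (fun x => dvg (kil p) x * f x) v +
        ∑ b, ∑ m, ∑ n, k.sp m n b a • P b (fun x =>
          (pd m (fun y => (kil p y n : ℂ)) x - one m n * dvg (kil p) x / 4) * f x) v))

/-- The field `A` is a finite linear combination of derivatives of conformal primaries. -/
inductive Desc (Q : Theory K) (t : Fin 4 → Fin 4 → Fld H) (A : Fld H) : Prop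
  | mk (n : ℕ) (e : Fin n → Bool) (k : Fin n → Rp) (d c : Fin n → ℂ) (α : Fin n → List (Fin 4))
    (a : ∀ i, Fin (k i).dm) (P P' : ∀ i, Fin (k i).dm → Fld H)
    (prim : ∀ i, Prim Q t (e i) (k i) (d i) (P i) (P' i))
    (sum : ∀ f, IsTest f → ∀ v ∈ Q.dom, A f v = ∑ i, c i • P i (a i) ((α i).foldr pd f) v) :
    Desc Q t A

/-- The products of smeared fields. -/
inductive Mon (Q : Theory K) : (H → H) → Prop
  | unit : Mon Q fun v => v
  | mul (A : Fld H) (f : Fn) (Y : H → H) : Q.fld A → In Set.univ f → Mon Q Y →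
      Mon Q fun v => A f (Y v)

/-- **The conformal group acts on the Hilbert space.** The conformal map `cf p` is represented by
the unitary operator `W p`. It leaves the vacuum invariant and commutes with the grading, and
Poincaré transformations are represented as before. The group law holds up to the grading, if the
composition of the maps is connected to the identity without passing the singular set. The
operators `W p` depend continuously on `p` at the identity. The generators are the charges of the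
currents `X^n t_{mn}`: for a curve of conformal maps through the identity with velocity field
`X = kil q`, the derivative on `Y Ω` is `i [q_X, Y] Ω`. The dilations of the theory act on the
group like the conformal dilations. -/
structure Glob (R : Theory K) (t : Fin 4 → Fin 4 → Fld H) (W : Pm → H →L[ℂ] H) : Prop where
  uni : ∀ p, Adm p → W p ∈ unitary (H →L[ℂ] H)
  vac : ∀ p, Adm p → W p K.Ω = K.Ω
  gam : ∀ p, Adm p → W p * K.Γ = K.Γ * W p
  poi : ∀ L a v, IsLor L → W (1, L, a, 0) v = K.U 1 L a v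
  mul : ∀ p q r, Adm p → Adm q → Adm r → (∀ τ ∈ Set.Icc (0 : ℝ) 1, 0 < den (τ • p.2.2.2) q.2.2.1) →
    (∀ᶠ x in 𝓝 0, cf p (cf q x) = cf r x) → W p * W q = W r ∨ W p * W q = K.Γ * W r
  cont : ∀ v, ContinuousWithinAt (fun p => W p v) {p | Adm p} (1, one, 0, 0)
  gen : ∀ (p : ℝ → Pm) q Y F, p 0 = (1, one, 0, 0) → (∀ e, Adm (p e)) → HasDerivAt p q 0 →
    Mon R Y → IsCutoff F → ∀ᶠ r in atTop, HasDerivAt (fun e => W (p e) (Y K.Ω))
      (Complex.I • (cur t (kil q) (F r) (Y K.Ω) - Y (cur t (kil q) (F r) K.Ω))) 0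
  scl : ∀ σ s L a b v, 0 < σ → Adm (s, L, a, b) →
    K.U σ one 0 (W (s, L, a, b) v) = W (s, L, σ • a, σ⁻¹ • b) (K.U σ one 0 v)

end

end Vale.Agent.Q352
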