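import Vale.Agent.Q352.Def

namespace Vale.Agent.Q352

noncomputable section

variable {H : Type*} [NormedAddCommGroup H] [InnerProductSpace ℂ H] [CompleteSpace H] {K : Frame H}

/-- All fields have finite spin and finite scaling support. -/
def Fnt (Q : Theory K) : Prop := ∀ A, Q.fld A → Spin Q A ∧ Scl Q A

/-- The derivative at `0` of the translations in the direction `m`: up to the factor `i`, the energy
or a component of the momentum. -/
def Dt (K : Frame H) (m : Fin 4) (v : H) : H := deriv (fun t : ℝ => K.U 1 one (bas m t) v) 0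

/-- Energy-momentum norms: the sum of the norms of all derivatives of order at most `k` of
`a ↦ U(a) v` at `a = 0`. -/
def en (K : Frame H) (k : ℕ) : H → ℝ := k.rec (fun v => ‖v‖) fun _ e v => e v + ∑ m, e (Dt K m v)

/-- **Polynomial energy bounds.** The smeared fields are bounded by a power of energy and momentum
that depends on the field only. -/
def EBd (Q : Theory K) : Prop := ∀ B, Q.fld B → ∃ k, ∀ f, In Set.univ f → ∃ C : ℝ, ∀ v,
  Cyc Q v → ‖B f v‖ ≤ C * en K k v

/-- **Form bounds for the stress tensor.** The expectation values of the smeared stress tensor are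
bounded by those of `1 + H`, `H` the energy. -/
def FBT (Q : Theory K) (T : Fin 4 → Fin 4 → Fld H) : Prop := ∀ m n f, In Set.univ f → ∃ C : ℝ, ∀ v,
  Cyc Q v → ‖inner ℂ v (T m n f v)‖ ≤ C * (‖v‖ ^ 2 + ‖inner ℂ v (Dt K 0 v)‖)

/-- **Strong locality of the stress tensor.** A component of `T`, smeared with a real function
supported in a wedge, commutes weakly with the commutant of a von Neumann algebra `M`, and all
fields smeared in the opposite wedge commute weakly with `M`. -/
def SL (Q : Theory K) (T : Fin 4 → Fin 4 → Fld H) : Prop :=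
  ∀ a b m n f, mdot a a = 0 ∧ 0 < a 0 → mdot b b = 0 ∧ 0 < b 0 → mdot a b = 1 →
    In (Wdg a b 0) f → bar f = f → ∃ M : VonNeumannAlgebra H, (∀ Y ∈ M, Wk Q (Wdg b a 0) Y) ∧
      ∀ Y ∈ M.commutant, ∀ v w, Cyc Q v → Cyc Q w →
        inner ℂ (T m n f w) (Y v) = inner ℂ w (Y (T m n f v))

/-- **Linear energy bounds** for the fields of the subtheory `R` of `Q`. -/
def LEB (R Q : Theory K) : Prop := ∀ B f, R.fld B → In Set.univ f → ∃ C : ℝ, ∀ v, Cyc Q v →
  ‖B f v‖ ≤ C * (‖v‖ + ‖Dt K 0 v‖)

/-- The vacuum is an analytic vector for the hermitian parts of the smeared fields. -/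
def Ana (R : Theory K) : Prop := ∀ B B' f, R.fld B → Adj R.dom B B' → In Set.univ f →
  ∃ C : ℝ, ∀ n : ℕ, ‖(fun w => B f w + B' (bar f) w)^[n] K.Ω‖ ≤ C ^ (n + 1) * n.factorial

/-- **Regularity**: one of the standard conditions that exclude pathologies of unbounded operators.
The fields are affiliated or relatively local to a Haag-Kastler net; or they obey energy bounds; or
the vacuum is cyclic for a subtheory `R` for which it is an analytic vector, or which obeys linear
energy bounds. -/
def Rgl (Q : Theory K) (T : Fin 4 → Fin 4 → Fld H) : Prop :=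
  (∃ N, Net K N ∧ (Aff Q N ∨ Rel Q N)) ∨ (EBd Q ∧ (FBT Q T ∨ SL Q T)) ∨
    ∃ R : Theory K, R.dom = Q.dom ∧ (∀ A, R.fld A → Q.fld A) ∧ Fnt R ∧ (Ana R ∨ EBd Q ∧ LEB R Q)

/-- **The hypotheses.** A scale invariant theory (a virial current is not needed if the vacuum is
unique), whose fields have finite spin and finite scaling support or form a covariant space of
countable dimension, and which is regular. -/
structure Hyp (Q : Theory K) (T : Fin 4 → Fin 4 → Fld H) : Prop where
  stress : Stress Q T
  poincare : PGen Q T
  scale : (∃ J, Vir Q T J) ∨ Uniq K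
  finite : Fnt Q ∨ Cnt Q
  regular : Rgl Q T

/-- **The conformal group acts on the Hilbert space.** The conformal map `cf p` is represented by
the unitary operator `W p`. It leaves the vacuum invariant and commutes with the grading, and
Poincaré transformations are represented as before. The group law holds up to the grading, if the
composition of the maps is connected to the identity without passing the singular set. The
operators `W p` depend continuously on `p` at the identity. The generators are the charges of the
currents `X^n t_{mn}`: for a curve of conformal maps through the identity with velocity field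
`X = kil q`, the derivative on `Y Ω` is `i [q_X, Y] Ω`. The dilations of the theory act on the
group like the conformal dilations. -/
structure Glb (R : Theory K) (t : Fin 4 → Fin 4 → Fld H) (W : Pm → H →L[ℂ] H) : Prop where
  uni : ∀ p, Adm p → W p ∈ unitary (H →L[ℂ] H)
  vac : ∀ p, Adm p → W p K.Ω = K.Ω
  gam : ∀ p, Adm p → W p * K.Γ = K.Γ * W p
  poi : ∀ L a v, IsLor L → W (1, L, a, 0) v = K.U 1 L a v
  mul : ∀ p q r, Adm p → Adm q → Adm r → (∀ τ ∈ Set.Icc (0 : ℝ) 1, 0 < den (τ • p.2.2.2) q.2.2.1) →
    (∀ᶠ x in nhds 0, cf p (cf q x) = cf r x) → W p * W q = W r ∨ W p * W q = K.Γ * W r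
  cont : ∀ v, ContinuousWithinAt (fun p => W p v) {p | Adm p} (1, one, 0, 0)
  gen : ∀ (p : ℝ → Pm) q Y F, p 0 = (1, one, 0, 0) → (∀ e, Adm (p e)) →
    HasDerivAt (fun e => (p e).1) q.1 0 →
    (∀ m n, HasDerivAt (fun e => (p e).2.1 m n) (q.2.1 m n) 0) →
    (∀ n, HasDerivAt (fun e => (p e).2.2.1 n) (q.2.2.1 n) 0) →
    (∀ n, HasDerivAt (fun e => (p e).2.2.2 n) (q.2.2.2 n) 0) →
    Mon R Y → IsCutoff F → ∀ᶠ r in Filter.atTop, HasDerivAt (fun e => W (p e) (Y K.Ω))
      (Complex.I • (cur t (kil q) (F r) (Y K.Ω) - Y (cur t (kil q) (F r) K.Ω))) 0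
  scl : ∀ σ s L a b v, 0 < σ → Adm (s, L, a, b) →
    K.U σ one 0 (W (s, L, a, b) v) = W (s, L, σ • a, σ⁻¹ • b) (K.U σ one 0 v)

/-- **Conformal invariance.** `R` consists of all local fields of the theory `Q`. It contains the
improved stress tensor `t = S + (∂∂ - η □) L`, `S` a stress tensor of `Q`, which is symmetric,
conserved and traceless and has the translation and Lorentz charges of `T`. The charges of the
currents `X^n t_{mn}` act on all local fields by the infinitesimal conformal transformations, the
conformal Ward identities hold, and the charges are the generators of a unitary action `W` of the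
conformal group. The fields of `Q` are sums of derivatives of conformal primaries, and `t` is a
primary of dimension four. -/
structure CInv (Q R : Theory K) (T t S : Fin 4 → Fin 4 → Fld H) (L : Fld H)
    (W : Pm → H →L[ℂ] H) : Prop where
  all : ∀ C, R.fld C ↔ RelLoc Q R.dom C
  mem : ∀ B, Q.fld B → ∃ C, R.fld C ∧ Agr Q B C ∧ Desc R t C
  stress : Stress R t
  traceless : ∀ f, IsTest f → ∀ v ∈ R.dom, tr t f v = 0
  same : Chg Q R T t
  form : Stress Q S ∧ Scalar R L ∧ ∀ m n, Agr Q (improve S L m n) (t m n)
  act : ∀ A B, R.fld A → Adj R.dom A B → Act R t A B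
  ward : ∀ q Y F, Skew q.2.1 → Mon R Y → IsCutoff F → ∀ᶠ r in Filter.atTop,
    inner ℂ K.Ω (cur t (kil q) (F r) (Y K.Ω) - Y (cur t (kil q) (F r) K.Ω)) = 0
  prim : ∃ (k : Rp) (p q : Fin k.dm → Fin 4), (Function.Bijective fun a => (p a, q a)) ∧
    (∀ M a b, k.ρ M a b = (M (p a) (p b) * M (q a) (q b) : ℝ)) ∧
    Prim R t false k 4 (fun a => t (p a) (q a)) fun a => t (p a) (q a)
  glob : Glb R t W

end

end Vale.Agent.Q352
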