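import Vale.Agent.Q352.Def

namespace Vale.Agent.Q352.S

noncomputable section

variable {H : Type*} [NormedAddCommGroup H] [InnerProductSpace ℂ H] [CompleteSpace H] {K : Frame H}

/-- All fields have finite spin and finite scaling support. -/
def Fnt (Q : Theory K) : Prop := ∀ A, Q.fld A → Spin Q A ∧ Scl Q A

/-- The derivative at `0` of the translations in the direction `m`: up to the factor `i`, the energy
or a component of the momentum. -/
def Dt (K : Frame H) (m : Fin 4) (v : H) : H := deriv (fun t : ℝ => K.U 1 one (bas m t) v) 0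

/-- Energy-momentum norms: the sum of the norms of all derivatives of order at most `k` of
`a ↦ U(a) v` at `a = 0`. -/
def en (K : Frame H) (k : ℕ) : H → ℝ := k.rec (fun v => ‖v‖) fun _ e v => e v + ∑ m, e (Dt K m v)

/-- **Polynomial energy bounds.** The smeared fields are bounded by a power of energy and momentum
that depends on the field only. -/
def EBd (Q : Theory K) : Prop := ∀ B, Q.fld B → ∃ k, ∀ f, In Set.univ f → ∃ C : ℝ, ∀ v,
  Cyc Q v → ‖B f v‖ ≤ C * en K k v

/-- **Form bounds for the stress tensor.** The expectation values of the smeared stress tensor are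
bounded by those of `1 + H`, `H` the energy. -/
def FBT (Q : Theory K) (T : Fin 4 → Fin 4 → Fld H) : Prop := ∀ m n f, In Set.univ f → ∃ C : ℝ, ∀ v,
  Cyc Q v → ‖inner ℂ v (T m n f v)‖ ≤ C * (‖v‖ ^ 2 + ‖inner ℂ v (Dt K 0 v)‖)

/-- **Strong locality of the stress tensor.** A component of `T`, smeared with a real function
supported in a wedge, commutes weakly with the commutant of a von Neumann algebra `M`, and all
fields smeared in the opposite wedge commute weakly with `M`. -/
def SL (Q : Theory K) (T : Fin 4 → Fin 4 → Fld H) : Prop :=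
  ∀ a b m n f, mdot a a = 0 ∧ 0 < a 0 → mdot b b = 0 ∧ 0 < b 0 → mdot a b = 1 →
    In (Wdg a b 0) f → bar f = f → ∃ M : VonNeumannAlgebra H, (∀ Y ∈ M, Wk Q (Wdg b a 0) Y) ∧
      ∀ Y ∈ M.commutant, ∀ v w, Cyc Q v → Cyc Q w →
        inner ℂ (T m n f w) (Y v) = inner ℂ w (Y (T m n f v))

/-- **Linear energy bounds** for the fields of the subtheory `R` of `Q`. -/
def LEB (R Q : Theory K) : Prop := ∀ B f, R.fld B → In Set.univ f → ∃ C : ℝ, ∀ v, Cyc Q v →
  ‖B f v‖ ≤ C * (‖v‖ + ‖Dt K 0 v‖)

/-- The vacuum is an analytic vector for the hermitian parts of the smeared fields. -/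
def Ana (R : Theory K) : Prop := ∀ B B' f, R.fld B → Adj R.dom B B' → In Set.univ f →
  ∃ C : ℝ, ∀ n : ℕ, ‖(fun w => B f w + B' (bar f) w)^[n] K.Ω‖ ≤ C ^ (n + 1) * n.factorial

/-- **Regularity**: one of the standard conditions that exclude pathologies of unbounded operators.
The fields are affiliated or relatively local to a Haag-Kastler net; or they obey energy bounds; or
the vacuum is cyclic for a subtheory `R` for which it is an analytic vector, or which obeys linear
energy bounds. -/
def Rgl (Q : Theory K) (T : Fin 4 → Fin 4 → Fld H) : Prop :=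
  (∃ N, Net K N ∧ (Aff Q N ∨ Rel Q N)) ∨ (EBd Q ∧ (FBT Q T ∨ SL Q T)) ∨
    ∃ R : Theory K, R.dom = Q.dom ∧ (∀ A, R.fld A → Q.fld A) ∧ Fnt R ∧ (Ana R ∨ EBd Q ∧ LEB R Q)

/-- The vacuum may be degenerate, but the symmetry is not spontaneously broken: all translation
invariant vectors are invariant under the dilations and the Lorentz transformations. -/
def IVac (K : Frame H) : Prop :=
  ∀ z, (∀ a, K.U 1 one a z = z) → ∀ s L, 0 < s → IsLor L → K.U s L 0 z = z

/-- The set of fields is invariant under the Lorentz transformations. The fields may have infinitely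
many components. -/
def Lcv (Q : Theory K) : Prop := ∀ L B, IsLor L → Q.fld B → ∃ C, Q.fld C ∧ ∀ f, IsTest f →
  ∀ v ∈ Q.dom, K.U 1 L 0 (B (fun x => f (sim 1 L 0 x)) v) = C f (K.U 1 L 0 v)

/-- The dilate of `A` by the factor `s` is a linear combination of fields. -/
inductive Dil (Q : Theory K) (s : ℝ) (A : Fld H) : Prop
  | mk (n : ℕ) (c : Fin n → ℂ) (B : Fin n → Fld H) (mem : ∀ i, Q.fld (B i))
    (law : ∀ f, IsTest f → ∀ v ∈ Q.dom, A f (K.U s one 0 v) =
      ∑ i, c i • K.U s one 0 (B i (fun x => f (sim s one 0 x)) v)) : Dil Q s A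

/-- **The hypotheses.** A scale invariant theory (a virial current is not needed if the symmetry is
known to be unbroken) which is regular. Either the fields form a covariant space of countable
dimension; or (spin) the fields have finite spin, which is not needed if they are affiliated to a
net, and (scaling) they have finite scaling support, which is only needed for `T` if they obey
polynomial energy bounds. -/
structure Hys (Q : Theory K) (T : Fin 4 → Fin 4 → Fld H) : Prop where
  stress : Stress Q T
  poincare : PGen Q T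
  scale : (∃ J, Vir Q T J) ∨ IVac K ∨ Uniq K
  fields : Cnt Q ∨ ((∀ A, Q.fld A → Spin Q A) ∨ Lcv Q ∧ ∃ N, Net K N ∧ Aff Q N) ∧
    ((∀ A, Q.fld A → Scl Q A) ∨
      EBd Q ∧ (∀ m n, Scl Q (T m n)) ∧ ∀ A s, Q.fld A → 0 < s → Dil Q s A)
  regular : Rgl Q T

/-- **Conformal invariance.** `R` consists of all local fields of the theory `Q`. It contains the
improved stress tensor `t = S + (∂∂ - η □) L`, `S` a stress tensor of `Q`, which is symmetric,
conserved and traceless and has the translation and Lorentz charges of `T`. The charges of the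
currents `X^n t_{mn}` act on all local fields by the infinitesimal conformal transformations, the
conformal Ward identities hold, and `t` is a primary of dimension four. -/
structure Cfm (Q R : Theory K) (T t S : Fin 4 → Fin 4 → Fld H) (L : Fld H) : Prop where
  all : ∀ C, R.fld C ↔ RelLoc Q R.dom C
  mem : ∀ B, Q.fld B → ∃ C, R.fld C ∧ Agr Q B C
  stress : Stress R t
  traceless : ∀ f, IsTest f → ∀ v ∈ R.dom, tr t f v = 0
  poincare : PGen R t
  same : Chg Q R T t
  form : Stress Q S ∧ Scalar R L ∧ ∀ m n, Agr Q (improve S L m n) (t m n)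
  act : ∀ A B, R.fld A → Adj R.dom A B → Act R t A B
  ward : ∀ q Y F, Skew q.2.1 → Mon R Y → IsCutoff F → Filter.Tendsto (fun r =>
    inner ℂ K.Ω (cur t (kil q) (F r) (Y K.Ω) - Y (cur t (kil q) (F r) K.Ω))) Filter.atTop (nhds 0)
  prim : ∃ (k : Rp) (p q : Fin k.dm → Fin 4), (Function.Bijective fun a => (p a, q a)) ∧
    (∀ M a b, k.ρ M a b = (M (p a) (p b) * M (q a) (q b) : ℝ)) ∧
    Prim R t false k 4 (fun a => t (p a) (q a)) fun a => t (p a) (q a)

/-- **The conformal group acts on the Hilbert space.** The conformal map `cf p` is represented by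
the unitary operator `W p`. It leaves the vacuum invariant and commutes with the grading, and
Poincaré transformations are represented as before. The group law holds up to the grading, if the
composition of the maps is connected to the identity without passing the singular set. The
operators `W p` depend continuously on `p` at the identity. The generators are the charges of the
currents `X^n t_{mn}`: for a curve of conformal maps through the identity with velocity field
`X = kil q`, the derivative on `Y Ω` is `i [q_X, Y] Ω`. The dilations of the theory act on the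
group like the conformal dilations. -/
structure Glb (R : Theory K) (t : Fin 4 → Fin 4 → Fld H) (W : Pm → H →L[ℂ] H) : Prop where
  uni : ∀ p, Adm p → W p ∈ unitary (H →L[ℂ] H)
  vac : ∀ p, Adm p → W p K.Ω = K.Ω
  gam : ∀ p, Adm p → W p * K.Γ = K.Γ * W p
  poi : ∀ L a v, IsLor L → W (1, L, a, 0) v = K.U 1 L a v
  mul : ∀ p q r, Adm p → Adm q → Adm r → (∀ τ ∈ Set.Icc (0 : ℝ) 1, 0 < den (τ • p.2.2.2) q.2.2.1) →
    (∀ᶠ x in nhds 0, cf p (cf q x) = cf r x) → W p * W q = W r ∨ W p * W q = K.Γ * W r
  cont : ∀ v, ContinuousWithinAt (fun p => W p v) {p | Adm p} (1, one, 0, 0)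
  gen : ∀ (p : ℝ → Pm) q Y F, p 0 = (1, one, 0, 0) → (∀ e, Adm (p e)) →
    HasDerivAt (fun e => (p e).1) q.1 0 →
    (∀ m n, HasDerivAt (fun e => (p e).2.1 m n) (q.2.1 m n) 0) →
    (∀ n, HasDerivAt (fun e => (p e).2.2.1 n) (q.2.2.1 n) 0) →
    (∀ n, HasDerivAt (fun e => (p e).2.2.2 n) (q.2.2.2 n) 0) →
    Mon R Y → IsCutoff F → ∀ᶠ r in Filter.atTop, HasDerivAt (fun e => W (p e) (Y K.Ω))
      (Complex.I • (cur t (kil q) (F r) (Y K.Ω) - Y (cur t (kil q) (F r) K.Ω))) 0
  scl : ∀ σ s L a b v, 0 < σ → Adm (s, L, a, b) →
    K.U σ one 0 (W (s, L, a, b) v) = W (s, L, σ • a, σ⁻¹ • b) (K.U σ one 0 v)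

/-- **The global action.** The charges of `t` are the generators of a unitary action `W` of the
conformal group, the fields of `Q` are sums of derivatives of conformal primaries, and `L` is a
field of `Q` if the fields can be reconstructed from a net. -/
inductive Full (Q R : Theory K) (t : Fin 4 → Fin 4 → Fld H) (L : Fld H) : Prop
  | mk (W : Pm → H →L[ℂ] H) (glob : Glb R t W)
    (desc : ∀ B, Q.fld B → ∃ C, R.fld C ∧ Agr Q B C ∧ Desc R t C)
    (own : ∀ N, Net K N → Aff Q N ∨ Rel Q N → Rec Q N → ∃ B, Q.fld B ∧ Agr Q B L) : Full Q R t L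

end

end Vale.Agent.Q352.S
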