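import Vale.Agent.Q352.Def

/-!
# P352, the global conformal action: vocabulary and rows
-/

set_option linter.all false

open Filter Topology Set Metric
open scoped SchwartzMap ContDiff
open Complex (I)

namespace Vale.Agent.Q352

noncomputable section

/-! ## geometry -/

/-- product of matrices: first `A`, then `B` (vectors are rows) -/
def mm (A B : Fin 4 → V) : Fin 4 → V := fun m n => ∑ k, A m k * B k n

/-- the inverse of a Lorentz matrix -/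
def linv (L : Fin 4 → V) : Fin 4 → V := fun m n => eta m * eta n * L n m

/-- the matrix of `y ↦ 2 (b, y) a - 2 (a, y) b` -/
def wd (a b : V) : Fin 4 → V := fun m n => 2 * (eta m * b m) * a n - 2 * (eta m * a m) * b n

/-- special conformal transformations -/
def sct (b x : V) : V := fun n => (x n - mdot x x * b n) / den b x

/-- the identity -/
def e1 : Pm := (1, one, 0, 0)

/-- the special conformal Killing fields -/
def pK (b : V) : Pm := (0, 0, 0, b)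

/-- the dilation field -/
def pD : Pm := (1, 0, 0, 0)

/-- row GL: the Lorentz group -/
structure RowGL : Prop where
  one : IsLor one
  sim_mm : ∀ L L' : Fin 4 → V, (fun m => sim 1 L 0 (L' m)) = mm L' L
  mul : ∀ L L', IsLor L → IsLor L' → IsLor (mm L L')
  inv : ∀ L, IsLor L → IsLor (linv L) ∧ mm L (linv L) = Q352.one ∧ mm (linv L) L = Q352.one
  one_mm : ∀ L, mm Q352.one L = L ∧ mm L Q352.one = L
  assoc : ∀ A B C, mm (mm A B) C = mm A (mm B C)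
  sim_sim : ∀ s L a s' L' a' x,
    sim s L a (sim s' L' a' x) = sim (s * s') (mm L' L) (sim s L a a') x
  sim_one : ∀ s a x, sim s Q352.one a x = a + s • x
  sim_add : ∀ s L a x, sim s L a x = a + s • sim 1 L 0 x
  lin : ∀ L x y (c : ℝ), sim 1 L 0 (x + c • y) = sim 1 L 0 x + c • sim 1 L 0 y
  dot : ∀ L x y, IsLor L → mdot (sim 1 L 0 x) (sim 1 L 0 y) = mdot x y
  skew : ∀ (L : ℝ → Fin 4 → V) w, L 0 = Q352.one → (∀ᶠ e in 𝓝 0, IsLor (L e)) →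
    HasDerivAt L w 0 → Skew w
  skwd : ∀ a b, Skew (wd a b)

/-- row GC: conformal maps -/
structure RowGC : Prop where
  uniq : ∀ p q, Adm p → Adm q → (∀ᶠ x in 𝓝 0, cf p x = cf q x) → p = q
  cov : ∀ s L b x, 0 < s → IsLor L →
    sct b (sim s L 0 x) = sim s L 0 (sct (s • sim 1 (linv L) 0 b) x)
  add : ∀ b b', ∀ᶠ x in 𝓝 0, sct b (sct b' x) = sct (b + b') x
  path : ∀ a b, (∀ τ ∈ Icc (0 : ℝ) 1, 0 < den (τ • b) a) → ∃ p : ℝ → Pm, p 0 = (1, one, a, 0) ∧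
    (∀ᶠ x in 𝓝 0, sct b (x + a) = cf (p 1) x) ∧ (∀ σ, Adm (p σ)) ∧ ContinuousOn p (Icc 0 1) ∧
    ∀ σ ∈ Ioo (0 : ℝ) 1, HasDerivAt p (2 * mdot b (p σ).2.2.1 * (p σ).1,
      mm (p σ).2.1 (wd (p σ).2.2.1 b), kil (pK b) (p σ).2.2.1,
      (p σ).1 • sim 1 (linv (p σ).2.1) 0 b) σ

/-! ## one parameter groups -/

section hil

variable {H : Type*} [NormedAddCommGroup H] [InnerProductSpace ℂ H] [CompleteSpace H]

/-- `u` is a unitary group whose generator extends the relation `R` -/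
structure Gn (R : H → H → Prop) (u : ℝ → H →L[ℂ] H) : Prop where
  uni : ∀ τ, u τ ∈ unitary (H →L[ℂ] H)
  add : ∀ σ τ, u (σ + τ) = u σ * u τ
  zero : u 0 = 1
  cont : ∀ v, Continuous fun τ => u τ v
  der : ∀ v w, R v w → HasDerivAt (fun τ => u τ v) (I • w) 0

/-- solutions of the Schroedinger equation on `J` -/
def Crv (R : H → H → Prop) (J : Set ℝ) (γ : ℝ → H) : Prop :=
  ∀ τ ∈ J, ∃ w, R (γ τ) w ∧ HasDerivAt γ (I • w) τ

/-- there are many solutions -/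
def Rich (R : H → H → Prop) : Prop := ∃ T > 0, ∃ D : Set H, Dense D ∧
  ∀ u ∈ D, ∃ γ, γ 0 = u ∧ Crv R (Ioo (-T) T) γ

variable (H) in
/-- row A -/
structure RowA : Prop where
  ex : ∀ R : H → H → Prop, (∀ v w v' w', R v w → R v' w' → inner ℂ w v' = inner ℂ v w') →
    Rich R → ∃ u, Gn R u
  sol : ∀ (R : H → H → Prop) u α β γ σ τ, Gn R u → Crv R (Ioo α β) γ → σ ∈ Ioo α β →
    τ ∈ Ioo α β → γ τ = u (τ - σ) (γ σ)
  uniq : ∀ (R : H → H → Prop) u u', Rich R → Gn R u → Gn R u' → u = u'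
  prod : ∀ (F : ℝ → H →L[ℂ] H) (γ : ℝ → H) x y e, (∀ σ, ‖F σ‖ ≤ 1) →
    (∀ v, ContinuousAt (fun σ => F σ v) e) → HasDerivAt (fun σ => F σ (γ e)) x e →
    HasDerivAt γ y e → HasDerivAt (fun σ => F σ (γ σ)) (x + F e y) e
  sign : ∀ (Γ : H →L[ℂ] H) (F : ℝ → H →L[ℂ] H) (D : Set H), Γ * Γ = 1 → star Γ = Γ → Dense D →
    (∀ σ, F σ * Γ = Γ * F σ) → (∀ σ, ‖F σ‖ ≤ 1) → (∀ u ∈ D, Γ u ∈ D) →
    (∀ σ ∈ Icc (0 : ℝ) 1, ∃ G : ℝ → H →L[ℂ] H, (∀ τ ∈ Icc (0 : ℝ) 1, F τ = G τ ∨ F τ = Γ * G τ) ∧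
      ∀ u ∈ D, ContinuousWithinAt (fun τ => G τ u) (Icc 0 1) σ ∧
        (σ ∈ Ioo (0 : ℝ) 1 → HasDerivAt (fun τ => G τ u) 0 σ)) →
    F 1 = F 0 ∨ F 1 = Γ * F 0

/-- row U: the similitudes are unitary operators -/
def RowU (K : Frame H) : Prop := ∃ u : ℝ → (Fin 4 → V) → V → H →L[ℂ] H, u 1 one 0 = 1 ∧
  ∀ s L a, 0 < s → IsLor L → u s L a ∈ unitary (H →L[ℂ] H) ∧ ∀ v, u s L a v = K.U s L a v

end hil

/-! ## multiplets of test functions -/

/-- the type of a primary field: number of components, dimension, spin matrices -/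
structure Ty where
  n : ℕ
  Δ : ℝ
  S : (Fin 4 → V) →ₗ[ℝ] ((Fin n → ℂ) →L[ℂ] (Fin n → ℂ))
  br : ∀ u w, Skew u → Skew w → S (mm u w - mm w u) = S u * S w - S w * S u

/-- the action of the conformal Killing field `kil p` on test functions -/
def Lo (k : Ty) (p : Pm) (F : V → Fin k.n → ℂ) (x : V) : Fin k.n → ℂ :=
  fderiv ℝ F x (kil p x) + (((4 - k.Δ) * (p.1 + 2 * mdot p.2.2.2 x) : ℝ) : ℂ) • F x +
    k.S (p.2.1 + wd x p.2.2.2) (F x)

/-- smooth families of test functions with uniformly compact support -/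
structure Fam {G : Type*} [NormedAddCommGroup G] [NormedSpace ℝ G] (J : Set ℝ)
    (F : ℝ → V → G) : Prop where
  smooth : ContDiffOn ℝ ∞ (fun z : ℝ × V => F z.1 z.2) (J ×ˢ univ)
  supp : ∃ C, IsCompact C ∧ ∀ τ ∈ J, tsupport (F τ) ⊆ C

/-- solutions of the transport equation -/
structure Sol (k : Ty) (J : Set ℝ) (p : Pm) (F : ℝ → V → Fin k.n → ℂ) : Prop where
  fam : Fam J F
  eq : ∀ τ ∈ J, ∀ x, HasDerivAt (fun σ => F σ x) (-Lo k p (F τ) x) τ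

/-- row D: the flows -/
structure RowD : Prop where
  K : ∀ (k : Ty) (b : V) (ρ T : ℝ) (F0 : V → Fin k.n → ℂ), 0 < ρ → 0 < T →
    ρ * T * ‖b‖ ≤ 1 / 100 → ContDiff ℝ ∞ F0 → tsupport F0 ⊆ ball 0 ρ →
    ∃ F, Sol k (Ioo (-T) T) (pK b) F ∧ F 0 = F0 ∧
      ∀ τ ∈ Ioo (-T) T, tsupport (F τ) ⊆ ball 0 (2 * ρ)
  D : ∀ (k : Ty) (ρ T : ℝ) (F0 : V → Fin k.n → ℂ), 0 < ρ → 0 < T →
    ContDiff ℝ ∞ F0 → tsupport F0 ⊆ ball 0 ρ →
    ∃ F, Sol k (Ioo (-T) T) pD F ∧ F 0 = F0 ∧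
      ∀ τ ∈ Ioo (-T) T, tsupport (F τ) ⊆ ball 0 (Real.exp T * ρ)

/-- row E: commutators -/
structure RowE : Prop where
  K : ∀ (k : Ty) J b b' F, IsOpen J → Sol k J (pK b) F →
    Sol k J (pK b) fun τ => Lo k (pK b') (F τ)
  D : ∀ (k : Ty) J b F, IsOpen J → Sol k J pD F →
    Sol k J pD fun τ => Lo k (pK (Real.exp (-τ) • b)) (F τ)

/-- row C: differentiable curves in Schwartz space -/
def RowC : Prop := ∀ (J : Set ℝ) (F : ℝ → V → ℂ) (F' : V → ℂ) τ, IsOpen J → τ ∈ J → Fam J F →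
  (∀ x, HasDerivAt (fun σ => F σ x) (F' x) τ) →
  ∃ (f : ℝ → 𝓢(V, ℂ)) (f' : 𝓢(V, ℂ)), (∀ σ ∈ J, ⇑(f σ) = F σ) ∧ ⇑f' = F' ∧
    Tendsto (fun σ => (σ - τ)⁻¹ • (f σ - f τ)) (𝓝[≠] τ) (𝓝 f')

/-! ## words -/

/-- test functions with compact support -/
def CS (f : Fn) : Prop := IsTest f ∧ HasCompactSupport f

section pre

variable {E : Type*} [NormedAddCommGroup E] [InnerProductSpace ℂ E]

/-- operators with a formal adjoint -/
def Adjb (Z : E → E) : Prop := ∃ Z' : E → E, ∀ v w, inner ℂ (Z v) w = inner ℂ v (Z' w)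

/-- differentiability in all graph norms -/
def Dv (y : ℝ → E) (y' : E) (τ : ℝ) : Prop :=
  ∀ Z, Adjb Z → HasDerivAt (fun σ => Z (y σ)) (Z y') τ

/-- operator valued distributions on test functions with compact support -/
structure Lt (A : Fn → E → E) : Prop where
  lin : ∀ f g (c : ℂ) v, CS f → CS g → A (fun x => f x + c * g x) v = A f v + c • A g v
  adj : ∀ f, CS f → Adjb (A f)
  bdd : ∀ v, ∃ q : Seminorm ℂ 𝓢(V, ℂ), Continuous q ∧
    ∀ f : 𝓢(V, ℂ), HasCompactSupport f → ‖A f v‖ ≤ q f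

variable (E) in
/-- row B: the product rule -/
def RowB : Prop := ∀ (A : Fn → E → E) (J : Set ℝ) (F : ℝ → V → ℂ) F' (y : ℝ → E) y' τ,
  Lt A → IsOpen J → τ ∈ J → Fam J F → (∀ x, HasDerivAt (fun σ => F σ x) (F' x) τ) → Dv y y' τ →
  Dv (fun σ => A (F σ) (y σ)) (A F' (y τ) + A (F τ) y') τ

/-- a multiplet, smeared -/
def ap {n : ℕ} (P : Fin n → Fn → E → E) (F : V → Fin n → ℂ) (v : E) : E :=
  ∑ a, P a (fun x => F x a) v

variable (E) in
/-- vacuum, grading, states with the action of the charges, primaries -/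
structure Sys where
  vac : E
  G : E → E
  St : E → (Pm → E) → Prop
  Pr : (k : Ty) → (Fin k.n → Fn → E → E) → Prop
  adj : Adjb G
  om : St vac 0
  add : ∀ v κ w κ' (c : ℂ), St v κ → St w κ' → St (v + c • w) fun p => κ p + c • κ' p
  gr : ∀ v κ, St v κ → St (G v) fun p => G (κ p)
  lt : ∀ k P a, Pr k P → Lt (P a)
  pr : ∀ k P F v κ, Pr k P → ContDiff ℝ ∞ F → HasCompactSupport F → St v κ →
    ∃ κ', St (ap P F v) κ' ∧ ∀ p, Skew p.2.1 → κ' p = I • ap P (Lo k p F) v + ap P F (κ p)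

/-- words with supports in a ball -/
inductive Bw (S : Sys E) (ρ : ℝ) : E → Prop
  | om : Bw S ρ S.vac
  | add (v w) (c : ℂ) : Bw S ρ v → Bw S ρ w → Bw S ρ (v + c • w)
  | gr (v) : Bw S ρ v → Bw S ρ (S.G v)
  | pr (k P F v) : S.Pr k P → ContDiff ℝ ∞ F → tsupport F ⊆ ball 0 ρ → Bw S ρ v →
      Bw S ρ (ap P F v)

/-- `y` solves the equation of the charge `p` -/
def Sv (St : E → (Pm → E) → Prop) (p : Pm) (J : Set ℝ) (y : ℝ → E) : Prop :=
  ∀ τ ∈ J, ∃ κ, St (y τ) κ ∧ HasDerivAt y (I • κ p) τ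

/-- the local flows -/
structure Flows (St : E → (Pm → E) → Prop) (B : ℝ → E → Prop) : Prop where
  st : ∀ ρ u, B ρ u → ∃ κ, St u κ
  K : ∀ ρ T b u, 0 < ρ → 0 < T → ρ * T * ‖b‖ ≤ 1 / 100 → B ρ u → ∃ y, y 0 = u ∧
    Sv St (pK b) (Ioo (-T) T) y ∧ (∀ τ ∈ Ioo (-T) T, B (2 * ρ) (y τ)) ∧
    ∀ b', ∃ z, Sv St (pK b) (Ioo (-T) T) z ∧ ∀ τ ∈ Ioo (-T) T, ∃ κ, St (y τ) κ ∧ κ (pK b') = z τ
  D : ∀ ρ T u, 0 < ρ → 0 < T → B ρ u → ∃ y, y 0 = u ∧
    Sv St pD (Ioo (-T) T) y ∧ (∀ τ ∈ Ioo (-T) T, B (Real.exp T * ρ) (y τ)) ∧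
    ∀ b, ∃ z, Sv St pD (Ioo (-T) T) z ∧
      ∀ τ ∈ Ioo (-T) T, ∃ κ, St (y τ) κ ∧ κ (pK (Real.exp (-τ) • b)) = z τ

variable (E) in
/-- row W: the words flow -/
def RowW : Prop := ∀ S : Sys E, Flows S.St (Bw S)

end pre

/-! ## the groups -/

section grp

variable {H : Type*} [NormedAddCommGroup H] [InnerProductSpace ℂ H] [CompleteSpace H]

/-- states with the action of the charges, in the Hilbert space -/
structure Hs (K : Frame H) (St : H → (Pm → H) → Prop) (B : ℝ → H → Prop) : Prop where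
  sym : ∀ v κ w κ' p, St v κ → St w κ' → Skew p.2.1 → inner ℂ (κ p) w = inner ℂ v (κ' p)
  lin : ∀ v κ p q (r : ℝ), St v κ → Skew p.2.1 → Skew q.2.1 →
    κ (p + r • q) = κ p + (r : ℂ) • κ q
  om : St K.Ω 0
  gr : ∀ v κ, St v κ → St (K.Γ v) fun p => K.Γ (κ p)
  cov : ∀ v κ s L a, St v κ → 0 < s → IsLor L → ∃ κ', St (K.U s L a v) κ' ∧
    ∀ p q, Skew p.2.1 → Skew q.2.1 → (∀ x, kil q (sim s L a x) = sim s L 0 (kil p x)) →
      κ' q = K.U s L a (κ p)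
  der : ∀ v κ (L : ℝ → Fin 4 → V) (a : ℝ → V) w α, St v κ → L 0 = one → a 0 = 0 →
    (∀ e, IsLor (L e)) → HasDerivAt L w 0 → HasDerivAt a α 0 →
    HasDerivAt (fun e => K.U 1 (L e) (a e) v) (I • κ (0, w, α, 0)) 0
  dense : ∀ ρ > 0, Dense {v | B ρ v}
  flows : Flows St B

/-- the dilations `D` and the special conformal transformations `S` -/
structure Grp (K : Frame H) (St : H → (Pm → H) → Prop) (D : ℝ → H →L[ℂ] H)
    (S : V → H →L[ℂ] H) : Prop where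
  dG : Gn (fun v w => ∃ κ, St v κ ∧ w = κ pD) D
  sG : ∀ b, Gn (fun v w => ∃ κ, St v κ ∧ w = κ (pK b)) fun τ => S (τ • b)
  add : ∀ b b', S (b + b') = S b * S b'
  DU : ∀ τ s L v, 0 < s → IsLor L → K.U s L 0 (D τ v) = D τ (K.U s L 0 v)
  SU : ∀ b s L v, 0 < s → IsLor L → K.U s L 0 (S b v) = S (s⁻¹ • sim 1 L 0 b) (K.U s L 0 v)
  DS : ∀ τ b, D τ * S b = S (Real.exp (-τ) • b) * D τ
  DΓ : ∀ τ, D τ * K.Γ = K.Γ * D τ
  SΓ : ∀ b, S b * K.Γ = K.Γ * S b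
  DΩ : ∀ τ, D τ K.Ω = K.Ω
  SΩ : ∀ b, S b K.Ω = K.Ω
  rich : ∀ C : ℝ, Dense {u | ∀ τ b, |τ| ≤ C → ‖b‖ ≤ C → ∃ κ, St (D τ (S b u)) κ}

variable (H) in
/-- row GP: construction of the groups -/
def RowGP : Prop := ∀ (K : Frame H) St B, RowU K → Hs K St B → ∃ D S, Grp K St D S

/-- the representation, as a function -/
def Wf (K : Frame H) (D : ℝ → H →L[ℂ] H) (S : V → H →L[ℂ] H) (p : Pm) (v : H) : H :=
  K.U 1 p.2.1 p.2.2.1 (D (Real.log p.1) (S p.2.2.2 v))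

/-- derivatives and continuity -/
structure Ev (K : Frame H) (St : H → (Pm → H) → Prop) (D : ℝ → H →L[ℂ] H)
    (S : V → H →L[ℂ] H) : Prop where
  cont : ∀ v, ContinuousWithinAt (fun p => Wf K D S p v) {p | Adm p} e1
  gen : ∀ v κ (p : ℝ → Pm) q, St v κ → p 0 = e1 → (∀ e, Adm (p e)) → HasDerivAt p q 0 →
    HasDerivAt (fun e => Wf K D S (p e) v) (I • κ q) 0
  DT : ∀ τ a v, D τ (K.U 1 one a v) = K.U 1 one (Real.exp τ • a) (D τ v)

variable (H) in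
/-- row EV -/
def RowEV : Prop := ∀ (K : Frame H) St B D S, RowU K → Hs K St B → Grp K St D S → Ev K St D S

/-- special conformal transformations and translations -/
def R0 (K : Frame H) (D : ℝ → H →L[ℂ] H) (S : V → H →L[ℂ] H) : Prop :=
  ∀ a b, (∀ τ ∈ Icc (0 : ℝ) 1, 0 < den (τ • b) a) → ∃ p, Adm p ∧
    (∀ᶠ x in 𝓝 0, sct b (x + a) = cf p x) ∧
    ((∀ v, S b (K.U 1 one a v) = Wf K D S p v) ∨ ∀ v, S b (K.U 1 one a v) = K.Γ (Wf K D S p v))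

variable (H) in
/-- row R0 -/
def RowR0 : Prop := ∀ (K : Frame H) St B D S, RowU K → Hs K St B → Grp K St D S → Ev K St D S →
  R0 K D S

/-- the result -/
structure AG (K : Frame H) (St : H → (Pm → H) → Prop) (W : Pm → H →L[ℂ] H) : Prop where
  uni : ∀ p, Adm p → W p ∈ unitary (H →L[ℂ] H)
  vac : ∀ p, Adm p → W p K.Ω = K.Ω
  gam : ∀ p, Adm p → W p * K.Γ = K.Γ * W p
  poi : ∀ L a v, IsLor L → W (1, L, a, 0) v = K.U 1 L a v
  mul : ∀ p q r, Adm p → Adm q → Adm r → (∀ τ ∈ Set.Icc (0 : ℝ) 1, 0 < den (τ • p.2.2.2) q.2.2.1) →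
    (∀ᶠ x in 𝓝 0, cf p (cf q x) = cf r x) → W p * W q = W r ∨ W p * W q = K.Γ * W r
  cont : ∀ v, ContinuousWithinAt (fun p => W p v) {p | Adm p} (1, one, 0, 0)
  gen : ∀ v κ (p : ℝ → Pm) q, St v κ → p 0 = (1, one, 0, 0) → (∀ e, Adm (p e)) →
    HasDerivAt p q 0 → HasDerivAt (fun e => W (p e) v) (I • κ q) 0
  scl : ∀ σ s L a b v, 0 < σ → Adm (s, L, a, b) →
    K.U σ one 0 (W (s, L, a, b) v) = W (s, L, σ • a, σ⁻¹ • b) (K.U σ one 0 v)

variable (H) in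
/-- row AG -/
def RowAG : Prop := ∀ (K : Frame H) St D S, RowU K → Grp K St D S → Ev K St D S → R0 K D S →
  ∃ W, AG K St W

end grp

end

end Vale.Agent.Q352
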