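import Vale.Agent.P352X.CG.Wire
import Vale.Agent.P352.H746.Curve
import Vale.Agent.Q352.Spec

/-!
# P352, the global conformal action: states and charges on the domain
-/

set_option linter.all false

open Filter Topology
open scoped SchwartzMap ContDiff ComplexConjugate

namespace Vale.Agent.P352X.CA.G.Gl

open Vale.Agent.P352 Vale.Agent.P352.GF Vale.Agent.P352.BW Vale.Agent.P352.H246
open Vale.Agent.P352.H496 Vale.Agent.P352.H755
open Vale.Agent.P352.SubConf (IsAdj IsKil)
open Q352 (Pm kil Skew Ty ap Sys Bw Lt Adjb)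
open UniformSpace (Completion)
open Complex (I)

noncomputable section

/-- the components of a conformal Killing field -/
def kX (p : Pm) : Ix → V → ℝ := fun n x => kil p x n

theorem kd {p : Pm} (h : Skew p.2.1) : Kd (kX p) p.2.2.1 p.2.2.2 p.1 p.2.1 :=
  ⟨h, fun _ _ => rfl⟩

theorem ik {p : Pm} (h : Skew p.2.1) : IsKil (kX p) := ⟨_, _, _, _, kd h⟩

theorem sg_br (k : Rp) {u w : Ix → V} (hu : As u) (hw : As w) :
    sg k (mm u w - mm w u) = sg k u * sg k w - sg k w * sg k u := by
  obtain ⟨c, h0, h1, h2⟩ := H746.exists_lor hu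
  have dM : ∀ m n, HasDerivAt (fun e => mm (mm (c e) w) (linv (c e)) m n)
      ((mm u w - mm w u) m n) 0 := fun m n => by
    have := HasDerivAt.fun_sum (u := Finset.univ) fun j _ =>
      (HasDerivAt.fun_sum (u := Finset.univ) fun l _ => (h2 m l).mul_const (w l j)).fun_mul
        ((h2 n j).const_mul (eta j * eta n))
    refine this.congr_deriv ?_
    have e : ∀ j, eta j * eta n * u n j = -u j n := fun j => by
      have := hu j n
      have e2 : eta n * eta n = 1 := by unfold eta; split_ifs <;> norm_num
      linear_combination (eta n) * this - (u j n) * e2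
    have e3 : ∀ j, eta j * eta n * GF.one n j = GF.one j n := fun j => by
      have e2 : eta n * eta n = 1 := by unfold eta; split_ifs <;> norm_num
      by_cases h : j = n
      · subst h; simp [GF.one, bas, e2]
      · simp [GF.one, bas, h, Ne.symm h]
    simp only [h0, e, e3, Finset.sum_add_distrib, Pi.sub_apply]
    have a1 := congrFun (congrFun (Rp0.mm_one (mm u w)) m) n
    have a2 := fun j => congrFun (congrFun (Rp0.one_mm w) m) j
    simp only [mm] at a1 a2 ⊢
    simp only [a1, a2, mul_neg, Finset.sum_neg_distrib, sub_eq_add_neg]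
  have dρ := fun a b => k.der c u a b h0 h1 h2
  ext a b
  have dF : HasDerivAt (fun e => (k.ρ (c e) * sg k w) a b) ((sg k u * sg k w) a b) 0 := by
    simp only [Matrix.mul_apply]
    exact HasDerivAt.fun_sum fun j _ => (dρ a j).mul_const _
  have dG : HasDerivAt (fun e => (sg k (mm (mm (c e) w) (linv (c e))) * k.ρ (c e)) a b)
      ((sg k (mm u w - mm w u) + sg k w * sg k u) a b) 0 := by
    simp only [Matrix.mul_apply]
    have := HasDerivAt.fun_sum (u := Finset.univ) fun j _ =>
      (HasDerivAt.fun_sum (u := Finset.univ) fun m _ => HasDerivAt.fun_sum (u := Finset.univ)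
        fun n _ => (dM m n).ofReal_comp.mul_const (k.S m n a j)).fun_mul (dρ j b)
    refine this.congr_deriv ?_
    have e1 : mm (mm GF.one w) (linv GF.one) = w := by
      have := (mat_row.inv _ H496.isLor_one).1
      rw [Rp0.one_mm] at this
      rw [Rp0.one_mm, this, Rp0.mm_one]
    simp only [h0, k.id, e1, Finset.sum_add_distrib, Matrix.add_apply, Matrix.mul_apply,
      Matrix.one_apply, mul_ite, mul_one, mul_zero, Finset.sum_ite_eq', Finset.mem_univ, if_true]
    rfl
  have := dF.unique (dG.congr_of_eventuallyEq (.of_forall fun e => by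
    simp only [Rp0.int k hw (h1 e)]))
  rw [Matrix.sub_apply, this, Matrix.add_apply, add_sub_cancel_right]

/-- the spin matrices as operators -/
def sgm (k : Rp) : (Fin 4 → V) →ₗ[ℝ] ((Fin k.n → ℂ) →L[ℂ] (Fin k.n → ℂ)) where
  toFun w := LinearMap.toContinuousLinearMap (Matrix.toLin' (sg k w))
  map_add' u w := by
    have := Rp0.sg_lin k u w 1
    rw [one_smul, Complex.ofReal_one, one_smul] at this
    rw [this, map_add, map_add]
  map_smul' r w := by
    have := Rp0.sg_lin k 0 w r
    rw [zero_add, Rp0.sg_zero, zero_add] at this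
    rw [this, map_smul, map_smul]
    rfl

theorem sgm_apply (k : Rp) (w) (z : Fin k.n → ℂ) (b) :
    sgm k w z b = ∑ a, sg k w b a * z a := rfl

/-- the type of a primary field -/
def ty (k : Rp) (Δ : ℝ) : Ty where
  n := k.n
  Δ := Δ
  S := sgm k
  br u w hu hw := by
    refine ContinuousLinearMap.ext fun z => ?_
    show Matrix.toLin' (sg k (mm u w - mm w u)) z = Matrix.toLin' (sg k u) (Matrix.toLin' (sg k w) z) -
      Matrix.toLin' (sg k w) (Matrix.toLin' (sg k u) z)
    rw [sg_br k hu hw, map_sub, Matrix.toLin'_mul, Matrix.toLin'_mul]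
    rfl

end

end Vale.Agent.P352X.CA.G.Gl
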