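import Vale.Agent.Q352.IfA

set_option linter.all false

open Filter Topology
open scoped SchwartzMap ContDiff ComplexConjugate

namespace Vale.Agent.P352X.CA.G.Gl

open Vale.Agent.P352 Vale.Agent.P352.GF Vale.Agent.P352.BW Vale.Agent.P352.H246
open Vale.Agent.P352.H496 Vale.Agent.P352.H755
open Vale.Agent.P352.SubConf (IsAdj IsKil)
open Q352 (Pm kil Skew Ty Sys Bw Lt Adjb)
open UniformSpace (Completion)
open Complex (I)

noncomputable section

variable {D : Type*} [NormedAddCommGroup D] [InnerProductSpace ℂ D] {c : Cx D}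

theorem cs_cmp {n : ℕ} {F : V → Fin n → ℂ} (h : ContDiff ℝ ∞ F) (k : HasCompactSupport F) (a) :
    CS fun x => F x a :=
  have := Ap.in_univ (f := fun x => F x a) ⟨contDiff_pi.1 h a, HasCompactSupport.comp_left (g := fun z : Fin n → ℂ => z a) k rfl⟩
  ⟨this.1, this.2.1⟩

theorem ts_cmp {n : ℕ} (F : V → Fin n → ℂ) (a) : tsupport (fun x => F x a) ⊆ tsupport F :=
  closure_mono fun x hx e => hx (by simp only [e, Pi.zero_apply])

/-- the infinitesimal transformation of a multiplet -/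
theorem rhs_sum (h : L1 c) {k : Rp} {Δ : ℝ} {P P' : Fin k.n → Fld D} (hP : ∀ a, c.F0 (P a) (P' a))
    {F : V → Fin k.n → ℂ} (s : ContDiff ℝ ∞ F) (t : HasCompactSupport F) {p : Pm}
    (hp : Skew p.2.1) (v : D) :
    ∑ a, rhs (kX p) k Δ P a (fun x => F x a) v = Q352.ap P (Q352.Lo (ty k Δ) p F) v := by
  have hX := ik hp
  have hc := cs_cmp s t
  choose q hq e using WRD.cs_d h hX
  have c1 : ∀ a n, CS (pd n fun x => kX p n x * F x a) := fun a n =>
    cs_pd (cs_mul (hc a) (Mq.kil hX n)) n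
  have c2 : ∀ a, CS fun x => dvg (kX p) x * F x a := fun a => by
    simpa only [dvg, e, Complex.ofReal_sum] using cs_mul (hc a) (Mq.sum fun n => hq n n)
  have c3 : ∀ a m n, CS fun x =>
      (pd m (fun y => (kX p n y : ℂ)) x - GF.one m n * dvg (kX p) x / 4) * F x a :=
    fun a m n => by
      have := cs_mul (hc a) ((hq m n).add ((Mq.const (-GF.one m n / 4)).mul
        (Mq.sum fun n => hq n n)))
      simp only [dvg, e]
      convert this using 3
      push_cast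
      ring
  simp only [rhs, Finset.sum_add_distrib]
  rw [Finset.sum_comm (s := Finset.univ) (t := Finset.univ) (f := fun a b => ∑ m, ∑ n,
    k.S m n b a • P b (fun x => (pd m (fun y => (kX p n y : ℂ)) x -
      GF.one m n * dvg (kX p) x / 4) * F x a) v), ← Finset.sum_add_distrib]
  refine Finset.sum_congr rfl fun b _ => ?_
  have e1 := Cov.f_sum (hP b) Finset.univ (fun _ => 1) (c1 b) v
  have e3 := Cov.f_sum (hP b) Finset.univ (fun j : Fin k.n × Ix × Ix => k.S j.2.1 j.2.2 b j.1)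
    (fun j => c3 j.1 j.2.1 j.2.2) v
  have a1 := Cov.cs_sum Finset.univ (fun _ => 1) (c1 b)
  have a3 := Cov.cs_sum Finset.univ (fun j : Fin k.n × Ix × Ix => k.S j.2.1 j.2.2 b j.1)
    (fun j => c3 j.1 j.2.1 j.2.2)
  have e2 := (hP b).lin _ _ (-((Δ / 4 : ℝ) : ℂ)) v a1 (c2 b)
  have e4 := (hP b).lin _ _ 1 v (cs_add a1 (c2 b) (-((Δ / 4 : ℝ) : ℂ))) a3
  rw [e2, e1, e3] at e4
  simp only [one_smul, Fintype.sum_prod_type, neg_smul, ← sub_eq_add_neg] at e4
  rw [← e4]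
  refine congrArg (P b · v) (funext fun x => ?_)
  have d1 := fun m n => h.pk.d1 _ _ _ _ _ m n x (kd hp)
  have tr : dvg (kX p) x = ((4 * (p.1 + 2 * GF.mdot p.2.2.2 x) : ℝ) : ℂ) := by
    simp only [dvg, d1, LFT.tr hp, LFT.tr (h.mat.aswd x p.2.2.2), add_zero]
    simp [GF.one, bas]
    ring
  have dF : DifferentiableAt ℝ (fun x => F x b) x :=
    ((contDiff_pi.1 s b).differentiable (by simp)) x
  have pr : ∀ n, pd n (fun x => (kX p n x : ℂ) * F x b) x =
      pd n (fun y => (kX p n y : ℂ)) x * F x b + kX p n x * pd n (fun x => F x b) x := fun n => by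
    simpa only [Ap.dv_bas] using Ap.dv_mul (h := bas n 1) (((Ap.smooth_cx
      (Mq.kil hX n).1).differentiable (by simp)) x) dF
  have fd : fderiv ℝ F x (kil p x) b = ∑ n, kX p n x * pd n (fun x => F x b) x := by
    have := Ap.dv_eq dF (kil p x)
    rw [fderiv_apply ((s.differentiable (by simp)) x)] at this
    exact this.symm
  have e5 : ∑ n, pd n (fun y => (kX p n y : ℂ)) x * F x b = dvg (kX p) x * F x b := by
    rw [dvg, Finset.sum_mul]
  have e6 : ∀ m n, pd m (fun y => (kX p n y : ℂ)) x - GF.one m n * dvg (kX p) x / 4 =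
      ((p.2.1 + wd x p.2.2.2) m n : ℝ) := fun m n => by
    rw [d1, tr]
    simp only [Pi.add_apply]
    push_cast
    ring
  simp only [one_mul, pr, Finset.sum_add_distrib, e5, e6]
  show _ = fderiv ℝ F x (kil p x) b + (((4 - Δ) * (p.1 + 2 * GF.mdot p.2.2.2 x) : ℝ) : ℂ) * F x b +
    ∑ a, sg k (p.2.1 + wd x p.2.2.2) b a * F x a
  rw [fd, tr]
  simp only [sg, Finset.sum_mul]
  congr 1
  · push_cast
    ring
  · exact Finset.sum_congr rfl fun a _ => Finset.sum_congr rfl fun m _ =>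
      Finset.sum_congr rfl fun n _ => by ring

variable (c) in
/-- states, with the action of the charges -/
def St (v : D) (κ : Pm → D) : Prop := ∃ K u Y Y', IsCompact K ∧ Den K u ∧ c.Lo K Y Y' ∧
  v = Y c.Q.vac ∧ ∀ p, Skew p.2.1 → κ p = c.dl u (kX p) Y c.Q.vac

section st

variable (h : L1 c) {v w : D} {κ κ' : Pm → D}
include h

theorem St.big (s : St c v κ) {C : Set V} (k : IsCompact C) : ∃ K, IsCompact K ∧ C ⊆ K ∧
    ∃ Y Y', c.Lo K Y Y' ∧ v = Y c.Q.vac ∧ ∀ K' u, IsCompact K' → K ⊆ K' → Den K' u →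
      ∀ p, Skew p.2.1 → κ p = c.dl u (kX p) Y c.Q.vac := by
  obtain ⟨K, u, Y, Y', a, b, l, e, f⟩ := s
  exact ⟨K ∪ C, a.union k, Set.subset_union_right, Y, Y',
    h.ba.lom _ _ _ _ Set.subset_union_left l, e, fun K' u' _ i d p hp => (f p hp).trans
      (h.ind.ind K u u' _ Y Y' _ a b (h.ba.mono _ _ _ (Set.subset_union_left.trans i) d) (ik hp) l)⟩

theorem St.two (s : St c v κ) (s' : St c w κ') : ∃ K u Y Y' Z Z', IsCompact K ∧ Den K u ∧
    c.Lo K Y Y' ∧ c.Lo K Z Z' ∧ v = Y c.Q.vac ∧ w = Z c.Q.vac ∧ ∀ p, Skew p.2.1 →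
      κ p = c.dl u (kX p) Y c.Q.vac ∧ κ' p = c.dl u (kX p) Z c.Q.vac := by
  obtain ⟨K, a, -, Y, Y', l, e, f⟩ := s.big h isCompact_empty
  obtain ⟨K', a', i, Z, Z', l', e', f'⟩ := s'.big h a
  obtain ⟨u, d⟩ := h.ind.ex K' a'
  exact ⟨K', u, Y, Y', Z, Z', a', d, h.ba.lom _ _ _ _ i l, l', e, e', fun p hp =>
    ⟨f K' u a' i d p hp, f' K' u a' le_rfl d p hp⟩⟩

omit h in
theorem lo_add {K : Set V} {Y Y' Z Z' : D → D} (z : ℂ) (l : c.Lo K Y Y') (l' : c.Lo K Z Z') :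
    c.Lo K (fun v => Y v + z • Z v) fun v => Y' v + conj z • Z' v :=
  ⟨fun v w => by rw [inner_add_left, inner_add_right, inner_smul_left, inner_smul_right, l.adj,
      l'.adj], fun m n g v hg => by
    rw [Ba.tlin m n hg.1, l.loc m n g v hg, l'.loc m n g v hg]⟩

omit h in
theorem lo_G (K : Set V) : c.Lo K c.G c.G := ⟨c.gh, fun m n g v hg => c.gt m n g v hg.1⟩

omit h in
theorem dl_G {u X : Ix → V → ℝ} (hu : ∀ m, Tst (u m)) (hX : IsKil X) (v : D) :
    c.dl u X c.G v = 0 := by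
  refine sub_eq_zero.2 ?_
  show _ = c.gl _
  simp only [Cx.Ch, smt, map_sum, c.gt _ _ _ _ (tstIs (kil_tst hX (hu _) _))]
  rfl

theorem st_om : St c c.Q.vac 0 := by
  obtain ⟨u, d⟩ := h.ind.ex ∅ isCompact_empty
  exact ⟨∅, u, fun v => v, fun v => v, isCompact_empty, d, ⟨fun _ _ => rfl, fun _ _ _ _ _ => rfl⟩,
    rfl, fun p _ => (sub_self _).symm⟩

theorem st_add (z : ℂ) (s : St c v κ) (s' : St c w κ') :
    St c (v + z • w) fun p => κ p + z • κ' p := by
  obtain ⟨K, u, Y, Y', Z, Z', a, d, l, l', rfl, rfl, f⟩ := s.two h s'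
  refine ⟨K, u, _, _, a, d, lo_add z l l', rfl, fun p hp => ?_⟩
  simp only [(f p hp).1, (f p hp).2, Cx.dl, h.ba.chv _ _ _ _ _ d.1 (ik hp), smul_sub]
  abel

theorem st_gr (s : St c v κ) : St c (c.G v) fun p => c.G (κ p) := by
  obtain ⟨K, u, Y, Y', a, d, l, rfl, f⟩ := s
  exact ⟨K, u, _, _, a, d, h.ba.mul _ _ _ _ _ (lo_G K) l, rfl, fun p hp => by
    rw [h.ba.der K u _ _ _ Y _ (lo_G K), dl_G d.1 (ik hp), zero_add, ← f p hp]⟩

theorem st_lin (s : St c v κ) {p q : Pm} (r : ℝ) (hp : Skew p.2.1) (hq : Skew q.2.1) :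
    κ (p + r • q) = κ p + (r : ℂ) • κ q := by
  obtain ⟨K, u, Y, Y', a, d, l, rfl, f⟩ := s
  have e : kX (p + r • q) = fun n x => kX p n x + r * kX q n x := by
    funext n x
    simp only [kX, kil, Q352.mdot, Prod.fst_add, Prod.snd_add, Prod.smul_fst, Prod.smul_snd,
      Pi.add_apply, Pi.smul_apply, smul_eq_mul, Fin.sum_univ_four]
    ring
  rw [f _ fun m n => by
    simp only [Prod.fst_add, Prod.snd_add, Prod.smul_fst, Prod.smul_snd, Pi.add_apply,
      Pi.smul_apply, smul_eq_mul]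
    linear_combination hp m n + r * hq m n, f p hp, f q hq, e]
  simp only [Cx.dl, h.ba.chlin _ _ _ _ _ d.1 (ik hp) (ik hq), h.ba.lov _ _ _ _ _ _ l, smul_sub]
  abel

omit h in
theorem st_sym (h : L2 c) (s : St c v κ) (s' : St c w κ') {p : Pm} (hp : Skew p.2.1) :
    inner ℂ (κ p) w = inner ℂ v (κ' p) := by
  obtain ⟨K, u, Y, Y', Z, Z', a, d, l, l', rfl, rfl, f⟩ := s.two h.toL1 s'
  have l1 := h.ba.symm _ _ _ l
  have := h.vac _ (ik hp) K u _ _ a d (h.ba.mul _ _ _ _ _ l1 l')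
  rw [h.ba.der K u _ _ _ Z _ l1, inner_add_right, ← l.adj] at this
  rw [(f p hp).1, (f p hp).2, h.ba.dladj K u _ _ _ _ _ d.1 (ik hp) l]
  linear_combination -this

omit h in
theorem adj_sum {Y Y' : D → D} (a : ∀ v w, inner ℂ (Y v) w = inner ℂ v (Y' w)) {ι : Type*}
    (r : Finset ι) (w : ι → D) : Y (∑ i ∈ r, w i) = ∑ i ∈ r, Y (w i) :=
  ext_inner_right ℂ fun y => by simp only [a, sum_inner]

theorem st_pr {k : Rp} {Δ : ℝ} {P P' : Fin k.n → Fld D} (hP : ∀ a, c.F0 (P a) (P' a))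
    (act : ∀ X μ f v, IsKil X → CS f → Phi c.t X (P μ) f v = I • rhs X k Δ P μ f v)
    {F : V → Fin k.n → ℂ} (s : ContDiff ℝ ∞ F) (t : HasCompactSupport F) (x : St c v κ) :
    ∃ κ', St c (Q352.ap P F v) κ' ∧ ∀ p, Skew p.2.1 →
      κ' p = I • Q352.ap P (Q352.Lo (ty k Δ) p F) v + Q352.ap P F (κ p) := by
  obtain ⟨K, a, i, Y, Y', l, rfl, f⟩ := x.big h t.isCompact
  obtain ⟨u, d⟩ := h.ind.ex K a
  have hc := cs_cmp s t
  have j := fun b => (ts_cmp F b).trans i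
  have l1 := fun b => h.ba.fld K _ _ _ (hP b) (hc b) (j b)
  have l2 : c.Lo K (fun v => Q352.ap P F (Y v))
      fun v => Y' (∑ b, P' b (bar fun x => F x b) v) :=
    h.ba.mul K (Q352.ap P F) _ Y Y' ⟨fun v w => by
      simp only [Q352.ap, sum_inner, inner_sum, (l1 _).adj], fun m n g v hg => by
        simp only [Q352.ap, adj_sum fun v w => c.hT.herm m n g v w hg.1,
          (l1 _).loc m n g v hg]⟩ l
  refine ⟨fun p => c.dl u (kX p) (fun v => Q352.ap P F (Y v)) c.Q.vac,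
    ⟨K, u, _, _, a, d, l2, rfl, fun _ _ => rfl⟩, fun p hp => ?_⟩
  rw [← rhs_sum h hP s t hp, f K u a le_rfl d p hp, Finset.smul_sum, Q352.ap,
    ← Finset.sum_add_distrib]
  refine Eq.trans ?_ (Finset.sum_congr rfl fun b _ => by
    rw [← act _ b _ _ (ik hp) (hc b), h.ind.phi K u _ (P b) _ _ _ a d (ik hp) (hc b) (j b)
      (h.ba.fld _ _ _ _ (hP b) (hc b) le_rfl), ← h.ba.der K u _ _ _ Y _ (l1 b)])
  simp only [Cx.dl, Q352.ap, adj_sum fun v w => h.ba.chadj u _ v w d.1 (ik hp),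
    Finset.sum_sub_distrib]

theorem st_cov (x : St c v κ) {s : ℝ} {L : Ix → V} (a : V) (hs : 0 < s) (hL : IsLor L) :
    ∃ κ', St c (c.Q.U s L a v) κ' ∧ ∀ p q, Skew p.2.1 → Skew q.2.1 →
      (∀ x, kil q (sim s L a x) = sim s L 0 (kil p x)) → κ' q = c.Q.U s L a (κ p) := by
  obtain ⟨K, u, Y, Y', k, d, l, rfl, f⟩ := x
  have hs' := inv_pos.2 hs
  have hL' := isLor_linv hL
  obtain ⟨Z, Z', l', e⟩ := h.puc.lo _ _ (yinv s L a) K Y Y' hs' hL' l
  have d' := h.pug.den _ _ (yinv s L a) K u hs' hL' k d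
  have x : St c (Z c.Q.vac) fun p => c.dl (pu s⁻¹ (linv L) (yinv s L a) u) (kX p) Z c.Q.vac :=
    ⟨_, _, Z, Z', h.pug.cpt _ _ _ K hs' hL' k, d', l', rfl, fun _ _ => rfl⟩
  have e0 : Y c.Q.vac = c.Q.U s⁻¹ (linv L) (yinv s L a) (Z c.Q.vac) := by
    rw [← e, c.Q.U_vac _ _ _ hs' hL']
  have e1 : ∀ p q : Pm, Skew p.2.1 → (∀ x, kil q (sim s L a x) = sim s L 0 (kil p x)) →
      κ p = c.Q.U s⁻¹ (linv L) (yinv s L a)
        (c.dl (pu s⁻¹ (linv L) (yinv s L a) u) (kX q) Z c.Q.vac) := fun p q hp i => by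
    have e2 : pk s⁻¹ (linv L) (yinv s L a) (kX p) = kX q := by
      funext n y
      have := congrFun (i (sim s⁻¹ (linv L) (yinv s L a) y)) n
      rw [Puc.sim_sim hs hL] at this
      rw [kX, this, pk, Mat.linv_linv, inv_inv, sim, Pi.zero_apply, zero_add]
      rfl
    have e3 := h.puc.ch _ _ (yinv s L a) u _ c.Q.vac hs' hL' d.1 (ik hp)
    rw [c.Q.U_vac _ _ _ hs' hL'] at e3
    rw [f p hp, Cx.dl, Cx.dl, e0, h.puc.ch _ _ _ u _ _ hs' hL' d.1 (ik hp), e3, e, e2]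
    exact ((H15.Ulin c.Q hs' hL' (yinv s L a)).map_sub _ _).symm
  have := c.mul s L a s⁻¹ (linv L) (yinv s L a) hs hs' hL hL'
  rw [linv_id hL, mul_inv_cancel₀ hs.ne', sim_right hs hL] at this
  rcases this with m | ⟨-, -, m⟩
  · refine ⟨_, by rw [e0, m, Uone]; exact x, fun p q hp _ i => by rw [e1 p q hp i, m, Uone]⟩
  · refine ⟨_, by rw [e0, m, Uone]; exact st_gr h x, fun p q hp _ i => by
      rw [e1 p q hp i, m, Uone]⟩

/-- the polynomials in the fields -/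
theorem st_al {Y Y' : D → D} (a : Al c.Q Set.univ Y Y') : ∃ κ, St c (Y c.Q.vac) κ ∧
    ∀ F, IsCutoff F → ∀ᶠ r in atTop, ∀ p, Skew p.2.1 →
      κ p = ND.cur c.t (kil p) (F r) (Y c.Q.vac) - Y (ND.cur c.t (kil p) (F r) c.Q.vac) := by
  obtain ⟨K, k, l⟩ := h.ba.al Y Y' a
  obtain ⟨u, d⟩ := h.ind.ex K k
  refine ⟨fun p => c.dl u (kX p) Y c.Q.vac, ⟨K, u, Y, Y', k, d, l, rfl, fun _ _ => rfl⟩,
    fun F hF => ?_⟩
  filter_upwards [ok_cutoff hF k] with r ⟨g, hg, e⟩ p hp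
  have e1 : ∀ z, c.Ch (tm g) (kX p) z = ND.cur c.t (kil p) (F r) z := fun z => by
    rw [h.ba.chtm g _ z hg.1 (ik hp), e, ND.cur]
    simp only [kX, Complex.ofReal_mul]
  rw [h.ind.ind K u _ _ Y Y' _ k d (h.pug.ok K g hg) (ik hp) l, Cx.dl, e1, e1]

theorem lt_of {P P' : Fld D} (f : c.F0 P P') (j : c.JB P) : Lt P where
  lin g g' z v a b := f.lin g g' z v a b
  adj g a := ⟨P' (bar g), fun v w => f.adj g v w a⟩
  bdd v := by
    obtain ⟨y, hy⟩ := h.ext.vac P P' v f j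
    refine ⟨(normSeminorm ℂ (Completion D)).comp y.toLinearMap, continuous_norm.comp y.continuous,
      fun g hg => le_of_eq ?_⟩
    exact (Completion.norm_coe _).symm.trans (congrArg norm (hy g hg).symm)

end st

variable {x : Ops c} {f0 : Sch}

variable (x f0) in
/-- primary multiplets -/
inductive Pr : (k : Ty) → (Fin k.n → Fld D) → Prop
  | mk (k : Rp) (d : ℂ) (P P' : Fin k.n → Fld D) (y) : PG x f0 k d P P' y → Pr (ty k d.re) P

/-- the system of states and primaries -/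
def sys (a : All x f0) : Sys D where
  vac := c.Q.vac
  G := c.G
  St := St c
  Pr := Pr x f0
  adj := ⟨c.G, c.gh⟩
  om := st_om a.toL1
  add _ _ _ _ z := st_add a.toL1 z
  gr _ _ := st_gr a.toL1
  lt := by
    rintro _ _ b ⟨k, d, P, P', y, g⟩
    exact lt_of a.toL1 (g.gd b).cf.l (g.gd b).cf.jl
  pr := by
    rintro _ _ F v κ ⟨k, d, P, P', y, g⟩ s t z
    exact st_pr a.toL1 (fun b => (g.gd b).cf.l) g.act s t z

/-- the words in a ball -/
def bw (a : All x f0) (ρ : ℝ) : Submodule ℂ D where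
  carrier := {v | Bw (sys a) ρ v}
  add_mem' := fun {v w} p q => by simpa using Bw.add v w 1 p q
  zero_mem' := by simpa using Bw.add _ _ (-1) (Bw.om (S := sys a) (ρ := ρ)) Bw.om
  smul_mem' := fun z v p => by
    have := Bw.add _ _ (z - 1) p p
    rwa [sub_smul, one_smul, add_sub_cancel] at this

theorem bw_dg (a : All x f0) {ρ : ℝ} {A : Fld D} (g : DG x f0 A) {f : Fn}
    (i : In (Metric.ball 0 ρ) f) {v : D} (m : v ∈ bw a ρ) : A f v ∈ bw a ρ := by
  classical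
  obtain ⟨n, k, d, z, α, μ, P, P', y, p, e⟩ := g
  rw [e f v ⟨i.1, i.2.1⟩]
  refine sum_mem fun j _ => Submodule.smul_mem _ _ ?_
  have i' : In (Metric.ball 0 ρ) ((α j).foldr pd f) := by
    induction α j with
    | nil => exact i
    | cons m _ ih => exact Ap.in_pd m ih
  generalize (α j).foldr pd f = g at i'
  let F : V → Fin (k j).n → ℂ := fun x => Pi.single (μ j) (g x)
  have s : ContDiff ℝ ∞ F := contDiff_pi.2 fun b => by
    by_cases e : b = μ j
    · subst e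
      simpa [F] using (Ap.in_dc i').1
    · simpa [F, e] using contDiff_const
  have t : tsupport F ⊆ tsupport g := closure_mono fun x hx e => hx (by simp [F, e])
  have e : Q352.ap (P j) F v = P j (μ j) g v := by
    rw [Q352.ap, Finset.sum_eq_single (μ j) (fun b _ e => ?_) fun e => (e (Finset.mem_univ _)).elim]
    · simp [F]
    · simpa [F, e] using ((p j).gd b).cf.l.lin _ _ 1 v cs_zero cs_zero
  exact e ▸ Bw.pr (S := sys a) (ρ := ρ) (ty (k j) (d j).re) (P j) F v ⟨_, _, _, _, _, p j⟩ s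
    (t.trans i'.2.2) m

end

end Vale.Agent.P352X.CA.G.Gl
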