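import Vale.Agent.Q352.Spec

/-!
# P352, row A: one parameter groups in Hilbert space
-/

set_option linter.all false

open Filter Topology Set Metric
open Complex (I)

namespace Vale.Agent.Q352

noncomputable section

namespace RA

theorem const_Ioo {G : Type*} [NormedAddCommGroup G] [NormedSpace ℝ G] {f : ℝ → G} {α β σ τ : ℝ}
    (h : ∀ s ∈ Ioo α β, HasDerivAt f 0 s) (hσ : σ ∈ Ioo α β) (hτ : τ ∈ Ioo α β) : f σ = f τ :=
  isOpen_Ioo.is_const_of_deriv_eq_zero (𝕜 := ℝ) isPreconnected_Ioo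
    (fun s hs => (h s hs).differentiableAt.differentiableWithinAt) (fun s hs => (h s hs).deriv)
    hσ hτ

theorem const_Icc {G : Type*} [NormedAddCommGroup G] [NormedSpace ℝ G] [CompleteSpace G]
    {f : ℝ → G} (hc : ContinuousOn f (Icc 0 1)) (h : ∀ s ∈ Ioo (0 : ℝ) 1, HasDerivAt f 0 s) :
    f 1 = f 0 := by
  have := intervalIntegral.integral_eq_sub_of_hasDerivAt_of_le zero_le_one hc
    (f' := fun _ => 0) h (by simp)
  simp only [intervalIntegral.integral_zero] at this
  exact sub_eq_zero.1 this.symm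

/-- every real number is a multiple of a small number -/
theorem small {T : ℝ} (hT : 0 < T) (τ : ℝ) :
    ∃ N : ℕ, 0 < N ∧ ∀ n : ℕ, N ≤ n → |τ / n| < T := by
  obtain ⟨N, hN⟩ := exists_nat_gt (|τ| / T)
  refine ⟨N + 1, Nat.succ_pos _, fun n hn => ?_⟩
  have h1 : (N : ℝ) + 1 ≤ n := by exact_mod_cast hn
  have h0 : (0 : ℝ) ≤ N := Nat.cast_nonneg _
  have hn0 : (0 : ℝ) < n := by linarith
  rw [abs_div, abs_of_pos hn0, div_lt_iff₀ hn0]
  rw [div_lt_iff₀ hT] at hN
  nlinarith

theorem hom_pow {M : Type*} [Monoid M] {u : ℝ → M} (h0 : u 0 = 1)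
    (h : ∀ s t, u (s + t) = u s * u t) (s : ℝ) (n : ℕ) : u (n * s) = u s ^ n := by
  induction n with
  | zero => simpa using h0
  | succ n ih => rw [Nat.cast_succ, add_mul, one_mul, h, ih, pow_succ]

theorem hom_div {M : Type*} [Monoid M] {u : ℝ → M} (h0 : u 0 = 1)
    (h : ∀ s t, u (s + t) = u s * u t) (τ : ℝ) {n : ℕ} (hn : 0 < n) : u τ = u (τ / n) ^ n := by
  have hn0 : (n : ℝ) ≠ 0 := by exact_mod_cast hn.ne'
  rw [← hom_pow h0 h]
  congr 1
  field_simp

/-- a local one parameter group extends to a global one -/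
theorem globalize {M : Type*} [Monoid M] {T : ℝ} (hT : 0 < T) (G : ℝ → M) (h0 : G 0 = 1)
    (h : ∀ s t, |s| < T → |t| < T → |s + t| < T → G (s + t) = G s * G t) :
    ∃ u : ℝ → M, (∀ s t, u (s + t) = u s * u t) ∧ ∀ s, |s| < T → u s = G s := by
  have pw : ∀ (n : ℕ) (s : ℝ), |(n : ℝ) * s| < T → 0 < n → G (n * s) = G s ^ n := by
    intro n s
    induction n with
    | zero => intro _ h; exact absurd h (lt_irrefl _)
    | succ n ih =>
      intro hs _
      rcases Nat.eq_zero_or_pos n with rfl | hn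
      · simp
      · have hn1 : (1 : ℝ) ≤ n := by exact_mod_cast hn
        rw [Nat.cast_succ, abs_mul, abs_of_pos (by linarith : (0 : ℝ) < n + 1)] at hs
        have a0 := abs_nonneg s
        have h1 : |(n : ℝ) * s| < T := by
          rw [abs_mul, abs_of_pos (by linarith : (0 : ℝ) < n)]; nlinarith
        have h2 : |s| < T := by nlinarith
        have h3 : |(n : ℝ) * s + s| < T := by
          rw [show (n : ℝ) * s + s = (n + 1) * s by ring, abs_mul,
            abs_of_pos (by linarith : (0 : ℝ) < n + 1)]; exact hs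
        rw [Nat.cast_succ, add_mul, one_mul, h _ _ h1 h2 h3, ih h1 hn, pow_succ]
  have wd : ∀ (τ : ℝ) (n m : ℕ), 0 < n → 0 < m → |τ / n| < T → |τ / m| < T →
      G (τ / n) ^ n = G (τ / m) ^ m := by
    intro τ n m hn hm h1 h2
    have hn0 : (n : ℝ) ≠ 0 := by exact_mod_cast hn.ne'
    have hm0 : (m : ℝ) ≠ 0 := by exact_mod_cast hm.ne'
    have e1 : τ / n = m * (τ / (n * m)) := by field_simp
    have e2 : τ / m = n * (τ / (n * m)) := by field_simp
    rw [e1] at h1 ⊢
    rw [e2] at h2 ⊢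
    rw [pw m _ h1 hm, pw n _ h2 hn, ← pow_mul, ← pow_mul, mul_comm m n]
  choose N hN hNs using small hT
  have sp : ∀ (τ : ℝ) (n : ℕ), 0 < n → |τ / n| < T → G (τ / N τ) ^ N τ = G (τ / n) ^ n :=
    fun τ n hn h1 => wd τ _ _ (hN τ) hn (hNs τ _ le_rfl) h1
  refine ⟨fun τ => G (τ / N τ) ^ N τ, fun s t => ?_, fun s hs => ?_⟩
  · have hn : 0 < N s + N t + N (s + t) := by have := hN s; omega
    have h1 := hNs s (N s + N t + N (s + t)) (by omega)
    have h2 := hNs t (N s + N t + N (s + t)) (by omega)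
    have h3 := hNs (s + t) (N s + N t + N (s + t)) (by omega)
    simp only
    rw [sp s _ hn h1, sp t _ hn h2, sp (s + t) _ hn h3]
    rw [add_div] at h3 ⊢
    have c : Commute (G (s / (N s + N t + N (s + t) : ℕ))) (G (t / (N s + N t + N (s + t) : ℕ))) := by
      show _ * _ = _ * _
      rw [← h _ _ h1 h2 h3, ← h _ _ h2 h1 (by rwa [add_comm]), add_comm]
    rw [h _ _ h1 h2 h3, c.mul_pow]
  · have := sp s 1 one_pos (by simpa using hs)
    simpa using this

variable {H : Type*} [NormedAddCommGroup H] [InnerProductSpace ℂ H] [CompleteSpace H]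

theorem unorm {u : H →L[ℂ] H} (h : u ∈ unitary (H →L[ℂ] H)) : ‖u‖ ≤ 1 :=
  ContinuousLinearMap.opNorm_le_bound _ zero_le_one fun v => by
    rw [one_mul]; exact (ContinuousLinearMap.norm_map_of_mem_unitary h v).le

/-- the product rule -/
theorem prod (F : ℝ → H →L[ℂ] H) (γ : ℝ → H) (x y : H) (e : ℝ) (hF : ∀ σ, ‖F σ‖ ≤ 1)
    (hc : ∀ v, ContinuousAt (fun σ => F σ v) e) (h1 : HasDerivAt (fun σ => F σ (γ e)) x e)
    (h2 : HasDerivAt γ y e) : HasDerivAt (fun σ => F σ (γ σ)) (x + F e y) e := by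
  have key : HasDerivAt (fun σ => F σ (γ σ - γ e)) (F e y) e := by
    rw [hasDerivAt_iff_tendsto_slope] at h2 ⊢
    have e1 : slope (fun σ => F σ (γ σ - γ e)) e =
        fun σ => F σ (slope γ e σ - y) + F σ y := by
      funext σ
      rw [← map_add, sub_add_cancel, slope_def_module, slope_def_module, sub_self, map_zero,
        sub_zero, ContinuousLinearMap.map_smul_of_tower]
    rw [e1]
    have a : Tendsto (fun σ => F σ (slope γ e σ - y)) (𝓝[≠] e) (𝓝 0) := by
      apply squeeze_zero_norm (a := fun σ => ‖slope γ e σ - y‖)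
      · intro σ
        calc _ ≤ ‖F σ‖ * ‖slope γ e σ - y‖ := (F σ).le_opNorm _
          _ ≤ 1 * ‖slope γ e σ - y‖ := by gcongr; exact hF σ
          _ = _ := one_mul _
      · exact tendsto_iff_norm_sub_tendsto_zero.1 h2
    simpa using a.add ((hc y).tendsto.mono_left nhdsWithin_le_nhds)
  have e2 : (fun σ => F σ (γ σ)) = fun σ => F σ (γ e) + F σ (γ σ - γ e) := by
    funext σ
    simp
  rw [e2]
  exact h1.add key

theorem sol (R : H → H → Prop) (u : ℝ → H →L[ℂ] H) (α β : ℝ) (γ : ℝ → H) (σ τ : ℝ)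
    (hu : Gn R u) (hγ : Crv R (Ioo α β) γ) (hσ : σ ∈ Ioo α β) (hτ : τ ∈ Ioo α β) :
    γ τ = u (τ - σ) (γ σ) := by
  have d : ∀ s ∈ Ioo α β, HasDerivAt (fun s => u (-s) (γ s)) 0 s := by
    intro s hs
    obtain ⟨w, hw, hd⟩ := hγ s hs
    have h1 : HasDerivAt (fun s' => u (s - s') (γ s)) (-(I • w)) s := by
      have a : HasDerivAt (fun s' : ℝ => s - s') (-1) s := by
        simpa using (hasDerivAt_id s).const_sub s
      have b : HasDerivAt (fun τ => u τ (γ s)) (I • w) (s - s) := by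
        rw [sub_self]; exact hu.der _ _ hw
      exact (b.scomp s a).congr_deriv (by simp)
    have h2 : HasDerivAt (fun s' => u (-s') (γ s)) (u (-s) (-(I • w))) s := by
      have e2 : (fun s' => u (-s') (γ s)) = fun s' => u (-s) (u (s - s') (γ s)) := by
        funext s'
        rw [← ContinuousLinearMap.mul_apply, ← hu.add]
        congr 2
        ring
      rw [e2]
      exact ((u (-s)).restrictScalars ℝ).hasFDerivAt.comp_hasDerivAt s h1
    have := prod (fun s' => u (-s')) γ _ _ s (fun σ => unorm (hu.uni _))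
      (fun v => ((hu.cont v).comp continuous_neg).continuousAt) h2 hd
    simpa using this
  have e : u (-τ) (γ τ) = u (-σ) (γ σ) := const_Ioo d hτ hσ
  have : γ τ = u τ (u (-τ) (γ τ)) := by
    rw [← ContinuousLinearMap.mul_apply, ← hu.add, add_neg_cancel, hu.zero,
      ContinuousLinearMap.one_apply]
  rw [this, e, ← ContinuousLinearMap.mul_apply, ← hu.add, sub_eq_add_neg]

theorem uniq (R : H → H → Prop) (u u' : ℝ → H →L[ℂ] H) (hR : Rich R) (hu : Gn R u)
    (hu' : Gn R u') : u = u' := by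
  obtain ⟨T, hT, D, hD, h⟩ := hR
  have loc : ∀ τ, |τ| < T → u τ = u' τ := by
    intro τ hτ
    have h0 : (0 : ℝ) ∈ Ioo (-T) T := ⟨by linarith, hT⟩
    have h1 : τ ∈ Ioo (-T) T := abs_lt.1 hτ
    have : (u τ : H → H) = u' τ := by
      refine Continuous.ext_on hD (u τ).continuous (u' τ).continuous fun v hv => ?_
      obtain ⟨γ, g0, hγ⟩ := h v hv
      have a := sol R u _ _ γ 0 τ hu hγ h0 h1
      have b := sol R u' _ _ γ 0 τ hu' hγ h0 h1
      rw [g0, sub_zero] at a b
      rw [← a, ← b]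
    exact DFunLike.coe_injective this
  funext τ
  obtain ⟨N, hN, hs⟩ := small hT τ
  rw [hom_div hu.zero hu.add τ hN, hom_div hu'.zero hu'.add τ hN, loc _ (hs N le_rfl)]

/-- inner products of solutions only depend on the time difference -/
theorem shift {R : H → H → Prop}
    (sym : ∀ v w v' w', R v w → R v' w' → inner ℂ w v' = inner ℂ v w') {T : ℝ} {γ γ' : ℝ → H}
    (h : Crv R (Ioo (-T) T) γ) (h' : Crv R (Ioo (-T) T) γ') {s t r : ℝ} (hs : |s| < T)
    (ht : |t| < T) (hsr : |s + r| < T) (htr : |t + r| < T) :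
    inner ℂ (γ (s + r)) (γ' (t + r)) = inner ℂ (γ s) (γ' t) := by
  rw [abs_lt] at hs ht hsr htr
  have d : ∀ ρ ∈ Ioo (max (-T - s) (-T - t)) (min (T - s) (T - t)),
      HasDerivAt (fun ρ => inner ℂ (γ (s + ρ)) (γ' (t + ρ))) 0 ρ := by
    intro ρ hρ
    obtain ⟨h1, h2⟩ := hρ
    rw [max_lt_iff] at h1
    rw [lt_min_iff] at h2
    obtain ⟨w, hw, hd⟩ := h (s + ρ) ⟨by linarith [h1.1], by linarith [h2.1]⟩
    obtain ⟨w', hw', hd'⟩ := h' (t + ρ) ⟨by linarith [h1.2], by linarith [h2.2]⟩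
    refine ((hd.comp_const_add s ρ).inner ℂ (hd'.comp_const_add t ρ)).congr_deriv ?_
    rw [inner_smul_right, inner_smul_left, sym _ _ _ _ hw hw']
    simp
  have := const_Ioo d (σ := r) (τ := 0)
    ⟨max_lt (by linarith [hsr.1]) (by linarith [htr.1]),
      lt_min (by linarith [hsr.2]) (by linarith [htr.2])⟩
    ⟨max_lt (by linarith [hs.1]) (by linarith [ht.1]),
      lt_min (by linarith [hs.2]) (by linarith [ht.2])⟩
  simpa using this

/-- the local group -/
theorem local_group {T : ℝ} (hT : 0 < T) {D : Set H} (hD : Dense D) (γ : D → ℝ → H)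
    (g0 : ∀ d, γ d 0 = d)
    (sh : ∀ d d' s t r, |s| < T → |t| < T → |s + r| < T → |t + r| < T →
      inner ℂ (γ d (s + r)) (γ d' (t + r)) = inner ℂ (γ d s) (γ d' t)) :
    ∃ G : ℝ → H →L[ℂ] H, G 0 = 1 ∧ (∀ s, |s| < T → ∀ d : D, G s d = γ d s) ∧
      (∀ s, |s| < T → star (G s) = G (-s)) ∧
      ∀ s t, |s| < T → |t| < T → |s + t| < T → G (s + t) = G s * G t := by
  have z : |(0 : ℝ)| < T := by simpa using hT
  have iso : ∀ s, |s| < T → Isometry fun d : D => γ d s := by
    intro s hs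
    have k : ∀ d d', inner ℂ (γ d s) (γ d' s) = inner ℂ (d : H) (d' : H) := by
      intro d d'
      have := sh d d' 0 0 s z z (by simpa using hs) (by simpa using hs)
      simpa [g0] using this
    refine Isometry.of_dist_eq fun d d' => ?_
    rw [Subtype.dist_eq, dist_eq_norm, dist_eq_norm, norm_eq_sqrt_re_inner (𝕜 := ℂ),
      norm_eq_sqrt_re_inner (𝕜 := ℂ), inner_sub_sub_self, inner_sub_sub_self, k, k, k, k]
  let G0 : ℝ → H → H := fun s => hD.extend fun d : D => γ d s
  have c0 : ∀ s, |s| < T → Continuous (G0 s) := fun s hs =>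
    (hD.uniformContinuous_extend (iso s hs).uniformContinuous).continuous
  have e0 : ∀ s, |s| < T → ∀ d : D, G0 s d = γ d s := fun s hs d =>
    hD.extend_of_ind (iso s hs).uniformContinuous d
  have i0 : ∀ x, G0 0 x = x := by
    have : G0 0 = id := Continuous.ext_on hD (c0 0 z) continuous_id fun v hv => by
      have := e0 0 z ⟨v, hv⟩
      rw [g0] at this
      exact this
    intro x
    rw [this]
    rfl
  have s0 : ∀ s t r, |s| < T → |t| < T → |s + r| < T → |t + r| < T → ∀ x y,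
      inner ℂ (G0 (s + r) x) (G0 (t + r) y) = inner ℂ (G0 s x) (G0 t y) := by
    intro s t r hs ht hsr htr x y
    have : (fun p : H × H => inner ℂ (G0 (s + r) p.1) (G0 (t + r) p.2)) =
        fun p : H × H => inner ℂ (G0 s p.1) (G0 t p.2) := by
      refine Continuous.ext_on (hD.prod hD)
        (((c0 _ hsr).comp continuous_fst).inner ((c0 _ htr).comp continuous_snd))
        (((c0 _ hs).comp continuous_fst).inner ((c0 _ ht).comp continuous_snd)) fun p hp => ?_
      have a1 := e0 _ hsr ⟨p.1, hp.1⟩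
      have a2 := e0 _ htr ⟨p.2, hp.2⟩
      have a3 := e0 _ hs ⟨p.1, hp.1⟩
      have a4 := e0 _ ht ⟨p.2, hp.2⟩
      simp only at a1 a2 a3 a4 ⊢
      rw [a1, a2, a3, a4]
      exact sh _ _ s t r hs ht hsr htr
    exact congrFun this (x, y)
  have adj : ∀ s, |s| < T → ∀ x y, inner ℂ (G0 s x) y = inner ℂ x (G0 (-s) y) := by
    intro s hs x y
    have := s0 0 (-s) s z (by simpa using hs) (by simpa using hs) (by simpa using hT) x y
    rwa [zero_add, neg_add_cancel, i0, i0] at this
  have ex : ∀ s, ∃ A : H →L[ℂ] H, |s| < T → ∀ x, A x = G0 s x := by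
    intro s
    by_cases hs : |s| < T
    · refine ⟨⟨⟨⟨G0 s, fun x x' => ?_⟩, fun c x => ?_⟩, c0 s hs⟩, fun _ _ => rfl⟩
      · refine ext_inner_right ℂ fun y => ?_
        rw [inner_add_left, adj s hs, adj s hs, adj s hs, inner_add_left]
      · refine ext_inner_right ℂ fun y => ?_
        simp only [RingHom.id_apply]
        rw [inner_smul_left, adj s hs, adj s hs, inner_smul_left]
    · exact ⟨1, fun h => absurd h hs⟩
  choose G hG using ex
  refine ⟨G, ?_, fun s hs d => by rw [hG s hs, e0 s hs], fun s hs => ?_, fun s t hs ht hst => ?_⟩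
  · ext x
    rw [hG 0 z, i0]
    rfl
  · have hs' : |-s| < T := by simpa using hs
    rw [ContinuousLinearMap.star_eq_adjoint, eq_comm, ContinuousLinearMap.eq_adjoint_iff]
    intro x y
    rw [hG _ hs', hG _ hs, adj _ hs', neg_neg]
  · ext x
    refine ext_inner_right ℂ fun y => ?_
    rw [ContinuousLinearMap.mul_apply, hG _ hst, hG _ hs, hG _ ht, adj s hs]
    have := s0 t (-s) s ht (by simpa using hs) (by rwa [add_comm]) (by simpa using hT) x y
    rwa [neg_add_cancel, i0, add_comm t s] at this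

theorem ex (R : H → H → Prop)
    (sym : ∀ v w v' w', R v w → R v' w' → inner ℂ w v' = inner ℂ v w') (hR : Rich R) :
    ∃ u, Gn R u := by
  obtain ⟨T, hT, D, hD, h⟩ := hR
  choose γ g0 hγ using fun d : D => h d d.2
  obtain ⟨G, G0, hG, st, loc⟩ := local_group hT hD γ g0
    fun d d' s t r hs ht hsr htr => shift sym (hγ d) (hγ d') hs ht hsr htr
  obtain ⟨u, add, hu⟩ := globalize hT G G0 loc
  have z : |(0 : ℝ)| < T := by simpa using hT
  have u0 : u 0 = 1 := by rw [hu 0 z, G0]
  have uni : ∀ τ, u τ ∈ unitary (H →L[ℂ] H) := by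
    intro τ
    obtain ⟨N, hN, hs⟩ := small hT τ
    have h1 := hs N le_rfl
    have h2 : |-(τ / N)| < T := by simpa using h1
    rw [hom_div u0 add τ hN]
    refine Submonoid.pow_mem _ ?_ _
    rw [hu _ h1]
    refine ⟨?_, ?_⟩
    · rw [st _ h1, ← loc _ _ h2 h1 (by simpa using hT), neg_add_cancel, G0]
    · rw [st _ h1, ← loc _ _ h1 h2 (by simpa using hT), add_neg_cancel, G0]
  have nb : ∀ s, |s| < T → ∀ᶠ s' in 𝓝 s, |s'| < T := fun s hs =>
    continuous_abs.continuousAt.eventually_lt continuousAt_const hs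
  have dd : ∀ (d : D) s, |s| < T →
      ∃ w, R (u s d) w ∧ HasDerivAt (fun s' => u s' d) (I • w) s := by
    intro d s hs
    obtain ⟨w, hw, hd⟩ := hγ d s (abs_lt.1 hs)
    refine ⟨w, by rwa [hu s hs, hG s hs], hd.congr_of_eventuallyEq ?_⟩
    filter_upwards [nb s hs] with s' hs'
    rw [hu s' hs', hG s' hs']
  have c0 : ∀ v, ContinuousAt (fun s => u s v) 0 := by
    intro v
    rw [Metric.continuousAt_iff']
    intro ε hε
    obtain ⟨d, hd, hvd⟩ := hD.exists_dist_lt v (by positivity : 0 < ε / 3)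
    obtain ⟨w, -, hw⟩ := dd ⟨d, hd⟩ 0 z
    have := Metric.continuousAt_iff'.1 hw.continuousAt (ε / 3) (by positivity)
    filter_upwards [this] with s hs
    have a : ∀ s, dist (u s v) (u s d) < ε / 3 := by
      intro s
      rwa [dist_eq_norm, ← map_sub, ContinuousLinearMap.norm_map_of_mem_unitary (uni s),
        ← dist_eq_norm]
    have b := dist_triangle4 (u s v) (u s d) (u 0 d) (u 0 v)
    have c := a 0
    rw [dist_comm] at c
    have hs' : dist (u s d) (u 0 d) < ε / 3 := hs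
    linarith [a s]
  have cont : ∀ v, Continuous fun s => u s v := by
    intro v
    rw [continuous_iff_continuousAt]
    intro s
    have e : (fun s' => u s' v) = fun s' => u s (u (s' - s) v) := by
      funext s'
      rw [← ContinuousLinearMap.mul_apply, ← add]
      congr 2
      ring
    rw [e]
    refine (u s).continuous.continuousAt.comp (f := fun s' => u (s' - s) v) ?_
    refine ContinuousAt.comp_of_eq (g := fun s => u s v) (f := fun s' => s' - s) (c0 v) ?_
      (sub_self s)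
    exact (continuous_id.sub continuous_const).continuousAt
  have adj : ∀ s x y, inner ℂ x (u s y) = inner ℂ (u (-s) x) y := by
    intro s x y
    rw [← ContinuousLinearMap.inner_map_map_of_mem_unitary (uni (-s)),
      ← ContinuousLinearMap.mul_apply, ← add, neg_add_cancel, u0, ContinuousLinearMap.one_apply]
  refine ⟨u, uni, add, u0, cont, fun v w hvw => ?_⟩
  have cw : Continuous fun s => I • u s w := (cont w).const_smul I
  have hI : ∀ s, HasDerivAt (fun s => ∫ t in (0 : ℝ)..s, I • u t w) (I • u s w) s := fun s =>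
    (cw.integral_hasStrictDerivAt 0 s).hasDerivAt
  have key : ∀ s, |s| < T → u s v = v + ∫ t in (0 : ℝ)..s, I • u t w := by
    intro s hs
    refine hD.eq_of_inner_right ℂ fun d hd => ?_
    have dz : ∀ s ∈ Ioo (-T) T, HasDerivAt
        (fun s => inner ℂ (u (-s) d) v - inner ℂ d (∫ t in (0 : ℝ)..s, I • u t w)) 0 s := by
      intro s hs
      have hs' : |-s| < T := by rw [abs_neg]; exact abs_lt.2 hs
      obtain ⟨w', hw', hd'⟩ := dd ⟨d, hd⟩ (-s) hs'
      have a : HasDerivAt (fun s => u (-s) d) (-(I • w')) s :=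
        (hd'.scomp s (hasDerivAt_neg s)).congr_deriv (by simp)
      refine ((a.inner ℂ (hasDerivAt_const s v)).sub
        ((hasDerivAt_const s d).inner ℂ (hI s))).congr_deriv ?_
      rw [inner_neg_left, inner_smul_left, inner_smul_right, sym _ _ _ _ hw' hvw, adj]
      simp
    have := const_Ioo dz (σ := s) (τ := 0) (abs_lt.1 hs) (abs_lt.1 z)
    simp only [neg_zero, u0, ContinuousLinearMap.one_apply, intervalIntegral.integral_same,
      inner_zero_right, sub_zero] at this
    rw [adj, inner_add_right, ← this]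
    ring
  have := ((hI 0).const_add v).congr_of_eventuallyEq (f₁ := fun s => u s v)
    (by filter_upwards [nb 0 z] with s hs using key s hs)
  simpa [u0] using this

theorem pm {ι : Type*} (a b : ι → ℂ) (h : ∀ i j, a i * a j = b i * b j) :
    (∀ i, a i = b i) ∨ ∀ i, a i = -b i := by
  by_cases hb : ∀ i, b i = 0
  · left
    intro i
    have := h i i
    rw [hb i, mul_zero, mul_self_eq_zero] at this
    rw [this, hb i]
  · push Not at hb
    obtain ⟨i, hi⟩ := hb
    rcases mul_self_eq_mul_self_iff.1 (h i i) with e | e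
    · left
      intro j
      have := h i j
      rw [e] at this
      exact mul_left_cancel₀ hi this
    · right
      intro j
      have := h i j
      rw [e] at this
      refine mul_left_cancel₀ hi ?_
      linear_combination -this

theorem sign (Γ : H →L[ℂ] H) (F : ℝ → H →L[ℂ] H) (D : Set H) (hΓ : Γ * Γ = 1) (hD : Dense D)
    (hF : ∀ σ, F σ * Γ = Γ * F σ) (hDΓ : ∀ u ∈ D, Γ u ∈ D)
    (h : ∀ σ ∈ Icc (0 : ℝ) 1, ∃ G : ℝ → H →L[ℂ] H,
      (∀ τ ∈ Icc (0 : ℝ) 1, F τ = G τ ∨ F τ = Γ * G τ) ∧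
      ∀ u ∈ D, ContinuousWithinAt (fun τ => G τ u) (Icc 0 1) σ ∧
        (σ ∈ Ioo (0 : ℝ) 1 → HasDerivAt (fun τ => G τ u) 0 σ)) :
    F 1 = F 0 ∨ F 1 = Γ * F 0 := by
  have gg : ∀ v, Γ (Γ v) = v := fun v => by
    rw [← ContinuousLinearMap.mul_apply, hΓ, ContinuousLinearMap.one_apply]
  have fg : ∀ σ v, Γ (F σ v) = F σ (Γ v) := fun σ v => by
    rw [← ContinuousLinearMap.mul_apply, ← hF, ContinuousLinearMap.mul_apply]
  have alt : ∀ τ (A : H →L[ℂ] H), F τ = Γ * A → ∀ v, A v = F τ (Γ v) := by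
    intro τ A e v
    rw [← fg, e, ContinuousLinearMap.mul_apply, gg]
  have cst : ∀ {E : Type _} [NormedAddCommGroup E] [NormedSpace ℝ E] [CompleteSpace E]
      (f : ℝ → E), (∀ σ ∈ Icc (0 : ℝ) 1, ∃ g : ℝ → E, (∀ τ ∈ Icc (0 : ℝ) 1, f τ = g τ) ∧
        ContinuousWithinAt g (Icc 0 1) σ ∧ (σ ∈ Ioo (0 : ℝ) 1 → HasDerivAt g 0 σ)) →
      f 1 = f 0 := by
    intro E _ _ _ f hf
    refine const_Icc (fun σ hσ => ?_) fun σ hσ => ?_
    · obtain ⟨g, e, c, -⟩ := hf σ hσ
      exact c.congr e (e σ hσ)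
    · obtain ⟨g, e, -, d⟩ := hf σ (Ioo_subset_Icc_self hσ)
      refine (d hσ).congr_of_eventuallyEq ?_
      filter_upwards [Icc_mem_nhds hσ.1 hσ.2] with τ hτ using e τ hτ
  have even : ∀ u ∈ D, ∀ x, inner ℂ x (F 1 (u + Γ u)) = inner ℂ x (F 0 (u + Γ u)) := by
    intro u hu x
    refine cst (fun τ => inner ℂ x (F τ (u + Γ u))) fun σ hσ => ?_
    obtain ⟨G, e, hG⟩ := h σ hσ
    refine ⟨fun τ => inner ℂ x (G τ u + G τ (Γ u)), fun τ hτ => ?_, ?_, fun hσ' => ?_⟩
    · rcases e τ hτ with e | e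
      · simp only [e, map_add]
      · simp only [alt τ _ e, gg, map_add, add_comm]
    · exact continuousWithinAt_const.inner ((hG u hu).1.add (hG _ (hDΓ u hu)).1)
    · exact ((hasDerivAt_const σ x).inner ℂ
        (((hG u hu).2 hσ').add ((hG _ (hDΓ u hu)).2 hσ'))).congr_deriv (by simp)
  have odd : ∀ i j : D × H,
      inner ℂ i.2 (F 1 (i.1 - Γ i.1)) * inner ℂ j.2 (F 1 (j.1 - Γ j.1)) =
      inner ℂ i.2 (F 0 (i.1 - Γ i.1)) * inner ℂ j.2 (F 0 (j.1 - Γ j.1)) := by
    rintro ⟨⟨u, hu⟩, x⟩ ⟨⟨u', hu'⟩, y⟩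
    refine cst (fun τ => inner ℂ x (F τ (u - Γ u)) * inner ℂ y (F τ (u' - Γ u'))) fun σ hσ => ?_
    obtain ⟨G, e, hG⟩ := h σ hσ
    refine ⟨fun τ => inner ℂ x (G τ u - G τ (Γ u)) * inner ℂ y (G τ u' - G τ (Γ u')),
      fun τ hτ => ?_, ?_, fun hσ' => ?_⟩
    · rcases e τ hτ with e | e
      · simp only [e, map_sub]
      · simp only [alt τ _ e, gg, map_sub, inner_sub_right]
        ring
    · exact (continuousWithinAt_const.inner ((hG u hu).1.sub (hG _ (hDΓ u hu)).1)).mul
        (continuousWithinAt_const.inner ((hG u' hu').1.sub (hG _ (hDΓ u' hu')).1))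
    · exact (((hasDerivAt_const σ x).inner ℂ
        (((hG u hu).2 hσ').sub ((hG _ (hDΓ u hu)).2 hσ'))).mul ((hasDerivAt_const σ y).inner ℂ
        (((hG u' hu').2 hσ').sub ((hG _ (hDΓ u' hu')).2 hσ')))).congr_deriv (by simp)
  have fin : ∀ A B : H →L[ℂ] H, (∀ u ∈ D, ∀ x, inner ℂ x (A u) = inner ℂ x (B u)) → A = B := by
    intro A B hAB
    have : (A : H → H) = B := Continuous.ext_on hD A.continuous B.continuous fun v hv =>
      ext_inner_left ℂ (hAB v hv)
    exact DFunLike.coe_injective this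
  rcases pm _ _ odd with e | e
  · left
    refine fin _ _ fun u hu x => ?_
    have a := even u hu x
    have b := e (⟨u, hu⟩, x)
    simp only [map_add, map_sub, inner_add_right, inner_sub_right] at a b
    linear_combination (a + b) / 2
  · right
    refine fin _ _ fun u hu x => ?_
    have a := even u hu x
    have b := e (⟨u, hu⟩, x)
    simp only [map_add, map_sub, inner_add_right, inner_sub_right] at a b
    rw [ContinuousLinearMap.mul_apply, fg]
    linear_combination (a + b) / 2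

end RA

/-- row A -/
theorem rowA (H : Type*) [NormedAddCommGroup H] [InnerProductSpace ℂ H] [CompleteSpace H] :
    RowA H :=
  ⟨RA.ex, RA.sol, RA.uniq, RA.prod,
    fun Γ F D h1 _ hD hF _ hDΓ h => RA.sign Γ F D h1 hD hF hDΓ h⟩

end

end Vale.Agent.Q352
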