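import Vale.Agent.Q352.Spec

/-!
# P352, the global conformal action: the group law
-/

set_option linter.all false

open Filter Topology Set Metric
open Complex (I)

namespace Vale.Agent.Q352

noncomputable section

namespace RAG

theorem sim_zero (s : ℝ) (L : Fin 4 → V) (a : V) : sim s L a 0 = a := by
  funext n
  simp [sim]

theorem sim_smul (g : RowGL) (s : ℝ) (L : Fin 4 → V) (a x : V) :
    sim 1 L a (s • x) = sim s L a x := by
  funext n
  simp only [sim, Pi.smul_apply, smul_eq_mul, one_mul, Finset.mul_sum, mul_assoc]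

theorem sim_inv (g : RowGL) {L : Fin 4 → V} (hL : IsLor L) (x : V) :
    sim 1 L 0 (sim 1 (linv L) 0 x) = x := by
  rw [g.sim_sim, (g.inv L hL).2.2, sim_zero, g.sim_one]
  simp

theorem sim_shift (g : RowGL) (s : ℝ) (L : Fin 4 → V) (a x : V) :
    sim s L a x = sim s L 0 x + a := by
  rw [g.sim_add s L a, g.sim_add s L 0, zero_add, add_comm]

theorem cont_sct (s : ℝ) (L : Fin 4 → V) (b : V) :
    Tendsto (fun x => sim s L 0 (sct b x)) (𝓝 0) (𝓝 0) := by
  have h : ContinuousAt (fun x => sim s L 0 (sct b x)) 0 := by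
    refine continuousAt_pi.2 fun n => ?_
    unfold sim sct den mdot
    fun_prop (disch := simp)
  have e : sim s L 0 (sct b 0) = 0 := by
    have : sct b 0 = 0 := by
      funext n
      simp [sct, mdot]
    rw [this, sim_zero]
  have h2 := h.tendsto
  rwa [e] at h2

/-- the composition of two conformal maps -/
theorem geo (g : RowGL) (c : RowGC) {s s' t : ℝ} {L L' M : Fin 4 → V} {a a' e b b' f : V}
    (hs : 0 < s') (hL : IsLor L') (h : ∀ᶠ x in 𝓝 0, sct b (x + a') = cf (t, M, e, f) x) :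
    ∀ᶠ x in 𝓝 0, cf (s, L, a, b) (cf (s', L', a', b') x) =
      cf (s * (t * s'), mm (mm L' M) L, sim s L a e, s' • sim 1 (linv L') 0 f + b') x := by
  filter_upwards [(cont_sct s' L' b').eventually h, c.add (s' • sim 1 (linv L') 0 f) b'] with x h1 h2
  change sim s L a (sct b (sim s' L' a' (sct b' x))) = sim (s * (t * s')) (mm (mm L' M) L)
    (sim s L a e) (sct (s' • sim 1 (linv L') 0 f + b') x)
  rw [sim_shift g s' L' a', h1]
  change sim s L a (sim t M e (sct f (sim s' L' 0 (sct b' x)))) = _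
  rw [c.cov s' L' f _ hs hL, h2, g.sim_sim t M e, sim_zero, g.sim_sim]

variable {H : Type*} [NormedAddCommGroup H] [InnerProductSpace ℂ H] [CompleteSpace H]
  {K : Frame H}

theorem mulL (g : RowGL) {s s' : ℝ} {L : Fin 4 → V} (a a' : V) (hs : 0 < s) (hs' : 0 < s')
    (hL : IsLor L) (v : H) : K.U s one a (K.U s' L a' v) = K.U (s * s') L (a + s • a') v := by
  rcases K.mul s one a s' L a' hs hs' g.one hL with h | h
  · rw [h, g.sim_mm, (g.one_mm L).2, g.sim_one]
  · exact absurd rfl h.1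

theorem mulR (g : RowGL) {s s' : ℝ} {L : Fin 4 → V} (a a' : V) (hs : 0 < s) (hs' : 0 < s')
    (hL : IsLor L) (v : H) : K.U s L a (K.U s' one a' v) = K.U (s * s') L (sim s L a a') v := by
  rcases K.mul s L a s' one a' hs hs' hL g.one with h | h
  · rw [h, g.sim_mm, (g.one_mm L).1]
  · exact absurd rfl h.2.1

/-- signs -/
def Sg (K : Frame H) (e : H →L[ℂ] H) : Prop := e = 1 ∨ e = K.Γ

theorem Sg.mul {e f : H →L[ℂ] H} (h : Sg K e) (h' : Sg K f) : Sg K (e * f) := by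
  rcases h with rfl | rfl
  · rwa [one_mul]
  · rcases h' with rfl | rfl
    · exact Or.inr (mul_one _)
    · exact Or.inl K.inv

theorem Sg.U {e : H →L[ℂ] H} (h : Sg K e) {L : Fin 4 → V} (hL : IsLor L) (a : V) (v : H) :
    K.U 1 L a (e v) = e (K.U 1 L a v) := by
  rcases h with rfl | rfl
  · rfl
  · exact K.comm 1 L a v one_pos hL

theorem Sg.op {e X : H →L[ℂ] H} (h : Sg K e) (hX : X * K.Γ = K.Γ * X) (v : H) :
    X (e v) = e (X v) := by
  rcases h with rfl | rfl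
  · rfl
  · exact congrArg (fun Y : H →L[ℂ] H => Y v) hX

theorem mulG (g : RowGL) {L L' : Fin 4 → V} (a a' : V) (hL : IsLor L) (hL' : IsLor L') :
    ∃ e, Sg K e ∧ ∀ v, K.U 1 L a (K.U 1 L' a' v) = e (K.U 1 (mm L' L) (sim 1 L a a') v) := by
  rcases K.mul 1 L a 1 L' a' one_pos one_pos hL hL' with h | h
  · exact ⟨1, Or.inl rfl, fun v => by rw [h, g.sim_mm, one_mul]; rfl⟩
  · exact ⟨K.Γ, Or.inr rfl, fun v => by rw [h.2.2, g.sim_mm, one_mul]⟩

theorem split (g : RowGL) {L : Fin 4 → V} (a : V) (hL : IsLor L) (v : H) :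
    K.U 1 L a v = K.U 1 one a (K.U 1 L 0 v) := by
  rw [mulL g a 0 one_pos one_pos hL, one_mul, smul_zero, add_zero]

variable {St : H → (Pm → H) → Prop} {D : ℝ → H →L[ℂ] H} {S : V → H →L[ℂ] H}

theorem DU (g : RowGL) (G : Grp K St D S) (E : Ev K St D S) {L : Fin 4 → V} (hL : IsLor L)
    (τ : ℝ) (a : V) (v : H) : D τ (K.U 1 L a v) = K.U 1 L (Real.exp τ • a) (D τ v) := by
  rw [split g a hL, E.DT, ← G.DU τ 1 L v one_pos hL, ← split g _ hL]

theorem SU (g : RowGL) (G : Grp K St D S) {L : Fin 4 → V} (hL : IsLor L) (b : V) (v : H) :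
    S b (K.U 1 L 0 v) = K.U 1 L 0 (S (sim 1 (linv L) 0 b) v) := by
  rw [G.SU _ 1 L v one_pos hL, sim_inv g hL, inv_one, one_smul]

theorem SD (G : Grp K St D S) {s : ℝ} (hs : 0 < s) (b : V) (v : H) :
    S b (D (Real.log s) v) = D (Real.log s) (S (s • b) v) := by
  have h := congrArg (fun Y : H →L[ℂ] H => Y v) (G.DS (Real.log s) (s • b))
  simp only [ContinuousLinearMap.mul_apply] at h
  rw [h, Real.exp_neg, Real.exp_log hs, smul_smul, inv_mul_cancel₀ hs.ne', one_smul]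

theorem SS (G : Grp K St D S) (b b' : V) (v : H) : S b (S b' v) = S (b + b') v := by
  rw [G.add]
  rfl

theorem DD (G : Grp K St D S) {s t : ℝ} (hs : 0 < s) (ht : 0 < t) (v : H) :
    D (Real.log s) (D (Real.log t) v) = D (Real.log (s * t)) v := by
  rw [Real.log_mul hs.ne' ht.ne', G.dG.add]
  rfl

theorem S0 (G : Grp K St D S) : S 0 = 1 := by
  have h : S ((0 : ℝ) • (0 : V)) = 1 := (G.sG 0).zero
  rwa [smul_zero] at h

/-- the product of two group elements -/
theorem alg (g : RowGL) (G : Grp K St D S) (E : Ev K St D S) {s s' t : ℝ} {L L' M : Fin 4 → V}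
    {a a' e b b' f : V} (hs : 0 < s) (hs' : 0 < s') (ht : 0 < t) (hL : IsLor L) (hL' : IsLor L')
    (hM : IsLor M) {e1 : H →L[ℂ] H} (h1 : Sg K e1)
    (h : ∀ v, S b (K.U 1 one a' v) = e1 (Wf K D S (t, M, e, f) v)) :
    ∃ ε, Sg K ε ∧ ∀ v, Wf K D S (s, L, a, b) (Wf K D S (s', L', a', b') v) =
      ε (Wf K D S (s * (t * s'), mm (mm L' M) L, sim s L a e,
        s' • sim 1 (linv L') 0 f + b') v) := by
  obtain ⟨e2, h2, k2⟩ := mulG (K := K) g e 0 hM hL'
  have hN := g.mul L' M hL' hM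
  obtain ⟨e3, h3, k3⟩ := mulG (K := K) g a (s • e) hL hN
  refine ⟨e1 * (e2 * e3), h1.mul (h2.mul h3), fun v => ?_⟩
  simp only [Wf, ContinuousLinearMap.mul_apply] at h ⊢
  rw [split g a' hL', h, SU g G hL', SD G hs', SS G, ← G.DU _ 1 L' _ one_pos hL', DD G ht hs', k2,
    sim_zero, h1.op (G.DΓ _), h2.op (G.DΓ _), DU g G E hN, Real.exp_log hs,
    DD G hs (mul_pos ht hs'), h1.U hL, h2.U hL, k3, sim_smul g]

end RAG

open RAG in
theorem rowAG (g : RowGL) (c : RowGC) (H : Type*) [NormedAddCommGroup H] [InnerProductSpace ℂ H]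
    [CompleteSpace H] : RowAG H := by
  rintro K St D S ⟨u, -, hu⟩ G E hR
  let W : Pm → H →L[ℂ] H := fun p => u 1 p.2.1 p.2.2.1 * (D (Real.log p.1) * S p.2.2.2)
  have hW : ∀ p, IsLor p.2.1 → ∀ v, W p v = Wf K D S p v := fun p hp v =>
    (hu 1 p.2.1 p.2.2.1 one_pos hp).2 _
  have h1 : Adm e1 := ⟨one_pos, g.one⟩
  refine ⟨W, ?_, ?_, ?_, ?_, ?_, ?_, ?_, ?_⟩
  · intro p hp
    have h : S ((1 : ℝ) • p.2.2.2) ∈ unitary (H →L[ℂ] H) := (G.sG p.2.2.2).uni 1
    rw [one_smul] at h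
    exact mul_mem (hu 1 _ _ one_pos hp.2).1 (mul_mem (G.dG.uni _) h)
  · intro p hp
    rw [hW p hp.2, Wf, G.SΩ, G.DΩ, K.vac _ _ _ one_pos hp.2]
  · intro p hp
    ext v
    have hΓ : Sg K K.Γ := Or.inr rfl
    simp only [ContinuousLinearMap.mul_apply]
    rw [hW p hp.2, hW p hp.2, Wf, Wf, hΓ.op (G.SΓ _), hΓ.op (G.DΓ _), hΓ.U hp.2]
  · intro L a v hL
    rw [hW (1, L, a, 0) hL]
    simp only [Wf]
    rw [Real.log_one, G.dG.zero, S0 G]
    rfl
  · rintro ⟨s, L, a, b⟩ ⟨s', L', a', b'⟩ r hp hq hr hd hc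
    obtain ⟨⟨t, M, e, f⟩, hm, hg, ha⟩ := hR a' b hd
    have ha' : ∃ e1, Sg K e1 ∧ ∀ v, S b (K.U 1 one a' v) = e1 (Wf K D S (t, M, e, f) v) := by
      rcases ha with ha | ha
      · exact ⟨1, Or.inl rfl, ha⟩
      · exact ⟨K.Γ, Or.inr rfl, ha⟩
    obtain ⟨e1, h1, k1⟩ := ha'
    obtain ⟨ε, hε, k⟩ := alg (a := a) (b' := b') g G E hp.1 hq.1 hm.1 hp.2 hq.2 hm.2 h1 k1
    have hA : Adm (s * (t * s'), mm (mm L' M) L, sim s L a e, s' • sim 1 (linv L') 0 f + b') :=
      ⟨mul_pos hp.1 (mul_pos hm.1 hq.1), g.mul _ _ (g.mul _ _ hq.2 hm.2) hp.2⟩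
    have he : r = (s * (t * s'), mm (mm L' M) L, sim s L a e, s' • sim 1 (linv L') 0 f + b') := by
      refine c.uniq _ _ hr hA ?_
      filter_upwards [hc, geo (s := s) (L := L) (a := a) (b' := b') g c hq.1 hq.2 hg] with x x1 x2
      rw [← x1, x2]
    have hk : W (s, L, a, b) * W (s', L', a', b') = ε * W r := by
      ext v
      simp only [ContinuousLinearMap.mul_apply]
      rw [hW _ hp.2, hW _ hq.2, hW _ hr.2, k, he]
    rcases hε with rfl | rfl
    · exact Or.inl (by rw [hk, one_mul])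
    · exact Or.inr hk
  · intro v
    exact (E.cont v).congr (fun p hp => hW p hp.2 v) (hW _ h1.2 v)
  · intro v κ p q hv h0 hp hd
    have : (fun e => W (p e) v) = fun e => Wf K D S (p e) v := funext fun e => hW _ (hp e).2 v
    rw [this]
    exact E.gen v κ p q hv h0 hp hd
  · intro σ s L a b v hσ hp
    rw [hW (s, L, a, b) hp.2, hW (s, L, σ • a, σ⁻¹ • b) hp.2]
    simp only [Wf]
    have e : S (σ⁻¹ • b) (K.U σ one 0 v) = K.U σ one 0 (S b v) := by
      rw [G.SU b σ one v hσ g.one, g.sim_one, zero_add, one_smul]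
    rw [e, ← G.DU _ σ one _ hσ g.one, mulL g 0 a hσ one_pos hp.2,
      mulR g (σ • a) 0 one_pos hσ hp.2, sim_zero, mul_one, one_mul, zero_add]

end

end Vale.Agent.Q352
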