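import Vale.Agent.Q352.Spec
import Vale.Agent.P352.H246.Compl
import Mathlib.Analysis.Calculus.BumpFunction.FiniteDimension

/-!
# P352, the global conformal action: the product rule for words
-/

set_option linter.all false

open Filter Topology Set Metric
open scoped SchwartzMap ContDiff Uniformity

namespace Vale.Agent.Q352

namespace RB

theorem barr : BarrelledSpace ℂ 𝓢(V, ℂ) := by
  have h1 : CompleteSpace 𝓢(V, ℂ) := by
    have := P352.H246.complete_schwartz
    let e := EuclideanSpace.equiv (Fin 4) ℝ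
    let A := SchwartzMap.compCLMOfContinuousLinearEquiv ℂ (F := ℂ) e
    let B := SchwartzMap.compCLMOfContinuousLinearEquiv ℂ (F := ℂ) e.symm
    have hBA : ∀ f : 𝓢(V, ℂ), B (A f) = f := fun f => SchwartzMap.ext fun x => by simp [A, B]
    refine ⟨fun {F} hF => ?_⟩
    obtain ⟨y, hy⟩ := CompleteSpace.complete (hF.map A.uniformContinuous)
    refine ⟨B y, ?_⟩
    have h := (B.continuous.tendsto y).comp (show Tendsto A F (𝓝 y) from hy)
    rw [show (B ∘ A : 𝓢(V, ℂ) → 𝓢(V, ℂ)) = id from funext hBA] at h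
    exact h
  have h2 : (𝓤 𝓢(V, ℂ)).IsCountablyGenerated := IsUniformAddGroup.uniformity_countably_generated
  infer_instance

/-- multiplication by a cutoff -/
theorem exists_cut {C : Set V} (hC : IsCompact C) : ∃ c : 𝓢(V, ℂ) →L[ℂ] 𝓢(V, ℂ),
    (∀ f, HasCompactSupport (c f)) ∧ ∀ f : 𝓢(V, ℂ), (∀ x, x ∉ C → f x = 0) → c f = f := by
  obtain ⟨R, hR, h⟩ := hC.isBounded.subset_closedBall_lt 0 (0 : V)
  let χ : ContDiffBump (0 : V) := ⟨R, R + 1, hR, by linarith⟩
  have h1 : HasCompactSupport fun x => (χ x : ℂ) :=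
    χ.hasCompactSupport.comp_left (g := fun t : ℝ => (t : ℂ)) Complex.ofReal_zero
  have h2 : ContDiff ℝ ∞ fun x => (χ x : ℂ) := Complex.ofRealCLM.contDiff.comp χ.contDiff
  have h3 := h1.hasTemperateGrowth h2
  refine ⟨SchwartzMap.smulLeftCLM ℂ fun x => (χ x : ℂ), fun f => ?_, fun f hf => ?_⟩
  · rw [SchwartzMap.smulLeftCLM_apply h3]
    exact h1.smul_right
  · ext x
    rw [SchwartzMap.smulLeftCLM_apply_apply h3]
    by_cases hx : x ∈ C
    · rw [χ.one_of_mem_closedBall (h hx), Complex.ofReal_one, one_smul]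
    · rw [hf x hx, smul_zero]

variable {E : Type*} [NormedAddCommGroup E] [InnerProductSpace ℂ E]

theorem adj_add {Z : E → E} (h : Adjb Z) (v w : E) : Z (v + w) = Z v + Z w := by
  obtain ⟨Z', h⟩ := h
  exact ext_inner_right ℂ fun u => by rw [inner_add_left, h, h, h, inner_add_left]

theorem adj_sub {Z : E → E} (h : Adjb Z) (v w : E) : Z (v - w) = Z v - Z w := by
  rw [eq_sub_iff_add_eq, ← adj_add h, sub_add_cancel]

theorem adj_smul {Z : E → E} (h : Adjb Z) (c : ℂ) (v : E) : Z (c • v) = c • Z v := by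
  obtain ⟨Z', h⟩ := h
  exact ext_inner_right ℂ fun u => by rw [inner_smul_left, h, h, inner_smul_left]

theorem adj_comp {Z W : E → E} (h : Adjb Z) (k : Adjb W) : Adjb fun v => Z (W v) := by
  obtain ⟨Z', h⟩ := h
  obtain ⟨W', k⟩ := k
  exact ⟨fun v => W' (Z' v), fun v w => by rw [h, k]⟩

/-- the operators applied to a fixed vector depend continuously on the test function -/
theorem exists_clm {A : Fn → E → E} (hA : Lt A) {Z : E → E} (hZ : Adjb Z)
    (c : 𝓢(V, ℂ) →L[ℂ] 𝓢(V, ℂ)) (hc : ∀ f, HasCompactSupport (c f)) (x : E) :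
    ∃ T : 𝓢(V, ℂ) →L[ℂ] E, ∀ f, T f = Z (A (c f) x) := by
  have cs : ∀ f, CS (c f) := fun f => ⟨⟨_, rfl⟩, hc f⟩
  have h1 : ∀ f g (a : ℂ), A (c (f + a • g)) x = A (c f) x + a • A (c g) x := fun f g a => by
    rw [← hA.lin _ _ a x (cs f) (cs g), map_add, map_smul]
    rfl
  have h0 : A (c 0) x = 0 := by simpa using h1 0 0 1
  let B : 𝓢(V, ℂ) →ₗ[ℂ] E :=
    { toFun := fun f => A (c f) x
      map_add' := fun f g => by simpa using h1 f g 1
      map_smul' := fun a g => by
        have := h1 0 g a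
        rwa [zero_add, h0, zero_add] at this }
  have hB : Continuous B := by
    obtain ⟨q, hq, h⟩ := hA.bdd x
    refine continuous_of_continuousAt_zero B ?_
    unfold ContinuousAt
    rw [map_zero, tendsto_zero_iff_norm_tendsto_zero]
    have h2 := (hq.comp c.continuous).tendsto 0
    simp only [Function.comp_apply, map_zero] at h2
    exact squeeze_zero (fun _ => norm_nonneg _) (fun f => h (c f) (hc f)) h2
  let T : 𝓢(V, ℂ) →ₗ[ℂ] E :=
    { toFun := fun f => Z (B f)
      map_add' := fun f g => by rw [map_add, adj_add hZ]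
      map_smul' := fun a g => by rw [map_smul, adj_smul hZ]; rfl }
  have := barr
  obtain ⟨Z', hZ'⟩ := hZ
  refine ⟨⟨T, P352.H246.cont_of_weak T dense_univ fun z _ => ?_⟩, fun f => rfl⟩
  have e : ∀ f, inner ℂ z (T f) = inner ℂ (Z' z) (B f) := fun f => by
    rw [← inner_conj_symm, ← inner_conj_symm (Z' z), ← hZ']
    rfl
  simp only [e]
  exact continuous_const.inner hB

/-- a consequence of the theorem of Banach and Steinhaus -/
theorem bs {l : Filter ℝ} [l.IsCountablyGenerated] (T : ℝ → 𝓢(V, ℂ) →L[ℂ] E)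
    (hT : ∀ f, Tendsto (fun σ => T σ f) l (𝓝 0)) {g : ℝ → 𝓢(V, ℂ)} {f' : 𝓢(V, ℂ)}
    (hg : Tendsto g l (𝓝 f')) : Tendsto (fun σ => T σ (g σ)) l (𝓝 0) := by
  have := barr
  refine tendsto_of_seq_tendsto fun u hu => ?_
  have h1 := (norm_withSeminorms ℂ E).banach_steinhaus (𝓕 := fun k => T (u k)) fun _ f =>
    ((hT f).comp hu).norm.bddAbove_range
  have h2 := Metric.equicontinuousAt_iff_right.1 (h1.equicontinuous f')
  refine Metric.tendsto_nhds.2 fun ε hε => ?_
  filter_upwards [(hg.comp hu).eventually (h2 _ (half_pos hε)),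
    Metric.tendsto_nhds.1 ((hT f').comp hu) _ (half_pos hε)] with k h3 h4
  have h5 := dist_triangle_left (T (u k) (g (u k))) 0 (T (u k) f')
  have h6 : dist (T (u k) f') (T (u k) (g (u k))) < ε / 2 := h3 k
  have h7 : dist (T (u k) f') 0 < ε / 2 := h4
  show dist (T (u k) (g (u k))) 0 < ε
  linarith

end RB

open RB in
theorem rowB (hC : RowC) (E : Type*) [NormedAddCommGroup E] [InnerProductSpace ℂ E] : RowB E := by
  intro A J F F' y y' τ hA hJ hτ hF hF' hy Z hZ
  obtain ⟨f, f', hf, hf', hl⟩ := hC J F F' τ hJ hτ hF hF'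
  obtain ⟨C, hC1, hC2⟩ := hF.supp
  obtain ⟨c, hc, hc'⟩ := exists_cut hC1
  have z1 : ∀ σ ∈ J, ∀ x, x ∉ C → F σ x = 0 := fun σ hσ x hx =>
    image_eq_zero_of_notMem_tsupport fun h => hx (hC2 σ hσ h)
  have e1 : ∀ σ ∈ J, ⇑(c (f σ)) = F σ := fun σ hσ => by
    rw [hc' _ fun x hx => by rw [hf σ hσ, z1 σ hσ x hx], hf σ hσ]
  have e2 : ⇑(c f') = F' := by
    rw [hc' _ fun x hx => ?_, hf']
    rw [hf']
    refine (hF' x).unique ((hasDerivAt_const τ (0 : ℂ)).congr_of_eventuallyEq ?_)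
    filter_upwards [hJ.mem_nhds hτ] with σ hσ using z1 σ hσ x hx
  choose T hT using exists_clm hA hZ c hc
  have a1 : ∀ g, Adjb fun v => Z (A (c g) v) := fun g => adj_comp hZ (hA.adj _ ⟨⟨_, rfl⟩, hc g⟩)
  have t1 := hasDerivAt_iff_tendsto_slope.1 (hy _ (a1 (f τ)))
  have t2 := ((T (y τ)).continuous.tendsto f').comp hl
  have t3 := bs (l := 𝓝[≠] τ) (fun σ => T (y σ) - T (y τ)) (fun g => by
    have h := (hy _ (a1 g)).continuousAt.tendsto.sub_const (Z (A (c g) (y τ)))
    rw [sub_self] at h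
    refine (h.mono_left nhdsWithin_le_nhds).congr fun σ => ?_
    rw [ContinuousLinearMap.sub_apply, hT, hT]) hl
  have t4 := (t2.add t1).add t3
  rw [hT, e2, e1 τ hτ, add_zero, ← adj_add hZ] at t4
  refine hasDerivAt_iff_tendsto_slope.2 (t4.congr' ?_)
  filter_upwards [mem_nhdsWithin_of_mem_nhds (hJ.mem_nhds hτ)] with σ hσ
  simp only [slope, vsub_eq_sub, Function.comp_apply, ContinuousLinearMap.sub_apply,
    ContinuousLinearMap.map_smul_of_tower, map_sub]
  simp only [hT, e1 σ hσ, e1 τ hτ, smul_sub]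
  abel

end Vale.Agent.Q352
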