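import Vale.Agent.Q352.Spec

/-!
# P352, row C: differentiable curves in Schwartz space
-/

set_option linter.all false

open Filter Topology Set Metric
open scoped SchwartzMap ContDiff

namespace Vale.Agent.Q352

noncomputable section

namespace RowC

section gen

variable {G : Type} [NormedAddCommGroup G] [NormedSpace ℝ G]

/-- derivative in the parameter -/
def dt (Φ : ℝ × V → G) (z : ℝ × V) : G := fderiv ℝ Φ z (1, 0)

/-- derivative in the space variable -/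
def d1 (Φ : ℝ × V → G) (z : ℝ × V) : V →L[ℝ] G :=
  (fderiv ℝ Φ z).comp (ContinuousLinearMap.inr ℝ ℝ V)

/-- higher derivatives in the space variable -/
def dx (n : ℕ) (Φ : ℝ × V → G) (z : ℝ × V) : V [×n]→L[ℝ] G :=
  iteratedFDeriv ℝ n (fun x => Φ (z.1, x)) z.2

theorem fd_smooth {Φ : ℝ × V → G} (h : ContDiff ℝ ∞ Φ) : ContDiff ℝ ∞ (fderiv ℝ Φ) :=
  h.fderiv_right (by simp)

theorem dt_smooth {Φ : ℝ × V → G} (h : ContDiff ℝ ∞ Φ) : ContDiff ℝ ∞ (dt Φ) :=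
  (fd_smooth h).clm_apply contDiff_const

theorem d1_smooth {Φ : ℝ × V → G} (h : ContDiff ℝ ∞ Φ) : ContDiff ℝ ∞ (d1 Φ) :=
  (fd_smooth h).clm_comp contDiff_const

theorem sl_smooth {Φ : ℝ × V → G} (h : ContDiff ℝ ∞ Φ) (σ : ℝ) :
    ContDiff ℝ ∞ fun x => Φ (σ, x) :=
  h.comp (contDiff_const.prodMk contDiff_id)

theorem dt_has {Φ : ℝ × V → G} (h : ContDiff ℝ ∞ Φ) (σ : ℝ) (x : V) :
    HasDerivAt (fun s => Φ (s, x)) (dt Φ (σ, x)) σ := by
  have h1 : HasFDerivAt Φ (fderiv ℝ Φ (σ, x)) (σ, x) :=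
    (h.differentiable (by simp) (σ, x)).hasFDerivAt
  have h2 : HasDerivAt (fun s : ℝ => (s, x)) ((1 : ℝ), (0 : V)) σ :=
    (hasDerivAt_id σ).prodMk (hasDerivAt_const σ x)
  exact h1.comp_hasDerivAt σ h2

theorem d1_has {Φ : ℝ × V → G} (h : ContDiff ℝ ∞ Φ) (σ : ℝ) (x : V) :
    HasFDerivAt (fun y => Φ (σ, y)) (d1 Φ (σ, x)) x := by
  have h1 : HasFDerivAt Φ (fderiv ℝ Φ (σ, x)) (σ, x) :=
    (h.differentiable (by simp) (σ, x)).hasFDerivAt
  exact h1.comp x (hasFDerivAt_prodMk_right σ x)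

theorem dt_d1 {Φ : ℝ × V → G} (h : ContDiff ℝ ∞ Φ) : dt (d1 Φ) = d1 (dt Φ) := by
  funext z
  have hs : IsSymmSndFDerivAt ℝ Φ z :=
    ((contDiff_infty.1 h 2).contDiffAt (x := z)).isSymmSndFDerivAt (by simp)
  have h1 : HasFDerivAt (fderiv ℝ Φ) (fderiv ℝ (fderiv ℝ Φ) z) z :=
    ((fd_smooth h).differentiable (by simp) z).hasFDerivAt
  have h2 := h1.clm_comp (hasFDerivAt_const (ContinuousLinearMap.inr ℝ ℝ V) z)
  have h3 := h1.clm_apply (hasFDerivAt_const ((1 : ℝ), (0 : V)) z)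
  have e2 : fderiv ℝ (d1 Φ) z = _ := h2.fderiv
  have e3 : fderiv ℝ (dt Φ) z = _ := h3.fderiv
  ext v
  show fderiv ℝ (d1 Φ) z (1, 0) v = fderiv ℝ (dt Φ) z (0, v)
  rw [e2, e3]
  simpa using hs (1, 0) (0, v)

theorem dx_succ {Φ : ℝ × V → G} (h : ContDiff ℝ ∞ Φ) (n : ℕ) (z : ℝ × V) :
    dx (n + 1) Φ z = (continuousMultilinearCurryRightEquiv' ℝ n V G).symm (dx n (d1 Φ) z) := by
  unfold dx
  rw [iteratedFDeriv_succ_eq_comp_right]
  have : (fun y => fderiv ℝ (fun x => Φ (z.1, x)) y) = fun y => d1 Φ (z.1, y) :=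
    funext fun y => (d1_has h z.1 y).fderiv
  rw [this]
  rfl

end gen

theorem dx_main (n : ℕ) : ∀ (G : Type) [NormedAddCommGroup G] [NormedSpace ℝ G]
    (Φ : ℝ × V → G), ContDiff ℝ ∞ Φ → Continuous (dx n Φ) ∧
      ∀ σ x, HasDerivAt (fun s => dx n Φ (s, x)) (dx n (dt Φ) (σ, x)) σ := by
  induction n with
  | zero =>
    intro G _ _ Φ h
    refine ⟨(continuousMultilinearCurryFin0 ℝ V G).symm.continuous.comp h.continuous, ?_⟩
    intro σ x
    exact (continuousMultilinearCurryFin0 ℝ V G).symm.toContinuousLinearEquiv.hasFDerivAt.comp_hasDerivAt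
      σ (dt_has h σ x)
  | succ n ih =>
    intro G _ _ Φ h
    obtain ⟨h1, h2⟩ := ih _ (d1 Φ) (d1_smooth h)
    have e : dx (n + 1) Φ = fun z =>
        (continuousMultilinearCurryRightEquiv' ℝ n V G).symm (dx n (d1 Φ) z) :=
      funext (dx_succ h n)
    refine ⟨?_, fun σ x => ?_⟩
    · rw [e]
      exact (continuousMultilinearCurryRightEquiv' ℝ n V G).symm.continuous.comp h1
    · rw [e, dx_succ (dt_smooth h), ← dt_d1 h]
      exact (continuousMultilinearCurryRightEquiv' ℝ n V G).symm.toContinuousLinearEquiv.hasFDerivAt.comp_hasDerivAt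
        σ (h2 σ x)

/-- second order Taylor estimate -/
theorem taylor {E : Type*} [NormedAddCommGroup E] [NormedSpace ℝ E] (h h' h'' : ℝ → E) (τ σ M : ℝ)
    (h1 : ∀ s, HasDerivAt h (h' s) s) (h2 : ∀ s, HasDerivAt h' (h'' s) s)
    (hM : ∀ s ∈ closedBall τ 1, ‖h'' s‖ ≤ M) (hσ : |σ - τ| ≤ 1) :
    ‖h σ - h τ - (σ - τ) • h' τ‖ ≤ M * |σ - τ| * |σ - τ| := by
  have hM0 : 0 ≤ M := (norm_nonneg _).trans (hM τ (mem_closedBall_self zero_le_one))
  have A : ∀ s ∈ closedBall τ |σ - τ|, ‖h' s - h' τ‖ ≤ M * |σ - τ| := by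
    intro s hs
    have := (convex_closedBall τ 1).norm_image_sub_le_of_norm_hasDerivWithin_le
      (fun t _ => (h2 t).hasDerivWithinAt) hM (mem_closedBall_self zero_le_one)
      (closedBall_subset_closedBall hσ hs)
    refine this.trans (mul_le_mul_of_nonneg_left ?_ hM0)
    simpa [dist_eq_norm] using hs
  have B := (convex_closedBall τ |σ - τ|).norm_image_sub_le_of_norm_hasDerivWithin_le
    (f := fun s => h s - (s - τ) • h' τ) (f' := fun s => h' s - h' τ)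
    (fun t _ => by
      have := (h1 t).sub (((hasDerivAt_id t).sub_const τ).smul_const (h' τ))
      rw [one_smul] at this
      exact this.hasDerivWithinAt) A (mem_closedBall_self (abs_nonneg _))
    (show σ ∈ closedBall τ |σ - τ| by simp [dist_eq_norm])
  simp only [sub_self, zero_smul, sub_zero, Real.norm_eq_abs] at B
  have e : h σ - h τ - (σ - τ) • h' τ = h σ - (σ - τ) • h' τ - h τ := by abel
  rw [e]
  exact B

theorem retract (J : Set ℝ) (τ : ℝ) (hJ : IsOpen J) (hτ : τ ∈ J) :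
    ∃ ρ : ℝ → ℝ, ContDiff ℝ ∞ ρ ∧ (∀ σ, ρ σ ∈ J) ∧ ∀ᶠ σ in 𝓝 τ, ρ σ = σ := by
  obtain ⟨δ, hδ, hb⟩ := Metric.isOpen_iff.1 hJ τ hτ
  let χ : ContDiffBump τ := ⟨δ / 2, δ, by positivity, by linarith⟩
  refine ⟨fun σ => τ + χ σ * (σ - τ), ?_, fun σ => hb ?_, ?_⟩
  · exact contDiff_const.add (χ.contDiff.mul (contDiff_id.sub contDiff_const))
  · rw [mem_ball, Real.dist_eq, add_sub_cancel_left, abs_mul]
    by_cases hs : σ ∈ ball τ δ
    · rw [mem_ball, Real.dist_eq] at hs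
      have h1 : |χ σ| ≤ 1 := by rw [abs_of_nonneg χ.nonneg]; exact χ.le_one
      calc |χ σ| * |σ - τ| ≤ 1 * |σ - τ| := mul_le_mul_of_nonneg_right h1 (abs_nonneg _)
        _ < δ := by rwa [one_mul]
    · have : χ σ = 0 := χ.zero_of_le_dist (by simpa using hs)
      simpa [this] using hδ
  · filter_upwards [χ.eventuallyEq_one] with σ hσ
    simp only [Pi.one_apply] at hσ
    rw [hσ]; ring

end RowC

open RowC in
theorem rowC : RowC := by
  classical
  intro J F F' τ hJ hτ hF hF'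
  obtain ⟨C, hC, hs⟩ := hF.supp
  obtain ⟨ρ, hρ, hρJ, hρe⟩ := retract J τ hJ hτ
  let Φ : ℝ × V → ℂ := fun z => F (ρ z.1) z.2
  have hΦ : ContDiff ℝ ∞ Φ :=
    hF.smooth.comp_contDiff ((hρ.comp contDiff_fst).prodMk contDiff_snd)
      (fun z => ⟨hρJ z.1, mem_univ _⟩)
  have hz : ∀ σ ∈ J, ∀ x, x ∉ C → F σ x = 0 := fun σ hσ x hx =>
    image_eq_zero_of_notMem_tsupport fun h => hx (hs σ hσ h)
  have hsm : ∀ σ ∈ J, ContDiff ℝ ∞ (F σ) := fun σ hσ =>
    hF.smooth.comp_contDiff (contDiff_const.prodMk contDiff_id) (fun x => ⟨hσ, mem_univ _⟩)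
  have hcs : ∀ σ ∈ J, HasCompactSupport (F σ) := fun σ hσ =>
    HasCompactSupport.intro hC (hz σ hσ)
  have hρτ : ρ τ = τ := hρe.self_of_nhds
  have e' : F' = fun x => dt Φ (τ, x) := by
    funext x
    refine (hF' x).unique ((dt_has hΦ τ x).congr_of_eventuallyEq ?_)
    filter_upwards [hρe] with σ hσ
    show F σ x = F (ρ σ) x
    rw [hσ]
  have hz' : ∀ x, x ∉ C → F' x = 0 := by
    intro x hx
    refine (hF' x).unique ((hasDerivAt_const τ (0 : ℂ)).congr_of_eventuallyEq ?_)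
    filter_upwards [hJ.mem_nhds hτ] with σ hσ using hz σ hσ x hx
  have hsm' : ContDiff ℝ ∞ F' := e' ▸ sl_smooth (dt_smooth hΦ) τ
  let f : ℝ → 𝓢(V, ℂ) := fun σ =>
    if h : σ ∈ J then (hcs σ h).toSchwartzMap (hsm σ h) else 0
  have hf : ∀ σ ∈ J, ⇑(f σ) = F σ := by
    intro σ hσ
    simp only [f, dif_pos hσ]
    rfl
  let f' : 𝓢(V, ℂ) := (HasCompactSupport.intro hC hz').toSchwartzMap hsm'
  have hf' : ⇑f' = F' := rfl
  refine ⟨f, f', hf, hf', ?_⟩
  rw [(schwartz_withSeminorms ℝ V ℂ).tendsto_nhds]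
  rintro ⟨k, n⟩ ε hε
  obtain ⟨-, d0⟩ := dx_main n ℂ Φ hΦ
  obtain ⟨-, d1⟩ := dx_main n ℂ (dt Φ) (dt_smooth hΦ)
  obtain ⟨c2, -⟩ := dx_main n ℂ (dt (dt Φ)) (dt_smooth (dt_smooth hΦ))
  obtain ⟨M, hM⟩ := ((isCompact_closedBall τ 1).prod hC).exists_bound_of_continuousOn
    c2.continuousOn
  obtain ⟨R, hR⟩ := hC.exists_bound_of_continuousOn
    (f := fun x : V => ‖x‖ ^ k) (by fun_prop)
  have hlim : Tendsto (fun σ => |R| * (|M| * |σ - τ|)) (𝓝 τ) (𝓝 (|R| * (|M| * |τ - τ|))) :=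
    Continuous.tendsto (by fun_prop) τ
  simp only [sub_self, abs_zero, mul_zero] at hlim
  have h1 : ∀ᶠ σ in 𝓝 τ, |σ - τ| ≤ 1 := by
    filter_upwards [closedBall_mem_nhds τ one_pos] with σ hσ
    simpa [dist_eq_norm] using hσ
  filter_upwards [nhdsWithin_le_nhds (hlim.eventually (gt_mem_nhds hε)), nhdsWithin_le_nhds h1,
    nhdsWithin_le_nhds hρe, nhdsWithin_le_nhds (hJ.mem_nhds hτ), self_mem_nhdsWithin]
    with σ a1 a2 a3 a4 a5
  refine lt_of_le_of_lt ?_ a1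
  have hne : σ - τ ≠ 0 := sub_ne_zero.2 a5
  refine SchwartzMap.seminorm_le_bound ℝ k n _ (by positivity) fun x => ?_
  have ec : ⇑((σ - τ)⁻¹ • (f σ - f τ) - f') = (σ - τ)⁻¹ • (F σ - F τ) - F' := by
    rw [← hf σ a4, ← hf τ hτ, ← hf']
    rfl
  rw [ec]
  by_cases hx : x ∈ C
  · have s1 : ContDiffAt ℝ n (F σ) x := ((hsm σ a4).of_le (by exact_mod_cast le_top)).contDiffAt
    have s2 : ContDiffAt ℝ n (F τ) x := ((hsm τ hτ).of_le (by exact_mod_cast le_top)).contDiffAt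
    have s3 : ContDiffAt ℝ n F' x := (hsm'.of_le (by exact_mod_cast le_top)).contDiffAt
    have s4 : ContDiffAt ℝ n (F σ - F τ) x := s1.sub s2
    have s5 : ContDiffAt ℝ n ((σ - τ)⁻¹ • (F σ - F τ)) x := s4.const_smul (σ - τ)⁻¹
    rw [iteratedFDeriv_sub_apply s5 s3, iteratedFDeriv_const_smul_apply s4,
      iteratedFDeriv_sub_apply s1 s2]
    have T := taylor (fun s => dx n Φ (s, x)) (fun s => dx n (dt Φ) (s, x))
      (fun s => dx n (dt (dt Φ)) (s, x)) τ σ |M| (fun s => d0 s x) (fun s => d1 s x)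
      (fun s hs => (hM (s, x) ⟨hs, hx⟩).trans (le_abs_self M)) a2
    have q1 : dx n Φ (σ, x) = iteratedFDeriv ℝ n (F σ) x := by
      show iteratedFDeriv ℝ n (fun y => F (ρ σ) y) x = _
      rw [a3]
    have q2 : dx n Φ (τ, x) = iteratedFDeriv ℝ n (F τ) x := by
      show iteratedFDeriv ℝ n (fun y => F (ρ τ) y) x = _
      rw [hρτ]
    have q3 : dx n (dt Φ) (τ, x) = iteratedFDeriv ℝ n F' x := by
      rw [e']
      rfl
    simp only [q1, q2, q3] at T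
    have hp : 0 < |σ - τ| := abs_pos.2 hne
    have q4 : (σ - τ)⁻¹ • (iteratedFDeriv ℝ n (F σ) x - iteratedFDeriv ℝ n (F τ) x) -
        iteratedFDeriv ℝ n F' x = (σ - τ)⁻¹ • (iteratedFDeriv ℝ n (F σ) x -
          iteratedFDeriv ℝ n (F τ) x - (σ - τ) • iteratedFDeriv ℝ n F' x) := by
      rw [smul_sub (σ - τ)⁻¹ _ ((σ - τ) • _), smul_smul, inv_mul_cancel₀ hne, one_smul]
    rw [q4, norm_smul, norm_inv, Real.norm_eq_abs]
    refine mul_le_mul (((le_abs_self _).trans (hR x hx)).trans (le_abs_self R)) ?_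
      (by positivity) (abs_nonneg _)
    rw [inv_mul_le_iff₀ hp, mul_comm]
    exact T
  · have : ((σ - τ)⁻¹ • (F σ - F τ) - F') =ᶠ[𝓝 x] fun _ => 0 := by
      filter_upwards [hC.isClosed.isOpen_compl.mem_nhds hx] with y hy
      simp [hz σ a4 y hy, hz τ hτ y hy, hz' y hy]
    rw [(this.iteratedFDeriv ℝ n).self_of_nhds]
    simp only [iteratedFDeriv_fun_zero, Pi.zero_apply, norm_zero, mul_zero]
    positivity

end

end Vale.Agent.Q352
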