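import Vale.Agent.Q352.Spec
import Mathlib.Analysis.SpecialFunctions.Exponential
import Mathlib.Topology.ContinuousMap.Units

set_option linter.all false

open Filter Topology Set Metric
open scoped ContDiff

namespace Vale.Agent.Q352

noncomputable section

namespace RowD

/-! ### algebra of the Minkowski product -/

lemma mdot_eq (x y : V) : mdot x y = x 0 * y 0 - x 1 * y 1 - x 2 * y 2 - x 3 * y 3 := by
  simp [mdot, eta, Fin.sum_univ_four]; ring

lemma mdot_smul_left (s : ℝ) (x y : V) : mdot (s • x) y = s * mdot x y := by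
  simp only [mdot_eq, Pi.smul_apply, smul_eq_mul]; ring

lemma mdot_smul_right (s : ℝ) (x y : V) : mdot x (s • y) = s * mdot x y := by
  simp only [mdot_eq, Pi.smul_apply, smul_eq_mul]; ring

lemma abs_mdot_le (x y : V) : |mdot x y| ≤ 4 * ‖x‖ * ‖y‖ := by
  have h : ∀ i, |x i * y i| ≤ ‖x‖ * ‖y‖ := fun i => by
    rw [abs_mul]
    exact mul_le_mul (norm_le_pi_norm x i) (norm_le_pi_norm y i) (abs_nonneg _) (norm_nonneg _)
  have h0 := abs_le.1 (h 0)
  have h1 := abs_le.1 (h 1)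
  have h2 := abs_le.1 (h 2)
  have h3 := abs_le.1 (h 3)
  rw [mdot_eq, abs_le]
  constructor <;> nlinarith

lemma den_smul (s : ℝ) (b x : V) :
    den (s • b) x = 1 - 2 * s * mdot b x + s ^ 2 * (mdot b b * mdot x x) := by
  simp only [den, mdot_smul_left, mdot_smul_right]; ring

lemma sct_eq (b x : V) : sct b x = (den b x)⁻¹ • (x - mdot x x • b) := by
  funext n
  simp only [sct, Pi.smul_apply, Pi.sub_apply, smul_eq_mul]
  rw [div_eq_inv_mul]

lemma mdot_sct (s : ℝ) (b x : V) :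
    mdot b (sct (s • b) x) = (mdot b x - s * (mdot b b * mdot x x)) / den (s • b) x := by
  rw [sct_eq, mdot_smul_right, div_eq_inv_mul]
  congr 1
  generalize mdot x x = X
  simp only [mdot_eq, Pi.smul_apply, Pi.sub_apply, smul_eq_mul]; ring

lemma mdot_sct_sct (b x : V) (h : den b x ≠ 0) :
    mdot (sct b x) (sct b x) = mdot x x / den b x := by
  rw [sct_eq, mdot_smul_right, mdot_smul_left]
  have : mdot (x - mdot x x • b) (x - mdot x x • b) = mdot x x * den b x := by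
    unfold den
    simp only [mdot_eq, Pi.smul_apply, Pi.sub_apply, smul_eq_mul]; ring
  rw [this]; field_simp

lemma den_sct (s t : ℝ) (b x : V) (h : den (s • b) x ≠ 0) :
    den (t • b) (sct (s • b) x) = den ((s + t) • b) x / den (s • b) x := by
  rw [den_smul t, mdot_sct, mdot_sct_sct _ _ h, den_smul (s + t), eq_div_iff h]
  field_simp
  rw [den_smul]; ring

lemma sct_sct (s t : ℝ) (b x : V) (h : den (s • b) x ≠ 0) :
    sct (t • b) (sct (s • b) x) = sct ((s + t) • b) x := by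
  funext n
  have e : ∀ β y, sct β y n = (y n - mdot y y * β n) / den β y := fun _ _ => rfl
  rw [e (t • b), den_sct s t b x h, mdot_sct_sct _ _ h, e, e]
  simp only [Pi.smul_apply, smul_eq_mul]
  by_cases h' : den ((s + t) • b) x = 0
  · simp [h']
  · field_simp; ring

lemma sct_zero (x : V) : sct 0 x = x := by
  funext n
  simp [sct, den, mdot]

lemma wd_sct (s : ℝ) (b x : V) : wd (sct (s • b) x) b = (den (s • b) x)⁻¹ • wd x b := by
  funext m n
  simp only [wd, sct, Pi.smul_apply, smul_eq_mul]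
  rw [div_eq_inv_mul, div_eq_inv_mul]; ring

lemma kil_pK (b x : V) : kil (pK b) x = (2 * mdot b x) • x - mdot x x • b := by
  funext n
  simp [kil, pK]

lemma kil_pD (x : V) : kil pD x = x := by
  funext n
  simp [kil, pD, mdot]

/-! ### estimates -/

lemma est {b x : V} {ρ T s : ℝ} (hρ : 0 < ρ) (hb : ρ * T * ‖b‖ ≤ 1 / 100) (hs : |s| ≤ T)
    (hx : ‖x‖ ≤ 3 * ρ) : |s| * ‖b‖ * ‖x‖ ≤ 3 / 100 := by
  have h1 : |s| * ‖b‖ * ‖x‖ ≤ T * ‖b‖ * (3 * ρ) :=
    mul_le_mul (mul_le_mul_of_nonneg_right hs (norm_nonneg _)) hx (norm_nonneg _)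
      (mul_nonneg ((abs_nonneg s).trans hs) (norm_nonneg _))
  nlinarith

lemma den_bounds {b x : V} {s : ℝ} (h : |s| * ‖b‖ * ‖x‖ ≤ 3 / 100) :
    7 / 10 ≤ den (s • b) x ∧ den (s • b) x ≤ 126 / 100 := by
  have e0 : 0 ≤ |s| * ‖b‖ * ‖x‖ := by positivity
  have h1 : |s * mdot b x| ≤ 12 / 100 := by
    rw [abs_mul]
    have := mul_le_mul_of_nonneg_left (abs_mdot_le b x) (abs_nonneg s)
    nlinarith
  have h2 : |s ^ 2 * (mdot b b * mdot x x)| ≤ 144 / 10000 := by
    rw [abs_mul, abs_mul, abs_pow]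
    have a1 := abs_mdot_le b b
    have a2 := abs_mdot_le x x
    have a3 : |mdot b b| * |mdot x x| ≤ (4 * ‖b‖ * ‖b‖) * (4 * ‖x‖ * ‖x‖) :=
      mul_le_mul a1 a2 (abs_nonneg _) (by positivity)
    have a4 := mul_le_mul_of_nonneg_left a3 (sq_nonneg |s|)
    have a5 : (|s| * ‖b‖ * ‖x‖) * (|s| * ‖b‖ * ‖x‖) ≤ 3 / 100 * (3 / 100) :=
      mul_le_mul h h e0 (by norm_num)
    nlinarith
  rw [den_smul]
  have := abs_le.1 h1
  have := abs_le.1 h2
  constructor <;> nlinarith

lemma norm_sct_ge {b x : V} {s : ℝ} (h : |s| * ‖b‖ * ‖x‖ ≤ 3 / 100) :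
    2 / 3 * ‖x‖ ≤ ‖sct (s • b) x‖ := by
  obtain ⟨h1, h2⟩ := den_bounds h
  have hp : 0 < den (s • b) x := by linarith
  have a1 : ‖mdot x x • s • b‖ ≤ 12 / 100 * ‖x‖ := by
    rw [norm_smul, norm_smul, Real.norm_eq_abs, Real.norm_eq_abs]
    have := mul_le_mul_of_nonneg_right (abs_mdot_le x x) (mul_nonneg (abs_nonneg s) (norm_nonneg b))
    have := mul_le_mul_of_nonneg_right h (norm_nonneg x)
    nlinarith
  have a2 : 88 / 100 * ‖x‖ ≤ ‖x - mdot x x • s • b‖ := by
    have := norm_sub_norm_le x (mdot x x • s • b)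
    linarith
  rw [sct_eq, norm_smul, Real.norm_eq_abs, abs_of_pos (inv_pos.2 hp), ← div_eq_inv_mul,
    le_div_iff₀ hp]
  have := norm_nonneg x
  nlinarith

/-! ### smoothness -/

lemma contDiff_mdot : ContDiff ℝ ∞ fun z : V × V => mdot z.1 z.2 := by
  simp only [mdot_eq]
  fun_prop

/-- integration of continuous functions on the unit interval -/
def intI : C(Icc (0 : ℝ) 1, ℝ) →L[ℝ] ℝ :=
  LinearMap.mkContinuous
    { toFun := fun f => ∫ u in (0 : ℝ)..1, f (projIcc 0 1 zero_le_one u)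
      map_add' := fun f g => by
        simp only [ContinuousMap.add_apply]
        exact intervalIntegral.integral_add
          ((f.continuous.comp continuous_projIcc).intervalIntegrable _ _)
          ((g.continuous.comp continuous_projIcc).intervalIntegrable _ _)
      map_smul' := fun c f => by
        simp only [ContinuousMap.smul_apply, RingHom.id_apply]
        exact intervalIntegral.integral_smul _ _ } 1 fun f => by
    have := intervalIntegral.norm_integral_le_of_norm_le_const (a := 0) (b := 1) (C := ‖f‖)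
      (f := fun u => f (projIcc 0 1 zero_le_one u)) fun u _ => f.norm_coe_le_norm _
    simpa using this

/-- the coordinate -/
def uu : C(Icc (0 : ℝ) 1, ℝ) := ⟨fun u => u.1, continuous_subtype_val⟩

/-- the quadratic polynomial -/
def qp (p q : ℝ) : C(Icc (0 : ℝ) 1, ℝ) := 1 - (2 * p) • uu + q • (uu * uu)

lemma qp_apply (p q : ℝ) (u) : qp p q u = 1 - 2 * p * u.1 + q * (u.1 * u.1) := by
  simp [qp, uu]

lemma inv_apply (f : C(Icc (0 : ℝ) 1, ℝ)) (hf : IsUnit f) (u) : Ring.inverse f u = (f u)⁻¹ := by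
  have h := congrArg (fun g : C(Icc (0 : ℝ) 1, ℝ) => g u) (Ring.inverse_mul_cancel f hf)
  simp only [ContinuousMap.mul_apply, ContinuousMap.one_apply] at h
  exact eq_inv_of_mul_eq_one_left h

/-- the angle -/
def th (b : V) (τ : ℝ) (y : V) : ℝ := ∫ s in (0 : ℝ)..τ, (den (s • b) y)⁻¹

lemma th_eq (b : V) (τ : ℝ) (y : V) (h : ∀ u ∈ Icc (0 : ℝ) 1, den ((τ * u) • b) y ≠ 0) :
    IsUnit (qp (τ * mdot b y) (τ ^ 2 * (mdot b b * mdot y y))) ∧
    th b τ y = τ * intI (Ring.inverse (qp (τ * mdot b y) (τ ^ 2 * (mdot b b * mdot y y)))) := by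
  have e : ∀ u : Icc (0 : ℝ) 1, qp (τ * mdot b y) (τ ^ 2 * (mdot b b * mdot y y)) u =
      den ((τ * u.1) • b) y := fun u => by
    rw [qp_apply, den_smul]; ring
  have hu : IsUnit (qp (τ * mdot b y) (τ ^ 2 * (mdot b b * mdot y y))) := by
    rw [ContinuousMap.isUnit_iff_forall_ne_zero]
    intro u
    rw [e]; exact h _ u.2
  refine ⟨hu, ?_⟩
  have e2 : intI (Ring.inverse (qp (τ * mdot b y) (τ ^ 2 * (mdot b b * mdot y y)))) =
      ∫ u in (0 : ℝ)..1, (den ((τ * u) • b) y)⁻¹ := by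
    show ∫ u in (0 : ℝ)..1, _ = _
    refine intervalIntegral.integral_congr fun u hu' => ?_
    rw [uIcc_of_le zero_le_one] at hu'
    show (Ring.inverse (qp (τ * mdot b y) (τ ^ 2 * (mdot b b * mdot y y))))
      (projIcc 0 1 zero_le_one u) = _
    rw [inv_apply _ hu, e, projIcc_of_mem _ hu']
  rw [e2]
  have := intervalIntegral.smul_integral_comp_mul_left (a := 0) (b := 1)
    (fun s => (den (s • b) y)⁻¹) τ
  simp only [mul_zero, mul_one, smul_eq_mul] at this
  rw [this]; rfl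

lemma th_smooth (b : V) (U : Set (ℝ × V))
    (h : ∀ z ∈ U, ∀ u ∈ Icc (0 : ℝ) 1, den ((z.1 * u) • b) z.2 ≠ 0) :
    ContDiffOn ℝ ∞ (fun z : ℝ × V => th b z.1 z.2) U := by
  have h1 : ContDiff ℝ ∞ fun z : ℝ × V =>
      qp (z.1 * mdot b z.2) (z.1 ^ 2 * (mdot b b * mdot z.2 z.2)) := by
    have m1 : ContDiff ℝ ∞ fun z : ℝ × V => mdot b z.2 :=
      contDiff_mdot.comp (contDiff_const.prodMk contDiff_snd)
    have m2 : ContDiff ℝ ∞ fun z : ℝ × V => mdot z.2 z.2 :=
      contDiff_mdot.comp (contDiff_snd.prodMk contDiff_snd)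
    have m3 : ContDiff ℝ ∞ fun z : ℝ × V => 2 * (z.1 * mdot b z.2) :=
      contDiff_const.mul (contDiff_fst.mul m1)
    have m4 : ContDiff ℝ ∞ fun z : ℝ × V => z.1 ^ 2 * (mdot b b * mdot z.2 z.2) :=
      (contDiff_fst.pow 2).mul (contDiff_const.mul m2)
    unfold qp
    exact (contDiff_const.sub (m3.smul contDiff_const)).add (m4.smul contDiff_const)
  refine ContDiffOn.congr (f := fun z : ℝ × V => z.1 * intI (Ring.inverse
    (qp (z.1 * mdot b z.2) (z.1 ^ 2 * (mdot b b * mdot z.2 z.2))))) ?_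
    fun z hz => (th_eq b z.1 z.2 (h z hz)).2
  intro z hz
  obtain ⟨w, hw⟩ := (th_eq b z.1 z.2 (h z hz)).1
  have h2 := contDiffAt_ringInverse ℝ (n := ∞) w
  rw [hw] at h2
  have h3 : ContDiffAt ℝ ∞ (fun z : ℝ × V => Ring.inverse
      (qp (z.1 * mdot b z.2) (z.1 ^ 2 * (mdot b b * mdot z.2 z.2)))) z :=
    ContDiffAt.comp (g := Ring.inverse) z h2 h1.contDiffAt
  have h4 : ContDiffAt ℝ ∞ (fun z : ℝ × V => intI (Ring.inverse
      (qp (z.1 * mdot b z.2) (z.1 ^ 2 * (mdot b b * mdot z.2 z.2))))) z :=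
    intI.contDiff.contDiffAt.comp z h3
  exact (contDiffAt_fst.mul h4).contDiffWithinAt

lemma den_smooth (b : V) : ContDiff ℝ ∞ fun z : ℝ × V => den (z.1 • b) z.2 := by
  have m1 : ContDiff ℝ ∞ fun z : ℝ × V => mdot b z.2 :=
    contDiff_mdot.comp (contDiff_const.prodMk contDiff_snd)
  have m2 : ContDiff ℝ ∞ fun z : ℝ × V => mdot z.2 z.2 :=
    contDiff_mdot.comp (contDiff_snd.prodMk contDiff_snd)
  simp only [den_smul]
  exact (contDiff_const.sub ((contDiff_const.mul contDiff_fst).mul m1)).add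
    ((contDiff_fst.pow 2).mul (contDiff_const.mul m2))

lemma sct_smooth (b : V) (z : ℝ × V) (h : den (z.1 • b) z.2 ≠ 0) :
    ContDiffAt ℝ ∞ (fun z : ℝ × V => sct (z.1 • b) z.2) z := by
  have m2 : ContDiff ℝ ∞ fun z : ℝ × V => mdot z.2 z.2 :=
    contDiff_mdot.comp (contDiff_snd.prodMk contDiff_snd)
  simp only [sct_eq]
  exact ((den_smooth b).contDiffAt.inv h).smul
    (contDiff_snd.sub (m2.smul (contDiff_fst.smul contDiff_const))).contDiffAt

lemma den_deriv (b y : V) (τ : ℝ) : HasDerivAt (fun s : ℝ => den (s • b) y)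
    (-2 * (mdot b y - τ * (mdot b b * mdot y y))) τ := by
  simp only [den_smul]
  have h1 := ((hasDerivAt_id τ).const_mul 2).mul_const (mdot b y)
  have h2 := (hasDerivAt_pow 2 τ).mul_const (mdot b b * mdot y y)
  refine ((h1.const_sub 1).add h2).congr_deriv ?_
  simp; ring

lemma sct_deriv (b x : V) : HasDerivAt (fun s : ℝ => sct (s • b) x) (kil (pK b) x) 0 := by
  simp only [sct_eq]
  have h0 : den ((0 : ℝ) • b) x = 1 := by rw [den_smul]; simp
  have h1 := (den_deriv b x 0).inv (by rw [h0]; exact one_ne_zero)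
  have h2 : HasDerivAt (fun s : ℝ => x - mdot x x • s • b) (-(mdot x x • b)) 0 := by
    have := (((hasDerivAt_id (0 : ℝ)).smul_const b).const_smul (mdot x x)).const_sub x
    simpa using this
  have h3 := h1.smul h2
  refine h3.congr_deriv ?_
  simp only [Pi.inv_apply, h0, kil_pK]
  simp
  module

lemma th_deriv (b y : V) (T τ : ℝ) (hτ : τ ∈ Ioo (-T) T)
    (h : ∀ s ∈ Ioo (-T) T, den (s • b) y ≠ 0) :
    HasDerivAt (fun s => th b s y) (den (τ • b) y)⁻¹ τ := by
  have hc : ContinuousOn (fun s : ℝ => (den (s • b) y)⁻¹) (Ioo (-T) T) :=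
    ContinuousOn.inv₀ (fun s _ => (den_deriv b y s).continuousAt.continuousWithinAt) h
  have h0 : (0 : ℝ) ∈ Ioo (-T) T := ⟨by linarith [hτ.1, hτ.2], by linarith [hτ.1, hτ.2]⟩
  refine intervalIntegral.integral_hasDerivAt_right ?_ ?_ ?_
  · exact (hc.mono (ordConnected_Ioo.uIcc_subset h0 hτ)).intervalIntegrable
  · exact hc.stronglyMeasurableAtFilter isOpen_Ioo τ hτ
  · exact hc.continuousAt (isOpen_Ioo.mem_nhds hτ)

/-- `wd y b` is linear in `y` -/
def wdL (b : V) : V →ₗ[ℝ] (Fin 4 → V) where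
  toFun y := wd y b
  map_add' x y := by
    funext m n
    simp only [wd, Pi.add_apply]; ring
  map_smul' c x := by
    funext m n
    simp only [wd, Pi.smul_apply, smul_eq_mul, RingHom.id_apply]; ring

lemma S_smooth (k : Ty) (b : V) : ContDiff ℝ ∞ fun y : V => k.S (wd y b) :=
  (LinearMap.toContinuousLinearMap (k.S ∘ₗ wdL b)).contDiff

/-- the solution along the characteristics -/
def GG (k : Ty) (b : V) (F0 : V → Fin k.n → ℂ) (τ : ℝ) (y : V) : Fin k.n → ℂ :=
  Real.exp ((4 - k.Δ) * Real.log (den (τ • b) y)) •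
    NormedSpace.exp (((-th b τ y : ℝ) : ℂ) • k.S (wd y b)) (F0 y)

lemma GG_zero (k : Ty) (b : V) (F0 : V → Fin k.n → ℂ) (τ : ℝ) (y : V) (h : F0 y = 0) :
    GG k b F0 τ y = 0 := by
  simp [GG, h]

lemma GG_init (k : Ty) (b : V) (F0 : V → Fin k.n → ℂ) (y : V) : GG k b F0 0 y = F0 y := by
  have h0 : den ((0 : ℝ) • b) y = 1 := by rw [den_smul]; simp
  have h1 : ((-th b 0 y : ℝ) : ℂ) • k.S (wd y b) = 0 := by
    ext v i; simp [th]
  simp only [GG, h0, h1]
  simp

lemma GG_smooth (k : Ty) (b : V) (F0 : V → Fin k.n → ℂ) (hF : ContDiff ℝ ∞ F0) (U : Set (ℝ × V))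
    (h : ∀ z ∈ U, ∀ u ∈ Icc (0 : ℝ) 1, den ((z.1 * u) • b) z.2 ≠ 0) :
    ContDiffOn ℝ ∞ (fun z : ℝ × V => GG k b F0 z.1 z.2) U := by
  have h1 : ContDiffOn ℝ ∞ (fun z : ℝ × V =>
      Real.exp ((4 - k.Δ) * Real.log (den (z.1 • b) z.2))) U := by
    refine ContDiffOn.exp (contDiffOn_const.mul ((den_smooth b).contDiffOn.log fun z hz => ?_))
    simpa using h z hz 1 ⟨zero_le_one, le_rfl⟩
  have h2 : ContDiffOn ℝ ∞ (fun z : ℝ × V => ((-th b z.1 z.2 : ℝ) : ℂ)) U :=
    Complex.ofRealCLM.contDiff.comp_contDiffOn (th_smooth b U h).neg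
  have h3 : ContDiffOn ℝ ∞ (fun z : ℝ × V => ((-th b z.1 z.2 : ℝ) : ℂ) • k.S (wd z.2 b)) U :=
    h2.smul ((S_smooth k b).comp contDiff_snd).contDiffOn
  have h4 : ContDiff ℝ ∞ (NormedSpace.exp :
      ((Fin k.n → ℂ) →L[ℂ] (Fin k.n → ℂ)) → ((Fin k.n → ℂ) →L[ℂ] (Fin k.n → ℂ))) := by
    have : ContDiff ℂ ∞ (NormedSpace.exp :
      ((Fin k.n → ℂ) →L[ℂ] (Fin k.n → ℂ)) → ((Fin k.n → ℂ) →L[ℂ] (Fin k.n → ℂ))) :=
      contDiff_iff_contDiffAt.2 fun x => (NormedSpace.exp_analytic x).contDiffAt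
    exact this.restrict_scalars ℝ
  have h5 : ContDiff ℝ ∞ fun p : ((Fin k.n → ℂ) →L[ℂ] (Fin k.n → ℂ)) × (Fin k.n → ℂ) =>
      p.1 p.2 :=
    (isBoundedBilinearMap_apply (𝕜 := ℂ)).contDiff.restrict_scalars ℝ
  have h6 := h5.comp_contDiffOn ((h4.comp_contDiffOn h3).prodMk
    (hF.comp contDiff_snd).contDiffOn)
  exact h1.smul h6

lemma GG_deriv (k : Ty) (b : V) (F0 : V → Fin k.n → ℂ) (y : V) (T τ : ℝ) (hτ : τ ∈ Ioo (-T) T)
    (h : ∀ s ∈ Ioo (-T) T, den (s • b) y ≠ 0) :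
    HasDerivAt (fun s => GG k b F0 s y)
      (-((((4 - k.Δ) * (2 * mdot b (sct (τ • b) y)) : ℝ) : ℂ) • GG k b F0 τ y +
        k.S (wd (sct (τ • b) y) b) (GG k b F0 τ y))) τ := by
  have hn := h τ hτ
  have h1 := (((den_deriv b y τ).log hn).const_mul (4 - k.Δ)).exp
  set A := k.S (wd y b) with hA
  have h2 : HasDerivAt (fun s => ((-th b s y : ℝ) : ℂ)) ((-(den (τ • b) y)⁻¹ : ℝ) : ℂ) τ :=
    (th_deriv b y T τ hτ h).neg.ofReal_comp
  have h3 : HasDerivAt (fun t : ℂ => NormedSpace.exp (t • A) (F0 y))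
      (A (NormedSpace.exp (((-th b τ y : ℝ) : ℂ) • A) (F0 y))) ((-th b τ y : ℝ) : ℂ) := by
    have := (hasDerivAt_exp_smul_const' (𝕂 := ℂ) A ((-th b τ y : ℝ) : ℂ)).clm_apply
      (hasDerivAt_const _ (F0 y))
    refine this.congr_deriv ?_
    rw [map_zero, add_zero]; rfl
  have h4 : HasDerivAt (fun s => NormedSpace.exp (((-th b s y : ℝ) : ℂ) • A) (F0 y))
      (((-(den (τ • b) y)⁻¹ : ℝ) : ℂ) • A (NormedSpace.exp (((-th b τ y : ℝ) : ℂ) • A) (F0 y))) τ :=
    (HasFDerivAt.comp_hasDerivAt (l := fun t : ℂ => NormedSpace.exp (t • A) (F0 y)) τ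
      (h3.hasFDerivAt.restrictScalars ℝ) h2).congr_deriv rfl
  have h5 := h1.smul h4
  refine h5.congr_deriv ?_
  rw [wd_sct, map_smul, mdot_sct, ← hA]
  simp only [GG, ← hA]
  set c := Real.exp ((4 - k.Δ) * Real.log (den (τ • b) y))
  set v := NormedSpace.exp (((-th b τ y : ℝ) : ℂ) • A) (F0 y)
  have e1 : ∀ (r : ℝ) (w : Fin k.n → ℂ), r • w = (r : ℂ) • w := fun r w => by
    funext i; simp
  rw [ContinuousLinearMap.smul_apply, e1 c v, map_smul, e1, e1, e1]
  push_cast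
  module

/-! ### from characteristics to the transport equation -/

lemma transport {G : Type} [NormedAddCommGroup G] [NormedSpace ℝ G] (F : ℝ → V → G) (τ : ℝ)
    (x X : V) (c : ℝ → V) (w : G) (hF : DifferentiableAt ℝ (fun z : ℝ × V => F z.1 z.2) (τ, x))
    (hc : HasDerivAt c X 0) (h0 : c 0 = x) (hw : HasDerivAt (fun h => F (τ + h) (c h)) w 0) :
    HasDerivAt (fun σ => F σ x) (w - fderiv ℝ (F τ) x X) τ := by
  have hD := hF.hasFDerivAt
  set D := fderiv ℝ (fun z : ℝ × V => F z.1 z.2) (τ, x)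
  have a1 : HasDerivAt (fun σ => F σ x) (D (1, 0)) τ :=
    HasFDerivAt.comp_hasDerivAt (l := fun z : ℝ × V => F z.1 z.2) (f := fun σ : ℝ => (σ, x)) τ
      hD ((hasDerivAt_id τ).prodMk (hasDerivAt_const τ x))
  have a2 : HasFDerivAt (F τ) (D.comp (ContinuousLinearMap.inr ℝ ℝ V)) x :=
    HasFDerivAt.comp (g := fun z : ℝ × V => F z.1 z.2) (f := fun y : V => (τ, y)) x hD
      (hasFDerivAt_prodMk_right τ x)
  have a3 : HasDerivAt (fun h => F (τ + h) (c h)) (D (1, X)) 0 := by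
    have b1 : HasDerivAt (fun h : ℝ => (τ + h, c h)) (1, X) 0 :=
      ((hasDerivAt_id (0 : ℝ)).const_add τ).prodMk hc
    have b2 : HasFDerivAt (fun z : ℝ × V => F z.1 z.2) D (τ + 0, c 0) := by
      rw [add_zero, h0]; exact hD
    exact HasFDerivAt.comp_hasDerivAt (l := fun z : ℝ × V => F z.1 z.2)
      (f := fun h : ℝ => (τ + h, c h)) 0 b2 b1
  refine a1.congr_deriv ?_
  rw [hw.unique a3, a2.fderiv, ContinuousLinearMap.comp_apply, ContinuousLinearMap.inr_apply,
    ← map_sub]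
  simp

open Classical in
/-- the flow of a special conformal transformation -/
def FF (k : Ty) (b : V) (ρ : ℝ) (F0 : V → Fin k.n → ℂ) (τ : ℝ) (x : V) : Fin k.n → ℂ :=
  if ‖x‖ < 3 * ρ then GG k b F0 τ (sct ((-τ) • b) x) else 0

theorem flowK (k : Ty) (b : V) (ρ T : ℝ) (F0 : V → Fin k.n → ℂ) (hρ : 0 < ρ) (hT : 0 < T)
    (hb : ρ * T * ‖b‖ ≤ 1 / 100) (hF : ContDiff ℝ ∞ F0) (hs : tsupport F0 ⊆ ball 0 ρ) :
    ∃ F, Sol k (Ioo (-T) T) (pK b) F ∧ F 0 = F0 ∧
      ∀ τ ∈ Ioo (-T) T, tsupport (F τ) ⊆ ball 0 (2 * ρ) := by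
  have hout : ∀ y, ρ ≤ ‖y‖ → y ∉ tsupport F0 := fun y hy h => by
    have := mem_ball_zero_iff.1 (hs h)
    linarith
  have hden : ∀ s x, |s| ≤ T → ‖x‖ ≤ 3 * ρ → den (s • b) x ≠ 0 := fun s x h1 h2 => by
    have := (den_bounds (est hρ hb h1 h2)).1
    linarith
  have habs : ∀ s ∈ Ioo (-T) T, |s| ≤ T := fun s h => (abs_lt.2 h).le
  -- vanishing
  have hz : ∀ τ ∈ Ioo (-T) T, ∀ x, 3 / 2 * ρ < ‖x‖ → FF k b ρ F0 τ x = 0 := by
    intro τ hτ x hx
    unfold FF
    split_ifs with h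
    · apply GG_zero
      have h1 : |-τ| ≤ T := by rw [abs_neg]; exact habs τ hτ
      have := norm_sct_ge (est hρ hb h1 h.le)
      exact image_eq_zero_of_notMem_tsupport (hout _ (by linarith))
    · rfl
  have hsupp : ∀ τ ∈ Ioo (-T) T, tsupport (FF k b ρ F0 τ) ⊆ closedBall 0 (3 / 2 * ρ) := by
    intro τ hτ
    refine closure_minimal (fun x hx => ?_) isClosed_closedBall
    by_contra h
    exact hx (hz τ hτ x (by simpa using h))
  -- smoothness along the characteristics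
  have hG : ∀ z : ℝ × V, z.1 ∈ Ioo (-T) T →
      ContDiffAt ℝ ∞ (fun z : ℝ × V => GG k b F0 z.1 z.2) z := by
    intro z hz
    by_cases h : z.2 ∈ tsupport F0
    · have hU : IsOpen (Ioo (-T) T ×ˢ ball (0 : V) ρ) := isOpen_Ioo.prod isOpen_ball
      refine (GG_smooth k b F0 hF _ fun w hw u hu => hden _ _ ?_ ?_).contDiffAt
        (hU.mem_nhds ⟨hz, hs h⟩)
      · rw [abs_mul, abs_of_nonneg hu.1]
        have := habs _ hw.1
        nlinarith [hu.1, hu.2, abs_nonneg w.1]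
      · have := mem_ball_zero_iff.1 hw.2
        linarith
    · have hU : IsOpen (Prod.snd ⁻¹' (tsupport F0)ᶜ : Set (ℝ × V)) :=
        (isClosed_tsupport F0).isOpen_compl.preimage continuous_snd
      refine (contDiffAt_const (c := 0)).congr_of_eventuallyEq ?_
      filter_upwards [hU.mem_nhds h] with w hw
      exact GG_zero _ _ _ _ _ (image_eq_zero_of_notMem_tsupport hw)
  have hsm : ∀ z : ℝ × V, z.1 ∈ Ioo (-T) T →
      ContDiffAt ℝ ∞ (fun z : ℝ × V => FF k b ρ F0 z.1 z.2) z := by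
    intro z hz'
    by_cases h : ‖z.2‖ < 3 * ρ
    · have h1 : |-z.1| ≤ T := by rw [abs_neg]; exact habs _ hz'
      have a1 : ContDiffAt ℝ ∞ (fun z : ℝ × V => sct ((-z.1) • b) z.2) z :=
        ContDiffAt.comp (g := fun z : ℝ × V => sct (z.1 • b) z.2)
          (f := fun z : ℝ × V => (-z.1, z.2)) z (sct_smooth b _ (hden _ _ h1 h.le))
          (contDiffAt_fst.neg.prodMk contDiffAt_snd)
      have a2 : ContDiffAt ℝ ∞ (fun z : ℝ × V => GG k b F0 z.1 (sct ((-z.1) • b) z.2)) z :=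
        ContDiffAt.comp (g := fun z : ℝ × V => GG k b F0 z.1 z.2)
          (f := fun z : ℝ × V => (z.1, sct ((-z.1) • b) z.2)) z (hG _ hz')
          (contDiffAt_fst.prodMk a1)
      refine a2.congr_of_eventuallyEq ?_
      have hU : IsOpen {w : ℝ × V | ‖w.2‖ < 3 * ρ} :=
        isOpen_lt continuous_snd.norm continuous_const
      filter_upwards [hU.mem_nhds h] with w hw
      exact if_pos hw
    · have hU : IsOpen (Ioo (-T) T ×ˢ {x : V | 3 / 2 * ρ < ‖x‖}) :=
        isOpen_Ioo.prod (isOpen_lt continuous_const continuous_norm)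
      refine (contDiffAt_const (c := 0)).congr_of_eventuallyEq ?_
      have h2 : 3 / 2 * ρ < ‖z.2‖ := by linarith
      filter_upwards [hU.mem_nhds ⟨hz', h2⟩] with w hw
      exact hz _ hw.1 _ hw.2
  refine ⟨FF k b ρ F0, ⟨⟨fun z hz => (hsm z hz.1).contDiffWithinAt,
    _, isCompact_closedBall _ _, hsupp⟩, ?_⟩, ?_, fun τ hτ => (hsupp τ hτ).trans
      (closedBall_subset_ball (by linarith))⟩
  · intro τ hτ x
    by_cases h : ‖x‖ < 3 * ρ
    · have h1 : |-τ| ≤ T := by rw [abs_neg]; exact habs _ hτ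
      set y := sct ((-τ) • b) x with hy
      have hx : sct (τ • b) y = x := by
        rw [hy, sct_sct _ _ _ _ (hden _ _ h1 h.le), neg_add_cancel, zero_smul, sct_zero]
      have hF0 : FF k b ρ F0 τ x = GG k b F0 τ y := if_pos h
      have hc0 : sct ((0 : ℝ) • b) x = x := by rw [zero_smul, sct_zero]
      have d1 : HasDerivAt (fun s => GG k b F0 s y)
          (-((((4 - k.Δ) * (2 * mdot b x) : ℝ) : ℂ) • GG k b F0 τ y +
            k.S (wd x b) (GG k b F0 τ y))) τ := by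
        by_cases hy' : ‖y‖ < ρ
        · have := GG_deriv k b F0 y T τ hτ fun s hs => hden _ _ (habs s hs) (by linarith)
          rwa [hx] at this
        · have e0 : F0 y = 0 := image_eq_zero_of_notMem_tsupport (hout _ (not_lt.1 hy'))
          simp only [GG_zero k b F0 _ y e0, smul_zero, map_zero, add_zero, neg_zero]
          exact hasDerivAt_const _ _
      have d2 : HasDerivAt (fun h => FF k b ρ F0 (τ + h) (sct (h • b) x))
          (-((((4 - k.Δ) * (2 * mdot b x) : ℝ) : ℂ) • GG k b F0 τ y +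
            k.S (wd x b) (GG k b F0 τ y))) 0 := by
        have d3 : HasDerivAt (fun h => GG k b F0 (τ + h) y)
            (-((((4 - k.Δ) * (2 * mdot b x) : ℝ) : ℂ) • GG k b F0 τ y +
              k.S (wd x b) (GG k b F0 τ y))) 0 := by
          have := HasDerivAt.comp_const_add τ (0 : ℝ) (f := fun s => GG k b F0 s y)
            (by rw [add_zero]; exact d1)
          exact this
        refine d3.congr_of_eventuallyEq ?_
        have e1 : ∀ᶠ h in 𝓝 (0 : ℝ), ‖sct (h • b) x‖ < 3 * ρ :=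
          (sct_deriv b x).continuousAt.norm.eventually_lt continuousAt_const
            (by rw [hc0]; exact h)
        have e2 : ∀ᶠ h in 𝓝 (0 : ℝ), h ∈ Ioo (-T) T :=
          isOpen_Ioo.mem_nhds ⟨by linarith, hT⟩
        filter_upwards [e1, e2] with s hs1 hs2
        unfold FF
        rw [if_pos hs1, sct_sct _ _ _ _ (hden _ _ (habs s hs2) h.le), hy]
        congr 3
        ring
      have := transport (FF k b ρ F0) τ x _ _ _
        ((hsm (τ, x) hτ).differentiableAt (by simp)) (sct_deriv b x) hc0 d2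
      refine this.congr_deriv ?_
      simp only [Lo, hF0, pK, zero_add]
      abel
    · have h2 : 3 / 2 * ρ < ‖x‖ := by linarith
      have e1 : FF k b ρ F0 τ =ᶠ[𝓝 x] fun _ => 0 := by
        have hU : IsOpen {x : V | 3 / 2 * ρ < ‖x‖} := isOpen_lt continuous_const continuous_norm
        filter_upwards [hU.mem_nhds h2] with w hw
        exact hz _ hτ _ hw
      have e2 : ∀ σ, FF k b ρ F0 σ x = 0 := fun σ => if_neg h
      simp only [Lo, e1.fderiv_eq, e2, fderiv_fun_const, Pi.zero_apply,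
        ContinuousLinearMap.zero_apply, smul_zero, map_zero, add_zero, neg_zero]
      exact hasDerivAt_const _ _
  · funext x
    unfold FF
    split_ifs with h
    · rw [neg_zero, zero_smul, sct_zero, GG_init]
    · exact (image_eq_zero_of_notMem_tsupport (hout _ (by linarith))).symm

theorem flowD (k : Ty) (ρ T : ℝ) (F0 : V → Fin k.n → ℂ) (hρ : 0 < ρ) (hT : 0 < T)
    (hF : ContDiff ℝ ∞ F0) (hs : tsupport F0 ⊆ ball 0 ρ) :
    ∃ F, Sol k (Ioo (-T) T) pD F ∧ F 0 = F0 ∧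
      ∀ τ ∈ Ioo (-T) T, tsupport (F τ) ⊆ ball 0 (Real.exp T * ρ) := by
  let F : ℝ → V → Fin k.n → ℂ := fun τ x =>
    Real.exp (-(4 - k.Δ) * τ) • F0 (Real.exp (-τ) • x)
  have hsm : ContDiff ℝ ∞ fun z : ℝ × V => F z.1 z.2 :=
    (contDiff_const.mul contDiff_fst).exp.smul
      (hF.comp (contDiff_fst.neg.exp.smul contDiff_snd))
  have hsupp : ∀ τ ∈ Ioo (-T) T, tsupport (F τ) ⊆ ball 0 (Real.exp T * ρ) := by
    intro τ hτ
    have h1 : tsupport (F τ) ⊆ (fun x : V => Real.exp (-τ) • x) ⁻¹' tsupport F0 := by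
      refine closure_minimal (fun x hx => ?_)
        ((isClosed_tsupport F0).preimage (continuous_const_smul _))
      by_contra h
      apply hx
      show Real.exp (-(4 - k.Δ) * τ) • F0 (Real.exp (-τ) • x) = 0
      rw [image_eq_zero_of_notMem_tsupport h, smul_zero]
    intro x hx
    have h2 := mem_ball_zero_iff.1 (hs (h1 hx))
    rw [norm_smul, Real.norm_eq_abs, abs_of_pos (Real.exp_pos _), Real.exp_neg,
      inv_mul_lt_iff₀ (Real.exp_pos _)] at h2
    rw [mem_ball_zero_iff]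
    exact h2.trans_le (mul_le_mul_of_nonneg_right (Real.exp_le_exp.2 hτ.2.le) hρ.le)
  refine ⟨F, ⟨⟨hsm.contDiffOn, _, isCompact_closedBall 0 (Real.exp T * ρ),
    fun τ hτ => (hsupp τ hτ).trans ball_subset_closedBall⟩, ?_⟩, ?_, hsupp⟩
  · intro τ hτ x
    have c1 : HasDerivAt (fun h : ℝ => Real.exp h • x) x 0 := by
      simpa using (Real.hasDerivAt_exp 0).smul_const x
    have d1 : HasDerivAt (fun h => F (τ + h) (Real.exp h • x)) (-(4 - k.Δ) • F τ x) 0 := by
      have e : (fun h => F (τ + h) (Real.exp h • x)) =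
          fun h => Real.exp (-(4 - k.Δ) * (τ + h)) • F0 (Real.exp (-τ) • x) := by
        funext h
        show Real.exp (-(4 - k.Δ) * (τ + h)) • F0 (Real.exp (-(τ + h)) • Real.exp h • x) = _
        rw [smul_smul, ← Real.exp_add]
        congr 4
        ring
      rw [e]
      have := ((((hasDerivAt_id (0 : ℝ)).const_add τ).const_mul (-(4 - k.Δ))).exp).smul_const
        (F0 (Real.exp (-τ) • x))
      refine this.congr_deriv ?_
      show _ = -(4 - k.Δ) • Real.exp (-(4 - k.Δ) * τ) • F0 (Real.exp (-τ) • x)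
      rw [smul_smul]
      congr 1
      simp; ring
    have := transport F τ x _ _ _ (hsm.contDiffAt.differentiableAt (by simp)) c1 (by simp) d1
    refine this.congr_deriv ?_
    have e0 : wd x 0 = 0 := by
      funext m n
      simp [wd]
    have e1 : mdot 0 x = 0 := by simp [mdot]
    have e2 : ∀ (r : ℝ) (w : Fin k.n → ℂ), r • w = (r : ℂ) • w := fun r w => by
      funext i; simp
    simp only [Lo, kil_pD]
    simp only [pD, e0, e1, add_zero, mul_zero, mul_one, map_zero,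
      ContinuousLinearMap.zero_apply, e2]
    push_cast
    module
  · funext x
    simp [F]

end RowD

theorem rowD : RowD := ⟨RowD.flowK, RowD.flowD⟩

end

end Vale.Agent.Q352
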