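import Vale.Agent.Q352.Spec

/-!
# P352, row E: commutators of the transport operators
-/

set_option linter.all false

open Filter Topology Set Metric
open scoped ContDiff

namespace Vale.Agent.Q352

noncomputable section

namespace RE

section gen

variable {W E : Type*} [NormedAddCommGroup W] [NormedSpace ℝ W] [NormedAddCommGroup E]
  [NormedSpace ℝ E]

/-- first order operators -/
def L (X : W → W) (M : W → E →L[ℝ] E) (F : W → E) (x : W) : E :=
  fderiv ℝ F x (X x) + M x (F x)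

theorem two_le : minSmoothness ℝ 2 ≤ ∞ := by
  rw [minSmoothness_of_isRCLikeNormedField]
  exact WithTop.coe_le_coe.2 (le_top : (2 : ℕ∞) ≤ ⊤)

theorem d1 {F : W → E} {x : W} (hF : ContDiffAt ℝ ∞ F x) : HasFDerivAt F (fderiv ℝ F x) x :=
  (hF.differentiableAt (by simp)).hasFDerivAt

theorem d2 {F : W → E} {x : W} (hF : ContDiffAt ℝ ∞ F x) :
    HasFDerivAt (fderiv ℝ F) (fderiv ℝ (fderiv ℝ F) x) x :=
  d1 (hF.fderiv_right (m := ∞) (by simp))

theorem fderiv_L {X : W → W} {M : W → E →L[ℝ] E} {F : W → E} {x : W} {X' : W →L[ℝ] W}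
    {M' : W →L[ℝ] E →L[ℝ] E} (hF : ContDiffAt ℝ ∞ F x) (hX : HasFDerivAt X X' x)
    (hM : HasFDerivAt M M' x) (v : W) :
    fderiv ℝ (L X M F) x v = fderiv ℝ (fderiv ℝ F) x v (X x) + fderiv ℝ F x (X' v) +
      (M' v (F x) + M x (fderiv ℝ F x v)) := by
  have h := ((d2 hF).clm_apply hX).add (hM.clm_apply (d1 hF))
  have h2 : fderiv ℝ (L X M F) x = _ := h.fderiv
  rw [h2]
  simp only [ContinuousLinearMap.add_apply, ContinuousLinearMap.comp_apply,
    ContinuousLinearMap.flip_apply]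
  abel

theorem comm {X Y : W → W} {M N : W → E →L[ℝ] E} {F : W → E} {x : W} {X' Y' : W →L[ℝ] W}
    {M' N' : W →L[ℝ] E →L[ℝ] E} (hF : ContDiffAt ℝ ∞ F x) (hX : HasFDerivAt X X' x)
    (hY : HasFDerivAt Y Y' x) (hM : HasFDerivAt M M' x) (hN : HasFDerivAt N N' x) :
    L X M (L Y N F) x = L Y N (L X M F) x + (fderiv ℝ F x (Y' (X x) - X' (Y x)) +
      (N' (X x) - M' (Y x) + (M x * N x - N x * M x)) (F x)) := by
  have hs := hF.isSymmSndFDerivAt two_le (X x) (Y x)
  have e1 : L X M (L Y N F) x = fderiv ℝ (L Y N F) x (X x) + M x (L Y N F x) := rfl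
  have e2 : L Y N (L X M F) x = fderiv ℝ (L X M F) x (Y x) + N x (L X M F x) := rfl
  rw [e1, e2, fderiv_L hF hY hN, fderiv_L hF hX hM, hs]
  simp only [L, map_add, map_sub, ContinuousLinearMap.add_apply, ContinuousLinearMap.sub_apply,
    ContinuousLinearMap.mul_apply]
  abel

theorem L_smul {X : W → W} {M : W → E →L[ℝ] E} {F : W → E} {x : W} (hF : ContDiffAt ℝ ∞ F x)
    (c : ℝ) : L X M (fun y => c • F y) x = c • L X M F x := by
  have h : fderiv ℝ (fun y => c • F y) x = c • fderiv ℝ F x := ((d1 hF).const_smul c).fderiv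
  simp only [L, h, ContinuousLinearMap.smul_apply, map_smul, smul_add]

theorem L_smooth {X : W → W} {M : W → E →L[ℝ] E} {F : W → E} {x : W} (hF : ContDiffAt ℝ ∞ F x)
    (hX : ContDiffAt ℝ ∞ X x) (hM : ContDiffAt ℝ ∞ M x) : ContDiffAt ℝ ∞ (L X M F) x :=
  ((hF.fderiv_right (m := ∞) (by simp)).clm_apply hX).add (hM.clm_apply hF)

theorem L_supp (X : W → W) (M : W → E →L[ℝ] E) (F : W → E) :
    tsupport (L X M F) ⊆ tsupport F := by
  refine closure_minimal (fun x hx => ?_) (isClosed_tsupport F)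
  by_contra h
  have h0 : F =ᶠ[𝓝 x] 0 := notMem_tsupport_iff_eventuallyEq.1 h
  apply hx
  have h1 : F x = 0 := h0.eq_of_nhds
  have h2 : fderiv ℝ F x = 0 := by rw [h0.fderiv_eq]; simp
  simp [L, h1, h2]

variable {J : Set ℝ} {F : ℝ → W → E}

theorem at_pt (hJ : IsOpen J) (hF : ContDiffOn ℝ ∞ (fun z : ℝ × W => F z.1 z.2) (J ×ˢ univ))
    {τ : ℝ} (hτ : τ ∈ J) (x : W) : ContDiffAt ℝ ∞ (fun z : ℝ × W => F z.1 z.2) (τ, x) :=
  hF.contDiffAt ((hJ.prod isOpen_univ).mem_nhds ⟨hτ, mem_univ _⟩)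

theorem slice (hJ : IsOpen J) (hF : ContDiffOn ℝ ∞ (fun z : ℝ × W => F z.1 z.2) (J ×ˢ univ))
    {τ : ℝ} (hτ : τ ∈ J) (x : W) : ContDiffAt ℝ ∞ (F τ) x :=
  (at_pt hJ hF hτ x).comp x (contDiffAt_const.prodMk contDiffAt_id)

theorem fd_slice (hJ : IsOpen J) (hF : ContDiffOn ℝ ∞ (fun z : ℝ × W => F z.1 z.2) (J ×ˢ univ))
    {τ : ℝ} (hτ : τ ∈ J) (x : W) : fderiv ℝ (F τ) x =
      (fderiv ℝ (fun z : ℝ × W => F z.1 z.2) (τ, x)).comp (ContinuousLinearMap.inr ℝ ℝ W) :=
  ((d1 (at_pt hJ hF hτ x)).comp x (hasFDerivAt_prodMk_right τ x)).fderiv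

theorem L_fam (hJ : IsOpen J) (hF : ContDiffOn ℝ ∞ (fun z : ℝ × W => F z.1 z.2) (J ×ˢ univ))
    {X : W → W} {M : W → E →L[ℝ] E} (hX : ContDiff ℝ ∞ X) (hM : ContDiff ℝ ∞ M) :
    ContDiffOn ℝ ∞ (fun z : ℝ × W => L X M (F z.1) z.2) (J ×ˢ univ) := by
  have h1 : ContDiffOn ℝ ∞ (fderiv ℝ fun z : ℝ × W => F z.1 z.2) (J ×ˢ univ) :=
    hF.fderiv_of_isOpen (hJ.prod isOpen_univ) (by simp)
  have h2 : ContDiff ℝ ∞ fun z : ℝ × W => ((0 : ℝ), X z.2) :=
    contDiff_const.prodMk (hX.comp contDiff_snd)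
  have h3 := (h1.clm_apply h2.contDiffOn).add
    ((hM.comp contDiff_snd).contDiffOn.clm_apply hF)
  refine h3.congr fun z hz => ?_
  simp only [L, fd_slice hJ hF hz.1 z.2]
  rfl

theorem L_der (hJ : IsOpen J) (hF : ContDiffOn ℝ ∞ (fun z : ℝ × W => F z.1 z.2) (J ×ˢ univ))
    {τ : ℝ} (hτ : τ ∈ J) {F' : W → E} (hd : ∀ y, HasDerivAt (fun σ => F σ y) (F' y) τ)
    (X : W → W) (M : W → E →L[ℝ] E) (x : W) :
    HasDerivAt (fun σ => L X M (F σ) x) (L X M F' x) τ := by
  obtain ⟨G, hG⟩ : ∃ G : ℝ × W → E, G = fun z => F z.1 z.2 := ⟨_, rfl⟩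
  have hp : ∀ y, ContDiffAt ℝ ∞ G (τ, y) := fun y => hG ▸ at_pt hJ hF hτ y
  have hc : ∀ y : W, HasDerivAt (fun σ : ℝ => (σ, y)) ((1 : ℝ), (0 : W)) τ := fun y =>
    (hasDerivAt_id τ).prodMk (hasDerivAt_const τ y)
  have e1 : F' = fun y => fderiv ℝ G (τ, y) ((1 : ℝ), (0 : W)) := by
    funext y
    have h := HasFDerivAt.comp_hasDerivAt (f := fun σ : ℝ => (σ, y)) τ (d1 (hp y)) (hc y)
    refine (hd y).unique ?_
    subst hG
    exact h
  have h2 := d2 (hp x)
  have e2 : fderiv ℝ F' x (X x) =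
      fderiv ℝ (fderiv ℝ G) (τ, x) ((0 : ℝ), X x) ((1 : ℝ), (0 : W)) := by
    have h := (HasFDerivAt.comp (f := fun y : W => (τ, y)) x h2
      (hasFDerivAt_prodMk_right τ x)).clm_apply (hasFDerivAt_const ((1 : ℝ), (0 : W)) x)
    have h' := (HasFDerivAt.congr_of_eventuallyEq (f₁ := F') h
      (Eventually.of_forall fun y => by rw [e1]; rfl)).fderiv
    rw [h']
    simp
  have e3 : HasDerivAt (fun σ => fderiv ℝ G (σ, x) ((0 : ℝ), X x))
      (fderiv ℝ (fderiv ℝ G) (τ, x) ((1 : ℝ), (0 : W)) ((0 : ℝ), X x)) τ := by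
    have h := (HasFDerivAt.comp_hasDerivAt (f := fun σ : ℝ => (σ, x)) τ h2 (hc x)).clm_apply
      (hasDerivAt_const τ ((0 : ℝ), X x))
    rw [map_zero, add_zero] at h
    exact h
  have e4 : HasDerivAt (fun σ => fderiv ℝ (F σ) x (X x)) (fderiv ℝ F' x (X x)) τ := by
    rw [e2, (hp x).isSymmSndFDerivAt two_le]
    refine e3.congr_of_eventuallyEq ?_
    filter_upwards [hJ.mem_nhds hτ] with σ hσ
    rw [fd_slice hJ hF hσ x, hG]
    rfl
  exact e4.add ((M x).hasFDerivAt.comp_hasDerivAt τ (hd x))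

end gen

/-- the form `x ↦ (b, x)` -/
def md (b : V) : V →L[ℝ] ℝ := ∑ m, (eta m * b m) • ContinuousLinearMap.proj m

theorem md_apply (b x : V) : md b x = mdot b x := by
  simp [md, mdot]

theorem mdot_comm (x y : V) : mdot x y = mdot y x := by
  simp only [mdot]
  exact Finset.sum_congr rfl fun m _ => by ring

theorem kil_K (b : V) : kil (pK b) = fun x => (2 * md b x) • x - mdot x x • b := by
  funext x n
  simp [kil, pK, md_apply]

theorem kil_D : kil pD = fun x => x := by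
  funext x n
  simp [kil, pD, mdot]

theorem sq_der (x : V) : HasFDerivAt (fun y : V => mdot y y) ((2 : ℝ) • md x) x := by
  have h : HasFDerivAt (fun y : V => ∑ m, eta m * y m * y m) _ x :=
    HasFDerivAt.fun_sum (u := Finset.univ) fun m _ =>
      ((hasFDerivAt_apply (𝕜 := ℝ) m x).const_mul (eta m)).mul (hasFDerivAt_apply (𝕜 := ℝ) m x)
  refine h.congr_fderiv ?_
  ext v
  simp [md, Finset.mul_sum]
  exact Finset.sum_congr rfl fun m _ => by ring

/-- the derivative of the special conformal field -/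
def kd (b x : V) : V →L[ℝ] V :=
  (2 * md b x) • ContinuousLinearMap.id ℝ V + ((2 : ℝ) • md b).smulRight x -
    ((2 : ℝ) • md x).smulRight b

theorem kd_apply (b x v : V) :
    kd b x v = (2 * mdot b x) • v + (2 * mdot b v) • x - (2 * mdot x v) • b := by
  simp [kd, md_apply]

theorem kil_der (b x : V) : HasFDerivAt (kil (pK b)) (kd b x) x := by
  rw [kil_K]
  exact ((((md b).hasFDerivAt.const_mul 2).smul (hasFDerivAt_id x)).sub
    ((sq_der x).smul_const b))

theorem kil_smooth (b : V) : ContDiff ℝ ∞ (kil (pK b)) := by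
  rw [kil_K]
  have h : ContDiff ℝ ∞ fun x : V => mdot x x := by
    unfold mdot
    fun_prop
  exact ((contDiff_const.mul (md b).contDiff).smul contDiff_id).sub (h.smul contDiff_const)

variable (k : Ty)

/-- the spin matrices as real operators -/
def Sr (w : Fin 4 → V) : (Fin k.n → ℂ) →L[ℝ] (Fin k.n → ℂ) := (k.S w).restrictScalars ℝ

theorem Sr_apply (w : Fin 4 → V) (v : Fin k.n → ℂ) : Sr k w v = k.S w v := rfl

theorem wd_add (x y b : V) : wd (x + y) b = wd x b + wd y b := by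
  funext m n
  simp [wd]
  ring

theorem wd_smul (c : ℝ) (x b : V) : wd (c • x) b = c • wd x b := by
  funext m n
  simp [wd]
  ring

theorem wd_smul' (c : ℝ) (x b : V) : wd x (c • b) = c • wd x b := by
  funext m n
  simp [wd]
  ring

theorem skwd (a b : V) : Skew (wd a b) := by
  intro m n
  simp only [wd]
  ring

/-- the matrix part of the special conformal operator -/
def Nb (b : V) : V →L[ℝ] (Fin k.n → ℂ) →L[ℝ] (Fin k.n → ℂ) :=
  LinearMap.toContinuousLinearMap
    { toFun := fun x => ((4 - k.Δ) * (2 * md b x)) • (1 : (Fin k.n → ℂ) →L[ℝ] (Fin k.n → ℂ)) +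
        Sr k (wd x b)
      map_add' := fun x y => by
        ext1 v
        simp only [map_add, wd_add, ContinuousLinearMap.add_apply, Sr_apply, mul_add,
          ContinuousLinearMap.smul_apply, add_smul]
        abel
      map_smul' := fun c x => by
        ext1 v
        simp only [map_smul, wd_smul, ContinuousLinearMap.add_apply, Sr_apply, smul_add,
          ContinuousLinearMap.smul_apply, smul_smul, smul_eq_mul, RingHom.id_apply]
        congr 2
        ring }

theorem Nb_apply (b x : V) (v : Fin k.n → ℂ) :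
    Nb k b x v = ((4 - k.Δ) * (2 * mdot b x)) • v + k.S (wd x b) v := by
  rw [← md_apply]
  rfl

theorem Lo_K (b : V) (F : V → Fin k.n → ℂ) : Lo k (pK b) F = L (kil (pK b)) (Nb k b) F := by
  funext x
  simp only [Lo, L, Nb_apply, add_assoc]
  simp only [pK, zero_add, Complex.coe_smul]

theorem Lo_D (F : V → Fin k.n → ℂ) :
    Lo k pD F = L (fun x => x) (fun _ => (4 - k.Δ) • (1 : (Fin k.n → ℂ) →L[ℝ] _)) F := by
  funext x
  have h : wd x 0 = 0 := by
    funext m n
    simp [wd]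
  simp only [Lo, L, kil_D]
  simp only [pD, h, mdot, Pi.zero_apply, mul_zero, zero_mul, Finset.sum_const_zero, add_zero,
    mul_one, map_zero, ContinuousLinearMap.zero_apply, Complex.coe_smul,
    ContinuousLinearMap.smul_apply, ContinuousLinearMap.one_apply]

theorem Lo_smul (c : ℝ) (b : V) (F : V → Fin k.n → ℂ) :
    Lo k (pK (c • b)) F = fun x => c • Lo k (pK b) F x := by
  funext x
  have h1 : kil (pK (c • b)) x = c • kil (pK b) x := by
    funext n
    simp [kil, pK, mdot, Fin.sum_univ_four]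
    ring
  have h2 : mdot (c • b) x = c * mdot b x := by
    simp [mdot, Fin.sum_univ_four]
    ring
  simp only [Lo_K, L, Nb_apply, h1, h2, wd_smul', map_smul, ContinuousLinearMap.smul_apply,
    smul_add, smul_smul]
  congr 3
  ring

theorem KK_vec (b b' x : V) : kd b' x (kil (pK b) x) - kd b x (kil (pK b') x) = 0 := by
  funext n
  simp [kd_apply, kil, pK, mdot, eta, Fin.sum_univ_four]
  ring

theorem KK_dot (b b' x : V) : mdot b' (kil (pK b) x) = mdot b (kil (pK b') x) := by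
  simp [kil, pK, mdot, eta, Fin.sum_univ_four]
  ring

theorem KK_mat (b b' x : V) : wd (kil (pK b) x) b' - wd (kil (pK b') x) b +
    (mm (wd x b) (wd x b') - mm (wd x b') (wd x b)) = 0 := by
  funext m n
  fin_cases m <;> fin_cases n <;> simp [mm, wd, kil, pK, mdot, eta, Fin.sum_univ_four] <;> ring

theorem KK (b b' : V) {F : V → Fin k.n → ℂ} {x : V} (hF : ContDiffAt ℝ ∞ F x) :
    Lo k (pK b) (Lo k (pK b') F) x = Lo k (pK b') (Lo k (pK b) F) x := by
  simp only [Lo_K]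
  rw [comm hF (kil_der b x) (kil_der b' x) (Nb k b).hasFDerivAt (Nb k b').hasFDerivAt, KK_vec]
  have h := congrArg (fun w => k.S w (F x)) (KK_mat b b' x)
  simp only [map_add, k.br _ _ (skwd x b) (skwd x b')] at h
  simp only [map_sub, map_zero, ContinuousLinearMap.add_apply, ContinuousLinearMap.sub_apply,
    ContinuousLinearMap.mul_apply, ContinuousLinearMap.zero_apply] at h
  simp only [map_zero, zero_add, ContinuousLinearMap.add_apply, ContinuousLinearMap.sub_apply,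
    ContinuousLinearMap.mul_apply, Nb_apply, KK_dot b b' x, map_add,
    ContinuousLinearMap.map_smul_of_tower, smul_add, smul_smul, add_eq_left]
  rw [← h, mul_comm ((4 - k.Δ) * (2 * mdot b x))]
  abel

theorem DK (b : V) {F : V → Fin k.n → ℂ} {x : V} (hF : ContDiffAt ℝ ∞ F x) :
    Lo k pD (Lo k (pK b) F) x = Lo k (pK b) (Lo k pD F) x + Lo k (pK b) F x := by
  simp only [Lo_K, Lo_D]
  rw [comm (X := fun x => x) hF (hasFDerivAt_id x) (kil_der b x) (hasFDerivAt_const _ x) (Nb k b).hasFDerivAt]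
  have h : kd b x x - kil (pK b) x = kil (pK b) x := by
    funext n
    simp [kd_apply, kil, pK]
    ring
  simp [h, L]

theorem famK {J : Set ℝ} {F : ℝ → V → Fin k.n → ℂ} (hJ : IsOpen J) (hF : Fam J F) (b : V) :
    Fam J fun τ => Lo k (pK b) (F τ) := by
  simp only [Lo_K]
  obtain ⟨C, hC, h⟩ := hF.supp
  exact ⟨L_fam hJ hF.smooth (kil_smooth b) (Nb k b).contDiff, C, hC,
    fun τ hτ => (L_supp _ _ _).trans (h τ hτ)⟩

theorem derK {J : Set ℝ} {F : ℝ → V → Fin k.n → ℂ} {p : Pm} (hJ : IsOpen J) (hF : Sol k J p F)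
    (hp : ∀ τ ∈ J, ∀ x, ContDiffAt ℝ ∞ (Lo k p (F τ)) x) (b : V) {τ : ℝ} (hτ : τ ∈ J) (x : V) :
    HasDerivAt (fun σ => Lo k (pK b) (F σ) x) (-Lo k (pK b) (Lo k p (F τ)) x) τ := by
  have h := L_der hJ hF.fam.smooth hτ (F' := fun y => (-1 : ℝ) • Lo k p (F τ) y)
    (fun y => by simpa using hF.eq τ hτ y) (kil (pK b)) (Nb k b) x
  rw [L_smul (hp τ hτ x)] at h
  simpa [Lo_K k b] using h

end RE

open RE in
theorem rowE : RowE where
  K k J b b' F hJ hF := by
    refine ⟨famK k hJ hF.fam b', fun τ hτ x => ?_⟩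
    rw [KK k b b' (slice hJ hF.fam.smooth hτ x)]
    exact derK k hJ hF (fun σ hσ y => slice (F := fun τ => Lo k (pK b) (F τ)) hJ
      (famK k hJ hF.fam b).smooth hσ y) b' hτ x
  D k J b F hJ hF := by
    have h1 := famK k hJ hF.fam b
    simp only [Lo_smul]
    refine ⟨⟨?_, ?_⟩, fun τ hτ x => ?_⟩
    · exact (by fun_prop : ContDiff ℝ ∞ fun z : ℝ × V => Real.exp (-z.1)).contDiffOn.smul h1.smooth
    · obtain ⟨C, hC, h⟩ := h1.supp
      exact ⟨C, hC, fun τ hτ => (tsupport_smul_subset_right (fun _ => Real.exp (-τ)) _).trans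
        (h τ hτ)⟩
    · have h2 := derK k hJ hF (fun σ hσ y => by
        rw [Lo_D]
        exact L_smooth (slice hJ hF.fam.smooth hσ y) contDiffAt_id contDiffAt_const) b hτ x
      have h3 := (hasDerivAt_neg τ).exp.smul h2
      have h4 : Lo k pD (fun y => Real.exp (-τ) • Lo k (pK b) (F τ) y) x =
          Real.exp (-τ) • Lo k pD (Lo k (pK b) (F τ)) x := by
        rw [Lo_D, Lo_D]
        exact L_smul (slice (F := fun τ => Lo k (pK b) (F τ)) hJ h1.smooth hτ x) _
      rw [h4, DK k b (slice hJ hF.fam.smooth hτ x)]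
      refine HasDerivAt.congr_deriv h3 ?_
      simp only [smul_add, smul_neg, neg_add, mul_neg, mul_one, neg_smul]

end

end Vale.Agent.Q352
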