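import Vale.Agent.Q352.Spec

/-!
# P352, row EV: continuity, generators, dilations and translations
-/

set_option linter.all false

open Filter Topology Set Metric
open Complex (I)

namespace Vale.Agent.Q352

namespace EV

variable {H : Type*} [NormedAddCommGroup H] [InnerProductSpace ℂ H] [CompleteSpace H]

theorem n1 {U : H →L[ℂ] H} (h : U ∈ unitary (H →L[ℂ] H)) : ‖U‖ ≤ 1 :=
  U.opNorm_le_bound zero_le_one fun x => by rw [U.norm_map_of_mem_unitary h, one_mul]

theorem le1 {U : H →L[ℂ] H} (h : ‖U‖ ≤ 1) (x : H) : ‖U x‖ ≤ ‖x‖ :=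
  (U.le_of_opNorm_le h x).trans (by rw [one_mul])

theorem tend_comp {X : Type*} {l : Filter X} {F : X → H →L[ℂ] H} {y : X → H} {y0 z : H}
    (hF : ∀ᶠ x in l, ‖F x‖ ≤ 1) (h : Tendsto (fun x => F x y0) l (𝓝 z))
    (hy : Tendsto y l (𝓝 y0)) : Tendsto (fun x => F x (y x)) l (𝓝 z) := by
  have h0 : Tendsto (fun x => F x (y x - y0)) l (𝓝 0) :=
    squeeze_zero_norm' (hF.mono fun x hx => le1 hx _) (tendsto_iff_norm_sub_tendsto_zero.1 hy)
  simpa using h0.add h

theorem tend_dense {X : Type*} {l : Filter X} {F : X → H →L[ℂ] H} {T : H →L[ℂ] H} {Ds : Set H}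
    (hF : ∀ᶠ x in l, ‖F x‖ ≤ 1) (hT : ‖T‖ ≤ 1) (hD : Dense Ds)
    (h : ∀ v ∈ Ds, Tendsto (fun x => F x v) l (𝓝 (T v))) (v : H) :
    Tendsto (fun x => F x v) l (𝓝 (T v)) := by
  refine Metric.tendsto_nhds.2 fun ε hε => ?_
  obtain ⟨w, hw, hd⟩ := hD.exists_dist_lt v (by positivity : 0 < ε / 3)
  filter_upwards [hF, Metric.tendsto_nhds.1 (h w hw) _ (by positivity : 0 < ε / 3)] with x h1 h2
  have a1 : dist (F x v) (F x w) ≤ dist v w := by
    rw [dist_eq_norm, dist_eq_norm, ← map_sub]; exact le1 h1 _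
  have a2 : dist (T w) (T v) ≤ dist v w := by
    rw [dist_comm, dist_eq_norm, dist_eq_norm, ← map_sub]; exact le1 hT _
  linarith [dist_triangle4 (F x v) (F x w) (T w) (T v)]

/-- a curve of contractions through the identity, differentiable on `v` -/
structure Nice (F : ℝ → H →L[ℂ] H) (v x : H) : Prop where
  le : ∀ σ, ‖F σ‖ ≤ 1
  cont : ∀ w, ContinuousAt (fun σ => F σ w) 0
  zero : F 0 = 1
  der : HasDerivAt (fun σ => F σ v) x 0

theorem Nice.mul (a : RowA H) {F G : ℝ → H →L[ℂ] H} {v x y : H} (hF : Nice F v x)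
    (hG : Nice G v y) : Nice (fun σ => F σ * G σ) v (x + y) where
  le σ := (norm_mul_le _ _).trans (mul_le_one₀ (hF.le σ) (norm_nonneg _) (hG.le σ))
  cont w := tend_comp (F := F) (y := fun σ => G σ w) (Eventually.of_forall hF.le)
    (hF.cont (G 0 w)) (hG.cont w)
  zero := by simp [hF.zero, hG.zero]
  der := by
    have := a.prod F (fun σ => G σ v) x y 0 hF.le hF.cont (by simpa [hG.zero] using hF.der) hG.der
    simpa [hF.zero] using this

theorem Gn.nice {R : H → H → Prop} {u : ℝ → H →L[ℂ] H} (h : Gn R u) {v w : H} (hv : R v w)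
    {t : ℝ → ℝ} {r : ℝ} (t0 : t 0 = 0) (ht : HasDerivAt t r 0) :
    Nice (fun σ => u (t σ)) v (r • I • w) where
  le σ := n1 (h.uni _)
  cont w := (h.cont w).continuousAt.comp ht.continuousAt
  zero := by simp [t0, h.zero]
  der := (h.der v w hv).scomp_of_eq 0 ht t0.symm

theorem skew0 : Skew 0 := fun m n => by simp

variable {K : Frame H} {St : H → (Pm → H) → Prop} {B : ℝ → H → Prop} {D : ℝ → H →L[ℂ] H}
  {S : V → H →L[ℂ] H}

theorem dense (hs : Hs K St B) : Dense {v | ∃ κ, St v κ} :=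
  (hs.dense 1 one_pos).mono fun v hv => hs.flows.st 1 v hv

theorem lin0 (hs : Hs K St B) {v : H} {κ : Pm → H} (h : St v κ) (p q : Pm) (r : ℝ)
    (hp : Skew p.2.1) (hq : q.2.1 = 0) :
    Skew (p + r • q).2.1 ∧ κ (p + r • q) = κ p + r • κ q := by
  refine ⟨by simpa [hq] using hp, ?_⟩
  rw [hs.lin v κ p q r h hp (hq ▸ skew0), Complex.coe_smul]

theorem gen (g : RowGL) (a : RowA H) (hU : RowU K) (hs : Hs K St B) (gp : Grp K St D S)
    (v : H) (κ : Pm → H) (p : ℝ → Pm) (q : Pm) (h : St v κ) (p0 : p 0 = e1) (hp : ∀ e, Adm (p e))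
    (hd : HasDerivAt p q 0) : HasDerivAt (fun e => Wf K D S (p e) v) (I • κ q) 0 := by
  obtain ⟨u, u0, hu⟩ := hU
  obtain ⟨r, w, α, β⟩ := q
  have d1 : HasDerivAt (fun e => (p e).1) r 0 := hd.fst
  have d2 : HasDerivAt (fun e => (p e).2.1) w 0 := hd.snd.fst
  have d3 : HasDerivAt (fun e => (p e).2.2.1) α 0 := hd.snd.snd.fst
  have d4 : HasDerivAt (fun e => (p e).2.2.2) β 0 := hd.snd.snd.snd
  have z1 : (p 0).1 = 1 := by rw [p0]; rfl
  have z2 : (p 0).2.1 = one := by rw [p0]; rfl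
  have z3 : (p 0).2.2.1 = 0 := by rw [p0]; rfl
  have z4 : (p 0).2.2.2 = 0 := by rw [p0]; rfl
  have hw : Skew w := g.skew _ w z2 (Eventually.of_forall fun e => (hp e).2) d2
  have dU : ∀ v κ, St v κ → HasDerivAt (fun e => u 1 (p e).2.1 (p e).2.2.1 v)
      (I • κ (0, w, α, 0)) 0 := fun v κ h => by
    simp only [fun e => (hu 1 (p e).2.1 (p e).2.2.1 one_pos (hp e).2).2]
    exact hs.der v κ _ _ w α h z2 z3 (fun e => (hp e).2) d2 d3
  have nU : ∀ e, ‖u 1 (p e).2.1 (p e).2.2.1‖ ≤ 1 := fun e => n1 (hu _ _ _ one_pos (hp e).2).1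
  have N1 : Nice (fun e => u 1 (p e).2.1 (p e).2.2.1) v (I • κ (0, w, α, 0)) :=
    ⟨nU, tend_dense (Eventually.of_forall nU) (nU 0) (dense hs)
      fun v ⟨κ, h⟩ => (dU v κ h).continuousAt, by rw [z2, z3, u0], dU v κ h⟩
  have N2 : Nice (fun e => D (Real.log (p e).1)) v (r • I • κ pD) :=
    Gn.nice gp.dG ⟨κ, h, rfl⟩ (by rw [z1, Real.log_one])
      (by simpa [z1] using d1.log (by rw [z1]; exact one_ne_zero))
  have N3 : ∀ m, Nice (fun e => S ((p e).2.2.2 m • bas m 1)) v (β m • I • κ (pK (bas m 1))) :=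
    fun m => Gn.nice (gp.sG (bas m 1)) ⟨κ, h, rfl⟩ (t := fun e => (p e).2.2.2 m) (by rw [z4]; rfl)
      (hasDerivAt_pi.1 d4 m)
  have N := (((((N1.mul a N2).mul a (N3 0)).mul a (N3 1)).mul a (N3 2)).mul a (N3 3)).der
  have sb : ∀ b : V, b 0 • bas 0 1 + b 1 • bas 1 1 + b 2 • bas 2 1 + b 3 • bas 3 1 = b := fun b => by
    ext n; fin_cases n <;> simp [bas]
  obtain ⟨s1, e1⟩ := lin0 hs h (0, w, α, 0) pD r hw rfl
  obtain ⟨s2, e2⟩ := lin0 hs h _ (pK (bas 0 1)) (β 0) s1 rfl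
  obtain ⟨s3, e3⟩ := lin0 hs h _ (pK (bas 1 1)) (β 1) s2 rfl
  obtain ⟨s4, e4⟩ := lin0 hs h _ (pK (bas 2 1)) (β 2) s3 rfl
  obtain ⟨-, e5⟩ := lin0 hs h _ (pK (bas 3 1)) (β 3) s4 rfl
  have eq : ((0, w, α, 0) : Pm) + r • pD + β 0 • pK (bas 0 1) + β 1 • pK (bas 1 1) +
      β 2 • pK (bas 2 1) + β 3 • pK (bas 3 1) = (r, w, α, β) := by
    simp [pD, pK, sb]
  rw [eq, e4, e3, e2, e1] at e5
  convert N using 1
  · ext e
    simp only [Wf, mul_assoc, ← gp.add, ← add_assoc, sb, ContinuousLinearMap.mul_apply,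
      (hu 1 (p e).2.1 (p e).2.2.1 one_pos (hp e).2).2]
  · rw [e5]
    simp only [smul_add, smul_comm I]

theorem cont (g : RowGL) (a : RowA H) (hU : RowU K) (hs : Hs K St B) (gp : Grp K St D S)
    (v : H) : ContinuousWithinAt (fun p => Wf K D S p v) {p | Adm p} e1 := by
  have a1 : Adm e1 := ⟨one_pos, g.one⟩
  have key : ∀ v κ, St v κ → ContinuousWithinAt (fun p => Wf K D S p v) {p | Adm p} e1 := by
    intro v κ h
    refine tendsto_of_subseq_tendsto fun ns hns => ?_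
    have ex : ∀ n : ℕ, ∃ m, Adm (ns m) ∧ dist (ns m) e1 < (1 / (n + 1 : ℝ)) ^ 2 := fun n =>
      ((hns.eventually self_mem_nhdsWithin).and (Metric.tendsto_nhds.1
        (hns.mono_right nhdsWithin_le_nhds) _ (by positivity))).exists
    choose ms m1 m2 using ex
    let c : ℝ → Pm := fun e => if 0 < e then ns (ms ⌈1 / e⌉₊) else e1
    have c0 : c 0 = e1 := if_neg (lt_irrefl _)
    have c1 : ∀ e, Adm (c e) := fun e => by
      by_cases he : 0 < e
      · simp only [c, if_pos he]; exact m1 _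
      · simp only [c, if_neg he]; exact a1
    have c2 : ∀ e, ‖c e - e1‖ ≤ e ^ 2 := fun e => by
      by_cases he : 0 < e
      · simp only [c, if_pos he]
        rw [← dist_eq_norm]
        refine (m2 _).le.trans (pow_le_pow_left₀ (by positivity) ?_ 2)
        rw [one_div_le (by positivity) he]
        linarith [Nat.le_ceil (1 / e)]
      · simp only [c, if_neg he, sub_self, norm_zero]; positivity
    have cd : HasDerivAt c 0 0 := by
      rw [hasDerivAt_iff_isLittleO]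
      simp only [smul_zero, sub_zero, c0]
      exact (Asymptotics.IsBigO.of_bound 1 (Eventually.of_forall fun e => by
        simpa using c2 e)).trans_isLittleO (Asymptotics.isLittleO_pow_id one_lt_two)
    have t := (gen g a hU hs gp v κ c 0 h c0 c1 cd).continuousAt.tendsto.comp
      (tendsto_one_div_add_atTop_nhds_zero_nat (𝕜 := ℝ))
    refine ⟨fun n => ms (n + 1), ?_⟩
    simp only [c0] at t
    refine t.congr fun n => ?_
    have : (0 : ℝ) < 1 / (n + 1 : ℝ) := by positivity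
    simp only [Function.comp, c, if_pos this, one_div_one_div]
    rw [← Nat.cast_add_one, Nat.ceil_natCast]
  obtain ⟨u, u0, hu⟩ := hU
  let W : Pm → H →L[ℂ] H := fun p => u 1 p.2.1 p.2.2.1 * D (Real.log p.1) * S p.2.2.2
  have w1 : ∀ p, Adm p → ∀ v, W p v = Wf K D S p v := fun p hp v => (hu _ _ _ one_pos hp.2).2 _
  have w2 : ∀ p, Adm p → ‖W p‖ ≤ 1 := fun p hp => n1 (mul_mem (mul_mem
    (hu _ _ _ one_pos hp.2).1 (gp.dG.uni _)) (by simpa using (gp.sG p.2.2.2).uni 1))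
  have ev : ∀ᶠ p in 𝓝[{p | Adm p}] e1, Adm p := self_mem_nhdsWithin
  have := tend_dense (T := W e1) (ev.mono w2) (w2 _ a1) (dense hs) (fun v ⟨κ, h⟩ => by
    rw [w1 _ a1]
    exact (key v κ h).tendsto.congr' (ev.mono fun p hp => (w1 p hp v).symm)) v
  rw [w1 _ a1] at this
  exact this.congr' (ev.mono fun p hp => w1 p hp v)

theorem tt (g : RowGL) (K : Frame H) (x y : V) (v : H) :
    K.U 1 one x (K.U 1 one y v) = K.U 1 one (x + y) v := by
  rcases K.mul 1 one x 1 one y one_pos one_pos g.one g.one with h | h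
  · rw [h, g.sim_mm, (g.one_mm _).1, g.sim_one, one_mul, one_smul]
  · exact absurd rfl h.1

theorem trd (g : RowGL) (hs : Hs K St B) (a : V) (τ : ℝ) {v : H} {κ : Pm → H} (h : St v κ) :
    ∃ κ', St (K.U 1 one (Real.exp τ • a) v) κ' ∧
      HasDerivAt (fun σ => K.U 1 one (Real.exp σ • a) v) (I • κ' (0, 0, Real.exp τ • a, 0)) τ ∧
      κ' pD = κ' (0, 0, Real.exp τ • a, 0) + K.U 1 one (Real.exp τ • a) (κ pD) := by
  obtain ⟨κ', h1, h2⟩ := hs.cov v κ 1 one (Real.exp τ • a) h one_pos g.one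
  refine ⟨κ', h1, ?_, ?_⟩
  · have d : HasDerivAt (fun e => Real.exp (e + τ) • a - Real.exp τ • a) (Real.exp τ • a) 0 := by
      simpa using ((((hasDerivAt_id (0 : ℝ)).add_const τ).exp).smul_const a).sub_const
        (Real.exp τ • a)
    have := hs.der _ κ' (fun _ => one) _ 0 _ h1 rfl (by simp) (fun _ => g.one)
      (hasDerivAt_const _ _) d
    simp only [tt g, sub_add_cancel] at this
    have t := this.scomp_of_eq τ ((hasDerivAt_id τ).sub_const τ) (by simp)
    simpa [Function.comp_def] using t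
  · have e := (lin0 hs h1 (0, 0, Real.exp τ • a, 0) (1, 0, -(Real.exp τ • a), 0) 1 skew0 rfl).2
    rw [h2 pD (1, 0, -(Real.exp τ • a), 0) skew0 skew0, one_smul, one_smul] at e
    · rw [← e]; simp [pD]
    · intro x
      rw [g.sim_one, g.sim_one]
      ext n
      simp [kil, pD, mdot]

theorem DT (g : RowGL) (a : RowA H) (hU : RowU K) (hs : Hs K St B) (gp : Grp K St D S)
    (τ : ℝ) (x : V) (v : H) :
    D τ (K.U 1 one x v) = K.U 1 one (Real.exp τ • x) (D τ v) := by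
  obtain ⟨u, u0, hu⟩ := hU
  have hu1 := fun y => hu 1 one y one_pos g.one
  have C0 : 0 < |τ| + 1 := by positivity
  have S0 : S 0 = 1 := by simpa using (gp.sG 0).zero
  have nU : ∀ σ, ‖u 1 one (Real.exp σ • x)‖ ≤ 1 := fun σ => n1 (hu1 _).1
  have key : ∀ w ∈ {w | ∀ σ b, |σ| ≤ |τ| + 1 → ‖b‖ ≤ |τ| + 1 → ∃ κ, St (D σ (S b w)) κ},
      D τ (u 1 one x w) = u 1 one (Real.exp τ • x) (D τ w) := by
    intro w hw
    have crv : Crv (fun v w => ∃ κ, St v κ ∧ w = κ pD) (Ioo (-(|τ| + 1)) (|τ| + 1))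
        fun σ => u 1 one (Real.exp σ • x) (D σ w) := by
      intro σ hσ
      obtain ⟨κ, h⟩ := hw σ 0 (abs_le.2 ⟨hσ.1.le, hσ.2.le⟩) (by simpa using C0.le)
      rw [S0, ContinuousLinearMap.one_apply] at h
      obtain ⟨κ', h1, h2, h3⟩ := trd g hs x σ h
      refine ⟨κ' pD, ⟨κ', by simpa only [(hu1 _).2] using h1, rfl⟩, ?_⟩
      have d : HasDerivAt (fun ρ => D ρ w) (I • κ pD) σ := by
        have t := (gp.dG.der _ _ ⟨κ, h, rfl⟩).scomp_of_eq σ ((hasDerivAt_id σ).sub_const σ)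
          (by simp)
        simpa [Function.comp_def, ← ContinuousLinearMap.mul_apply, ← gp.dG.add] using t
      have := a.prod (fun ρ => u 1 one (Real.exp ρ • x)) (fun ρ => D ρ w) _ _ σ nU
        (tend_dense (Eventually.of_forall nU) (nU σ) (dense hs) fun v ⟨κ, h⟩ => by
          obtain ⟨κ', -, h2, -⟩ := trd g hs x σ h
          simpa only [(hu1 _).2] using h2.continuousAt.tendsto)
        (by simpa only [(hu1 _).2] using h2) d
      rw [h3, smul_add, ← (hu1 _).2, ← map_smul]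
      exact this
    have := a.sol _ D _ _ _ 0 τ gp.dG crv ⟨by linarith, C0⟩
      ⟨by linarith [neg_abs_le τ], by linarith [le_abs_self τ]⟩
    simpa [gp.dG.zero] using this.symm
  have := congrFun (Continuous.ext_on (gp.rich (|τ| + 1)) (f := fun w => D τ (u 1 one x w))
    (g := fun w => u 1 one (Real.exp τ • x) (D τ w)) (by fun_prop) (by fun_prop) key) v
  simpa only [(hu1 _).2] using this

end EV

theorem rowEV (g : RowGL) (H : Type*) [NormedAddCommGroup H] [InnerProductSpace ℂ H]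
    [CompleteSpace H] (a : RowA H) : RowEV H := fun _ _ _ _ _ hU hs gp =>
  ⟨EV.cont g a hU hs gp, EV.gen g a hU hs gp, EV.DT g a hU hs gp⟩

end Vale.Agent.Q352
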