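import Vale.Agent.Q352.RowG

/-!
# P352, row GC: conformal maps
-/

set_option linter.all false

open Filter Topology Set

namespace Vale.Agent.Q352

noncomputable section

namespace GC

theorem dc (x y : V) : mdot x y = mdot y x := by
  simp only [mdot, Fin.sum_univ_four]; ring

theorem dal (x y z : V) : mdot (x + y) z = mdot x z + mdot y z := by
  simp only [mdot, Fin.sum_univ_four, Pi.add_apply]; ring

theorem dar (x y z : V) : mdot z (x + y) = mdot z x + mdot z y := by
  simp only [mdot, Fin.sum_univ_four, Pi.add_apply]; ring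

theorem dsl (x y z : V) : mdot (x - y) z = mdot x z - mdot y z := by
  simp only [mdot, Fin.sum_univ_four, Pi.sub_apply]; ring

theorem dsr (x y z : V) : mdot z (x - y) = mdot z x - mdot z y := by
  simp only [mdot, Fin.sum_univ_four, Pi.sub_apply]; ring

theorem dml (c : ℝ) (x z : V) : mdot (c • x) z = c * mdot x z := by
  simp only [mdot, Fin.sum_univ_four, Pi.smul_apply, smul_eq_mul]; ring

theorem dmr (c : ℝ) (x z : V) : mdot z (c • x) = c * mdot z x := by
  simp only [mdot, Fin.sum_univ_four, Pi.smul_apply, smul_eq_mul]; ring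

theorem d_one (x : V) (m : Fin 4) : mdot x (one m) = eta m * x m := by
  simp [mdot, one, bas]

theorem d_ext {x y : V} (h : ∀ v, mdot x v = mdot y v) : x = y := by
  funext m
  have h1 := h (one m)
  rw [d_one, d_one] at h1
  have := RowG.eta_sq m
  linear_combination eta m * h1 - (x m - y m) * this

/-- the linear map of a matrix -/
def T (L : Fin 4 → V) (x : V) : V := sim 1 L 0 x

theorem sim_T (s : ℝ) (L : Fin 4 → V) (a x : V) : sim s L a x = a + s • T L x :=
  rowGL.sim_add s L a x

theorem T_smul (L : Fin 4 → V) (c : ℝ) (x : V) : T L (c • x) = c • T L x := by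
  funext n
  simp only [T, sim, Fin.sum_univ_four, Pi.smul_apply, smul_eq_mul, Pi.zero_apply]; ring

theorem T_sub (L : Fin 4 → V) (x y : V) : T L (x - y) = T L x - T L y := by
  funext n
  simp only [T, sim, Fin.sum_univ_four, Pi.sub_apply, Pi.zero_apply]; ring

theorem T_one (L : Fin 4 → V) (m : Fin 4) : T L (one m) = L m := by
  funext n; simp [T, sim, one, bas]

theorem T_T (L L' : Fin 4 → V) (x : V) : T L (T L' x) = T (mm L' L) x := by
  funext n; simp only [T, sim, mm, Fin.sum_univ_four, Pi.zero_apply]; ring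

theorem T_id (x : V) : T one x = x := by
  simp [T, rowGL.sim_one]

theorem T_dot {L : Fin 4 → V} (h : IsLor L) (x y : V) : mdot (T L x) (T L y) = mdot x y :=
  rowGL.dot L x y h

theorem T_cont (L : Fin 4 → V) : Continuous (T L) := by
  unfold T sim; fun_prop

theorem T_linv (L : Fin 4 → V) (b v : V) : mdot (T (linv L) b) v = mdot b (T L v) := by
  simp [T, sim, linv, mdot, eta, Fin.sum_univ_four]; ring

theorem T_wd (a b y : V) : T (wd a b) y = (2 * mdot b y) • a - (2 * mdot a y) • b := by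
  funext n
  simp only [T, sim, wd, mdot, Fin.sum_univ_four, Pi.zero_apply, Pi.sub_apply, Pi.smul_apply,
    smul_eq_mul]
  ring

theorem mm_T (A B : Fin 4 → V) (m : Fin 4) : mm A B m = T B (A m) := by
  funext n; simp [T, sim, mm]

theorem sct_eq (b x : V) : sct b x = (den b x)⁻¹ • (x - mdot x x • b) := by
  funext n; simp [sct, div_eq_inv_mul]

theorem kil_K (b x : V) : kil (pK b) x = (2 * mdot b x) • x - mdot x x • b := by
  funext n; simp [kil, pK]

theorem den_cont (b : V) : Continuous (den b) := by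
  unfold den mdot; fun_prop

theorem den_zero (b : V) : den b 0 = 1 := by simp [den, mdot]

theorem den_ev (b : V) : ∀ᶠ x in 𝓝 (0 : V), den b x ≠ 0 :=
  (den_cont b).continuousAt.eventually_ne (by rw [den_zero]; exact one_ne_zero)

theorem sct_sq (b x : V) (h : den b x ≠ 0) :
    mdot (sct b x) (sct b x) = mdot x x / den b x := by
  rw [sct_eq]
  simp only [dml, dmr, dsl, dsr, dc x b]
  have e : den b x = 1 - 2 * mdot b x + mdot b b * mdot x x := rfl
  generalize den b x = N at *
  field_simp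
  rw [e]; ring

theorem add' (b b' x : V) (h : den b' x ≠ 0) : sct b (sct b' x) = sct (b + b') x := by
  have h1 : den b (sct b' x) = den (b + b') x / den b' x := by
    have e : den b' x = 1 - 2 * mdot b' x + mdot b' b' * mdot x x := rfl
    have e1 : den b (sct b' x) = 1 - 2 * mdot b (sct b' x) +
      mdot b b * mdot (sct b' x) (sct b' x) := rfl
    have e2 : den (b + b') x = 1 - 2 * mdot (b + b') x + mdot (b + b') (b + b') * mdot x x := rfl
    rw [e1, e2, sct_sq _ _ h, sct_eq]
    simp only [dml, dmr, dsl, dsr, dal, dar, dc b' b]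
    generalize den b' x = N at *
    field_simp
    rw [e]; ring
  rw [sct_eq b, h1, sct_sq _ _ h, sct_eq, sct_eq]
  funext n
  simp only [Pi.smul_apply, Pi.sub_apply, Pi.add_apply, smul_eq_mul, inv_div]
  rw [div_eq_mul_inv (den b' x)]
  generalize (den (b + b') x)⁻¹ = R
  field_simp
  ring

theorem cov' (s : ℝ) (L : Fin 4 → V) (b x : V) (hL : IsLor L) :
    sct b (sim s L 0 x) = sim s L 0 (sct (s • sim 1 (linv L) 0 b) x) := by
  change _ = sim s L 0 (sct (s • T (linv L) b) x)
  have hb : T L (T (linv L) b) = b := by rw [T_T, (rowGL.inv L hL).2.2, T_id]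
  generalize T (linv L) b = c at hb
  subst hb
  have h1 : den (T L c) (s • T L x) = den (s • c) x := by
    simp only [den, dml, dmr, T_dot hL]; ring
  rw [sim_T, sim_T, zero_add, zero_add, sct_eq, sct_eq, h1]
  simp only [T_smul, T_sub, dml, dmr, T_dot hL]
  funext n
  simp only [Pi.smul_apply, Pi.sub_apply, smul_eq_mul]
  ring

theorem lim0 {f : ℝ → V} (hf : ContinuousAt f 0) (h : ∀ᶠ t in 𝓝[≠] (0 : ℝ), f t = 0) :
    f 0 = 0 :=
  tendsto_nhds_unique (hf.tendsto.mono_left nhdsWithin_le_nhds)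
    (tendsto_const_nhds.congr' (h.mono fun _ ht => ht.symm))

theorem line {P : V → Prop} (h : ∀ᶠ x in 𝓝 (0 : V), P x) (v : V) :
    ∀ᶠ t in 𝓝[≠] (0 : ℝ), t ≠ 0 ∧ P (t • v) := by
  have h1 : Tendsto (fun t : ℝ => t • v) (𝓝 0) (𝓝 0) := by
    have : Continuous fun t : ℝ => t • v := by fun_prop
    simpa using this.tendsto 0
  exact (eventually_mem_nhdsWithin.mono fun _ ht => ht).and
    ((h1.eventually h).filter_mono nhdsWithin_le_nhds)

theorem uniq_b (b b' : V) (h : ∀ᶠ x in 𝓝 (0 : V), sct b x = sct b' x) : b = b' := by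
  have key : ∀ v : V, (2 * mdot b v - 2 * mdot b' v) • v - mdot v v • (b - b') = 0 := by
    intro v
    have := lim0 (f := fun t => (2 * mdot b v - 2 * mdot b' v +
        t * mdot v v * (mdot b' b' - mdot b b)) • v -
        mdot v v • (den b' (t • v) • b - den b (t • v) • b')) ?_ ?_
    · simpa [den_zero] using this
    · have h1 := den_cont b
      have h2 := den_cont b'
      fun_prop
    · filter_upwards [line (h.and ((den_ev b).and (den_ev b'))) v] with t ⟨ht, h1, h2, h3⟩
      funext n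
      have h4 := congrFun h1 n
      have e : den b (t • v) = 1 - 2 * (t * mdot b v) + mdot b b * (t * (t * mdot v v)) := by
        simp only [den, dml, dmr]
      have e' : den b' (t • v) = 1 - 2 * (t * mdot b' v) + mdot b' b' * (t * (t * mdot v v)) := by
        simp only [den, dml, dmr]
      simp only [sct, dml, dmr, Pi.smul_apply, smul_eq_mul] at h4
      rw [div_eq_div_iff h2 h3] at h4
      simp only [Pi.smul_apply, Pi.sub_apply, smul_eq_mul, Pi.zero_apply]
      apply mul_left_cancel₀ ht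
      apply mul_left_cancel₀ ht
      generalize den b (t • v) = N at *
      generalize den b' (t • v) = N' at *
      linear_combination h4 - t * v n * e' + t * v n * e
  have h1 := key (one 0)
  simp only [d_one] at h1
  have h0 := congrFun h1 0
  funext n
  have h2 := congrFun h1 n
  simp [eta, one, bas] at h0 h2
  by_cases hn : n = 0
  · subst hn; linarith
  · simp [hn] at h2; linarith

theorem uniq' (p q : Pm) (hp : Adm p) (hq : Adm q) (h : ∀ᶠ x in 𝓝 (0 : V), cf p x = cf q x) :
    p = q := by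
  obtain ⟨s, L, a, b⟩ := p
  obtain ⟨s', L', a', b'⟩ := q
  change ∀ᶠ x in 𝓝 (0 : V), sim s L a (sct b x) = sim s' L' a' (sct b' x) at h
  obtain ⟨hs, hL⟩ : 0 < s ∧ IsLor L := hp
  obtain ⟨hs', hL'⟩ : 0 < s' ∧ IsLor L' := hq
  have ha : a = a' := by
    have := h.self_of_nhds
    funext n
    simpa [sim, sct, mdot] using congrFun this n
  subst ha
  simp only [sim_T, add_right_inj] at h
  have key : ∀ v : V, s • T L v = s' • T L' v := by
    intro v
    have := lim0 (f := fun t => s • T L ((den b (t • v))⁻¹ • (v - (t * mdot v v) • b)) -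
      s' • T L' ((den b' (t • v))⁻¹ • (v - (t * mdot v v) • b'))) ?_ ?_
    · simpa [den_zero, sub_eq_zero] using this
    · have h1 := den_cont b
      have h2 := den_cont b'
      have h3 := T_cont L
      have h4 := T_cont L'
      fun_prop (disch := simp [den_zero])
    · filter_upwards [line h v] with t ⟨ht, h1⟩
      have e : ∀ c : V, sct c (t • v) = t • (den c (t • v))⁻¹ • (v - (t * mdot v v) • c) := by
        intro c
        rw [sct_eq]
        funext n
        simp only [dml, dmr, Pi.smul_apply, Pi.sub_apply, smul_eq_mul]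
        ring
      rw [e, e, T_smul, T_smul L' t, smul_comm s t, smul_comm s' t] at h1
      rw [sub_eq_zero]
      exact smul_right_injective _ ht h1
  have h1 : s = s' := by
    have h2 := congrArg (fun y => mdot y y) (key (one 0))
    simp only [dml, dmr, T_dot hL, T_dot hL', d_one] at h2
    simp [eta, one, bas] at h2
    nlinarith
  subst h1
  have h2 : L = L' := by
    funext m
    rw [← T_one L, ← T_one L']
    exact smul_right_injective _ hs.ne' (key _)
  subst h2
  have h3 : b = b' := by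
    refine uniq_b b b' (h.mono fun x hx => ?_)
    have h4 := congrArg (T (linv L)) (smul_right_injective _ hs.ne' hx)
    rwa [T_T, T_T, (rowGL.inv L hL).2.1, T_id, T_id] at h4
  rw [h3]

/-! ## the path -/

/-- the numerator of the new parameter `b` -/
def cc (β a : V) : V := β - mdot β β • a

/-- the Lorentz part of the derivative of `sct β` at `a` -/
def LL (β a : V) : Fin 4 → V := fun m =>
  one m - (2 * (eta m * a m)) • β + (2 * (eta m * cc β a m)) • sct β a

theorem T_LL (β a v : V) :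
    T (LL β a) v = v - (2 * mdot a v) • β + (2 * mdot (cc β a) v) • sct β a := by
  funext n
  have : ∑ m, v m * one m n = v n := by simp [one, bas]
  simp only [T, sim, LL, mdot, Pi.add_apply, Pi.sub_apply, Pi.smul_apply, smul_eq_mul,
    Pi.zero_apply, Fin.sum_univ_four] at this ⊢
  linear_combination this

theorem LL_dot (β a v w : V) (h : den β a ≠ 0) :
    mdot (T (LL β a) v) (T (LL β a) w) = mdot v w := by
  have e : den β a = 1 - 2 * mdot β a + mdot β β * mdot a a := rfl
  simp only [T_LL, sct_eq, cc, dml, dmr, dsl, dsr, dal, dar, dc a β, dc v β, dc v a]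
  generalize den β a = N at *
  field_simp
  rw [e]; ring

theorem LL_orth (β a : V) (h : den β a ≠ 0) (m n : Fin 4) :
    mdot (LL β a m) (LL β a n) = bas m (eta m) n := by
  rw [← T_one (LL β a), ← T_one (LL β a) n, LL_dot _ _ _ _ h, rowGL.one.1]

theorem den_shift (β a x : V) (h : den β a ≠ 0) :
    den β (x + a) = den β a * den ((den β a)⁻¹ • cc β a) x := by
  have e : den β a = 1 - 2 * mdot β a + mdot β β * mdot a a := rfl
  have e1 : den β (x + a) = 1 - 2 * mdot β (x + a) + mdot β β * mdot (x + a) (x + a) := rfl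
  have e2 : den ((den β a)⁻¹ • cc β a) x = 1 - 2 * mdot ((den β a)⁻¹ • cc β a) x +
    mdot ((den β a)⁻¹ • cc β a) ((den β a)⁻¹ • cc β a) * mdot x x := rfl
  rw [e1, e2]
  simp only [cc, dml, dmr, dsl, dsr, dal, dar, dc a β, dc x a]
  generalize den β a = N at *
  field_simp
  rw [e]; ring

theorem shift (β a x : V) (h : den β a ≠ 0) (hx : den ((den β a)⁻¹ • cc β a) x ≠ 0) :
    sct β (x + a) = cf ((den β a)⁻¹, LL β a, sct β a, (den β a)⁻¹ • cc β a) x := by
  change _ = sim _ (LL β a) (sct β a) (sct ((den β a)⁻¹ • cc β a) x)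
  have e : den β a = 1 - 2 * mdot β a + mdot β β * mdot a a := rfl
  have e' : den ((den β a)⁻¹ • cc β a) x = 1 - 2 * mdot ((den β a)⁻¹ • cc β a) x +
    mdot ((den β a)⁻¹ • cc β a) ((den β a)⁻¹ • cc β a) * mdot x x := rfl
  rw [sim_T, T_LL, sct_eq β (x + a), den_shift _ _ _ h, sct_eq β a, sct_eq _ x]
  generalize den ((den β a)⁻¹ • cc β a) x = D at *
  funext n
  simp only [cc, dml, dmr, dsl, dsr, dal, dar, dc a β, dc x a, Pi.smul_apply, Pi.sub_apply,
    Pi.add_apply, smul_eq_mul] at e' ⊢
  generalize den β a = N at *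
  have e2 : D * N = N - 2 * (mdot β x - mdot β β * mdot a x) + mdot β β * mdot x x := by
    rw [e']; field_simp; rw [e]; ring
  field_simp
  linear_combination (-(a n - mdot a a * β n) * N) * e2 +
    mdot x x * (-2 * a n * mdot β β - N * β n + 2 * mdot a a * β n * mdot β β) * e

/-- the path -/
def P (a b : V) (σ : ℝ) : Pm :=
  ((den (σ • b) a)⁻¹, LL (σ • b) a, sct (σ • b) a, (den (σ • b) a)⁻¹ • cc (σ • b) a)

theorem den_line (a b : V) (σ : ℝ) :
    den (σ • b) a = 1 - 2 * (σ * mdot b a) + σ * (σ * mdot b b) * mdot a a := by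
  simp only [den, dml, dmr]

theorem cc_line (a b : V) (σ : ℝ) : cc (σ • b) a = σ • b - (σ * (σ * mdot b b)) • a := by
  simp only [cc, dml, dmr]

theorem d_den (a b : V) (σ : ℝ) :
    HasDerivAt (fun σ : ℝ => den (σ • b) a) (-(2 * mdot b a) + 2 * σ * mdot b b * mdot a a) σ := by
  simp only [den_line]
  have h := hasDerivAt_id' σ
  refine ((((h.mul_const (mdot b a)).const_mul 2).const_sub 1).fun_add
    ((h.fun_mul (h.mul_const (mdot b b))).mul_const (mdot a a))).congr_deriv ?_
  ring

theorem b_sct (a b : V) (σ : ℝ) :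
    mdot b (sct (σ • b) a) = (den (σ • b) a)⁻¹ * (mdot b a - mdot a a * (σ * mdot b b)) := by
  simp only [sct_eq, dmr, dsr]

theorem d_s (a b : V) (σ : ℝ) (h : den (σ • b) a ≠ 0) :
    HasDerivAt (fun σ : ℝ => (den (σ • b) a)⁻¹)
      (2 * mdot b (sct (σ • b) a) * (den (σ • b) a)⁻¹) σ := by
  refine ((d_den a b σ).fun_inv h).congr_deriv ?_
  rw [b_sct]; field_simp; ring

theorem d_a (a b : V) (σ : ℝ) (h : den (σ • b) a ≠ 0) :
    HasDerivAt (fun σ : ℝ => sct (σ • b) a) (kil (pK b) (sct (σ • b) a)) σ := by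
  have h1 := (d_s a b σ h).fun_smul
    ((((hasDerivAt_id' σ).smul_const b).fun_const_smul (mdot a a)).const_sub a)
  have h2 : (fun σ : ℝ => sct (σ • b) a) =
      fun σ : ℝ => (den (σ • b) a)⁻¹ • (a - mdot a a • σ • b) := funext fun σ => sct_eq _ _
  rw [h2]
  refine h1.congr_deriv ?_
  rw [kil_K, sct_sq _ _ h]
  generalize mdot b (sct (σ • b) a) = R
  rw [sct_eq]
  funext n
  simp only [Pi.smul_apply, Pi.sub_apply, Pi.add_apply, Pi.neg_apply, smul_eq_mul]
  ring

theorem d_c (a b : V) (σ : ℝ) :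
    HasDerivAt (fun σ : ℝ => cc (σ • b) a) (b - (2 * σ * mdot b b) • a) σ := by
  simp only [cc_line]
  have h := hasDerivAt_id' σ
  refine ((h.smul_const b).fun_sub
    ((h.fun_mul (h.mul_const (mdot b b))).smul_const a)).congr_deriv ?_
  rw [one_smul]; congr 2; ring

theorem d_b (a b : V) (σ : ℝ) (h : den (σ • b) a ≠ 0) :
    HasDerivAt (fun σ : ℝ => (den (σ • b) a)⁻¹ • cc (σ • b) a)
      ((den (σ • b) a)⁻¹ • sim 1 (linv (LL (σ • b) a)) 0 b) σ := by
  refine ((d_s a b σ h).fun_smul (d_c a b σ)).congr_deriv (Eq.symm ?_)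
  apply d_ext
  intro v
  change mdot (_ • T _ b) v = _
  rw [dml, T_linv, T_LL]
  simp only [dml, dmr, dsl, dsr, dal, dar]
  ring

theorem d_L (a b : V) (σ : ℝ) (h : den (σ • b) a ≠ 0) :
    HasDerivAt (fun σ : ℝ => LL (σ • b) a) (mm (LL (σ • b) a) (wd (sct (σ • b) a) b)) σ := by
  refine hasDerivAt_pi.2 fun m => ?_
  have h1 := (((((hasDerivAt_id' σ).smul_const b).fun_const_smul (2 * (eta m * a m))).const_sub
    (one m))).fun_add ((((hasDerivAt_pi.1 (d_c a b σ) m).const_mul (eta m)).const_mul 2).fun_smul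
      (d_a a b σ h))
  refine h1.congr_deriv ?_
  have e := den_line a b σ
  have e1 : sct (σ • b) a m = (den (σ • b) a)⁻¹ * (a m - mdot a a * (σ * b m)) := by
    rw [sct_eq]; simp
  have e2 : cc (σ • b) a m = σ * b m - σ * (σ * mdot b b) * a m := by
    rw [cc_line]; simp
  have e3 : mdot (sct (σ • b) a) (LL (σ • b) a m) =
      eta m * a m + eta m * cc (σ • b) a m * (mdot a a / den (σ • b) a) := by
    simp only [LL, dmr, dsr, dar, d_one, sct_sq _ _ h, dc (sct _ _) b, b_sct, e1, e2]
    generalize den (σ • b) a = N at *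
    field_simp
    rw [e]; ring
  rw [mm_T, T_wd, kil_K, e3, sct_sq _ _ h]
  simp only [LL, dmr, dsr, dar, d_one]
  funext n
  simp only [Pi.smul_apply, Pi.sub_apply, Pi.add_apply, Pi.neg_apply, smul_eq_mul]
  ring

theorem d_P (a b : V) (σ : ℝ) (h : den (σ • b) a ≠ 0) :
    HasDerivAt (P a b) (2 * mdot b (P a b σ).2.2.1 * (P a b σ).1,
      mm (P a b σ).2.1 (wd (P a b σ).2.2.1 b), kil (pK b) (P a b σ).2.2.1,
      (P a b σ).1 • sim 1 (linv (P a b σ).2.1) 0 b) σ :=
  (d_s a b σ h).prodMk ((d_L a b σ h).prodMk ((d_a a b σ h).prodMk (d_b a b σ h)))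

theorem P_zero (a b : V) : P a b 0 = (1, one, a, 0) := by
  have h1 : den 0 a = 1 := by simp [den, mdot]
  have h2 : cc 0 a = 0 := by simp [cc, mdot]
  have h3 : sct 0 a = a := by simp [sct_eq, h1]
  have h4 : LL 0 a = one := by funext m; simp [LL, h2]
  simp [P, h1, h2, h3, h4]

theorem stay_pos {f : ℝ → ℝ} (hf : ContinuousOn f (Icc 0 1)) (h0 : 0 < f 0)
    (hne : ∀ σ ∈ Icc (0 : ℝ) 1, f σ ≠ 0) : ∀ σ ∈ Icc (0 : ℝ) 1, 0 < f σ := by
  intro σ hσ
  by_contra hn
  have hs : Icc 0 σ ⊆ Icc (0 : ℝ) 1 := Icc_subset_Icc_right hσ.2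
  obtain ⟨τ, hτ, h1⟩ := intermediate_value_Icc' hσ.1 (hf.mono hs) ⟨not_lt.1 hn, h0.le⟩
  exact hne τ (hs hτ) h1

theorem adm (a b : V) (h : ∀ τ ∈ Icc (0 : ℝ) 1, 0 < den (τ • b) a) :
    ∀ σ ∈ Icc (0 : ℝ) 1, Adm (P a b σ) := by
  have hc : ContinuousOn (fun σ : ℝ => LL (σ • b) a) (Icc 0 1) := fun σ hσ =>
    (d_L a b σ (h σ hσ).ne').continuousAt.continuousWithinAt
  have h0 : LL ((0 : ℝ) • b) a = one := congrArg (fun p : Pm => p.2.1) (P_zero a b)
  have ho := fun σ hσ => LL_orth (σ • b) a (h σ hσ).ne'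
  have hd := fun σ hσ => RowG.det_sq ((RowG.orth_iff _).1 (ho σ hσ))
  have h1 := stay_pos (f := fun σ : ℝ => LL (σ • b) a 0 0)
    ((continuous_apply 0).comp_continuousOn ((continuous_apply 0).comp_continuousOn hc))
    (by rw [h0]; exact rowGL.one.2.1) fun σ hσ hz => by
      have := RowG.row0 (ho σ hσ)
      rw [hz] at this
      nlinarith [sq_nonneg (LL (σ • b) a 0 1), sq_nonneg (LL (σ • b) a 0 2),
        sq_nonneg (LL (σ • b) a 0 3)]
  have h2 := stay_pos (f := fun σ : ℝ => (RowG.M (LL (σ • b) a)).det)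
    ((Continuous.matrix_det continuous_id).comp_continuousOn hc)
    (by rw [h0, RowG.M_one, Matrix.det_one]; exact one_pos) fun σ hσ hz => by
      have := hd σ hσ
      rw [hz] at this
      simp at this
  intro σ hσ
  refine ⟨inv_pos.2 (h σ hσ), ho σ hσ, h1 σ hσ, ?_⟩
  have h3 := hd σ hσ
  have h4 := h2 σ hσ
  change (RowG.M (LL (σ • b) a)).det = 1
  nlinarith

end GC

open GC in
theorem rowGC : RowGC where
  uniq := uniq'
  cov s L b x _ hL := cov' s L b x hL
  add b b' := (den_ev b').mono fun x hx => add' b b' x hx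
  path a b h := by
    have hm : ∀ σ : ℝ, max 0 (min 1 σ) ∈ Icc (0 : ℝ) 1 := fun σ =>
      ⟨le_max_left _ _, max_le zero_le_one (min_le_left _ _)⟩
    have he : ∀ σ ∈ Icc (0 : ℝ) 1, max 0 (min 1 σ) = σ := fun σ hσ => by
      rw [min_eq_right hσ.2, max_eq_right hσ.1]
    refine ⟨fun σ => P a b (max 0 (min 1 σ)), ?_, ?_, fun σ => adm a b h _ (hm σ), ?_, ?_⟩
    · simp [P_zero]
    · have h1 := (h 1 ⟨zero_le_one, le_rfl⟩).ne'
      rw [one_smul] at h1
      filter_upwards [den_ev ((den b a)⁻¹ • cc b a)] with x hx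
      rw [shift b a x h1 hx]
      simp [P]
    · refine ContinuousOn.congr (f := P a b) (fun σ hσ => ?_) fun σ hσ => ?_
      · exact (d_P a b σ (h σ hσ).ne').continuousAt.continuousWithinAt
      · simp only [he σ hσ]
    · intro σ hσ
      have h1 := Ioo_subset_Icc_self hσ
      simp only [he σ h1]
      refine (d_P a b σ (h σ h1).ne').congr_of_eventuallyEq ?_
      filter_upwards [Icc_mem_nhds hσ.1 hσ.2] with τ hτ
      rw [he τ hτ]

end

end Vale.Agent.Q352
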