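import Vale.Agent.Q352.Spec

/-!
# P352, row GP: the groups of dilations and of special conformal transformations
-/

set_option linter.all false

open Filter Topology Set Metric
open Complex (I)

namespace Vale.Agent.Q352

noncomputable section

namespace GP

variable {H : Type*} [NormedAddCommGroup H] [InnerProductSpace ℂ H] [CompleteSpace H]

/-- the relation of the charge `p` -/
def Rl (St : H → (Pm → H) → Prop) (p : Pm) (v w : H) : Prop := ∃ κ, St v κ ∧ w = κ p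

theorem skew0 : Skew 0 := by
  intro m n; simp

theorem skK (b : V) : Skew (pK b).2.1 := skew0

theorem skD : Skew pD.2.1 := skew0

theorem norm_le {u : H →L[ℂ] H} (hu : u ∈ unitary (H →L[ℂ] H)) : ‖u‖ ≤ 1 :=
  ContinuousLinearMap.opNorm_le_bound _ zero_le_one fun x => by
    rw [ContinuousLinearMap.norm_map_of_mem_unitary hu, one_mul]

theorem crv_of_sv {St : H → (Pm → H) → Prop} {p J y} (h : Sv St p J y) : Crv (Rl St p) J y := by
  intro τ hτ
  obtain ⟨κ, h1, h2⟩ := h τ hτ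
  exact ⟨κ p, ⟨κ, h1, rfl⟩, h2⟩

theorem sol0 (a : RowA H) {R : H → H → Prop} {u γ} {T τ : ℝ} (hu : Gn R u)
    (hγ : Crv R (Ioo (-T) T) γ) (hτ : τ ∈ Ioo (-T) T) : γ τ = u τ (γ 0) := by
  have h0 : (0 : ℝ) ∈ Ioo (-T) T := by
    obtain ⟨h1, h2⟩ := hτ
    constructor <;> linarith
  have := a.sol R u (-T) T γ 0 τ hu hγ h0 hτ
  rwa [sub_zero] at this

/-- intertwiners -/
theorem inter (a : RowA H) {R R' : H → H → Prop} {u u' : ℝ → H →L[ℂ] H} (M : H →L[ℂ] H)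
    (hu : Gn R u) (hu' : Gn R' u') {σ T : ℝ} (hT : σ ∈ Ioo (-T) T) {Ds : Set H} (hD : Dense Ds)
    (P : H → Prop)
    (hc : ∀ v ∈ Ds, ∃ γ, γ 0 = v ∧ Crv R (Ioo (-T) T) γ ∧ ∀ τ ∈ Ioo (-T) T, P (γ τ))
    (hM : ∀ v w, P v → R v w → R' (M v) (M w)) : M * u σ = u' σ * M := by
  have key : (fun v => (M * u σ) v) = fun v => (u' σ * M) v := by
    refine Continuous.ext_on hD (M * u σ).continuous (u' σ * M).continuous ?_
    intro v hv
    obtain ⟨γ, h0, h1, h2⟩ := hc v hv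
    have h3 : Crv R' (Ioo (-T) T) fun τ => M (γ τ) := by
      intro τ hτ
      obtain ⟨w, hw, hd⟩ := h1 τ hτ
      refine ⟨M w, hM _ _ (h2 τ hτ) hw, ?_⟩
      have := (M.restrictScalars ℝ).hasFDerivAt.comp_hasDerivAt τ hd
      simpa [Function.comp_def] using this
    have e1 := sol0 a hu h1 hT
    have e2 := sol0 a hu' h3 hT
    simp only [ContinuousLinearMap.mul_apply]
    rw [← h0, ← e1, e2]
  exact ContinuousLinearMap.ext fun v => congrFun key v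

section main

variable {K : Frame H} {St : H → (Pm → H) → Prop} {B : ℝ → H → Prop}

theorem symm (h : Hs K St B) {p : Pm} (hp : Skew p.2.1) (v w v' w' : H) (h1 : Rl St p v w)
    (h2 : Rl St p v' w') : inner ℂ w v' = inner ℂ v w' := by
  obtain ⟨κ, h1, rfl⟩ := h1
  obtain ⟨κ', h2, rfl⟩ := h2
  exact h.sym v κ v' κ' p h1 h2 hp

theorem single (h : Hs K St B) {p : Pm} (hp : Skew p.2.1) {v κ κ'} (h1 : St v κ) (h2 : St v κ') :
    κ p = κ' p := by
  refine (h.dense 1 one_pos).eq_of_inner_left ℂ fun w hw => ?_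
  obtain ⟨κ'', h3⟩ := h.flows.st 1 w hw
  rw [h.sym v κ w κ'' p h1 h3 hp, h.sym v κ' w κ'' p h2 h3 hp]

theorem small (T c : ℝ) (hT : 0 < T) (hc : 0 ≤ c) : ∃ ρ > 0, ∀ r x, 0 ≤ r → r ≤ 2 * ρ → 0 ≤ x →
    x ≤ c → r * T * x ≤ 1 / 100 := by
  refine ⟨1 / (200 * T * (c + 1)), by positivity, fun r x h0 h1 h2 h3 => ?_⟩
  have h4 : r * T * x ≤ 2 * (1 / (200 * T * (c + 1))) * T * (c + 1) := by
    apply mul_le_mul (mul_le_mul_of_nonneg_right h1 hT.le) (by linarith) h2 (by positivity)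
  refine h4.trans (le_of_eq ?_)
  field_simp
  norm_num

theorem richK (h : Hs K St B) (b : V) : Rich (Rl St (pK b)) := by
  obtain ⟨ρ, h0, h1⟩ := small 1 ‖b‖ one_pos (norm_nonneg b)
  refine ⟨1, one_pos, {v | B ρ v}, h.dense ρ h0, fun u hu => ?_⟩
  obtain ⟨y, y0, y1, -⟩ := h.flows.K ρ 1 b u h0 one_pos
    (h1 ρ ‖b‖ h0.le (by linarith) (norm_nonneg b) le_rfl) hu
  exact ⟨y, y0, crv_of_sv y1⟩

theorem richD (h : Hs K St B) : Rich (Rl St pD) := by
  refine ⟨1, one_pos, {v | B 1 v}, h.dense 1 one_pos, fun u hu => ?_⟩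
  obtain ⟨y, y0, y1, -⟩ := h.flows.D 1 1 u one_pos one_pos hu
  exact ⟨y, y0, crv_of_sv y1⟩

theorem kap0 (h : Hs K St B) {v κ} (h1 : St v κ) : κ 0 = 0 := by
  have := h.lin v κ 0 0 1 h1 skew0 skew0
  simpa using this

theorem kapK (h : Hs K St B) {v κ} (h1 : St v κ) (b b' : V) (r : ℝ) :
    κ (pK (b + r • b')) = κ (pK b) + (r : ℂ) • κ (pK b') := by
  rw [← h.lin v κ (pK b) (pK b') r h1 (skK b) (skK b')]
  congr 1
  simp [pK]

theorem kapK0 (h : Hs K St B) {v κ} (h1 : St v κ) : κ (pK 0) = 0 := kap0 h h1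

theorem mem_Ioo (τ : ℝ) : τ ∈ Ioo (-(|τ| + 1)) (|τ| + 1) := by
  have := le_abs_self τ
  have := neg_abs_le τ
  constructor <;> linarith

/-- intertwiners of special conformal groups -/
theorem interK (a : RowA H) (h : Hs K St B) {b : V} {R' : H → H → Prop}
    {u u' : ℝ → H →L[ℂ] H} (M : H →L[ℂ] H) (hu : Gn (Rl St (pK b)) u) (hu' : Gn R' u') (σ : ℝ)
    (ρ0 : ℝ) (h0 : 0 < ρ0)
    (hM : ∀ ρ v w, 0 < ρ → ρ ≤ ρ0 → B ρ v → Rl St (pK b) v w → R' (M v) (M w)) :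
    M * u σ = u' σ * M := by
  have hT : 0 < |σ| + 1 := by positivity
  obtain ⟨ρ, r0, r1⟩ := small (|σ| + 1) ‖b‖ hT (norm_nonneg b)
  have m0 : 0 < min ρ (ρ0 / 2) := lt_min r0 (by linarith)
  have m1 := min_le_left ρ (ρ0 / 2)
  have m2 := min_le_right ρ (ρ0 / 2)
  refine inter a M hu hu' (mem_Ioo σ) (h.dense _ m0) (B (2 * min ρ (ρ0 / 2))) (fun v hv => ?_)
    fun v w hv hw => hM _ v w (by linarith) (by linarith) hv hw
  obtain ⟨y, y0, y1, y2, -⟩ := h.flows.K _ (|σ| + 1) b v m0 hT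
    (r1 _ ‖b‖ m0.le (by linarith) (norm_nonneg b) le_rfl) hv
  exact ⟨y, y0, crv_of_sv y1, y2⟩

/-- intertwiners of the dilation group -/
theorem interD (a : RowA H) (h : Hs K St B) {R' : H → H → Prop}
    {u u' : ℝ → H →L[ℂ] H} (M : H →L[ℂ] H) (hu : Gn (Rl St pD) u) (hu' : Gn R' u') (σ : ℝ)
    (hM : ∀ v w, Rl St pD v w → R' (M v) (M w)) : M * u σ = u' σ * M := by
  have hT : 0 < |σ| + 1 := by positivity
  refine inter a M hu hu' (mem_Ioo σ) (h.dense 1 one_pos) (fun _ => True) (fun v hv => ?_)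
    fun v w _ hw => hM v w hw
  obtain ⟨y, y0, y1, -⟩ := h.flows.D 1 (|σ| + 1) v one_pos hT hv
  exact ⟨y, y0, crv_of_sv y1, fun _ _ => trivial⟩

theorem relG (h : Hs K St B) (p : Pm) (v w : H) (h1 : Rl St p v w) :
    Rl St p (K.Γ v) (K.Γ w) := by
  obtain ⟨κ, h1, rfl⟩ := h1
  exact ⟨_, h.gr v κ h1, rfl⟩

theorem fixO (a : RowA H) (h : Hs K St B) {p : Pm} {u} (hu : Gn (Rl St p) u) (τ : ℝ) :
    u τ K.Ω = K.Ω := by
  have hc : Crv (Rl St p) (Ioo (-(|τ| + 1)) (|τ| + 1)) fun _ => K.Ω := by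
    intro σ _
    refine ⟨0, ⟨0, h.om, rfl⟩, ?_⟩
    simpa using hasDerivAt_const σ K.Ω
  exact (sol0 a hu hc (mem_Ioo τ)).symm

theorem kil_D (x : V) : kil pD x = x := by
  funext n
  simp [kil, pD, mdot]

theorem kil_K (b x : V) : kil (pK b) x = (2 * mdot b x) • x + (-mdot x x) • b := by
  funext n
  simp [kil, pK]
  ring

theorem mdot_smul (s t : ℝ) (x y : V) : mdot (s • x) (t • y) = s * t * mdot x y := by
  simp only [mdot, Pi.smul_apply, smul_eq_mul, Finset.mul_sum]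
  exact Finset.sum_congr rfl fun m _ => by ring

theorem kil_cov (g : RowGL) {s : ℝ} {L} (hs : 0 < s) (hL : IsLor L) (b x : V) :
    kil (pK (s⁻¹ • sim 1 L 0 b)) (sim s L 0 x) = sim s L 0 (kil (pK b) x) := by
  have z0 : sim 1 L 0 0 = 0 := by
    funext n
    simp [sim]
  have l1 : ∀ (c : ℝ) y, sim 1 L 0 (c • y) = c • sim 1 L 0 y := fun c y => by
    have := g.lin L 0 y c
    rwa [zero_add, z0, zero_add] at this
  rw [kil_K, kil_K, g.sim_add s L 0 x, g.sim_add s L 0, g.lin, l1, zero_add, zero_add, mdot_smul,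
    mdot_smul, g.dot L _ _ hL, g.dot L _ _ hL, inv_mul_cancel₀ hs.ne', one_mul, smul_add,
    smul_smul, smul_smul, smul_smul, smul_smul]
  congr 2
  · ring
  · field_simp

theorem relU (h : Hs K St B) {s : ℝ} {L} (hs : 0 < s) (hL : IsLor L) {p q : Pm}
    (hp : Skew p.2.1) (hq : Skew q.2.1) (hk : ∀ x, kil q (sim s L 0 x) = sim s L 0 (kil p x))
    (v w : H) (h1 : Rl St p v w) : Rl St q (K.U s L 0 v) (K.U s L 0 w) := by
  obtain ⟨κ, h1, rfl⟩ := h1
  obtain ⟨κ', h2, h3⟩ := h.cov v κ s L 0 h1 hs hL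
  exact ⟨κ', h2, (h3 p q hp hq hk).symm⟩

theorem relKK (a : RowA H) (h : Hs K St B) {b : V} {u} (hu : Gn (Rl St (pK b)) u) {ρ T τ : ℝ}
    (h0 : 0 < ρ) (hτ : τ ∈ Ioo (-T) T) (hs : ρ * T * ‖b‖ ≤ 1 / 100) (b' : V) {v w : H}
    (hv : B ρ v) (hw : Rl St (pK b') v w) : Rl St (pK b') (u τ v) (u τ w) := by
  have hT : 0 < T := by
    obtain ⟨h1, h2⟩ := hτ
    linarith
  have hz : (0 : ℝ) ∈ Ioo (-T) T := ⟨by linarith, hT⟩
  obtain ⟨κ, h1, rfl⟩ := hw
  obtain ⟨y, y0, y1, -, y3⟩ := h.flows.K ρ T b v h0 hT hs hv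
  obtain ⟨z, z1, z2⟩ := y3 b'
  obtain ⟨κ0, k1, k2⟩ := z2 0 hz
  obtain ⟨κ1, k3, k4⟩ := z2 τ hτ
  rw [y0] at k1
  have e1 := sol0 a hu (crv_of_sv y1) hτ
  have e2 := sol0 a hu (crv_of_sv z1) hτ
  rw [y0] at e1
  refine ⟨κ1, e1 ▸ k3, ?_⟩
  rw [k4, e2, ← k2, single h (skK b') h1 k1]

theorem relDK (a : RowA H) (h : Hs K St B) {u} (hu : Gn (Rl St pD) u) {ρ : ℝ} (τ : ℝ)
    (h0 : 0 < ρ) (b : V) {v w : H} (hv : B ρ v) (hw : Rl St (pK b) v w) :
    Rl St (pK (Real.exp (-τ) • b)) (u τ v) (u τ w) := by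
  have hT : 0 < |τ| + 1 := by positivity
  have hτ := mem_Ioo τ
  have hz : (0 : ℝ) ∈ Ioo (-(|τ| + 1)) (|τ| + 1) := ⟨by linarith, hT⟩
  obtain ⟨κ, h1, rfl⟩ := hw
  obtain ⟨y, y0, y1, -, y3⟩ := h.flows.D ρ _ v h0 hT hv
  obtain ⟨z, z1, z2⟩ := y3 b
  obtain ⟨κ0, k1, k2⟩ := z2 0 hz
  obtain ⟨κ1, k3, k4⟩ := z2 τ hτ
  rw [y0] at k1
  rw [neg_zero, Real.exp_zero, one_smul] at k2
  have e1 := sol0 a hu (crv_of_sv y1) hτ
  have e2 := sol0 a hu (crv_of_sv z1) hτ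
  rw [y0] at e1
  refine ⟨κ1, e1 ▸ k3, ?_⟩
  rw [k4, e2, ← k2, single h (skK b) h1 k1]

theorem scal (h : Hs K St B) {b : V} {u} (hu : Gn (Rl St (pK b)) u) (τ : ℝ) :
    Gn (Rl St (pK (τ • b))) fun σ => u (τ * σ) where
  uni σ := hu.uni _
  add σ σ' := by rw [mul_add, hu.add]
  zero := by rw [mul_zero, hu.zero]
  cont v := (hu.cont v).comp (continuous_const.mul continuous_id)
  der v w hw := by
    obtain ⟨κ, h1, rfl⟩ := hw
    have e := kapK h h1 0 b τ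
    rw [zero_add, kapK0 h h1, zero_add] at e
    have d1 : HasDerivAt (fun σ => u σ v) (I • κ (pK b)) (τ * 0) := by
      rw [mul_zero]
      exact hu.der v _ ⟨κ, h1, rfl⟩
    have d2 : HasDerivAt (fun σ : ℝ => τ * σ) τ 0 := by
      simpa using (hasDerivAt_id (0 : ℝ)).const_mul τ
    have d3 := d1.scomp (0 : ℝ) d2
    rw [e, smul_comm, Complex.coe_smul]
    exact d3

theorem comm (a : RowA H) (h : Hs K St B) {b b' : V} {u u'} (hu : Gn (Rl St (pK b)) u)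
    (hu' : Gn (Rl St (pK b')) u') (τ σ : ℝ) : u τ * u' σ = u' σ * u τ := by
  have hT : 0 < |τ| + 1 := by positivity
  obtain ⟨ρ, r0, r1⟩ := small (|τ| + 1) ‖b‖ hT (norm_nonneg b)
  exact interK a h (u τ) hu' hu' σ ρ r0 fun ρ' v w p0 p1 hv hw =>
    relKK a h hu p0 (mem_Ioo τ) (r1 ρ' ‖b‖ p0.le (by linarith) (norm_nonneg b) le_rfl) b' hv hw

theorem prodG (a : RowA H) (h : Hs K St B) {b b' : V} {u u'} (hu : Gn (Rl St (pK b)) u)
    (hu' : Gn (Rl St (pK b')) u') : Gn (Rl St (pK (b + b'))) fun τ => u τ * u' τ where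
  uni σ := mul_mem (hu.uni σ) (hu'.uni σ)
  add σ τ := by
    rw [hu.add, hu'.add, mul_assoc, mul_assoc, ← mul_assoc (u τ), comm a h hu hu' τ σ, mul_assoc]
  zero := by rw [hu.zero, hu'.zero, mul_one]
  cont v := by
    refine continuous_iff_continuousAt.2 fun τ => ?_
    have c1 : Tendsto (fun σ => u σ (u' σ v - u' τ v)) (𝓝 τ) (𝓝 0) := by
      rw [tendsto_zero_iff_norm_tendsto_zero]
      simp only [ContinuousLinearMap.norm_map_of_mem_unitary (hu.uni _)]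
      exact tendsto_iff_norm_sub_tendsto_zero.1 ((hu'.cont v).tendsto τ)
    have c2 := (hu.cont (u' τ v)).tendsto τ
    have c3 := c1.add c2
    simp only [map_sub, sub_add_cancel, zero_add] at c3
    exact c3
  der v w hw := by
    obtain ⟨κ, h1, rfl⟩ := hw
    have e := kapK h h1 b b' 1
    rw [one_smul, Complex.ofReal_one, one_smul] at e
    have d1 : HasDerivAt (fun σ => u σ (u' 0 v)) (I • κ (pK b)) 0 := by
      rw [hu'.zero]
      exact hu.der v _ ⟨κ, h1, rfl⟩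
    have d2 := a.prod u (fun σ => u' σ v) _ _ 0 (fun σ => norm_le (hu.uni σ))
      (fun v => (hu.cont v).continuousAt) d1 (hu'.der v _ ⟨κ, h1, rfl⟩)
    rw [hu.zero, ContinuousLinearMap.one_apply, ← smul_add, ← e] at d2
    exact d2

end main

end GP

open GP in
theorem rowGP (g : RowGL) (H : Type*) [NormedAddCommGroup H] [InnerProductSpace ℂ H]
    [CompleteSpace H] (a : RowA H) : RowGP H := by
  intro K St B hU h
  obtain ⟨U, -, hU⟩ := hU
  choose W hW using fun b => a.ex (Rl St (pK b)) (symm h (skK b)) (richK h b)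
  obtain ⟨D, hD⟩ := a.ex (Rl St pD) (symm h skD) (richD h)
  have sc : ∀ b (τ : ℝ), W (τ • b) 1 = W b τ := fun b τ => by
    rw [a.uniq _ _ _ (richK h _) (hW (τ • b)) (scal h (hW b) τ)]
    simp
  refine ⟨D, fun b => W b 1, hD, fun b => ?_, fun b b' => ?_, fun τ s L v hs hL => ?_,
    fun b s L v hs hL => ?_, fun τ b => ?_, fun τ => ?_, fun b => ?_, fixO a h hD,
    fun b => fixO a h (hW b) 1, fun C => ?_⟩
  · simp only [sc]
    exact hW b
  · rw [a.uniq _ _ _ (richK h _) (hW (b + b')) (prodG a h (hW b) (hW b'))]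
  · have e := (hU s L 0 hs hL).2
    have := interD a h (U s L 0) hD hD τ fun v w hw => by
      rw [e, e]
      exact relU h hs hL skD skD (fun x => by rw [kil_D, kil_D]) v w hw
    rw [← e, ← e]
    exact congrArg (fun M : H →L[ℂ] H => M v) this
  · have e := (hU s L 0 hs hL).2
    have := interK a h (U s L 0) (hW b) (hW (s⁻¹ • sim 1 L 0 b)) 1 1 one_pos
      fun _ v w _ _ _ hw => by
        rw [e, e]
        exact relU h hs hL (skK _) (skK _) (kil_cov g hs hL b) v w hw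
    rw [← e, ← e]
    exact congrArg (fun M : H →L[ℂ] H => M v) this
  · exact interK a h (D τ) (hW b) (hW _) 1 1 one_pos fun ρ v w p0 _ hv hw =>
      relDK a h hD τ p0 b hv hw
  · exact (interD a h K.Γ hD hD τ (relG h pD)).symm
  · exact (interK a h K.Γ (hW b) (hW b) 1 1 one_pos fun _ v w _ _ _ hw => relG h _ v w hw).symm
  · obtain ⟨ρ, r0, r1⟩ := small 2 |C| two_pos (abs_nonneg C)
    refine (h.dense ρ r0).mono fun u hu τ b hτ hb => ?_
    have h1 : (1 : ℝ) ∈ Ioo (-2 : ℝ) 2 := by constructor <;> norm_num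
    obtain ⟨y, y0, y1, y2, -⟩ := h.flows.K ρ 2 b u r0 two_pos
      (r1 ρ ‖b‖ r0.le (by linarith) (norm_nonneg b) (hb.trans (le_abs_self C))) hu
    have e1 := sol0 a (hW b) (crv_of_sv y1) h1
    rw [y0] at e1
    have hT : 0 < |τ| + 1 := by positivity
    obtain ⟨z, z0, z1, z2, -⟩ := h.flows.D (2 * ρ) _ (y 1) (by linarith) hT (y2 1 h1)
    have e2 := sol0 a hD (crv_of_sv z1) (mem_Ioo τ)
    rw [z0, e1] at e2
    have := h.flows.st _ _ (z2 τ (mem_Ioo τ))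
    rwa [e2] at this

end

end Vale.Agent.Q352
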