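import Vale.Agent.Q352.Spec

/-!
# Row R0: special conformal transformations and translations
-/

set_option linter.all false

open Filter Topology Set Metric
open Complex (I)

namespace Vale.Agent.Q352

noncomputable section

namespace RowR0

/-- left quotient of the parameters -/
def lf (o p : Pm) : Pm :=
  (1, mm (linv o.2.1) p.2.1, p.2.2.1 - sim 1 (mm (linv o.2.1) p.2.1) 0 o.2.2.1, 0)

/-- right quotient of the parameters -/
def rt (o p : Pm) : Pm := (p.1 / o.1, one, 0, o.1⁻¹ • (p.2.2.2 - o.2.2.2))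

theorem lf_cont (o : Pm) : Continuous (lf o) := by
  unfold lf mm sim
  fun_prop

theorem rt_cont (o : Pm) : Continuous (rt o) := by
  unfold rt
  fun_prop

theorem lf_self (g : RowGL) {o : Pm} (h : Adm o) : lf o o = e1 := by
  unfold lf e1
  rw [(g.inv _ h.2).2.2, g.sim_one]
  simp

theorem rt_self {o : Pm} (h : Adm o) : rt o o = e1 := by
  unfold rt e1
  rw [div_self h.1.ne']
  simp

theorem lf_adm (g : RowGL) {o p : Pm} (h : Adm o) (hp : Adm p) : Adm (lf o p) :=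
  ⟨one_pos, g.mul _ _ (g.inv _ h.2).1 hp.2⟩

theorem rt_adm (g : RowGL) {o p : Pm} (h : Adm o) (hp : Adm p) : Adm (rt o p) :=
  ⟨div_pos hp.1 h.1, g.one⟩

theorem d_fst {A B : Type*} [NormedAddCommGroup A] [NormedSpace ℝ A] [NormedAddCommGroup B]
    [NormedSpace ℝ B] {p : ℝ → A × B} {q : A × B} {σ : ℝ} (h : HasDerivAt p q σ) :
    HasDerivAt (fun τ => (p τ).1) q.1 σ :=
  (ContinuousLinearMap.fst ℝ A B).hasFDerivAt.comp_hasDerivAt σ h

theorem d_snd {A B : Type*} [NormedAddCommGroup A] [NormedSpace ℝ A] [NormedAddCommGroup B]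
    [NormedSpace ℝ B] {p : ℝ → A × B} {q : A × B} {σ : ℝ} (h : HasDerivAt p q σ) :
    HasDerivAt (fun τ => (p τ).2) q.2 σ :=
  (ContinuousLinearMap.snd ℝ A B).hasFDerivAt.comp_hasDerivAt σ h

theorem d_mm (A : Fin 4 → V) {L : ℝ → Fin 4 → V} {w : Fin 4 → V} {σ : ℝ}
    (h : HasDerivAt L w σ) : HasDerivAt (fun τ => mm A (L τ)) (mm A w) σ := by
  refine hasDerivAt_pi.2 fun m => hasDerivAt_pi.2 fun n => ?_
  unfold mm
  exact HasDerivAt.fun_sum fun k _ =>
    (hasDerivAt_pi.1 (hasDerivAt_pi.1 h k) n).const_mul (A m k)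

theorem d_sim (a : V) {L : ℝ → Fin 4 → V} {w : Fin 4 → V} {σ : ℝ}
    (h : HasDerivAt L w σ) : HasDerivAt (fun τ => sim 1 (L τ) 0 a) (sim 1 w 0 a) σ := by
  refine hasDerivAt_pi.2 fun n => ?_
  simp only [sim, Pi.zero_apply, zero_add, one_mul]
  exact HasDerivAt.fun_sum fun k _ =>
    (hasDerivAt_pi.1 (hasDerivAt_pi.1 h k) n).const_mul (a k)

theorem lf_der (o : Pm) {p : ℝ → Pm} {q : Pm} {σ : ℝ} (h : HasDerivAt p q σ) :
    HasDerivAt (fun τ => lf o (p τ))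
      (0, mm (linv o.2.1) q.2.1, q.2.2.1 - sim 1 (mm (linv o.2.1) q.2.1) 0 o.2.2.1, 0) σ := by
  have hL := d_mm (linv o.2.1) (d_fst (d_snd h))
  exact (hasDerivAt_const σ (1 : ℝ)).prodMk (hL.prodMk
    (((d_fst (d_snd (d_snd h))).sub (d_sim _ hL)).prodMk (hasDerivAt_const σ (0 : V))))

theorem rt_der (o : Pm) {p : ℝ → Pm} {q : Pm} {σ : ℝ} (h : HasDerivAt p q σ) :
    HasDerivAt (fun τ => rt o (p τ)) (q.1 / o.1, 0, 0, o.1⁻¹ • q.2.2.2) σ :=
  ((d_fst h).div_const o.1).prodMk ((hasDerivAt_const σ one).prodMk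
    ((hasDerivAt_const σ (0 : V)).prodMk
      (((d_snd (d_snd (d_snd h))).sub_const o.2.2.2).const_smul o.1⁻¹)))

theorem skew_zero : Skew 0 := by
  intro m n
  simp

theorem skew_neg {w : Fin 4 → V} (h : Skew w) : Skew (-w) := by
  intro m n
  have := h m n
  simp only [Pi.neg_apply]
  linarith

theorem kil_lin (L : Fin 4 → V) (r : ℝ) (β x : V) :
    sim 1 L 0 (kil (r, 0, 0, β) x) =
      r • sim 1 L 0 x + (2 * mdot β x) • sim 1 L 0 x - mdot x x • sim 1 L 0 β := by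
  ext n
  simp only [sim, kil, Fin.sum_univ_four, Pi.zero_apply, Pi.add_apply, Pi.sub_apply,
    Pi.smul_apply, smul_eq_mul]
  ring

theorem kil_shift (a b z : V) :
    kil (0, -wd a b, kil (pK b) a - (2 * mdot b a) • a, b) (a + z) =
      (2 * mdot b a) • z + (2 * mdot b z) • z - mdot z z • b := by
  ext n
  simp only [kil, pK, wd, mdot, Fin.sum_univ_four, Pi.zero_apply, Pi.add_apply, Pi.sub_apply,
    Pi.smul_apply, Pi.neg_apply, smul_eq_mul]
  ring

theorem kil_cov (g : RowGL) {L : Fin 4 → V} (hL : IsLor L) (a b x : V) :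
    kil (0, -wd a b, kil (pK b) a - (2 * mdot b a) • a, b) (sim 1 L a x) =
      sim 1 L 0 (kil (2 * mdot b a, 0, 0, sim 1 (linv L) 0 b) x) := by
  have hb : sim 1 L 0 (sim 1 (linv L) 0 b) = b := by
    rw [g.sim_sim, (g.inv _ hL).2.2, g.sim_one]
    ext n
    simp [sim]
  rw [kil_lin, g.sim_add, one_smul, kil_shift, hb, ← g.dot L x x hL,
    ← g.dot L (sim 1 (linv L) 0 b) x hL, hb]

theorem par_sum (a b : V) :
    ((0 : ℝ), wd a b, kil (pK b) a - sim 1 (wd a b) 0 a, (0 : V)) +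
      (1 : ℝ) • (((0 : ℝ), -wd a b, kil (pK b) a - (2 * mdot b a) • a, b) : Pm) = pK b := by
  unfold pK
  refine Prod.ext (by simp) (Prod.ext (by simp) (Prod.ext ?_ (by simp)))
  ext n
  simp only [kil, sim, wd, mdot, Fin.sum_univ_four, Pi.zero_apply, Pi.add_apply, Pi.sub_apply,
    Pi.smul_apply, smul_eq_mul, Prod.fst_add, Prod.snd_add, Prod.smul_fst, Prod.smul_snd]
  ring

section hil

variable {H : Type*} [NormedAddCommGroup H] [InnerProductSpace ℂ H] [CompleteSpace H]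

theorem norm_uni {X : H →L[ℂ] H} (h : X ∈ unitary (H →L[ℂ] H)) : ‖X‖ ≤ 1 :=
  X.opNorm_le_bound zero_le_one fun x => by
    rw [ContinuousLinearMap.norm_map_of_mem_unitary h, one_mul]

theorem lim_prod {ι : Type*} {l : Filter ι} {F : ι → H →L[ℂ] H} {γ : ι → H} {x y : H}
    (hF : ∀ i, ‖F i‖ ≤ 1) (h1 : Tendsto (fun i => F i x) l (𝓝 y)) (h2 : Tendsto γ l (𝓝 x)) :
    Tendsto (fun i => F i (γ i)) l (𝓝 y) := by
  have h3 : Tendsto (fun i => F i (γ i - x)) l (𝓝 0) := by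
    refine squeeze_zero_norm (a := fun i => ‖γ i - x‖) (fun i => ?_)
      (tendsto_iff_norm_sub_tendsto_zero.1 h2)
    exact ((F i).le_opNorm _).trans (mul_le_of_le_one_left (norm_nonneg _) (hF i))
  have h4 := h3.add h1
  simp only [map_sub, sub_add_cancel, zero_add] at h4
  exact h4

variable {K : Frame H} {St : H → (Pm → H) → Prop} {D : ℝ → H →L[ℂ] H} {S : V → H →L[ℂ] H}

theorem S_uni (G : Grp K St D S) (b : V) : S b ∈ unitary (H →L[ℂ] H) := by
  simpa using (G.sG b).uni 1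

theorem S_zero (G : Grp K St D S) : S 0 = 1 := by
  simpa using (G.sG 0).zero

theorem gen_at (E : Ev K St D S) {v : H} {κ : Pm → H} {p : ℝ → Pm} {q : Pm} {σ : ℝ}
    (hv : St v κ) (h0 : p σ = e1) (ha : ∀ e, Adm (p e)) (hp : HasDerivAt p q σ) :
    HasDerivAt (fun e => Wf K D S (p e) v) (I • κ q) σ := by
  have h1 := E.gen v κ (fun e => p (e + σ)) q hv (by simpa using h0) (fun e => ha _)
    (HasDerivAt.comp_add_const 0 σ (by simpa using hp))
  have h2 := HasDerivAt.comp_sub_const σ σ (f := fun e => Wf K D S (p (e + σ)) v)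
    (by simpa using h1)
  simpa using h2

theorem cont_at (E : Ev K St D S) {ι : Type*} {l : Filter ι} {p : ι → Pm} (v : H)
    (ha : ∀ e, Adm (p e)) (hp : Tendsto p l (𝓝 e1)) :
    Tendsto (fun e => Wf K D S (p e) v) l (𝓝 (Wf K D S e1 v)) :=
  (E.cont v).tendsto.comp (tendsto_nhdsWithin_iff.2 ⟨hp, Eventually.of_forall ha⟩)

theorem S_der (G : Grp K St D S) {v : H} {κ : Pm → H} (hv : St v κ) (b : V) (σ : ℝ) :
    HasDerivAt (fun τ => S (-τ • b) v) (-S (-σ • b) (I • κ (pK b))) σ := by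
  have h1 := (G.sG b).der v _ ⟨κ, hv, rfl⟩
  have h2 := HasDerivAt.comp_const_sub σ σ (f := fun τ => S (τ • b) v) (by simpa using h1)
  have h3 := ((S (-σ • b)).restrictScalars ℝ).hasFDerivAt.comp_hasDerivAt σ h2
  have h4 : ∀ τ : ℝ, S (-τ • b) v = S (-σ • b) (S ((σ - τ) • b) v) := fun τ => by
    rw [← ContinuousLinearMap.mul_apply, ← G.add, ← add_smul]
    congr 3
    ring
  simp only [h4]
  simpa [Function.comp_def] using h3

theorem wf_lf (G : Grp K St D S) (o p : Pm) (v : H) :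
    Wf K D S (lf o p) v = K.U 1 (lf o p).2.1 (lf o p).2.2.1 v := by
  simp [Wf, lf, S_zero G, G.dG.zero]

theorem wf_rt (G : Grp K St D S) (h1 : ∀ v, K.U 1 one 0 v = v) {o p : Pm} (ho : Adm o)
    (hp : Adm p) (v : H) :
    Wf K D S (rt o p) (D (Real.log o.1) (S o.2.2.2 v)) = D (Real.log p.1) (S p.2.2.2 v) := by
  have h2 : Real.log p.1 = Real.log (p.1 / o.1) + Real.log o.1 := by
    rw [Real.log_div hp.1.ne' ho.1.ne']
    ring
  have h3 : p.2.2.2 = (p.2.2.2 - o.2.2.2) + o.2.2.2 := by simp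
  have h4 := G.DS (Real.log o.1) (p.2.2.2 - o.2.2.2)
  rw [Real.exp_neg, Real.exp_log ho.1] at h4
  have h5 := congrArg (fun X : H →L[ℂ] H => X (S o.2.2.2 v)) h4
  simp only [ContinuousLinearMap.mul_apply] at h5
  unfold Wf rt
  simp only [h1]
  rw [← h5, h2, G.dG.add, ContinuousLinearMap.mul_apply]
  conv_rhs => rw [h3, G.add, ContinuousLinearMap.mul_apply]

theorem split (g : RowGL) (K : Frame H) {o p : Pm} (ho : Adm o) (hp : Adm p) :
    (∀ v, K.U 1 p.2.1 p.2.2.1 v =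
      K.U 1 (lf o p).2.1 (lf o p).2.2.1 (K.U 1 o.2.1 o.2.2.1 v)) ∨
    ∀ v, K.U 1 p.2.1 p.2.2.1 v =
      K.Γ (K.U 1 (lf o p).2.1 (lf o p).2.2.1 (K.U 1 o.2.1 o.2.2.1 v)) := by
  have h := K.mul 1 (lf o p).2.1 (lf o p).2.2.1 1 o.2.1 o.2.2.1 one_pos one_pos
    (lf_adm g ho hp).2 ho.2
  have e1 : mm o.2.1 (lf o p).2.1 = p.2.1 := by
    unfold lf
    simp only
    rw [← g.assoc, (g.inv _ ho.2).2.1, (g.one_mm _).1]
  have e2 : sim 1 (lf o p).2.1 (lf o p).2.2.1 o.2.2.1 = p.2.2.1 := by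
    rw [g.sim_add]
    simp [lf]
  rw [g.sim_mm, e1, e2, one_mul] at h
  rcases h with h | ⟨-, -, h⟩
  · exact Or.inl fun v => (h v).symm
  · refine Or.inr fun v => ?_
    rw [h v, ← ContinuousLinearMap.mul_apply, K.inv, ContinuousLinearMap.one_apply]

end hil

end RowR0

open RowR0 in
theorem rowR0 (g : RowGL) (c : RowGC) (H : Type*) [NormedAddCommGroup H] [InnerProductSpace ℂ H]
    [CompleteSpace H] (r : RowA H) : RowR0 H := by
  rintro K St B D S ⟨u, u1, hu⟩ h G E a b hab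
  obtain ⟨p, p0, p1, pa, pc, pd⟩ := c.path a b hab
  have uu : ∀ q : Pm, Adm q → u 1 q.2.1 q.2.2.1 ∈ unitary (H →L[ℂ] H) := fun q hq =>
    (hu 1 _ _ one_pos hq.2).1
  have ue : ∀ q : Pm, Adm q → ∀ v, u 1 q.2.1 q.2.2.1 v = K.U 1 q.2.1 q.2.2.1 v := fun q hq =>
    (hu 1 _ _ one_pos hq.2).2
  have id1 : ∀ v, K.U 1 one 0 v = v := fun v => by
    rw [← (hu 1 one 0 one_pos g.one).2 v, u1, ContinuousLinearMap.one_apply]
  have we : ∀ v, Wf K D S e1 v = v := fun v => by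
    simp [Wf, e1, S_zero G, G.dG.zero, id1]
  have SG : ∀ β v, S β (K.Γ v) = K.Γ (S β v) := fun β v =>
    congrArg (fun X : H →L[ℂ] H => X v) (G.SΓ β)
  have DG : ∀ τ v, D τ (K.Γ v) = K.Γ (D τ v) := fun τ v =>
    congrArg (fun X : H →L[ℂ] H => X v) (G.DΓ τ)
  have hlog : ContinuousOn (fun σ => Real.log (p σ).1) (Icc 0 1) :=
    (continuous_fst.comp_continuousOn pc).log fun σ _ => (pa σ).1.ne'
  obtain ⟨C1, hC1⟩ := isCompact_Icc.exists_bound_of_continuousOn hlog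
  obtain ⟨C2, hC2⟩ := isCompact_Icc.exists_bound_of_continuousOn pc
  set F : ℝ → H →L[ℂ] H := fun σ =>
    S (-σ • b) * (u 1 (p σ).2.1 (p σ).2.2.1 * (D (Real.log (p σ).1) * S (p σ).2.2.2)) with hF
  have key := r.sign K.Γ F _ K.inv K.herm (G.rich (max C1 C2)) ?_ ?_ ?_ ?_
  · refine ⟨p 1, pa 1, p1, ?_⟩
    have f0 : ∀ v, F 0 v = K.U 1 one a v := fun v => by
      simp [hF, p0, S_zero G, G.dG.zero, (hu 1 one a one_pos g.one).2]
    have f1 : ∀ v, S b (F 1 v) = Wf K D S (p 1) v := fun v => by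
      simp only [hF, ContinuousLinearMap.mul_apply]
      rw [← ContinuousLinearMap.mul_apply (S b), ← G.add, ue _ (pa 1)]
      simp [S_zero G, Wf]
    rcases key with k | k
    · exact Or.inl fun v => by rw [← f1, k, f0]
    · refine Or.inr fun v => ?_
      rw [← f1, k, ContinuousLinearMap.mul_apply, f0, SG, ← ContinuousLinearMap.mul_apply K.Γ,
        K.inv, ContinuousLinearMap.one_apply]
  · intro σ
    ext v
    simp only [hF, ContinuousLinearMap.mul_apply]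
    rw [SG, DG, ue _ (pa σ), K.comm _ _ _ _ one_pos (pa σ).2, SG, ue _ (pa σ)]
  · intro σ
    exact norm_uni (mul_mem (S_uni G _) (mul_mem (uu _ (pa σ))
      (mul_mem (G.dG.uni _) (S_uni G _))))
  · intro v hv τ β h1 h2
    obtain ⟨κ, hκ⟩ := hv τ β h1 h2
    rw [SG, DG]
    exact ⟨_, h.gr _ _ hκ⟩
  intro σ hσ
  have la : ∀ τ, Adm (lf (p σ) (p τ)) := fun τ => lf_adm g (pa σ) (pa τ)
  have ra : ∀ τ, Adm (rt (p σ) (p τ)) := fun τ => rt_adm g (pa σ) (pa τ)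
  set A : ℝ → H →L[ℂ] H := fun τ => u 1 (lf (p σ) (p τ)).2.1 (lf (p σ) (p τ)).2.2.1 with hA
  set U0 : H →L[ℂ] H := u 1 (p σ).2.1 (p σ).2.2.1 with hU0
  have Aw : ∀ τ v, A τ v = Wf K D S (lf (p σ) (p τ)) v := fun τ v => by
    rw [wf_lf G, hA]
    exact ue _ (la τ) v
  have An : ∀ τ, ‖A τ‖ ≤ 1 := fun τ => norm_uni (uu _ (la τ))
  have A0 : ∀ v, A σ v = v := fun v => by rw [Aw, lf_self g (pa σ), we]
  have Sn : ∀ τ : ℝ, ‖S (-τ • b)‖ ≤ 1 := fun τ => norm_uni (S_uni G _)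
  have Sc : ∀ v, Continuous fun τ : ℝ => S (-τ • b) v := fun v =>
    ((G.sG b).cont v).comp continuous_neg
  have Ac : ∀ (l : Filter ℝ) v, Tendsto p l (𝓝 (p σ)) → Tendsto (fun τ => A τ v) l (𝓝 v) := by
    intro l v hl
    have h1 := ((lf_cont (p σ)).tendsto _).comp hl
    rw [lf_self g (pa σ)] at h1
    have h2 := cont_at E v la h1
    rw [we] at h2
    simpa only [Aw] using h2
  refine ⟨fun τ => S (-τ • b) * (A τ * (U0 * (D (Real.log (p τ).1) * S (p τ).2.2.2))), ?_, ?_⟩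
  · intro τ _
    rcases split g K (pa σ) (pa τ) with k | k
    · left
      ext v
      simp only [hF, hA, hU0, ContinuousLinearMap.mul_apply]
      rw [ue _ (pa τ), k, ue _ (la τ), ue _ (pa σ)]
    · right
      ext v
      simp only [hF, hA, hU0, ContinuousLinearMap.mul_apply]
      rw [ue _ (pa τ), k, SG, ue _ (la τ), ue _ (pa σ)]
  intro v hv
  simp only [ContinuousLinearMap.mul_apply]
  set x1 := D (Real.log (p σ).1) (S (p σ).2.2.2 v) with hx1
  have rw1 : ∀ τ, D (Real.log (p τ).1) (S (p τ).2.2.2 v) = Wf K D S (rt (p σ) (p τ)) x1 :=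
    fun τ => (wf_rt G id1 (pa σ) (pa τ) v).symm
  have r0 : Wf K D S (rt (p σ) (p σ)) x1 = x1 := by rw [rt_self (pa σ), we]
  simp only [rw1]
  constructor
  · have hl : Tendsto p (𝓝[Icc 0 1] σ) (𝓝 (p σ)) := pc σ hσ
    have h1 := ((rt_cont (p σ)).tendsto _).comp hl
    rw [rt_self (pa σ)] at h1
    have h2 := cont_at E x1 ra h1
    rw [we] at h2
    have h3 := (U0.continuous.tendsto _).comp h2
    have h4 := lim_prod An (Ac _ (U0 x1) hl) h3
    have h5 := lim_prod Sn (((Sc (U0 x1)).tendsto σ).mono_left nhdsWithin_le_nhds) h4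
    unfold ContinuousWithinAt
    beta_reduce
    rw [r0, A0]
    exact h5
  intro hi
  have hd := pd σ hi
  obtain ⟨κ1, k1⟩ := hv (Real.log (p σ).1) (p σ).2.2.2
    ((hC1 σ hσ).trans (le_max_left _ _))
    ((norm_snd_le _).trans ((norm_snd_le _).trans ((norm_snd_le _).trans
      ((hC2 σ hσ).trans (le_max_right _ _)))))
  obtain ⟨κ2, k2, kc⟩ := h.cov _ κ1 1 (p σ).2.1 (p σ).2.2.1 k1 one_pos (pa σ).2
  have d1 := gen_at E k1 (rt_self (pa σ)) ra (rt_der (p σ) hd)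
  have q1 : ((2 * mdot b (p σ).2.2.1 * (p σ).1 / (p σ).1, 0, 0,
      (p σ).1⁻¹ • (p σ).1 • sim 1 (linv (p σ).2.1) 0 b) : Pm) =
      (2 * mdot b (p σ).2.2.1, 0, 0, sim 1 (linv (p σ).2.1) 0 b) := by
    rw [mul_div_cancel_right₀ _ (pa σ).1.ne', inv_smul_smul₀ (pa σ).1.ne']
  simp only at d1
  rw [q1] at d1
  have d2 := (U0.restrictScalars ℝ).hasFDerivAt.comp_hasDerivAt σ d1
  have c2 := kc _ _ skew_zero (skew_neg (g.skwd _ _)) (kil_cov g (pa σ).2 (p σ).2.2.1 b)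
  rw [← ue _ (pa σ)] at k2 c2
  have d3 := gen_at E k2 (lf_self g (pa σ)) la (lf_der (p σ) hd)
  simp only at d3
  rw [← g.assoc, (g.inv _ (pa σ).2).2.2, (g.one_mm _).1] at d3
  have d4 := r.prod A (fun τ => U0 (Wf K D S (rt (p σ) (p τ)) x1)) _ _ σ An
    (fun w => by
      unfold ContinuousAt
      beta_reduce
      rw [A0]
      exact Ac _ w hd.continuousAt)
    (by
      beta_reduce
      rw [r0]
      simpa only [Aw] using d3) d2
  have tot : κ2 (pK b) = κ2 (0, wd (p σ).2.2.1 b,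
      kil (pK b) (p σ).2.2.1 - sim 1 (wd (p σ).2.2.1 b) 0 (p σ).2.2.1, 0) +
      U0 (κ1 (2 * mdot b (p σ).2.2.1, 0, 0, sim 1 (linv (p σ).2.1) 0 b)) := by
    have h1 := h.lin _ κ2 (0, wd (p σ).2.2.1 b,
      kil (pK b) (p σ).2.2.1 - sim 1 (wd (p σ).2.2.1 b) 0 (p σ).2.2.1, 0)
      (0, -wd (p σ).2.2.1 b, kil (pK b) (p σ).2.2.1 - (2 * mdot b (p σ).2.2.1) • (p σ).2.2.1, b)
      1 k2 (g.skwd _ _) (skew_neg (g.skwd _ _))
    rw [par_sum, c2] at h1
    simpa [hU0] using h1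
  have d5 := r.prod (fun τ => S (-τ • b)) (fun τ => A τ (U0 (Wf K D S (rt (p σ) (p τ)) x1))) _ _ σ
    Sn (fun w => (Sc w).continuousAt)
    (by
      beta_reduce
      rw [r0, A0]
      exact S_der G k2 b σ) d4
  convert d5 using 1
  rw [A0, tot]
  simp

end

end Vale.Agent.Q352
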