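import Vale.Agent.P352.H246.Dens
import Vale.Agent.P352.H246.Part
import Vale.Agent.P352.H246.Compl
import Vale.Agent.P352.H246.Alg
import Vale.Agent.P352.H246.Defs

/-!
# Q352, row RS: Reeh-Schlieder theorem for arbitrary nonempty open regions
-/

set_option linter.all false

noncomputable section

open MeasureTheory SchwartzMap Filter Topology
open scoped SchwartzMap ComplexConjugate

namespace Vale.Agent.Q352

open Vale.Agent.P352 Vale.Agent.P352.H246
open UniformSpace (Completion)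

namespace RS

variable {D : Type*} [NormedAddCommGroup D] [InnerProductSpace ℂ D]
variable {Q : GF.Theory D}

/-- finite suprema of Schwartz seminorms -/
def sp (s : Finset (ℕ × ℕ)) : Seminorm ℂ 𝓢(Mink, ℂ) :=
  s.sup fun m => SchwartzMap.seminorm ℂ m.1 m.2

/-- scaling -/
theorem scale {E H : Type*} [AddCommGroup E] [Module ℂ E] [NormedAddCommGroup H]
    [NormedSpace ℂ H] (T : E →ₗ[ℂ] H) (p : Seminorm ℂ E)
    {r B : ℝ} (hr : 0 < r) (h : ∀ g, p g < r → ‖T g‖ ≤ B) (g : E) :
    ‖T g‖ ≤ B / r * p g := by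
  have hB : 0 ≤ B := (norm_nonneg _).trans (h 0 (by
    rw [map_zero]
    exact hr))
  have hg : 0 ≤ p g := apply_nonneg _ _
  have key : ∀ δ : ℝ, 0 < δ → ‖T g‖ ≤ B / r * (p g + δ) := by
    intro δ hδ
    have hp : 0 < p g + δ := by linarith
    have ht : 0 < r / (p g + δ) := div_pos hr hp
    have h1 : p (((r / (p g + δ) : ℝ) : ℂ) • g) < r := by
      rw [map_smul_eq_mul, Complex.norm_real, Real.norm_of_nonneg ht.le, div_mul_eq_mul_div,
        div_lt_iff₀ hp]
      exact mul_lt_mul_of_pos_left (by linarith) hr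
    have h2 := h _ h1
    rw [map_smul, norm_smul, Complex.norm_real, Real.norm_of_nonneg ht.le, div_mul_eq_mul_div,
      div_le_iff₀ hp] at h2
    rw [div_mul_eq_mul_div, le_div_iff₀ hr]
    linarith
  refine le_of_forall_pos_le_add fun ε hε => ?_
  have hq : 0 < B / r + 1 := by positivity
  have h3 := key (ε / (B / r + 1)) (div_pos hε hq)
  have h4 : B / r * (ε / (B / r + 1)) ≤ ε := by
    rw [← mul_div_assoc, div_le_iff₀ hq]
    nlinarith
  rw [mul_add] at h3
  linarith

/-- the uniform boundedness principle with weights -/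
theorem ubp {H ι : Type*} [NormedAddCommGroup H] [NormedSpace ℂ H]
    (T : ι → 𝓢(Mink, ℂ) →ₗ[ℂ] H) (hT : ∀ i, Continuous (T i)) (w : ℕ → ι → ℝ)
    (h : ∀ f, ∃ m : ℕ, ∀ i, ‖T i f‖ ≤ w m i) :
    ∃ (m : ℕ) (s : Finset (ℕ × ℕ)) (C : ℝ), 0 ≤ C ∧ ∀ i f, ‖T i f‖ ≤ C * w m i * sp s f := by
  have := countable_schwartz
  have := complete_schwartz
  have hc : ∀ m : ℕ, IsClosed {f : 𝓢(Mink, ℂ) | ∀ i, ‖T i f‖ ≤ w m i} := fun m => by
    rw [Set.setOf_forall]
    exact isClosed_iInter fun i => isClosed_le (hT i).norm continuous_const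
  obtain ⟨m, f0, hf0⟩ := nonempty_interior_of_iUnion_of_closed hc
    (Set.eq_univ_of_forall fun f => Set.mem_iUnion.2 (h f))
  have h0 : ∀ i, ‖T i f0‖ ≤ w m i := interior_subset hf0
  have hU : (fun g => f0 + g) ⁻¹' {f : 𝓢(Mink, ℂ) | ∀ i, ‖T i f‖ ≤ w m i} ∈
      𝓝 (0 : 𝓢(Mink, ℂ)) := by
    refine (continuous_const.add continuous_id).continuousAt.preimage_mem_nhds ?_
    simpa using mem_interior_iff_mem_nhds.1 hf0
  obtain ⟨s, r, hr, hk⟩ := ((schwartz_withSeminorms ℂ Mink ℂ).mem_nhds_iff 0 _).1 hU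
  refine ⟨m, s, 2 / r, by positivity, fun i f => ?_⟩
  have := scale (T i) (sp s) hr (B := 2 * w m i) (fun g hg => ?_) f
  · refine this.trans (le_of_eq ?_)
    ring
  have h1 : ‖T i (f0 + g)‖ ≤ w m i := hk (by rw [Seminorm.mem_ball_zero]; exact hg) i
  have h2 : T i g = T i (f0 + g) - T i f0 := by rw [map_add, add_sub_cancel_left]
  rw [h2]
  refine (norm_sub_le _ _).trans ?_
  linarith [h0 i]

/-- polynomial growth of the seminorms of the translates -/
theorem sp_shift (s : Finset (ℕ × ℕ)) (g : 𝓢(Mink, ℂ)) :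
    ∃ (B : ℝ) (N : ℕ), 0 ≤ B ∧ ∀ a : Mink, sp s (tauS (-a) g) ≤ B * (1 + ‖a‖) ^ N := by
  set N : ℕ := s.sup Prod.fst with hN
  set B : ℝ := ∑ i ∈ s, 2 ^ i.1 * (SchwartzMap.seminorm ℂ i.1 i.2 g +
    SchwartzMap.seminorm ℂ 0 i.2 g) with hB
  have hB0 : 0 ≤ B := Finset.sum_nonneg fun i _ => by positivity
  refine ⟨B, N, hB0, fun a => ?_⟩
  apply Seminorm.finset_sup_apply_le (by positivity)
  intro i hi
  have h4 := seminorm_shift_le g i.1 i.2 (-a)
  rw [norm_neg] at h4
  have h5 : ‖a‖ ^ i.1 ≤ (1 + ‖a‖) ^ N := by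
    calc ‖a‖ ^ i.1 ≤ (1 + ‖a‖) ^ i.1 := by gcongr; linarith
      _ ≤ (1 + ‖a‖) ^ N := by
          apply pow_le_pow_right₀ (by linarith [norm_nonneg a])
          exact Finset.le_sup (f := Prod.fst) hi
  have h6 : (1 : ℝ) ≤ (1 + ‖a‖) ^ N := one_le_pow₀ (by linarith [norm_nonneg a])
  calc _ ≤ 2 ^ i.1 * (SchwartzMap.seminorm ℂ i.1 i.2 g +
        ‖a‖ ^ i.1 * SchwartzMap.seminorm ℂ 0 i.2 g) := h4
    _ ≤ 2 ^ i.1 * (SchwartzMap.seminorm ℂ i.1 i.2 g * (1 + ‖a‖) ^ N +
        (1 + ‖a‖) ^ N * SchwartzMap.seminorm ℂ 0 i.2 g) := by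
        gcongr
        exact le_mul_of_one_le_right (by positivity) h6
    _ = (2 ^ i.1 * (SchwartzMap.seminorm ℂ i.1 i.2 g +
        SchwartzMap.seminorm ℂ 0 i.2 g)) * (1 + ‖a‖) ^ N := by ring
    _ ≤ B * (1 + ‖a‖) ^ N := by
        gcongr
        exact Finset.single_le_sum (f := fun i : ℕ × ℕ => 2 ^ i.1 *
          (SchwartzMap.seminorm ℂ i.1 i.2 g + SchwartzMap.seminorm ℂ 0 i.2 g))
          (fun i _ => by positivity) hi

/-- polynomial growth of words along the orbits of the translations -/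
theorem poly {X X' : D → D} (h : WO Q X X') : ∀ v : D,
    ∃ (C : ℝ) (N : ℕ), 0 ≤ C ∧ ∀ a, ‖X (U1 Q a v)‖ ≤ C * (1 + ‖a‖) ^ N := by
  induction h with
  | one => exact fun v => ⟨‖v‖, 0, norm_nonneg _, fun a => by rw [U1_norm, pow_zero, mul_one]⟩
  | fld A B f X X' hA hB hadj h ih =>
    intro v
    set T : Mink → 𝓢(Mink, ℂ) →ₗ[ℂ] D := fun a =>
      { toFun := fun g => X (U1 Q a (A (fl g) v))
        map_add' := fun f g => by rw [fld_addf hA, U1_add, h.map_add]
        map_smul' := fun c f => by rw [fld_smulf hA, U1_smul, h.map_smul]; rfl } with hT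
    have hTa : ∀ a g, T a g = X (U1 Q a (A (fl g) v)) := fun a g => rfl
    have hc : ∀ a, Continuous (T a) := by
      intro a
      have e : (T a : 𝓢(Mink, ℂ) → D) = fun g => X (A (fl (tauS a g)) (U1 Q a v)) := by
        funext g
        rw [hTa]
        exact congrArg X (U_fld hA g a v)
      rw [e]
      exact (h.cont hA (U1 Q a v)).comp (SchwartzMap.compSubConstCLM ℂ a).continuous
    obtain ⟨m, s, C, hC, e⟩ := ubp T hc (fun m a => m * (1 + ‖a‖) ^ m) fun g => by
      obtain ⟨C, N, hC, e⟩ := ih (A (fl g) v)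
      refine ⟨max N ⌈C⌉₊, fun a => (e a).trans ?_⟩
      have h1 : (1 : ℝ) ≤ 1 + ‖a‖ := by linarith [norm_nonneg a]
      refine mul_le_mul ((Nat.le_ceil C).trans ?_) (pow_le_pow_right₀ h1 (le_max_left _ _))
        (by positivity) (Nat.cast_nonneg _)
      exact_mod_cast le_max_right _ _
    obtain ⟨B', N, hB', e'⟩ := sp_shift s f
    refine ⟨C * m * B', m + N, by positivity, fun a => ?_⟩
    have e1 : A (fl f) (U1 Q a v) = U1 Q a (A (fl (tauS (-a) f)) v) := by
      have h1 := U_fld hA (tauS (-a) f) a v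
      rw [tauS_tauS, neg_add_cancel, tauS_zero'] at h1
      exact h1.symm
    show ‖X (A (fl f) (U1 Q a v))‖ ≤ _
    rw [e1, ← hTa]
    calc _ ≤ C * (m * (1 + ‖a‖) ^ m) * sp s (tauS (-a) f) := e a _
      _ ≤ C * (m * (1 + ‖a‖) ^ m) * (B' * (1 + ‖a‖) ^ N) :=
          mul_le_mul_of_nonneg_left (e' a) (by positivity)
      _ = _ := by ring

/-- matrix elements of words along the orbits of the translations are boundary values of
holomorphic functions -/
theorem hol {X X' : D → D} (h : WO Q X X') (y : Completion D) (v : D) :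
    Hol fun a => inner ℂ y ((X (U1 Q a v) : D) : Completion D) := by
  obtain ⟨C, N, hC, hle⟩ := poly h v
  refine ⟨N, LineHol.lim fun ε hε => ?_⟩
  obtain ⟨z, hz⟩ := exists_coe y (ε := ε / (C + 1)) (by positivity)
  refine ⟨fun a => inner ℂ z (X (U1 Q a v)), ?_, fun a => ?_⟩
  · have e : (fun a => inner ℂ z (X (U1 Q a v))) = fun a => inner ℂ (X' z) (U1 Q a v) := by
      funext a
      rw [← inner_conj_symm, h.adj, inner_conj_symm]
    rw [e]
    have := (lineHol_inner (Q := Q) (X' z) v).raise N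
    rwa [zero_add] at this
  · show ‖inner ℂ y ((X (U1 Q a v) : D) : Completion D) - inner ℂ z (X (U1 Q a v))‖ ≤ _
    rw [← Completion.inner_coe z, ← inner_sub_left]
    calc _ ≤ ‖y - (z : Completion D)‖ * ‖((X (U1 Q a v) : D) : Completion D)‖ :=
          norm_inner_le_norm _ _
      _ ≤ ε / (C + 1) * (C * (1 + ‖a‖) ^ N) := by
          rw [Completion.norm_coe]
          gcongr
          exact hle a
      _ ≤ ε / (C + 1) * ((C + 1) * (1 + ‖a‖) ^ N) := by gcongr; linarith
      _ = ε * (1 + ‖a‖) ^ N := by field_simp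

/-- `y` is orthogonal to `X w` for all `w` localized in a ball of radius `ρ` -/
def Good (Q : GF.Theory D) (y : Completion D) (ρ : ℝ) (X : D → D) : Prop :=
  ∀ (x : Mink) (w : D), PW Q (Metric.ball x ρ) w → inner ℂ y ((X w : D) : Completion D) = 0

theorem spread {X X' : D → D} (h : WO Q X X') {y : Completion D} {ρ : ℝ} (hρ : 0 < ρ) {x0 : Mink}
    (h0 : ∀ w, PW Q (Metric.ball x0 ρ) w → inner ℂ y ((X w : D) : Completion D) = 0) :
    Good Q y (ρ / 2) X := by
  intro x w hw
  have := (hol h y w).unique (O := Metric.ball (x0 - x) (ρ / 2)) Metric.isOpen_ball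
    ⟨_, Metric.mem_ball_self (by positivity)⟩ (fun a ha => h0 _ (hw.transl a fun z hz => ?_)) 0
  · rwa [U1_zero hw] at this
  · rw [Metric.mem_ball, dist_eq_norm] at hz ha ⊢
    calc ‖z + a - x0‖ = ‖(z - x) + (a - (x0 - x))‖ := by congr 1; abel
      _ ≤ ‖z - x‖ + ‖a - (x0 - x)‖ := norm_add_le _ _
      _ < ρ / 2 + ρ / 2 := add_lt_add hz ha
      _ = ρ := by ring

theorem step {X X' : D → D} (h : WO Q X X') {y : Completion D} {ρ : ℝ} (hρ : 0 < ρ)
    (hG : Good Q y ρ X) {A : GF.Fld D} (hA : Q.fld A) {g : 𝓢(Mink, ℂ)} (hg : IsTest Set.univ g) :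
    Good Q y (ρ / 2) fun v => X (A (fl g) v) := by
  obtain ⟨B, hB, hadj⟩ := Q.adj A hA
  obtain ⟨U, _, hKU, hall⟩ := part_induct
    (P := fun f => Good Q y (ρ / 2) fun v => X (A (fl f) v)) (K := tsupport g) (by
      intro x w _
      have h0 : X 0 = 0 := by
        have := h.map_smul 0 0
        rwa [zero_smul, zero_smul] at this
      show inner ℂ y ((X (A (fl 0) w) : D) : Completion D) = 0
      rw [fld_zero hA, h0, Completion.coe_zero, inner_zero_right]) (by
      intro f1 f2 _ _ h1 h2 x w hw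
      have e1 : inner ℂ y ((X (A (fl f1) w) : D) : Completion D) = 0 := h1 x w hw
      have e2 : inner ℂ y ((X (A (fl f2) w) : D) : Completion D) = 0 := h2 x w hw
      show inner ℂ y ((X (A (fl (f1 + f2)) w) : D) : Completion D) = 0
      rw [fld_addf hA, h.map_add, Completion.coe_add, inner_add_right, e1, e2, add_zero])
    hg.1 (by
      intro x _
      refine ⟨Metric.ball x ρ, Metric.isOpen_ball, Metric.mem_ball_self hρ, fun f hf => ?_⟩
      exact spread (WO.fld A B f X X' hA hB hadj h) hρ (x0 := x)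
        fun w hw => hG x _ (.fld hA hf hw))
  exact hall g ⟨hg.1, hKU⟩

theorem all {y : Completion D} {v : D} (hv : PW Q Set.univ v) : ∀ {X X' : D → D}, WO Q X X' →
    ∀ {ρ : ℝ}, 0 < ρ → Good Q y ρ X → inner ℂ y ((X v : D) : Completion D) = 0 := by
  induction hv with
  | vac => exact fun _ _ _ hG => hG 0 _ .vac
  | add _ _ h1 h2 =>
    intro X X' h ρ hρ hG
    rw [h.map_add, Completion.coe_add, inner_add_right, h1 h hρ hG, h2 h hρ hG, add_zero]
  | smul c _ h1 =>
    intro X X' h ρ hρ hG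
    rw [h.map_smul, Completion.coe_smul, inner_smul_right, h1 h hρ hG, mul_zero]
  | @fld A g v hA hg _ ih =>
    intro X X' h ρ hρ hG
    obtain ⟨B, hB, hadj⟩ := Q.adj A hA
    have h1 := ih (WO.fld A B g X X' hA hB hadj h) (half_pos hρ) (step h hρ hG hA hg)
    exact h1

/-- a vector orthogonal to the vectors localized in a ball vanishes -/
theorem orth {y : Completion D} {ρ : ℝ} (hρ : 0 < ρ) {x0 : Mink}
    (h0 : ∀ w, PW Q (Metric.ball x0 ρ) w → inner ℂ y (w : Completion D) = 0) : y = 0 := by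
  have hd : Dense ((fun v : D => (v : Completion D)) '' (PS Q Set.univ : Set D)) :=
    (Completion.denseRange_coe).dense_image (Completion.continuous_coe D) dense_PS
  refine hd.eq_of_inner_left ℂ ?_
  rintro _ ⟨v, hv, rfl⟩
  have h1 : WO Q (fun v => v) (fun v => v) := WO.one
  have h2 := spread h1 hρ (x0 := x0) (y := y) h0
  have h3 : PW Q Set.univ v := hv
  have h4 := all (y := y) h3 h1 (half_pos hρ) h2
  rw [inner_zero_left]
  exact h4

end RS

/-- **Reeh-Schlieder theorem**: a subspace that contains the vacuum and is invariant under the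
fields smeared with test functions supported in a nonempty open set is dense -/
theorem rsb {D : Type*} [NormedAddCommGroup D] [InnerProductSpace ℂ D] (Q : P352.GF.Theory D)
    {O : Set P352.GF.V} (hO : IsOpen O) (hne : O.Nonempty) (S : Submodule ℂ D) (h0 : Q.vac ∈ S)
    (h : ∀ A f v, Q.fld A → P352.H246.In O f → v ∈ S → A f v ∈ S) : Dense (S : Set D) := by
  obtain ⟨x0', hx0'⟩ := hne
  set x0 : Mink := WithLp.toLp 2 x0' with hx0
  have hMO : IsOpen (MW O) := hO.preimage (PiLp.continuous_ofLp 2 _)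
  obtain ⟨r, hr, hball⟩ := Metric.isOpen_iff.1 hMO x0 hx0'
  have hS : ∀ w, PW Q (Metric.ball x0 r) w → w ∈ S := by
    intro w hw
    induction hw with
    | vac => exact h0
    | add _ _ h1 h2 => exact S.add_mem h1 h2
    | smul c _ h1 => exact S.smul_mem c h1
    | fld hB hg _ h1 => exact h _ _ _ hB (In_fl.2 ⟨hg.1, hg.2.trans hball⟩) h1
  set K : Submodule ℂ (Completion D) := S.map (Completion.toComplₗᵢ (𝕜 := ℂ)).toLinearMap with hK
  have hbot : Kᗮ = ⊥ := by
    rw [eq_bot_iff]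
    intro y hy
    rw [Submodule.mem_bot]
    refine RS.orth (Q := Q) hr (x0 := x0) fun w hw => ?_
    exact Submodule.inner_left_of_mem_orthogonal (K := K) ⟨w, hS w hw, rfl⟩ hy
  have hd : Dense (K : Set (Completion D)) := by
    rw [Submodule.dense_iff_topologicalClosure_eq_top, Submodule.topologicalClosure_eq_top_iff]
    exact hbot
  intro v
  rw [Metric.mem_closure_iff]
  intro ε hε
  obtain ⟨_, ⟨w, hw, rfl⟩, hε'⟩ := Metric.mem_closure_iff.1 (hd (v : Completion D)) ε hε
  refine ⟨w, hw, ?_⟩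
  rw [← Completion.dist_eq]
  exact hε'

end Vale.Agent.Q352

end
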