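import Vale.Agent.Q352.Spec

/-!
# P352, the global conformal action: row W (the words flow)
-/

set_option linter.all false

open Filter Topology Set Metric
open scoped SchwartzMap ContDiff
open Complex (I)

namespace Vale.Agent.Q352

noncomputable section

namespace RowW

section pre

variable {E : Type*} [NormedAddCommGroup E] [InnerProductSpace ℂ E]

theorem adj_lin {Z : E → E} (h : Adjb Z) (v w : E) (c : ℂ) : Z (v + c • w) = Z v + c • Z w := by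
  obtain ⟨Z', h⟩ := h
  refine ext_inner_right ℂ fun u => ?_
  rw [h, inner_add_left, inner_add_left, inner_smul_left, inner_smul_left, h, h]

theorem adj_zero {Z : E → E} (h : Adjb Z) : Z 0 = 0 := by
  obtain ⟨Z', h⟩ := h
  refine ext_inner_right ℂ fun u => ?_
  rw [h, inner_zero_left, inner_zero_left]

theorem adj_add {Z : E → E} (h : Adjb Z) (v w : E) : Z (v + w) = Z v + Z w := by
  simpa using adj_lin h v w 1

theorem adj_smul {Z : E → E} (h : Adjb Z) (c : ℂ) (w : E) : Z (c • w) = c • Z w := by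
  simpa [adj_zero h] using adj_lin h 0 w c

theorem adj_id : Adjb (fun v : E => v) := ⟨fun v => v, fun _ _ => rfl⟩

theorem adj_comp {Z G : E → E} (h : Adjb Z) (g : Adjb G) : Adjb fun v => Z (G v) := by
  obtain ⟨Z', h⟩ := h
  obtain ⟨G', g⟩ := g
  exact ⟨fun w => G' (Z' w), fun v w => by rw [h, g]⟩

theorem dv_const (v : E) (τ : ℝ) : Dv (fun _ => v) 0 τ := fun Z h => by
  rw [adj_zero h]
  exact hasDerivAt_const τ (Z v)

theorem dv_lin {y z : ℝ → E} {y' z' : E} {τ : ℝ} (c : ℂ) (hy : Dv y y' τ) (hz : Dv z z' τ) :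
    Dv (fun σ => y σ + c • z σ) (y' + c • z') τ := fun Z h => by
  simp only [adj_lin h]
  exact (hy Z h).add ((hz Z h).const_smul c)

theorem dv_comp {y : ℝ → E} {y' : E} {τ : ℝ} {G : E → E} (g : Adjb G) (hy : Dv y y' τ) :
    Dv (fun σ => G (y σ)) (G y') τ := fun Z h => hy (fun v => Z (G v)) (adj_comp h g)

theorem dv_sum {ι : Type*} (s : Finset ι) {y : ι → ℝ → E} {y' : ι → E} {τ : ℝ}
    (hy : ∀ i, Dv (y i) (y' i) τ) : Dv (fun σ => ∑ i ∈ s, y i σ) (∑ i ∈ s, y' i) τ := by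
  classical
  induction s using Finset.induction_on with
  | empty => simpa using dv_const (0 : E) τ
  | insert a s ha ih =>
    simp only [Finset.sum_insert ha]
    simpa using dv_lin 1 (hy a) ih

end pre

theorem cs_of {f : Fn} (h : ContDiff ℝ ∞ f) (c : HasCompactSupport f) : CS f :=
  ⟨⟨c.toSchwartzMap h, rfl⟩, c⟩

theorem cs_comp {n : ℕ} {F : V → Fin n → ℂ} (h : ContDiff ℝ ∞ F) (c : HasCompactSupport F)
    (a : Fin n) : CS fun x => F x a :=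
  cs_of (contDiff_pi.1 h a) (c.comp_left (g := fun v : Fin n → ℂ => v a) rfl)

theorem smooth_mdot (b : V) : ContDiff ℝ ∞ fun x : V => mdot b x := by
  unfold mdot
  fun_prop

theorem smooth_kil (p : Pm) : ContDiff ℝ ∞ (kil p) := by
  refine contDiff_pi.2 fun n => ?_
  unfold kil mdot
  fun_prop

theorem smooth_wd (w : Fin 4 → V) (b : V) : ContDiff ℝ ∞ fun x : V => w + wd x b := by
  refine contDiff_const.add (contDiff_pi.2 fun m => contDiff_pi.2 fun n => ?_)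
  unfold wd
  fun_prop

theorem smooth_lo (k : Ty) (p : Pm) {F : V → Fin k.n → ℂ} (h : ContDiff ℝ ∞ F) :
    ContDiff ℝ ∞ (Lo k p F) := by
  have h1 : ContDiff ℝ ∞ fun x => fderiv ℝ F x (kil p x) :=
    (h.fderiv_right (m := ∞) le_rfl).clm_apply (smooth_kil p)
  have h2 : ContDiff ℝ ∞ fun x : V =>
      (((4 - k.Δ) * (p.1 + 2 * mdot p.2.2.2 x) : ℝ) : ℂ) • F x := by
    have : ContDiff ℝ ∞ fun x : V => (4 - k.Δ) * (p.1 + 2 * mdot p.2.2.2 x) :=
      contDiff_const.mul (contDiff_const.add (contDiff_const.mul (smooth_mdot _)))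
    exact (Complex.ofRealCLM.contDiff.comp this).smul h
  have h3 : ContDiff ℝ ∞ fun x : V => k.S (p.2.1 + wd x p.2.2.2) (F x) := by
    have a : ContDiff ℝ ∞ fun x : V => k.S (p.2.1 + wd x p.2.2.2) :=
      (LinearMap.toContinuousLinearMap k.S).contDiff.comp (smooth_wd _ _)
    have b : ContDiff ℝ ∞ fun x : V => (k.S (p.2.1 + wd x p.2.2.2)).restrictScalars ℝ :=
      (ContinuousLinearMap.restrictScalarsL ℂ (Fin k.n → ℂ) (Fin k.n → ℂ) ℝ ℝ).contDiff.comp a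
    exact b.clm_apply h
  exact (h1.add h2).add h3

theorem supp_lo (k : Ty) (p : Pm) {F : V → Fin k.n → ℂ} (c : HasCompactSupport F) :
    HasCompactSupport (Lo k p F) := by
  refine HasCompactSupport.intro c fun x hx => ?_
  have h0 : F =ᶠ[𝓝 x] 0 := notMem_tsupport_iff_eventuallyEq.1 hx
  have h1 : F x = 0 := h0.self_of_nhds
  have h2 : fderiv ℝ F x = 0 := by
    rw [h0.fderiv_eq]
    simp
  simp [Lo, h1, h2]

theorem fam_smooth {G : Type*} [NormedAddCommGroup G] [NormedSpace ℝ G] {J : Set ℝ}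
    {F : ℝ → V → G} (h : Fam J F) {τ : ℝ} (hτ : τ ∈ J) : ContDiff ℝ ∞ (F τ) := by
  have := h.smooth.comp_contDiff (f := fun x : V => (τ, x)) (contDiff_const.prodMk contDiff_id)
    fun x => ⟨hτ, mem_univ x⟩
  exact this

theorem fam_supp {G : Type*} [NormedAddCommGroup G] [NormedSpace ℝ G] {J : Set ℝ}
    {F : ℝ → V → G} (h : Fam J F) {τ : ℝ} (hτ : τ ∈ J) : HasCompactSupport (F τ) := by
  obtain ⟨C, hC, h⟩ := h.supp
  exact hC.of_isClosed_subset (isClosed_tsupport _) (h τ hτ)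

theorem fam_comp {n : ℕ} {J : Set ℝ} {F : ℝ → V → Fin n → ℂ} (h : Fam J F) (a : Fin n) :
    Fam J fun τ x => F τ x a := by
  refine ⟨contDiffOn_pi.1 h.smooth a, ?_⟩
  obtain ⟨C, hC, h⟩ := h.supp
  refine ⟨C, hC, fun τ hτ => Subset.trans (closure_mono fun x hx => ?_) (h τ hτ)⟩
  intro h0
  exact hx (by simp [h0])

section main

variable {E : Type*} [NormedAddCommGroup E] [InnerProductSpace ℂ E]

/-- strong solutions -/
def Sw (S : Sys E) (p : Pm) (J : Set ℝ) (y : ℝ → E) : Prop :=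
  ∀ τ ∈ J, ∃ κ, S.St (y τ) κ ∧ Dv y (I • κ p) τ

variable {S : Sys E} {p : Pm} {J : Set ℝ}

theorem Sw.sv {y : ℝ → E} (h : Sw S p J y) : Sv S.St p J y := fun τ hτ => by
  obtain ⟨κ, h1, h2⟩ := h τ hτ
  exact ⟨κ, h1, h2 _ adj_id⟩

theorem sw_vac : Sw S p J fun _ => S.vac := fun τ _ =>
  ⟨0, S.om, by simpa using dv_const S.vac τ⟩

theorem Sw.lin {y z : ℝ → E} (c : ℂ) (hy : Sw S p J y) (hz : Sw S p J z) :
    Sw S p J fun σ => y σ + c • z σ := fun τ hτ => by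
  obtain ⟨κ, h1, h2⟩ := hy τ hτ
  obtain ⟨κ', h3, h4⟩ := hz τ hτ
  refine ⟨_, S.add _ _ _ _ c h1 h3, ?_⟩
  have := dv_lin c h2 h4
  rwa [smul_comm c I, ← smul_add] at this

theorem Sw.gr {y : ℝ → E} (hy : Sw S p J y) : Sw S p J fun σ => S.G (y σ) := fun τ hτ => by
  obtain ⟨κ, h1, h2⟩ := hy τ hτ
  refine ⟨_, S.gr _ _ h1, ?_⟩
  have := dv_comp S.adj h2
  rwa [adj_smul S.adj] at this

theorem Sw.ap (hB : RowB E) (hp : Skew p.2.1) (hJ : IsOpen J) {k : Ty}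
    {P : Fin k.n → Fn → E → E} (hP : S.Pr k P) {F : ℝ → V → Fin k.n → ℂ} (hF : Sol k J p F)
    {y : ℝ → E} (hy : Sw S p J y) : Sw S p J fun σ => ap P (F σ) (y σ) := fun τ hτ => by
  obtain ⟨κ, h1, h2⟩ := hy τ hτ
  have s1 := fam_smooth hF.fam hτ
  have s2 := fam_supp hF.fam hτ
  obtain ⟨κ', h3, h4⟩ := S.pr k P (F τ) (y τ) κ hP s1 s2 h1
  refine ⟨κ', h3, ?_⟩
  have d := dv_sum Finset.univ fun a => hB (P a) J (fun σ x => F σ x a)
    (fun x => (-Lo k p (F τ) x) a) y _ τ (S.lt k P a hP) hJ hτ (fam_comp hF.fam a)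
    (fun x => hasDerivAt_pi.1 (hF.eq τ hτ x) a) h2
  have e : I • κ' p = ∑ a, (P a (fun x => (-Lo k p (F τ) x) a) (y τ) +
      P a (fun x => F τ x a) (I • κ p)) := by
    rw [h4 p hp, smul_add, smul_smul, Complex.I_mul_I, Q352.ap, Q352.ap, Finset.smul_sum,
      Finset.smul_sum, ← Finset.sum_add_distrib]
    refine Finset.sum_congr rfl fun a _ => ?_
    have c1 := cs_comp (smooth_lo k p s1) (supp_lo k p s2) a
    have l := (S.lt k P a hP).lin _ _ (-2) (y τ) c1 c1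
    have m : (fun x => (-Lo k p (F τ) x) a) =
        fun x => Lo k p (F τ) x a + -2 * Lo k p (F τ) x a := by
      funext x
      rw [Pi.neg_apply]
      ring
    rw [m, l, adj_smul ((S.lt k P a hP).adj _ (cs_comp s1 s2 a))]
    congr 1
    module
  rw [e]
  exact d

theorem flow (hB : RowB E) (hp : Skew p.2.1) (hJ : IsOpen J) {ρ ρ' : ℝ} (q : V → ℝ → Pm)
    (hq : ∀ b τ, Skew (q b τ).2.1)
    (hF : ∀ (k : Ty) (F0 : V → Fin k.n → ℂ), ContDiff ℝ ∞ F0 → tsupport F0 ⊆ ball 0 ρ →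
      ∃ F, Sol k J p F ∧ F 0 = F0 ∧ ∀ τ ∈ J, tsupport (F τ) ⊆ ball 0 ρ')
    (hC : ∀ (k : Ty) b F, Sol k J p F → Sol k J p fun τ => Lo k (q b τ) (F τ))
    {u : E} (hu : Bw S ρ u) : ∃ y, y 0 = u ∧ Sw S p J y ∧ (∀ τ ∈ J, Bw S ρ' (y τ)) ∧
      ∀ b, ∃ z, Sw S p J z ∧ ∀ τ ∈ J, ∃ κ, S.St (y τ) κ ∧ κ (q b τ) = z τ := by
  induction hu with
  | om =>
    refine ⟨fun _ => S.vac, rfl, sw_vac, fun _ _ => Bw.om, fun b =>
      ⟨_, Sw.lin (-1) sw_vac sw_vac, fun τ _ => ⟨0, S.om, by simp⟩⟩⟩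
  | add v w c _ _ ihv ihw =>
    obtain ⟨y, a1, a2, a3, a4⟩ := ihv
    obtain ⟨y', b1, b2, b3, b4⟩ := ihw
    refine ⟨fun σ => y σ + c • y' σ, by simp only [a1, b1], a2.lin c b2,
      fun τ hτ => Bw.add _ _ c (a3 τ hτ) (b3 τ hτ), fun b => ?_⟩
    obtain ⟨z, c1, c2⟩ := a4 b
    obtain ⟨z', d1, d2⟩ := b4 b
    refine ⟨_, c1.lin c d1, fun τ hτ => ?_⟩
    obtain ⟨κ, e1, e2⟩ := c2 τ hτ
    obtain ⟨κ', f1, f2⟩ := d2 τ hτ
    exact ⟨_, S.add _ _ _ _ c e1 f1, by rw [e2, f2]⟩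
  | gr v _ ih =>
    obtain ⟨y, a1, a2, a3, a4⟩ := ih
    refine ⟨fun σ => S.G (y σ), by simp only [a1], a2.gr, fun τ hτ => Bw.gr _ (a3 τ hτ), fun b => ?_⟩
    obtain ⟨z, c1, c2⟩ := a4 b
    refine ⟨_, c1.gr, fun τ hτ => ?_⟩
    obtain ⟨κ, e1, e2⟩ := c2 τ hτ
    exact ⟨_, S.gr _ _ e1, by rw [e2]⟩
  | pr k P F0 v hP s1 s2 _ ih =>
    obtain ⟨y, a1, a2, a3, a4⟩ := ih
    obtain ⟨F, g1, g2, g3⟩ := hF k F0 s1 s2
    refine ⟨fun σ => ap P (F σ) (y σ), by simp only [a1, g2], a2.ap hB hp hJ hP g1,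
      fun τ hτ => Bw.pr k P _ _ hP (fam_smooth g1.fam hτ) (g3 τ hτ) (a3 τ hτ), fun b => ?_⟩
    obtain ⟨z, c1, c2⟩ := a4 b
    refine ⟨_, (c1.ap hB hp hJ hP g1).lin I (a2.ap hB hp hJ hP (hC k b F g1)), fun τ hτ => ?_⟩
    obtain ⟨κ, e1, e2⟩ := c2 τ hτ
    obtain ⟨κ', h3, h4⟩ := S.pr k P (F τ) (y τ) κ hP (fam_smooth g1.fam hτ) (fam_supp g1.fam hτ) e1
    exact ⟨κ', h3, by rw [h4 _ (hq b τ), e2, add_comm]⟩

theorem st {ρ : ℝ} {u : E} (hu : Bw S ρ u) : ∃ κ, S.St u κ := by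
  induction hu with
  | om => exact ⟨0, S.om⟩
  | add v w c _ _ ihv ihw =>
    obtain ⟨κ, h⟩ := ihv
    obtain ⟨κ', h'⟩ := ihw
    exact ⟨_, S.add _ _ _ _ c h h'⟩
  | gr v _ ih =>
    obtain ⟨κ, h⟩ := ih
    exact ⟨_, S.gr _ _ h⟩
  | pr k P F0 v hP s1 s2 _ ih =>
    obtain ⟨κ, h⟩ := ih
    obtain ⟨κ', h', _⟩ := S.pr k P F0 v κ hP s1 ((isCompact_closedBall 0 ρ).of_isClosed_subset
      (isClosed_tsupport _) (s2.trans ball_subset_closedBall)) h
    exact ⟨κ', h'⟩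

end main

theorem skew_zero : Skew 0 := fun m n => by simp

end RowW

open RowW in
/-- row W -/
theorem rowW (hD : RowD) (hE : RowE) (E : Type*) [NormedAddCommGroup E] [InnerProductSpace ℂ E]
    (hB : RowB E) : RowW E := fun S =>
  { st := fun _ _ hu => st hu
    K := fun ρ T b u h1 h2 h3 hu => by
      obtain ⟨y, a1, a2, a3, a4⟩ := flow (S := S) (p := pK b) hB skew_zero isOpen_Ioo
        (fun b' _ => pK b') (fun _ _ => skew_zero)
        (fun k F0 s1 s2 => hD.K k b ρ T F0 h1 h2 h3 s1 s2)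
        (fun k b' F h => hE.K k _ b b' F isOpen_Ioo h) hu
      refine ⟨y, a1, a2.sv, a3, fun b' => ?_⟩
      obtain ⟨z, c1, c2⟩ := a4 b'
      exact ⟨z, c1.sv, c2⟩
    D := fun ρ T u h1 h2 hu => by
      obtain ⟨y, a1, a2, a3, a4⟩ := flow (S := S) (p := pD) hB skew_zero isOpen_Ioo
        (fun b τ => pK (Real.exp (-τ) • b)) (fun _ _ => skew_zero)
        (fun k F0 s1 s2 => hD.D k ρ T F0 h1 h2 s1 s2)
        (fun k b F h => hE.D k _ b F isOpen_Ioo h) hu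
      refine ⟨y, a1, a2.sv, a3, fun b => ?_⟩
      obtain ⟨z, c1, c2⟩ := a4 b
      exact ⟨z, c1.sv, c2⟩ }

end

end Vale.Agent.Q352
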