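import Vale.Agent.Q352.IfB
import Vale.Agent.Q352.RowA
import Vale.Agent.Q352.RowAG
import Vale.Agent.Q352.RowB
import Vale.Agent.Q352.RowC
import Vale.Agent.Q352.RowD
import Vale.Agent.Q352.RowE
import Vale.Agent.Q352.RowEV
import Vale.Agent.Q352.RowGC
import Vale.Agent.Q352.RowGP
import Vale.Agent.Q352.RowR0
import Vale.Agent.Q352.RowRS
import Vale.Agent.Q352.RowW

set_option linter.all false

open Filter Topology
open scoped SchwartzMap ContDiff ComplexConjugate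

namespace Vale.Agent.P352X.CA.G.Gl

open Vale.Agent.P352 Vale.Agent.P352.GF Vale.Agent.P352.BW Vale.Agent.P352.H246
open Vale.Agent.P352.H496 Vale.Agent.P352.H755
open Vale.Agent.P352.SubConf (IsAdj IsKil)
open Q352 (Pm kil Skew Ty Sys Bw Lt Adjb Sv Flows Hs AG)
open UniformSpace (Completion)
open Complex (I)

noncomputable section

variable {D : Type*} [NormedAddCommGroup D] [InnerProductSpace ℂ D] {c : Cx D}
  {x : Ops c} {f0 : Sch} {P : Theory D}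

variable (x f0 P) in
/-- the fields of `P` are descendants, and their commutators with the Poincare charges are those
with the generators -/
structure Dt : Prop where
  vac : P.vac = c.Q.vac
  fld : ∀ A, P.fld A → c.Q.fld A
  dg : ∀ A, P.fld A → ∃ (n : ℕ) (e : Fin n → Bool) (C : Fin n → Fld D),
    (∀ j, DG x f0 fun f v => C j f (if e j then c.G v else v)) ∧
      ∀ f v, IsTest f → A f v = ∑ j, C j f v
  der : ∀ (L : ℝ → Ix → V) (a : ℝ → V) w α, L 0 = GF.one → a 0 = 0 → (∀ e, IsLor (L e)) →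
    HasDerivAt L w 0 → HasDerivAt a α 0 → ∃ A : D → D,
      (∀ v, HasDerivAt (fun e => c.Q.U 1 (L e) (a e) v) (I • A v) 0) ∧
      ∀ F B f, IsCutoff F → P.fld B → In Set.univ f → ∀ᶠ r in atTop, ∀ v,
        ND.cur c.t (kil (0, w, α, 0)) (F r) (B f v) - B f (ND.cur c.t (kil (0, w, α, 0)) (F r) v) =
          A (B f v) - B f (A v)

variable (a : All x f0) (h : Dt x f0 P)
include a h

theorem bw_dense {ρ : ℝ} (hρ : 0 < ρ) : Dense (bw a ρ : Set D) := by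
  refine Q352.rsb P Metric.isOpen_ball ⟨0, Metric.mem_ball_self hρ⟩ _ (h.vac ▸ Bw.om)
    fun A f v p i m => ?_
  obtain ⟨n, e, C, g, s⟩ := h.dg A p
  rw [s f v i.1]
  refine sum_mem fun j _ => ?_
  have := bw_dg a (g j) i (v := if e j then c.G v else v) (by
    cases e j
    exacts [m, Bw.gr (S := sys a) v m])
  rwa [(tw_e c (e j)).gi] at this

theorem st_der {v : D} {κ : Pm → D} (s : St c v κ) {L : ℝ → Ix → V} {b : ℝ → V} {w α}
    (L0 : L 0 = GF.one) (b0 : b 0 = 0) (hL : ∀ e, IsLor (L e)) (dL : HasDerivAt L w 0)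
    (db : HasDerivAt b α 0) :
    HasDerivAt (fun e => c.Q.U 1 (L e) (b e) v) (I • κ (0, w, α, 0)) 0 := by
  obtain ⟨A, d, k⟩ := h.der L b w α L0 b0 hL dL db
  have hw : Skew ((0, w, α, 0) : Pm).2.1 := Q352.rowGL.skew L w L0 (.of_forall hL) dL
  have sy : ∀ v w, inner ℂ (A v) w = inner ℂ v (A w) := fun v w => by
    have e := ((d v).inner ℂ (d w)).unique ((hasDerivAt_const (0 : ℝ) _).congr_of_eventuallyEq
      (.of_forall fun e => c.Q.U_inner _ _ _ _ _ one_pos (hL e)))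
    simp only [L0, b0, Uone, inner_smul_left, inner_smul_right, Complex.conj_I] at e
    exact mul_left_cancel₀ Complex.I_ne_zero (by linear_combination -e)
  have z : A c.Q.vac = 0 := smul_right_injective D Complex.I_ne_zero ((d _).unique (by
    simpa only [fun e => c.Q.U_vac _ _ (b e) one_pos (hL e), smul_zero] using
      hasDerivAt_const (0 : ℝ) c.Q.vac))
  have ad : ∀ v κ v' κ' (z : ℂ), St c v κ ∧ κ (0, w, α, 0) = A v →
      St c v' κ' ∧ κ' (0, w, α, 0) = A v' → ∃ κ, St c (v + z • v') κ ∧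
        κ (0, w, α, 0) = A (v + z • v') := fun v κ v' κ' z p q =>
    ⟨_, st_add a.toL1 z p.1 q.1, by rw [Ba.lin sy, p.2, q.2]⟩
  have o : St c c.Q.vac 0 ∧ (0 : Pm → D) (0, w, α, 0) = A c.Q.vac := ⟨st_om a.toL1, z.symm⟩
  let S : Submodule ℂ D :=
    { carrier := {v | ∃ κ, St c v κ ∧ κ (0, w, α, 0) = A v}
      add_mem' := fun ⟨_, p⟩ ⟨_, q⟩ => by simpa using ad _ _ _ _ 1 p q
      zero_mem' := by simpa using ad _ _ _ _ (-1) o o
      smul_mem' := fun z v ⟨_, p⟩ => by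
        have := ad _ _ _ _ (z - 1) p p
        rwa [sub_smul, one_smul, add_sub_cancel] at this }
  have dS : Dense (S : Set D) := Q352.rsb P isOpen_univ Set.univ_nonempty S (h.vac ▸ ⟨_, o⟩) (by
    rintro B f _ p i ⟨κ, s, e⟩
    obtain ⟨K, k1, j, Y, Y', l, rfl, g⟩ := s.big a.toL1 i.2.1.isCompact
    obtain ⟨B', -, q⟩ := c.Q.adj B (h.fld B p)
    have l1 := a.ba.qf K B B' f (h.fld B p) q ⟨i.1, i.2.1⟩ j
    obtain ⟨r, ⟨u, hu, e1⟩, e2⟩ := ((ok_cutoff isCutoff_cutF k1).and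
      (k _ B f isCutoff_cutF p i)).exists
    have d1 := a.pug.ok K u hu
    refine ⟨fun p => c.dl (tm u) (kX p) (fun v => B f (Y v)) c.Q.vac,
      ⟨K, _, _, _, k1, d1, a.ba.mul _ _ _ _ _ l1 l, rfl, fun _ _ => rfl⟩, ?_⟩
    have e3 : ∀ z, c.Ch (tm u) (kX (0, w, α, 0)) z =
        ND.cur c.t (kil (0, w, α, 0)) (cutF r) z := fun z => by
      rw [a.ba.chtm u _ z hu.1 (ik hw), e1, ND.cur]
      simp only [kX, Complex.ofReal_mul]
    show c.dl _ _ _ _ = _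
    rw [a.ba.der K _ _ _ _ Y _ l1, ← g K _ k1 le_rfl d1 _ hw, e, Cx.dl, e3, e3, e2, sub_add_cancel])
  have e : κ (0, w, α, 0) = A v := dS.eq_of_inner_left ℂ (by
    rintro y ⟨κ', s', e⟩
    rw [st_sym a.toL2 s s' hw, e, sy])
  exact e ▸ d v

variable {H : Type*} [NormedAddCommGroup H] [InnerProductSpace ℂ H] [CompleteSpace H]
  {K : Q352.Frame H} {φ : D →ₗᵢ[ℂ] H}

omit a h in
variable (c φ) in
/-- the states in the Hilbert space -/
def Sh (v : H) (κ : Pm → H) : Prop := ∃ v' κ', St c v' κ' ∧ v = φ v' ∧ ∀ p, κ p = φ (κ' p)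

omit a h in
theorem d_up {y : ℝ → D} {y' : D} {τ : ℝ} (d : HasDerivAt y (I • y') τ) :
    HasDerivAt (fun σ => φ (y σ)) (I • φ y') τ := by
  have := (φ.toContinuousLinearMap.restrictScalars ℝ).hasFDerivAt.comp_hasDerivAt τ d
  simpa [Function.comp_def] using this

omit a h in
theorem sv_up {p J} {y : ℝ → D} (s : Sv (St c) p J y) : Sv (Sh c φ) p J fun τ => φ (y τ) :=
  fun τ m => have ⟨κ, u, d⟩ := s τ m
    ⟨fun p => φ (κ p), ⟨_, _, u, rfl, fun _ => rfl⟩, d_up d⟩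

variable (hv : K.Ω = φ c.Q.vac) (hg : ∀ v, K.Γ (φ v) = φ (c.G v))
  (hU : ∀ s L b v, 0 < s → IsLor L → K.U s L b (φ v) = φ (c.Q.U s L b v)) (d : DenseRange φ)
include hv hg hU d

theorem hs : Hs K (Sh c φ) fun ρ v => ∃ v' ∈ bw a ρ, v = φ v' where
  sym := by
    rintro _ κ _ κ' p ⟨v, _, s, rfl, e⟩ ⟨w, _, s', rfl, e'⟩ hp
    rw [e, e', φ.inner_map_map, φ.inner_map_map, st_sym a.toL2 s s' hp]
  lin := by
    rintro _ κ p q r ⟨v, _, s, rfl, e⟩ hp hq
    rw [e, e, e, st_lin a.toL1 s r hp hq, map_add, map_smul]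
  om := ⟨_, _, st_om a.toL1, hv, fun _ => φ.map_zero.symm⟩
  gr := by
    rintro _ κ ⟨v, _, s, rfl, e⟩
    exact ⟨_, _, st_gr a.toL1 s, hg v, fun p => (congrArg K.Γ (e p)).trans (hg _)⟩
  cov := by
    rintro _ κ s L b ⟨v, _, u, rfl, e⟩ hs hL
    obtain ⟨κ', u', e'⟩ := st_cov a.toL1 u b hs hL
    exact ⟨fun p => φ (κ' p), ⟨_, _, u', hU s L b v hs hL, fun _ => rfl⟩, fun p q hp hq i => by
      rw [e, hU s L b _ hs hL, ← e' p q hp hq i]⟩
  der := by
    rintro _ κ L b w α ⟨v, _, u, rfl, e⟩ L0 b0 hL dL db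
    simpa only [e, fun e => hU 1 (L e) (b e) v one_pos (hL e)] using
      d_up (φ := φ) (st_der a h u L0 b0 hL dL db)
  dense ρ hρ := (d.dense_image φ.continuous (bw_dense a h hρ)).mono (by
    rintro _ ⟨v, m, rfl⟩
    exact ⟨v, m, rfl⟩)
  flows := by
    have f := Q352.rowW Q352.rowD Q352.rowE D (Q352.rowB Q352.rowC D) (sys a)
    refine ⟨?_, ?_, ?_⟩
    · rintro ρ _ ⟨v, m, rfl⟩
      obtain ⟨κ, s⟩ := f.st ρ v m
      exact ⟨fun p => φ (κ p), _, _, s, rfl, fun _ => rfl⟩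
    · rintro ρ T b _ h1 h2 h3 ⟨v, m, rfl⟩
      obtain ⟨y, y0, s, g, k⟩ := f.K ρ T b v h1 h2 h3 m
      refine ⟨fun τ => φ (y τ), congrArg φ y0, sv_up s, fun τ t => ⟨_, g τ t, rfl⟩, fun b' => ?_⟩
      obtain ⟨z, s', k⟩ := k b'
      exact ⟨fun τ => φ (z τ), sv_up s', fun τ t => have ⟨κ, u, e⟩ := k τ t
        ⟨fun p => φ (κ p), ⟨_, _, u, rfl, fun _ => rfl⟩, congrArg φ e⟩⟩
    · rintro ρ T _ h1 h2 ⟨v, m, rfl⟩
      obtain ⟨y, y0, s, g, k⟩ := f.D ρ T v h1 h2 m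
      refine ⟨fun τ => φ (y τ), congrArg φ y0, sv_up s, fun τ t => ⟨_, g τ t, rfl⟩, fun b' => ?_⟩
      obtain ⟨z, s', k⟩ := k b'
      exact ⟨fun τ => φ (z τ), sv_up s', fun τ t => have ⟨κ, u, e⟩ := k τ t
        ⟨fun p => φ (κ p), ⟨_, _, u, rfl, fun _ => rfl⟩, congrArg φ e⟩⟩

theorem ag : ∃ W, AG K (Sh c φ) W := by
  have g := Q352.rowGL
  have A := Q352.rowA H
  have u := Q352.rowU g K
  have s := hs a h hv hg hU d
  obtain ⟨Di, S, G⟩ := Q352.rowGP g H A K _ _ u s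
  have E := Q352.rowEV g H A K _ _ Di S u s G
  exact Q352.rowAG g Q352.rowGC H K _ Di S u G E
    (Q352.rowR0 g Q352.rowGC H A K _ _ Di S u s G E)

/-- **the global action** -/
theorem glob {R : Q352.Theory K} {t : Ix → Ix → Fld H}
    (hR : ∀ A, R.fld A → ∃ B, c.Q.fld B ∧ ∀ f v, IsTest f → A f (φ v) = φ (B f v))
    (ht : ∀ m n f v, IsTest f → t m n f (φ v) = φ (c.t m n f v)) : ∃ W, Q352.Glob R t W := by
  obtain ⟨W, w⟩ := ag a h hv hg hU d
  refine ⟨W, w.uni, w.vac, w.gam, w.poi, w.mul, w.cont, fun p q Y F p0 hp dp m hF => ?_, w.scl⟩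
  obtain ⟨Z, Z', l, e⟩ : ∃ Z Z', Al c.Q Set.univ Z Z' ∧ ∀ v, Y (φ v) = φ (Z v) := by
    induction m with
    | unit => exact ⟨_, _, .one, fun _ => rfl⟩
    | mul A f Y p i _ k =>
      obtain ⟨Z, Z', l, e⟩ := k
      obtain ⟨B, b, u⟩ := hR A p
      obtain ⟨B', b', s⟩ := c.Q.adj B b
      exact ⟨_, _, .fld B B' f Z Z' b b' s i l, fun v => (congrArg (A f) (e v)).trans (u f _ i.1)⟩
  obtain ⟨κ, s, k⟩ := st_al a.toL1 l
  have hq : Skew q.2.1 := Q352.rowGL.skew (fun e => (p e).2.1) _ (by rw [p0])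
    (.of_forall fun e => (hp e).2) (by
      simpa [Function.comp_def] using ((ContinuousLinearMap.fst ℝ (Fin 4 → V) (V × V)).comp
        (ContinuousLinearMap.snd ℝ ℝ _)).hasFDerivAt.comp_hasDerivAt 0 dp)
  have := w.gen _ (fun p => φ (κ p)) p q ⟨_, _, s, rfl, fun _ => rfl⟩ p0 hp dp
  filter_upwards [k F hF, ok_cutoff hF isCompact_empty] with r k ⟨g, hg, e1⟩
  have e2 : ∀ z, Q352.cur t (kil q) (F r) (φ z) = φ (ND.cur c.t (kil q) (F r) z) := fun z => by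
    rw [ND.cur, map_sum]
    refine Finset.sum_congr rfl fun n _ => ht _ _ _ _ ?_
    have := tstIs (kil_tst (ik hq) hg.1 n)
    simp only [kX, Complex.ofReal_mul] at this
    exact e1 ▸ this
  rwa [hv, e, e2, e2, e, ← map_sub, ← k q hq]

end

end Vale.Agent.P352X.CA.G.Gl
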