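import Vale.Agent.N352.Y.Ds
import Vale.Agent.Q352.IfD

/-!
# P352, the global conformal action: the data on the domain
-/

set_option linter.all false

open Filter Topology

namespace Vale.Agent.N352.Y

noncomputable section

universe u v

section desc

open Vale.Agent.P352 Vale.Agent.P352.GF Vale.Agent.P352.BW Vale.Agent.P352.H246
open Vale.Agent.P352.H496 Vale.Agent.P352.H755 Vale.Agent.P352.H15
open Vale.Agent.P352X Vale.Agent.P352L Vale.Agent.P352R
open E E.Mn F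
open T (Cm)
open CA.G (Cx Ops All DG Tl)

variable {D : Type u} [NormedAddCommGroup D] [InnerProductSpace ℂ D]

/-- the data for the global action -/
def Gd (R : Theory D) (G : D → D) (t : Ix → Ix → Fld D) : Prop :=
  ∃ (c : Cx D) (x : Ops c) (f0 : Sch) (P : Theory D), c.Q = R ∧ c.G = G ∧ c.t = t ∧ All x f0 ∧
    CA.G.Gl.Dt x f0 P

section

variable {c : Cf D} {k : Cx D} {x : Ops k} {f0 : Sch} (hF : FSL c.Q) (n : IsEnl c.Q k.Q)
  (e : k.G = c.G) (g : Gr k.Q k.G) (a : All x f0)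
include hF n e g a

theorem dg_mp {r : Rp} {Ψ : Fin r.n → Fld D} (m : IsMf c.Q r Ψ) (p : Bool)
    (q : ∀ a, if p then Fer c.Q c.G (Ψ a) else c.Q.bose (Ψ a)) (i : Fin r.n) :
    DG x f0 fun f v => Ψ i f (if p then k.G v else v) := by
  refine CA.G.dgM a (fun _ _ => CA.G.clf k g) p r Ψ i (fun b => ?_)
    (fun b L f v hL hf => n.U ▸ m.2 b L f v hL hf) fun b => ?_
  · obtain ⟨F, C, h3⟩ := hF _ (m.1 b)
    have s : (k.Q.bose (Ψ b) → c.Q.bose (Ψ b)) → Scl k.Q (Ψ b) F C := fun y =>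
      ⟨fun p => ⟨n.fld _ (h3.1 p).1, fun b => n.bose _ ((h3.1 p).2 (y b))⟩, n.U ▸ h3.2⟩
    cases p
    · exact ⟨F, _, s fun _ => q b⟩
    have h1 : Fer c.Q c.G (Ψ b) := q b
    rw [← e] at h1
    by_cases hb : k.Q.bose (Ψ b)
    · refine ⟨∅, fun _ => Ψ b, fun _ => ⟨n.fld _ h1.1, id⟩, fun s f v _ hf => ?_⟩
      have z : k.G (Ψ b f (k.G (k.Q.U s GF.one 0 v))) = 0 :=
        (smul_eq_zero.1 ((two_smul ℂ _).trans (add_eq_zero_iff_eq_neg.2
          ((g.bose _ f _ hb hf).symm.trans (h1.2 f _ hf))))).resolve_left two_ne_zero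
      rwa [← g.bose _ f _ hb hf, g.inv] at z
    · exact ⟨F, _, s fun a => absurd a hb⟩
  · cases p
    exacts [n.bose _ (q b), ⟨n.fld _ (q b).1, e ▸ (q b).2⟩]

theorem dg_enl (hM : MfAll c.Q) (B) (hB : c.Q.fld B) : ∃ (n : ℕ) (e : Fin n → Bool)
    (C : Fin n → Fld D), (∀ j, DG x f0 fun f v => C j f (if e j then k.G v else v)) ∧
      ∀ f v, IsTest f → B f v = ∑ j, C j f v := by
  obtain ⟨m, A, h1, h2⟩ := hM B hB
  choose k Φ a' hΦ q using h1
  choose Ψ b1 b2 b3 b4 using fun i => parts c (hΦ i)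
  let r := (Fintype.equivFin (Fin m × Bool)).symm
  refine ⟨_, fun j => (r j).2, fun j => Ψ (r j).1 (r j).2 (a' _), fun j =>
    dg_mp hF n e g a (b1 _ _) _ (fun b => ?_) _, fun f v hf => ?_⟩
  · exact (r j).2.casesOn (motive := fun p => if p then Fer c.Q c.G (Ψ (r j).1 p b)
      else c.Q.bose (Ψ (r j).1 p b)) (b2 _ b) (b3 _ b)
  · rw [r.sum_comp fun j => Ψ j.1 j.2 (a' _) f v, h2 f v hf, Fintype.sum_prod_type]
    exact Finset.sum_congr rfl fun i _ => by rw [q, b4 i _ f v hf]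

end

theorem gd_of {P R : Theory D} {G A} (a : GI.Ge P G A) (m : MfAll P) (l : FSL P)
    (n : P352R.P.IsEnl P R) (g : P352R.P.Gr R G) {S t} (k : Cm R G S t) (i : Dn.IsImpr R S t)
    (hP : ND.PCh P S A) (hS : ∀ m n, P.bose (S m n)) : Gd R G t := by
  obtain ⟨S', L, hS', hL, rfl⟩ := k.1.form
  have h7 := isImpr hS' ⟨rfl, rfl, fun _ h => h, fun _ h => h⟩ hL k.1.impr.traceless
  let M := gm g
  let c : Cx D := ⟨R, _, G, isT_of_impr h7 hS',
    fun m n k l f g v hf hg h => sub_eq_zero.1 (h7.self m n k l f g v hf hg h), h7.cov,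
    ⟨_, hS'.bose o o⟩, g.inv, g.herm, fun m n f v hf => by
      show _ = M _
      simp only [improve, map_add, map_sub, map_smul, map_sum, g.bose _ _ v (hS'.bose m n) hf,
        fun k l => g.bose _ _ v hL.1 (Ap.test_pd k (Ap.test_pd l hf))]
      rfl, g.GU,
    fun C hC => by
      obtain ⟨C1, C2, a1, a2, e⟩ := g.split C hC
      refine ⟨2, ![1, -1], ![C1, C2], fun j => ?_, fun k v hk => ?_⟩
      · fin_cases j
        exacts [R.bose_fld _ a1, a2.1]
      · rw [e k _ hk, g.bose C1 k v a1 hk, a2.2 k v hk, show G _ = M _ from rfl, map_add, map_neg]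
        simp [M, gm, g.inv],
    g.mul, k.2⟩
  obtain ⟨x, f0, al⟩ := CA.G.all_thm c
  refine ⟨c, x, f0, P, rfl, rfl, rfl, al, n.vac.symm, n.fld,
    dg_enl (c := Tp.cf (Bg.ge.2 a)) l (Br.enl.1 n) rfl (Br.gr.1 g) al m,
    fun N b w α N0 b0 hN dN db => ?_⟩
  have hw := Q352.rowGL.skew N w N0 (.of_forall hN) dN
  have hX : Dn.IsSim 0 (Q352.kil (0, w, α, 0)) := ⟨α, w, hw, fun z n => by simp [Q352.kil, Q352.mdot]⟩
  refine ⟨A (Q352.kil (0, w, α, 0)), fun v => ?_, fun F B f hF p j => ?_⟩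
  · rw [show c.Q.U = P.U from n.U]
    refine a.der (fun _ => 1) N b _ v rfl N0 b0 (fun e => ⟨one_pos, hN e⟩) fun r y => ?_
    have := (hasDerivAt_pi.1 db r).fun_add ((HasDerivAt.fun_sum (u := Finset.univ) fun m _ =>
      (hasDerivAt_pi.1 (hasDerivAt_pi.1 dN m) r).const_mul (y m)).const_mul 1)
    exact this.congr_deriv (by simp [Q352.kil, Q352.mdot])
  obtain ⟨ρ, hρ⟩ := j.2.1.isCompact.isBounded.subset_ball 0
  filter_upwards [Tn.fin_ward hS hP hF hX ρ,
    K.cur_same i (fun m r => n.fld _ (P.bose_fld _ (hS m r))) hX hF (n.fld _ p) j] with r h1 h2 v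
  exact (h2 v).trans (h1 B f v p ⟨j.1, j.2.1, hρ⟩)

/-- a field that annihilates the vacuum vanishes -/
theorem sep_of {P R : Theory D} {G A} (a : GI.Ge P G A) (n : P352R.P.IsEnl P R)
    (g : P352R.P.Gr R G) (B) (b : R.fld B) (z : ∀ f, IsTest f → B f R.vac = 0) (f v)
    (hf : IsTest f) : B f v = 0 :=
  sep (Tp.cf (Bg.ge.2 (⟨g, n.vac ▸ a.vac, a.add, fun s L y X v => n.U ▸ a.der s L y X v⟩ :
    GI.Ge R G A))) b z hf v

/-- the data of an extension -/
def Xr (Q : Theory D) (Γ : UniformSpace.Completion D →L[ℂ] UniformSpace.Completion D)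
    (S : Ix → Ix → Fld D) (π : ∀ E : Submodule ℂ (UniformSpace.Completion D), Theory E → Prop) :
    Prop :=
  ∃ (M : _) (E : Submodule ℂ (UniformSpace.Completion D)) (P : Theory E) (G' : E → E)
    (e : Fld D → Fld E) (L : Fld E), N352.Ext Q Γ M P G' e ∧
    (K.Gn Q P e L ∧ MfAll P ∧ FSL P) ∧ P.IsScalar L 2 ∧ π E P ∧
    ∀ R, P352R.P.IsEnl P R → P352R.P.Gr R G' →
      Cm R G' (fun m n => e (S m n)) (improve (fun m n => e (S m n)) L)

end desc

open P352.GF P352R P352R.P F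
open T (Cm)
open UniformSpace (Completion)

variable {D : Type u} [NormedAddCommGroup D] [InnerProductSpace ℂ D] {Q : Theory D} {G : D → D}
  {T : Ix → Ix → Fld D} {Γ : Completion D →L[ℂ] Completion D}
  {N : Set V → VonNeumannAlgebra (Completion D)}

open Gz (prep pgx tf st pc iv self ext_congr conf_congr)

/-- **the local extension** -/
theorem ext9 (H : Dn.Hz Q G T Γ N) {p : Prop} (hp : p → Dn.Hy Q G T Γ N) :
    ∃ S, Q.IsStress S ∧ Dn.Same Q T S ∧
    ∃ (E : Type u) (_ : NormedAddCommGroup E) (_ : InnerProductSpace ℂ E) (P : Theory E)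
      (k : E →ₗᵢ[ℂ] Completion D) (G' : E → E) (e : Fld D → Fld E) (t : Ix → Ix → Fld E)
      (L : Fld E), Dn.Ext Q Γ P k G' e ∧ (p → Dk.Exk Q Γ N P k G' e) ∧ P.IsScalar L 2 ∧
        (∀ m n f v, IsTest f → t m n f v = improve (fun m n => e (S m n)) L m n f v) ∧
        ∀ R, Dn.IsEnl P R → Dn.Gr R G' → Dk.Cnf R G' (fun m n => e (S m n)) t ∧
          Ds P R G' t ∧ Gd R G' t ∧ ∀ B, R.fld B → (∀ f, IsTest f → B f R.vac = 0) →
            ∀ f v, IsTest f → B f v = 0 := by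
  have g := gr.1 H.grading
  obtain ⟨h, A, m, l, a⟩ := prep H
  have o := self H m l
  obtain ⟨S, S', h1, h2, b, c, h5, M, E, P, G1, e, L, y, ⟨gn, q, q'⟩, sc, z, r⟩ :
      ∃ S S', (rs Q h).IsStress S ∧ PCh (rs Q h) S A ∧ Q.IsStress S' ∧ Dn.Same Q T S' ∧
        (∀ m n, Xt (LinearIsometry.id.comp (io Q)) (S m n) (S' m n)) ∧
        Xr (rs Q h) (pg Q Γ) S fun E P => p → ∀ O Z, Dk.Out N O Z →
          Dk.Wl P ((je Q).toLinearIsometry.comp E.subtypeₗᵢ) O (Z + Γ * Z * Γ) ∧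
          Dk.Wl P ((je Q).toLinearIsometry.comp E.subtypeₗᵢ) O ((Z - Γ * Z * Γ) * Γ) := by
    by_cases hh : p
    · have Y := hp hh
      obtain ⟨M, n, d⟩ := K.net_of2 a (rs_mfa (h := h) m) rs_cy ((rs_rst (h := h)).net
        (rg_coe g H.even) Y.net) ((rs_rst (h := h)).rel (Y.strong.elim (rel_of_aff g Y.net) id))
      let x : P352X.EG.Cg _ := ⟨rs Q h, _, A, _, M, Br.lng.1 n⟩
      have m' := Br.mfa.1 (rs_mfa (h := h) m)
      have l' := rs_fsl (h := h) l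
      have k := iv H m l a
      obtain ⟨S, S', h1, h2, b, -, c, h5⟩ := four (U.rows _) x m' l' k (Br.stress0.1 (st (h := h) H))
        (pc H m a) (rs_sect (h := h) (sect.1 o.sect)) g (st0_of g o.stress o.poincare) o.poincare
        fun m n => rf_xt (tf H m n)
      obtain ⟨E, P, G1, e, L, ⟨y, z⟩, u, -, sc, -, r⟩ := K.exten2 x m' l' k h1 h2
      exact ⟨S, S', h1, h2, b, c, h5, M, E, P, G1, e, L, y, u, sc, fun _ O Y k =>
        (K.rw_of d (P352X.EG.SGx.g2 x) (P352X.EG.SGx.gs x) n.gam z O Y k).imp (⟨·⟩) (⟨·⟩), r⟩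
    obtain ⟨S, S', h1, h2, b, c, h5, M, E, P, G1, e, L, y, u, -, sc, -, r⟩ :=
      kit H m l a Q _ G T (rs_sect (h := h) (sect.1 o.sect)) g (st0_of g o.stress o.poincare)
        o.poincare fun m n => rf_xt (tf H m n)
    exact ⟨S, S', h1, h2, b, c, h5, M, E, P, G1, e, L, y, u, sc, fun k => (hh k).elim, r⟩
  have s := fun m n => Q.bose_fld _ (b.bose m n)
  have u := (rs_rst (h := h)).ext (Γ := Γ) (fun _ => rf_xt) y
  have cg := fun m n f v (hf : IsTest f) => ext_congr y (rs_fld (h := h) (s m n))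
    ((rs Q h).bose_fld _ (h1.bose m n)) (fun f v hf => (io Q).injective
      ((rf_xt (s m n) f v hf).trans (h5 m n f v hf).symm)) hf v
  obtain ⟨A', a'⟩ := (GI.thm _).gen P G1 y.toGr (Subtype.ext ((y.G _).trans (by
    rw [y.vac]
    exact (pgx H _).trans (congrArg _ a.vac)))) (F.cy.1 gn.1) (Br.mfa.2 q) q'
  have pg := K.pgen_congr cg (K.pg_ext y (rs_cy (h := h)) a.der a'.der h1.bose h2 gn sc
    (K.cnf y.toGr (r P ⟨rfl, rfl, fun _ h => h, fun _ h => h⟩ y.toGr)).toConf)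
  have bo := fun m n => u.bos _ (b.bose m n)
  have pc' := pch_of a' (Br.mfa.2 q) bo pg
  exact ⟨S', b, c, E, _, _, P, _, G1, _, _, L, u, fun k => ⟨u, z k⟩, sc,
    fun m n f v hf => by simp only [improve, cg m n f v hf], fun R u w =>
      have r := r R (enl.1 u) (gr.1 w)
      have r' : Cm R G1 _ _ := ⟨conf_congr cg r.1, r.2⟩
      have x := K.cnf (gr.1 w) r'
      ⟨x, ds_of a' q q' (enl.1 u) (gr.1 w) r,
        gd_of a' q q' (enl.1 u) (gr.1 w) r' x.impr pc' bo, sep_of a' (enl.1 u) (gr.1 w)⟩⟩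

end

end Vale.Agent.N352.Y
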