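import Vale.Agent.N352.Y.Tq
import Vale.Agent.Q352.IfE
import Vale.Agent.Q352.CvG

/-!
# P352, the global conformal action: the theorem and the witness
-/

set_option linter.all false

namespace Vale.Agent.N352.H

open P352.GF F
open Q352 (Net Aff Rec Agr Vir Uniq Fnt Cnt)
open UniformSpace (Completion)

noncomputable section

universe u

/-- **the theorem** -/
theorem global {H : Type u} [NormedAddCommGroup H] [InnerProductSpace ℂ H] [CompleteSpace H]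
    {K : Q352.Frame H} {Q : Q352.Theory K} {T : Fin 4 → Fin 4 → Q352.Fld H} (h : Q352.Hyp Q T) :
    ∃ R t S L W, Q352.CInv Q R T t S L W ∧ ∀ N, Net K N → Aff Q N ∨ Q352.Rel Q N → Rec Q N →
      ∃ B, Q.fld B ∧ Agr Q B L := by
  obtain ⟨h1, h2⟩ := Q352.Cv.hyp h
  have hq := hyq_of h1 h2
  let p := ∃ N, Net K N ∧ (Aff Q N ∨ Q352.Rel Q N) ∧ Rec Q N
  obtain ⟨Q', G, T', Γ, N', R, g, x, y, y'⟩ : ∃ Q' G T' Γ N',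
      ∃ R : Rl (Q352.Cv.th Q) Q' Q.dom.subtypeₗᵢ G, (iso _ R.dr).conjStarAlgEquiv Γ = K.Γ ∧
      (∀ m n, Eqv Q.dom.subtypeₗᵢ (T m n) (T' m n)) ∧ Dn.Hz Q' G T' Γ N' ∧
      (p → Dn.Hy Q' G T' Γ N' ∧ ∃ N, Dh.Rec (Q352.Cv.th Q) N ∧
        ∀ O X, X ∈ N' O ↔ (iso _ R.dr).conjStarAlgEquiv X ∈ N O) := by
    by_cases hh : p
    · obtain ⟨N, a, b, c⟩ := hh
      obtain ⟨Q', G, T', Γ, N', R, g, n, x, y⟩ := hyp_dn (N := N) ⟨h1.1, h1.2,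
        h.3.imp (Exists.imp fun _ => Q352.Cv.vir.1) id, hq.finite, Q352.Cv.net.1 a, b.imp Q352.Cv.aff.1 Q352.Cv.rel.1⟩
      exact ⟨Q', G, T', Γ, N', R, g, x, N352.K.hz y, fun _ => ⟨y, N, Q352.Cv.rec' c, n⟩⟩
    obtain ⟨Q', G, T', Γ, N', R, g, x, y⟩ := hyq_dn hq
    exact ⟨Q', G, T', Γ, N', R, g, x, y, fun k => (hh k).elim⟩
  obtain ⟨s, a, b, E, _, _, P, k, G', e, t, L, c, c0, sc, fm, z⟩ := Y.ext9 y fun k => (y' k).1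
  obtain ⟨S', R', q, f, w, v⟩ := R.ext_up0 (iso_coe _ R.dr) g c
  have mx : p → ∃ B, Q.fld B ∧ ∀ f, IsTest f →
      B f K.Ω = up ((iso _ R.dr).toLinearIsometry.comp k) L f K.Ω := fun hh => by
    obtain ⟨-, N, r, n⟩ := y' hh
    refine (rec_max r).1 S' _ ⟨q, fun O Z z => ?_⟩
      (R'.scalar_up (up_eqv _ L) (f _ (P.bose_fld _ sc.1)) sc)
    obtain ⟨Z, rfl⟩ := p_sur (iso _ R.dr).conjStarAlgEquiv Z
    exact (R'.tw (fun _ => rfl) g).2 ((N352.Z.ext (c0 hh)).rel O Z ((out n).1 z))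
  have a' := fun m n => Q'.bose_fld _ (a.1 m n)
  choose A o i using fun m n => R.up _ (a' m n)
  generalize (iso _ R.dr).toLinearIsometry.comp k = ψ at R' f w v mx
  obtain ⟨B, d, bk, i'⟩ := bor_of q fun _ _ _ _ r r' t t' s _ m =>
    Bo.rel_loc q hq.finite r r' t t' s m
  obtain ⟨R1, r, x1⟩ := v B d i'
  obtain ⟨z1, z2, ⟨c', x', f0, P', rfl, rfl, rfl, al, dt⟩, sp⟩ :=
    z _ ⟨x1.1, x1.2, x1.3, x1.4⟩ (Z.gr.1 r.gr)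
  have cf := r.conf_up (iso_coe _ r.dr) (fun m n => up_eqv ψ (e (s m n))) (fun _ _ => up_eqv _ _)
    (fun m n => x1.3 _ (c.fld _ (a' m n))) (Z.cf z1)
  obtain ⟨B, rfl⟩ : ∃ B', Q352.Cv.th B' = B := ⟨Q352.Cv.ht B, rfl⟩
  obtain ⟨W, hW⟩ := P352X.CA.G.Gl.glob al dt r.vac r.gam r.U r.dr (R := B)
    (t := fun m n => up ψ (c'.t m n)) r.dn fun m n f v _ => up_eq _ _ _ _
  have sA := ((R.stress i).2 ⟨Z.st a, o⟩).1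
  have st := stress_bor cf bk
  have cd : ∀ v, Dh.Cyc (Q352.Cv.th Q) v → v ∈ (Q352.Cv.th B).dom := fun v c => d ▸ cyc_dom q c
  have ag := fun m n => w _ _ (a' m n) (i m n)
  have fL := f _ (P.bose_fld _ sc.1)
  refine ⟨B, _, A, up ψ L, W, ⟨fun C => (bk.all C).trans Q352.Cv.relLoc.symm, fun B0 b0 => ?_,
    Q352.Cv.stress.2 st, cf.traceless, Q352.Cv.chg (fun m n => (h.1.1 m n).1) (fun m n => (st.1 m n).1) cd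
      (chg ((R.same x i).2 b) (fun m n => (sA.1 m n).1) ag cf.same cd),
    ⟨Q352.Cv.stress.2 sA, Q352.Cv.scalar (r.scalar_up (up_eqv _ L) (i' _ fL)
      ⟨x1.4 _ sc.1, sc.2.1, x1.2 ▸ sc.2.2⟩), fun m n f v hf cv => ?_⟩,
    fun A B a b => Q352.Cv.act (cf.act A B a b), Q352.Cv.ward hW,
    have ⟨k, p, q, a, b, c⟩ := cf.prim; ⟨Q352.Cv.pr k, p, q, a, b, Q352.Cv.prim c⟩, Q352.Cv.glb hW⟩,
    fun N n1 n2 n3 => ?_⟩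
  · obtain ⟨C, p, u⟩ := q B0 b0
    obtain ⟨C', b', a'⟩ := R'.dn C p
    exact ⟨C, i' C p, u, Q352.Cv.desc (r.ds_up (iso_coe _ r.dr) (fun _ _ => up_eqv _ _) z2 b' a')⟩
  · obtain ⟨v', rfl⟩ := R'.sur v (cyc_dom q cv)
    have := (ag m n f _ hf cv).symm.trans (up_eq _ _ _ _)
    rw [up_eq, fm m n f v' hf]
    simp only [Q352.improve, P352.GF.improve, map_sub, map_add, map_smul, map_sum, this, up_eq]
    rfl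
  obtain ⟨B0, b0, e0⟩ := mx ⟨N, n1, n2, n3⟩
  obtain ⟨C, p, u⟩ := q B0 b0
  obtain ⟨X, x0, x2⟩ := r.dn (cb 1 (-1) C (up ψ L)) ((bk.all _).2
    (rl_cb 1 (-1) ((bk.all _).1 (i' C p)) ((bk.all _).1 (i' _ fL))))
  refine ⟨B0, b0, fun f v hf cv => ?_⟩
  obtain ⟨v', rfl⟩ := R'.sur v (cyc_dom q cv)
  have := x2 f v' hf
  rw [sp X x0 (fun f hf => ψ.injective ?_) f v' hf, map_zero, cb, u f _ hf cv, one_smul,
    neg_one_smul, add_neg_eq_zero] at this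
  · exact this.symm
  rw [← x2 f _ hf, ← r.vac, cb, u f _ hf cyc_om, e0 f hf, map_zero, one_smul, neg_one_smul,
    add_neg_cancel]

open P352R P352R.P P352R.G P352 P352R.Le P352R.L22 P352L.StA E in
theorem wiz : ∃ (E : Type) (_ : NormedAddCommGroup E) (_ : InnerProductSpace ℂ E)
    (Q R : Theory E), ∃ T N J, (Dn.Gr Q id ∧ Dn.Stress Q T ∧ Dn.PGen Q T) ∧
      Dn.UVac Q ∧ Dn.Vir Q T J ∧ Dn.CntF Q ∧ (MfA Q ∧ FSL Q) ∧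
      (Dn.Net Q id 1 N ∧ Dn.Aff Q N ∧ Dn.Rel Q 1 N ∧ Dk.RecN Q N) ∧ (Dn.EBd Q ∧ Dn.FBT Q T ∧ Dn.SL Q T) ∧
      (Dn.IsEnl R Q ∧ Dn.Gr R id ∧ (MfA R ∧ FSL R) ∧ Dn.Ana R ∧ Dn.LEB R Q) ∧
      ∃ f, IsTest f ∧ tr T f Q.vac ≠ 0 := by
  obtain ⟨A, N, ⟨a, b, -, f0, n, u, x⟩, -, y0, ⟨-, g, d⟩, -, -, k⟩ := fr.topQ rec_fr
  obtain ⟨J, hJ⟩ := vir_fr
  obtain ⟨N', n1, n2, n3⟩ := net_all (lng_of n g)
  have r := (Br.lnm.1 n).toRep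
  have e := En.W22.enb (A := A) ⟨r.mul, r.add, r.der⟩
  have r' : H15.Rep (hull fr.t0) A := ⟨r.mul, r.add, r.der⟩
  have ge : Df.Ge fr.tq id A := ⟨Bg.gr.2 g, ⟨d⟩, rfl, r.add⟩
  have s := Bg.stress0.2 a
  have eb := Bg.ebd.2 (H72.ebd r)
  have lb : Df.LBT fr.tq _ := fun m n => Sl.lb_wit r m n
  have g' := Br.gr.2 (Gl2.gr r' (fun _ b => b) (zero_mem _))
  obtain ⟨c1, c2, -⟩ := Tp.cnt (Q := hull fr.t0) (A := A) ⟨Bg.gr.2 g', ⟨d⟩, rfl, r.add⟩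
    (.inl ⟨e.cnt.1, e.cnt.2, e.cnt.3⟩)
  refine ⟨_, _, _, fr.tq, hull fr.t0, _, N', J, ⟨gr.2 g, stress a, pgen' d b⟩, u,
    hJ, ⟨cntF_tq.1, cntF_tq.2, cntF_tq.3, cts_of d⟩, ⟨y0, f0⟩, ⟨n1, n2, n3, ⟨K.recN_of x n2⟩⟩,
    ⟨fun C hC => (eb C hC).imp fun _ p f hf => (p f hf).imp fun _ q v _ => q v,
      fun m n f hf => (Fb.fb (c := Tp.cf ge) (fr.tq.bose_fld _ (s.bose m n)) (s.herm m n) (lb m n)
        f hf).imp fun _ q v _ => q v, Gz.sl_of a.herm (Tp.loc ge s eb (.inr (.inl lb)))⟩,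
    ⟨F.enl.2 e.sub, gr.2 g', ⟨Bg.mfa.1 c1, Bg.fsl.1 c2⟩, (Bz.anvR fr e).ana,
      fun C f hC hf => ?_⟩, k⟩
  obtain ⟨z, c, e⟩ := L22.bk r' (e.lin C f hC hf)
  refine ⟨z, fun v _ => (e v).trans (mul_le_mul_of_nonneg_left ?_ c)⟩
  rw [pow_one]
  exact norm_sub_le _ _

open P352R P352R.P P352R.G in
theorem wih : ∃ (H : Type) (_ : NormedAddCommGroup H) (_ : InnerProductSpace ℂ H)
    (_ : CompleteSpace H) (K : Dh.Frame H) (Q R : Dh.Theory K) (T J N : _), Dh.Stress Q T ∧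
      Dh.PGen Q T ∧ Dh.Vir Q T J ∧ Dh.Uniq K ∧ Dh.Fin' Q ∧ Dh.Cnt Q ∧
      (Dh.Net K N ∧ Dh.Aff Q N ∧ Dh.Rel Q N ∧ Dh.Rec Q N) ∧
      (Dh.EBd Q ∧ Dh.FBT Q T ∧ Dh.SL Q T) ∧ (Dh.Sub R Q ∧ Dh.Ana R ∧ Dh.LEB R Q) ∧
      ∃ f, Dh.IsTest f ∧ Dh.tr T f K.Ω ≠ 0 := by
  obtain ⟨E, _, _, Q, P, T, N, J, ⟨g, a, p⟩, o, v, w, m, ⟨n1, n2, n3, n4⟩, ⟨e1, e2, e3⟩,
    ⟨s1, s2, s3, s4, s5⟩, g', u, y⟩ := wiz
  have d : DenseRange (Completion.toComplₗᵢ (𝕜 := ℂ) (E := E)) := Completion.denseRange_coe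
  have q := Z.gr.2 g
  have l := frame_lk q rfl n1.1
  have R := sys_rl l q d
  have l' : Lk _ _ _ P.vac id P.U := ⟨l.1, l.2, l.3.trans (congrArg _ s1.1), l.4,
    fun s L a v hs hL => (l.5 s L a v hs hL).trans (by rw [s1.2])⟩
  have q' := Z.gr.2 s2
  have R' := sys_rl l' q' d
  have c : ∀ v : E, LinearIsometryEquiv.refl ℂ (Completion E) v =
    Completion.toComplₗᵢ (𝕜 := ℂ) v := fun _ => rfl
  have n : ∀ O X, X ∈ N O ↔ (LinearIsometryEquiv.refl ℂ (Completion E)).conjStarAlgEquiv X ∈ N O :=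
    fun _ _ => Iff.rfl
  have e := (R.cg c).2 n1.1
  have x := fun m n => up_eqv Completion.toComplₗᵢ (T m n)
  have s := fun {A} a => sys_up l q d (Q.bose_fld A a)
  have h := R.fin.2 ⟨Z.mfa.2 (mfa.2 m.1), Z.fsl.2 (fsl.2 m.2)⟩
  have j := R.dd h
  exact ⟨_, _, _, _, _, sys l q d, sys l' q' d, _, _, N,
    ((R.stress x).2 ⟨Z.stress.2 a, fun m n => s (a.1 m n)⟩).1, (R.pgen x).2 (Z.pgen.2 p),
    ((R.vir x fun m => up_eqv _ (J m)).2 ⟨Z.vir.2 v, fun m => s (v.1 m)⟩).1, (R.uniq c).2 o, h,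
    R.cnt_up w, ⟨(R.net c n e).2 (Z.net.2 n1), (R.aff c n).2 (Z.aff.2 n2),
      (R.rel c n e).2 (Z.rel.2 n3), R.rec_up c n (Z.recn.2 n4)⟩,
    ⟨(R.ebd j).2 e1, (R.fbt j x).2 e2, (R.sl c x).2 e3⟩,
    ⟨⟨rfl, fun C => Exists.imp fun _ p => ⟨s1.3 _ p.1, p.2⟩,
      R'.fin.2 ⟨Z.mfa.2 (mfa.2 s3.1), Z.fsl.2 (fsl.2 s3.2)⟩⟩, R'.ana.2 s4, (R.leb j R').2 s5⟩,
    g', u, fun k => y (Completion.coe_injective E ((R.tr x g' _ u).symm.trans k))⟩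

/-- **the witness** -/
theorem wig : ∃ (H : Type) (_ : NormedAddCommGroup H) (_ : InnerProductSpace ℂ H)
    (_ : CompleteSpace H) (K : Q352.Frame H) (Q R : Q352.Theory K) (T J N : _), Q352.Hyp Q T ∧
      Vir Q T J ∧ Uniq K ∧ Fnt Q ∧ Cnt Q ∧ (Net K N ∧ Aff Q N ∧ Q352.Rel Q N ∧ Rec Q N) ∧
      (Q352.EBd Q ∧ Q352.FBT Q T ∧ Q352.SL Q T) ∧
      (R.dom = Q.dom ∧ (∀ A, R.fld A → Q.fld A) ∧ Fnt R ∧ Q352.Ana R ∧ Q352.LEB R Q) ∧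
      ∃ f, Q352.IsTest f ∧ Q352.tr T f K.Ω ≠ 0 := by
  obtain ⟨H, _, _, _, K, Q, R, T, J, N, a, b, v, u, f, c, n, e, s, z⟩ := wih
  obtain ⟨K, rfl⟩ : ∃ K', Q352.Cv.fr K' = K := ⟨Q352.Cv.rf K, rfl⟩
  obtain ⟨Q, rfl⟩ : ∃ Q', Q352.Cv.th Q' = Q := ⟨Q352.Cv.ht Q, rfl⟩
  obtain ⟨R, rfl⟩ : ∃ R', Q352.Cv.th R' = R := ⟨Q352.Cv.ht R, rfl⟩
  have f := Q352.Cv.fnt.2 f
  exact ⟨H, _, _, _, K, Q, R, T, J, N, ⟨Q352.Cv.stress.2 a, b, .inr u, .inl f,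
      .inl ⟨N, Q352.Cv.net.2 n.1, .inl (Q352.Cv.aff.2 n.2.1)⟩⟩, Q352.Cv.vir.2 v, u, f, Q352.Cv.cnt.2 c,
    ⟨Q352.Cv.net.2 n.1, Q352.Cv.aff.2 n.2.1, Q352.Cv.rel.2 n.2.2.1, Q352.Cv.rec'' n.2.2.2⟩,
    ⟨e.1, e.2.1, Q352.Cv.sl.2 e.2.2⟩, ⟨s.1.1, s.1.2, Q352.Cv.fnt.2 s.1.3, s.2.1, s.2.2⟩, z⟩

end

end Vale.Agent.N352.H
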