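import Vale.Agent.Q352.NS

/-!
# P352, project NS, row B1: the unitaries
-/

set_option linter.all false

open Filter Topology MeasureTheory
open UniformSpace (Completion)
open Complex (I)

namespace Vale.Agent.SP352

open P352.GF (V Fn Ix Fld Theory IsTest IsLor IsCutoff sim one bar mdot pd eta)

namespace B1a

section Alg

variable {M : Type*} [Monoid M] {g : M}

/-- equality up to the grading -/
def R (g X Y : M) : Prop := X = Y ∨ X = g * Y

theorem R.symm (hg : g * g = 1) {X Y : M} (h : R g X Y) : R g Y X := by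
  rcases h with h | h
  · exact Or.inl h.symm
  · exact Or.inr (by rw [h, ← mul_assoc, hg, one_mul])

theorem R.trans (hg : g * g = 1) {X Y Z : M} (h : R g X Y) (h' : R g Y Z) : R g X Z := by
  rcases h with rfl | rfl
  · exact h'
  rcases h' with rfl | rfl
  · exact Or.inr rfl
  · exact Or.inl (by rw [← mul_assoc, hg, one_mul])

theorem R.sq (hg : g * g = 1) {X Y : M} (h : R g X Y) (c : g * Y = Y * g) : X * X = Y * Y := by
  rcases h with rfl | rfl
  · rfl
  · rw [mul_assoc, ← mul_assoc Y, ← c, ← mul_assoc, ← mul_assoc, hg, one_mul]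

theorem R.conj (hg : g * g = 1) {A B B' : M} (h : R g (A * B) (B' * A)) (c : g * B' = B' * g) :
    A * (B * B) = B' * B' * A := by
  rcases h with h | h
  · rw [← mul_assoc, h, mul_assoc, h, ← mul_assoc]
  · calc A * (B * B) = g * (B' * A) * B := by rw [← mul_assoc, h]
      _ = g * B' * (A * B) := by simp only [mul_assoc]
      _ = B' * (g * g) * (B' * A) := by rw [h, c]; simp only [mul_assoc]
      _ = _ := by rw [hg, mul_one, mul_assoc]

theorem R.intw {X Y A B : M} (h : R g X Y) (e : Y * A = B * Y) (c : g * B = B * g) :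
    X * A = B * X := by
  rcases h with rfl | rfl
  · exact e
  · rw [mul_assoc, e, ← mul_assoc, c, mul_assoc]

end Alg

theorem star_eq {M : Type*} [Monoid M] [StarMul M] {X Y : M} (h : X ∈ unitary M) (e : X * Y = 1) :
    star X = Y := by
  rw [← mul_one (star X), ← e, ← mul_assoc, (Unitary.mem_iff.1 h).1, one_mul]

variable {D : Type*} [NormedAddCommGroup D] [InnerProductSpace ℂ D]

theorem ext_coe {E : Type*} [TopologicalSpace E] [T2Space E] {f g : Completion D → E}
    (hf : Continuous f) (hg : Continuous g) (h : ∀ v : D, f v = g v) (z : Completion D) :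
    f z = g z :=
  congrFun (Completion.denseRange_coe.equalizer hf hg (funext h)) z

theorem clm_ext {X Y : Completion D →L[ℂ] Completion D} (h : ∀ v : D, X v = Y v) : X = Y :=
  ContinuousLinearMap.ext (ext_coe X.continuous Y.continuous h)

theorem ext_two {f g : Completion D → Completion D → ℂ} (hf : Continuous (Function.uncurry f))
    (hg : Continuous (Function.uncurry g)) (h : ∀ v w : D, f v w = g v w) (x y : Completion D) :
    f x y = g x y :=
  ext_coe (f := fun x => f x y) (g := fun x => g x y) (hf.comp (by fun_prop : Continuous fun x => (x, y)))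
    (hg.comp (by fun_prop : Continuous fun x => (x, y)))
    (fun v => ext_coe (f := f v) (g := g v)
      (hf.comp (by fun_prop : Continuous fun y => ((v : Completion D), y)))
      (hg.comp (by fun_prop : Continuous fun y => ((v : Completion D), y))) (h v) y) x

section Iso

variable {U : D → D} (h : ∀ v w, inner ℂ (U v) (U w) = inner ℂ v w)
include h

theorem iso_add (v w : D) : U (v + w) = U v + U w := by
  rw [← sub_eq_zero, ← inner_self_eq_zero (𝕜 := ℂ)]
  simp only [inner_sub_left, inner_sub_right, inner_add_left, inner_add_right, h]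
  ring

theorem iso_smul (c : ℂ) (v : D) : U (c • v) = c • U v := by
  rw [← sub_eq_zero, ← inner_self_eq_zero (𝕜 := ℂ)]
  simp only [inner_sub_left, inner_sub_right, inner_smul_left, inner_smul_right, h]
  ring

theorem iso_inj {v w : D} (e : U v = U w) : v = w := by
  rw [← sub_eq_zero, ← inner_self_eq_zero (𝕜 := ℂ)]
  simp only [inner_sub_left, inner_sub_right, ← h v, ← h w, e]
  ring

/-- the linear isometry -/
noncomputable def li : D →ₗᵢ[ℂ] D :=
  LinearMap.isometryOfInner ⟨⟨U, iso_add h⟩, iso_smul h⟩ h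

theorem iso_ex : ∃ W : Completion D →L[ℂ] Completion D, ∀ v : D, W v = (U v : D) :=
  ⟨(li h).toContinuousLinearMap.completion, fun v =>
    ContinuousLinearMap.completion_apply_coe _ v⟩

theorem iso_uc : UniformContinuous U := (li h).isometry.uniformContinuous

theorem iso_star {W : Completion D →L[ℂ] Completion D} (hW : ∀ v : D, W v = (U v : D)) :
    star W * W = 1 := by
  refine ContinuousLinearMap.ext fun y => ext_inner_left ℂ fun x => ?_
  rw [ContinuousLinearMap.mul_apply, ContinuousLinearMap.star_eq_adjoint,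
    ContinuousLinearMap.adjoint_inner_right, ContinuousLinearMap.one_apply]
  refine ext_two (f := fun x y => inner ℂ (W x) (W y)) (g := fun x y => inner ℂ x y)
    (by unfold Function.uncurry; fun_prop) (by unfold Function.uncurry; fun_prop)
    (fun v w => ?_) x y
  rw [hW, hW, Completion.inner_coe, Completion.inner_coe, h]

end Iso

variable (C : Cx D)

theorem uc_eq {s : ℝ} {L : Ix → V} {a : V} {W : Completion D →L[ℂ] Completion D}
    (h : ∀ v : D, W v = (C.Q.U s L a v : D)) : C.Uc s L a = W := by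
  have h' : ∃ W : Completion D →L[ℂ] Completion D, ∀ v : D, W v = (C.Q.U s L a v : D) := ⟨W, h⟩
  unfold Cx.Uc
  rw [dif_pos h']
  exact clm_ext fun v => (h'.choose_spec v).trans (h v).symm

theorem coe (s : ℝ) (L : Ix → V) (a : V) (v : D) (hs : 0 < s) (hL : IsLor L) :
    C.Uc s L a v = (C.Q.U s L a v : D) := by
  obtain ⟨W, hW⟩ := iso_ex fun v w => C.Q.U_inner s L a v w hs hL
  rw [uc_eq C hW, hW]

theorem gg : C.Γ * C.Γ = 1 := clm_ext fun v => by
  rw [ContinuousLinearMap.mul_apply, C.net.ext, C.net.ext, C.gr.inv, ContinuousLinearMap.one_apply]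

theorem gs : star C.Γ = C.Γ := by
  refine ContinuousLinearMap.ext fun y => ext_inner_left ℂ fun x => ?_
  rw [ContinuousLinearMap.star_eq_adjoint, ContinuousLinearMap.adjoint_inner_right]
  refine ext_two (f := fun x y => inner ℂ (C.Γ x) y) (g := fun x y => inner ℂ x (C.Γ y))
    (by unfold Function.uncurry; fun_prop) (by unfold Function.uncurry; fun_prop)
    (fun v w => ?_) x y
  rw [C.net.ext, C.net.ext, Completion.inner_coe, Completion.inner_coe, C.gr.herm]

theorem gu (s : ℝ) (L : Ix → V) (a : V) (hs : 0 < s) (hL : IsLor L) :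
    C.Γ * C.Uc s L a = C.Uc s L a * C.Γ := clm_ext fun v => by
  rw [ContinuousLinearMap.mul_apply, ContinuousLinearMap.mul_apply, coe C s L a v hs hL,
    C.net.ext, C.net.ext, coe C s L a _ hs hL, C.gr.GU s L a v hs hL]

theorem mul' (s : ℝ) (L : Ix → V) (a : V) (s' : ℝ) (L' : Ix → V) (a' : V) (hs : 0 < s)
    (hs' : 0 < s') (hL : IsLor L) (hL' : IsLor L') :
    C.Uc s L a * C.Uc s' L' a' = C.Uc (s * s') (fun m => sim 1 L 0 (L' m)) (sim s L a a') ∨
    L ≠ one ∧ L' ≠ one ∧ C.Uc s L a * C.Uc s' L' a' =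
      C.Γ * C.Uc (s * s') (fun m => sim 1 L 0 (L' m)) (sim s L a a') := by
  rcases C.gr.mul s L a s' L' a' hs hs' hL hL' with h | ⟨h1, h2, h⟩
  · refine Or.inl (uc_eq C fun v => ?_).symm
    rw [ContinuousLinearMap.mul_apply, coe C _ _ _ _ hs' hL', coe C _ _ _ _ hs hL, h]
  · refine Or.inr ⟨h1, h2, ?_⟩
    have e : C.Uc (s * s') (fun m => sim 1 L 0 (L' m)) (sim s L a a') =
        C.Γ * (C.Uc s L a * C.Uc s' L' a') := uc_eq C fun v => by
      rw [ContinuousLinearMap.mul_apply, ContinuousLinearMap.mul_apply, coe C _ _ _ _ hs' hL',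
        coe C _ _ _ _ hs hL, h, C.net.ext, C.gr.inv]
    rw [e, ← mul_assoc, gg, one_mul]

theorem mul (s : ℝ) (L : Ix → V) (a : V) (s' : ℝ) (L' : Ix → V) (a' : V) (hs : 0 < s)
    (hs' : 0 < s') (hL : IsLor L) (hL' : IsLor L') : R C.Γ (C.Uc s L a * C.Uc s' L' a')
      (C.Uc (s * s') (fun m => sim 1 L 0 (L' m)) (sim s L a a')) :=
  (mul' C s L a s' L' a' hs hs' hL hL').imp id fun h => h.2.2

theorem mul1 (s : ℝ) (L : Ix → V) (a : V) (s' : ℝ) (L' : Ix → V) (a' : V) (hs : 0 < s)
    (hs' : 0 < s') (hL : IsLor L) (hL' : IsLor L') (h : L = one ∨ L' = one) :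
    C.Uc s L a * C.Uc s' L' a' = C.Uc (s * s') (fun m => sim 1 L 0 (L' m)) (sim s L a a') :=
  (mul' C s L a s' L' a' hs hs' hL hL').resolve_right fun h' => h.elim h'.1 h'.2.1

variable (g : Geo)
include g

theorem u1 (v : D) : C.Q.U 1 one 0 v = v := by
  refine iso_inj (fun v w => C.Q.U_inner 1 one 0 v w one_pos g.lor1) ?_
  have h := (C.gr.mul 1 one 0 1 one 0 one_pos one_pos g.lor1 g.lor1).resolve_right
    fun h => h.1 rfl
  rw [h, mul_one, g.onel, g.sim0]

theorem c1 : C.Uc 1 one 0 = 1 := uc_eq C fun v => by rw [u1 C g, ContinuousLinearMap.one_apply]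

theorem uni (s : ℝ) (L : Ix → V) (a : V) (hs : 0 < s) (hL : IsLor L) :
    C.Uc s L a ∈ unitary (Completion D →L[ℂ] Completion D) := by
  have h1 := iso_star (fun v w => C.Q.U_inner s L a v w hs hL) fun v => coe C s L a v hs hL
  obtain ⟨L', hL', e, -⟩ := g.inv L hL
  obtain ⟨a', ha⟩ := (g.bij s L a hs hL).2 0
  have h2 := mul C s L a s⁻¹ L' a' hs (inv_pos.2 hs) hL hL'
  rw [mul_inv_cancel₀ hs.ne', e, ha, c1 C g] at h2
  obtain ⟨Y, hY⟩ : ∃ Y, C.Uc s L a * Y = 1 := by
    rcases h2 with h2 | h2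
    · exact ⟨_, h2⟩
    · exact ⟨C.Uc s⁻¹ L' a' * C.Γ, by rw [← mul_assoc, h2, mul_one, gg]⟩
  refine Unitary.mem_iff.2 ⟨h1, ?_⟩
  have : star (C.Uc s L a) = Y := by
    rw [← mul_one (star _), ← hY, ← mul_assoc, h1, one_mul]
  rw [this, hY]

theorem tadd (a b : V) : C.Tr (a + b) = C.Tr a * C.Tr b := by
  unfold Cx.Tr
  rw [mul1 C 1 one a 1 one b one_pos one_pos g.lor1 g.lor1 (Or.inl rfl), mul_one, g.onel, g.sim1]

theorem tadj (a : V) : star (C.Tr a) = C.Tr (-a) :=
  star_eq (uni C g 1 one a one_pos g.lor1) (by rw [← tadd C g, add_neg_cancel]; exact c1 C g)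

theorem tnorm (a : V) (z : Completion D) : ‖C.Tr a z‖ = ‖z‖ :=
  ContinuousLinearMap.norm_map_of_mem_unitary (uni C g 1 one a one_pos g.lor1) z

theorem tcont0 (v : D) : Continuous fun a => C.Tr a v := by
  obtain ⟨ν, hν, -, h⟩ := C.Q.spectrum v
  have hφ : Continuous fun a => inner ℂ (v : Completion D) (C.Tr a v) := by
    have e : (fun a => inner ℂ (v : Completion D) (C.Tr a v)) =
        fun a => ∫ p, Complex.exp (I * mdot p a) ∂ν := by
      funext a
      unfold Cx.Tr
      rw [← h a, coe C 1 one a v one_pos g.lor1, Completion.inner_coe]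
    rw [e]
    refine continuous_of_dominated (bound := fun _ => 1) (fun a => ?_) (fun a => ?_)
      (integrable_const _) (Eventually.of_forall fun p => ?_)
    · refine Continuous.aestronglyMeasurable ?_
      unfold mdot
      fun_prop
    · exact Eventually.of_forall fun p => (Complex.norm_exp_I_mul_ofReal _).le
    · unfold mdot
      fun_prop
  refine continuous_iff_continuousAt.2 fun a => tendsto_iff_norm_sub_tendsto_zero.2 ?_
  have key : ∀ b, ‖C.Tr b v - C.Tr a v‖ = √(‖(v : Completion D)‖ ^ 2 -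
      2 * RCLike.re (inner ℂ (v : Completion D) (C.Tr (-b + a) v)) + ‖(v : Completion D)‖ ^ 2) := by
    intro b
    rw [← Real.sqrt_sq (norm_nonneg (C.Tr b v - C.Tr a v)), norm_sub_sq (𝕜 := ℂ), tnorm C g,
      tnorm C g, tadd C g, ← tadj C g, ContinuousLinearMap.mul_apply,
      ContinuousLinearMap.star_eq_adjoint, ContinuousLinearMap.adjoint_inner_right]
  have h0 : (0 : ℝ) = ‖C.Tr a v - C.Tr a v‖ := by simp
  simp only [key] at h0 ⊢
  rw [h0]
  refine Continuous.tendsto (f := fun b => √(‖(v : Completion D)‖ ^ 2 -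
      2 * RCLike.re (inner ℂ (v : Completion D) (C.Tr (-b + a) v)) + ‖(v : Completion D)‖ ^ 2)) ?_ a
  have := RCLike.continuous_re.comp (hφ.comp (by fun_prop : Continuous fun b : V => -b + a))
  exact Real.continuous_sqrt.comp ((continuous_const.sub (continuous_const.mul this)).add
    continuous_const)

theorem tcont (z : Completion D) : Continuous fun a => C.Tr a z := by
  refine continuous_of_uniform_approx_of_continuous fun u hu => ?_
  obtain ⟨ε, hε, h⟩ := Metric.mem_uniformity_dist.1 hu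
  obtain ⟨v, hv⟩ := Completion.denseRange_coe.exists_dist_lt z hε
  refine ⟨_, tcont0 C g v, fun a => h ?_⟩
  rwa [dist_eq_norm, ← map_sub, tnorm C g, ← dist_eq_norm]

theorem dmul (s s' : ℝ) (hs : 0 < s) (hs' : 0 < s') : C.Dl (s * s') = C.Dl s * C.Dl s' := by
  unfold Cx.Dl
  rw [mul1 C s one 0 s' one 0 hs hs' g.lor1 g.lor1 (Or.inl rfl), g.onel, g.sim0]

theorem dt (s : ℝ) (a : V) (hs : 0 < s) : C.Dl s * C.Tr a = C.Tr (s • a) * C.Dl s := by
  unfold Cx.Dl Cx.Tr
  rw [mul1 C s one 0 1 one a hs one_pos g.lor1 g.lor1 (Or.inl rfl),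
    mul1 C 1 one (s • a) s one 0 one_pos hs g.lor1 g.lor1 (Or.inl rfl), g.simd, g.sim0, mul_one,
    one_mul]

theorem ut {L : Ix → V} (hL : IsLor L) (a : V) :
    C.Uc 1 L 0 * C.Tr a = C.Tr (sim 1 L 0 a) * C.Uc 1 L 0 := by
  unfold Cx.Tr
  rw [mul1 C 1 L 0 1 one a one_pos one_pos hL g.lor1 (Or.inr rfl),
    mul1 C 1 one _ 1 L 0 one_pos one_pos g.lor1 hL (Or.inl rfl), g.oner, g.onel, g.sim0]

theorem ud {L : Ix → V} (hL : IsLor L) {s : ℝ} (hs : 0 < s) :
    C.Uc 1 L 0 * C.Dl s = C.Dl s * C.Uc 1 L 0 := by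
  unfold Cx.Dl
  rw [mul1 C 1 L 0 s one 0 one_pos hs hL g.lor1 (Or.inr rfl),
    mul1 C s one 0 1 L 0 hs one_pos g.lor1 hL (Or.inl rfl), g.oner, g.onel, g.sim0, g.sim0,
    mul_one, one_mul]

theorem uu {L L' : Ix → V} (hL : IsLor L) (hL' : IsLor L') :
    R C.Γ (C.Uc 1 L 0 * C.Uc 1 L' 0) (C.Uc 1 (fun m => sim 1 L 0 (L' m)) 0) := by
  have := mul C 1 L 0 1 L' 0 one_pos one_pos hL hL'
  rwa [mul_one, g.sim0] at this

variable {l : ℝ → Ix → V} (hl : Op l)
include hl

theorem uadd (s t : ℝ) : R C.Γ (C.Uc 1 (l s) 0 * C.Uc 1 (l t) 0) (C.Uc 1 (l (s + t)) 0) :=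
  hl.add s t ▸ uu C g (hl.lor s) (hl.lor t)

theorem vu (t : ℝ) : R C.Γ (C.Vg l t) (C.Uc 1 (l t) 0) := by
  have := uadd C g hl (t / 2) (t / 2)
  rwa [add_halves] at this

theorem vg (t : ℝ) : C.Γ * C.Vg l t = C.Vg l t * C.Γ := by
  have := gu C 1 (l (t / 2)) 0 one_pos (hl.lor _)
  unfold Cx.Vg
  rw [← mul_assoc, this, mul_assoc, this, mul_assoc]

theorem ucomm (s t : ℝ) : C.Uc 1 (l s) 0 * C.Uc 1 (l t) 0 = C.Uc 1 (l t) 0 * C.Uc 1 (l s) 0 := by
  have h1 : R C.Γ (C.Uc 1 (l t) 0 * C.Uc 1 (l (s / 2)) 0) (C.Uc 1 (l (s / 2)) 0 * C.Uc 1 (l t) 0) :=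
    (uadd C g hl t (s / 2)).trans (gg C) (add_comm (s / 2) t ▸ (uadd C g hl (s / 2) t).symm (gg C))
  exact ((vu C g hl s).symm (gg C)).intw (h1.conj (gg C) (gu C _ _ _ one_pos (hl.lor _))).symm
    (gu C _ _ _ one_pos (hl.lor _))

theorem vadd (s t : ℝ) : C.Vg l (s + t) = C.Vg l s * C.Vg l t := by
  have h := (uadd C g hl (s / 2) (t / 2)).sq (gg C) (gu C _ _ _ one_pos (hl.lor _))
  unfold Cx.Vg
  rw [add_div, ← h, mul_assoc, mul_assoc, ← mul_assoc (C.Uc 1 (l (t / 2)) 0),
    ucomm C g hl (t / 2) (s / 2), mul_assoc]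

theorem v0 : C.Vg l 0 = 1 := by
  unfold Cx.Vg
  rw [zero_div, hl.zero, c1 C g, one_mul]

omit hl

theorem rb (t : ℝ) : C.Vg ro Real.pi * C.Vg bo t = C.Vg bo (-t) * C.Vg ro Real.pi := by
  have h1 := uu C g (g.opr.lor Real.pi) (g.opb.lor (t / 2))
  have h2 := uu C g (g.opb.lor (-(t / 2))) (g.opr.lor Real.pi)
  rw [g.rb] at h1
  have h3 := (h1.trans (gg C) (h2.symm (gg C))).conj (gg C) (gu C _ _ _ one_pos (g.opb.lor _))
  refine (vu C g g.opr Real.pi).intw ?_ (vg C g g.opb _)
  unfold Cx.Vg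
  rw [neg_div]
  exact h3

omit g

theorem zmul (e e' : ℝ) (h : e * e' = -1) (h' : e + e' = 0) : C.Zc e * C.Zc e' = 1 := by
  have h1 : (e : ℂ) * e' = -1 := by exact_mod_cast h
  have h2 : (e : ℂ) + e' = 0 := by exact_mod_cast h'
  unfold Cx.Zc
  simp only [add_mul, mul_add, smul_mul_assoc, mul_smul_comm, one_mul, mul_one, gg, smul_add,
    smul_smul]
  match_scalars
  · linear_combination (e * e' / 2 : ℂ) * Complex.I_mul_I - (1 / 2 : ℂ) * h1
  · linear_combination (-(e * e') / 2 : ℂ) * Complex.I_mul_I + (1 / 2 : ℂ) * h1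

end B1a

open B1a in
theorem rowB1 {D : Type*} [NormedAddCommGroup D] [InnerProductSpace ℂ D] (C : Cx D) : RowB1 C := by
  intro g
  have vac : ∀ s L a, 0 < s → IsLor L → C.Uc s L a C.om = C.om := fun s L a hs hL => by
    unfold Cx.om
    rw [coe C s L a _ hs hL, C.Q.U_vac s L a hs hL]
  have gv : C.Γ C.om = C.om := by
    unfold Cx.om
    rw [C.net.ext, C.ev]
  exact
    { coe := coe C
      ue := fun s L a z hs hL => ext_coe (C.Uc s L a).continuous Completion.continuous_map
        (fun v => (coe C s L a v hs hL).trans (Completion.map_coe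
          (iso_uc fun v w => C.Q.U_inner s L a v w hs hL) v).symm) z
      uni := uni C g
      vac := vac
      nom := (Completion.norm_coe _).trans C.Q.norm_vac
      gg := gg C
      gs := gs C
      gv := gv
      gu := gu C
      gadd := fun v w => Completion.coe_injective D (by
        rw [← C.net.ext, Completion.coe_add, Completion.coe_add, map_add, C.net.ext, C.net.ext])
      gsmul := fun c v => Completion.coe_injective D (by
        rw [← C.net.ext, Completion.coe_smul, Completion.coe_smul, map_smul, C.net.ext])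
      uadd := fun s L a v w hs hL => iso_add (fun v w => C.Q.U_inner s L a v w hs hL) v w
      usmul := fun s L a c v hs hL => iso_smul (fun v w => C.Q.U_inner s L a v w hs hL) c v
      u1 := u1 C g
      mul := B1a.mul C
      mul1 := mul1 C
      t0 := c1 C g
      tadd := tadd C g
      tadj := tadj C g
      tcont := tcont C g
      d1 := c1 C g
      dmul := dmul C g
      dadj := fun s hs => star_eq (uni C g s one 0 hs g.lor1) (by
        rw [← dmul C g s s⁻¹ hs (inv_pos.2 hs), mul_inv_cancel₀ hs.ne']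
        exact c1 C g)
      dt := dt C g
      v0 := fun l hl => v0 C g hl
      vadd := fun l s t hl => vadd C g hl s t
      vadj := fun l t hl => star_eq (mul_mem (uni C g _ _ _ one_pos (hl.lor _))
        (uni C g _ _ _ one_pos (hl.lor _))) (by
          rw [← vadd C g hl, add_neg_cancel, v0 C g hl])
      vu := fun l t hl => vu C g hl t
      vcoe := fun l t v hl => by
        unfold Cx.Vg Cx.vd
        rw [ContinuousLinearMap.mul_apply, coe C _ _ _ _ one_pos (hl.lor _),
          coe C _ _ _ _ one_pos (hl.lor _)]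
      vvac := fun l t hl => by
        unfold Cx.Vg
        rw [ContinuousLinearMap.mul_apply, vac _ _ _ one_pos (hl.lor _),
          vac _ _ _ one_pos (hl.lor _)]
      vg := fun l t hl => vg C g hl t
      vt := fun l t a hl => (vu C g hl t).intw (ut C g (hl.lor t) a) (gu C _ _ _ one_pos g.lor1)
      vdl := fun l t s hl hs => (vu C g hl t).intw (ud C g (hl.lor t) hs) (gu C _ _ _ hs g.lor1)
      rb := rb C g
      zcoe := fun e v => by
        unfold Cx.Zc Cx.zd
        rw [Completion.coe_add, Completion.coe_smul, Completion.coe_smul, ← C.net.ext]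
        rfl
      zz := ⟨zmul C 1 (-1) (by norm_num) (by norm_num), zmul C (-1) 1 (by norm_num) (by norm_num)⟩
      zadj := fun e => by
        unfold Cx.Zc
        rw [star_add, star_smul, star_smul, star_one, gs C]
        congr 2 <;> simp <;> ring
      zv := fun e => by
        unfold Cx.Zc
        rw [ContinuousLinearMap.add_apply, ContinuousLinearMap.smul_apply,
          ContinuousLinearMap.smul_apply, gv, ContinuousLinearMap.one_apply, ← add_smul]
        rw [show ((1 + e * I) / 2 + (1 - e * I) / 2 : ℂ) = 1 by ring, one_smul]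
      zc := fun e X h => by
        unfold Cx.Zc
        simp only [add_mul, mul_add, smul_mul_assoc, mul_smul_comm, one_mul, mul_one, h] }

end Vale.Agent.SP352
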