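import Vale.Agent.Q352.NS
import Vale.Agent.Q352.RowRS
import Vale.Agent.P352.H246.Cov

/-!
# P352, project NS: row B2
-/

set_option linter.all false

open Filter Topology MeasureTheory
open UniformSpace (Completion)
open Complex (I)

namespace Vale.Agent.SP352

open P352.GF (V Fn Ix Fld Theory IsTest IsLor IsCutoff sim one bar mdot pd eta o)
open P352.H246 (Al In Cov)

noncomputable section

variable {D : Type*} [NormedAddCommGroup D] [InnerProductSpace ℂ D]

namespace NSB2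

variable {C : Cx D}

theorem utr (g : Geo) (s : ℝ) (L : Ix → V) (a : V) (hs : 0 < s) (hL : IsLor L) (v : D) :
    C.Q.U 1 one a (C.Q.U s L 0 v) = C.Q.U s L a v := by
  rcases C.gr.mul 1 one a s L 0 one_pos hs g.lor1 hL with h | h
  · rw [h, one_mul, g.onel, g.sim0]
  · exact absurd rfl h.1

theorem utr' (g : Geo) (s : ℝ) (L : Ix → V) (b : V) (hs : 0 < s) (hL : IsLor L) (v : D) :
    C.Q.U s L 0 (C.Q.U 1 one b v) = C.Q.U s L (sim s L 0 b) v := by
  rcases C.gr.mul s L 0 1 one b hs one_pos hL g.lor1 with h | h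
  · rw [h, mul_one, g.oner]
  · exact absurd rfl h.2.1

theorem usurj (g : Geo) (b : B1 C) (a : V) : Function.Surjective (C.Q.U 1 one a) := by
  intro v
  refine ⟨C.Q.U 1 one (-a) v, ?_⟩
  rcases C.gr.mul 1 one a 1 one (-a) one_pos one_pos g.lor1 g.lor1 with h | h
  · rw [h, mul_one, g.onel, g.sim1, add_neg_cancel, b.u1]
  · exact absurd rfl h.1

theorem usum (g : Geo) (b : B1 C) (a : V) {n : ℕ} (c : Fin n → ℂ) (w : Fin n → D) :
    C.Q.U 1 one a (∑ i, c i • w i) = ∑ i, c i • C.Q.U 1 one a (w i) := by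
  have := map_sum (LinearMap.mk ⟨C.Q.U 1 one a, fun v w => b.uadd 1 one a v w one_pos g.lor1⟩
    (fun c v => b.usmul 1 one a c v one_pos g.lor1) : D →ₗ[ℂ] D)
    (fun i => c i • w i) Finset.univ
  simp only [LinearMap.coe_mk, AddHom.coe_mk] at this
  rw [this]
  exact Finset.sum_congr rfl fun i _ => b.usmul 1 one a _ _ one_pos g.lor1

theorem cova (g : Geo) (b : B1 C) (s : ℝ) (L : Ix → V) (a : V) (hs : 0 < s) (hL : IsLor L) :
    Cov C.Q s L a := by
  have h0 := C.cov s L hs hL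
  refine ⟨?_, fun B hB => ?_⟩
  · obtain ⟨y, hy⟩ := (g.bij s L 0 hs hL).2 a
    have e : C.Q.U s L a = C.Q.U s L 0 ∘ C.Q.U 1 one y := by
      funext v
      rw [Function.comp_apply, utr' g s L y hs hL, hy]
    rw [e, DenseRange, (usurj g b y).range_comp]
    exact h0.1
  · obtain ⟨n, c, A, hA, h⟩ := h0.2 B hB
    refine ⟨n, c, A, hA, fun f v hf => ?_⟩
    have h1 := h (fun x => f (sim 1 one a x)) v (g.test 1 one a f one_pos g.lor1 hf)
    have e : (fun x => f (sim s L a x)) = fun x => f (sim 1 one a (sim s L 0 x)) := by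
      funext x
      rw [g.sim1, g.sima s L a, g.sima s L 0, zero_add]
    rw [← utr g s L a hs hL, e, h1, usum g b]
    refine Finset.sum_congr rfl fun i _ => ?_
    rw [← C.Q.transl (A i) a f _ (hA i) hf, utr g s L a hs hL]

/-- a single smeared field -/
theorem single {Q : Theory D} {W : Set V} {A : Fld D} (hA : Q.fld A) {f : Fn} (hf : In W f) :
    ∃ Y', Al Q W (fun v => A f v) Y' := by
  obtain ⟨B, hB, h⟩ := Q.adj A hA
  exact ⟨_, Al.fld A B f _ _ hA hB h hf Al.one⟩

/-- the second operator is determined by the first one -/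
theorem fix {Q : Theory D} {W : Set V} {X X' Y' : D → D} (h : Al Q W X X')
    (e : ∀ v w, inner ℂ (X v) w = inner ℂ v (Y' w)) : Al Q W X Y' := by
  have : X' = Y' := funext fun w => ext_inner_left ℂ fun v => by rw [← h.adj, e]
  rwa [this] at h

theorem gfld (b : B1 C) {W : Set V} {A : Fld D} (hA : C.Q.fld A) {f : Fn} (hf : In W f) :
    ∃ Y', Al C.Q W (fun v => C.G (A f (C.G v))) Y' := by
  obtain ⟨P, M, hP, hM, h⟩ := C.gr.split A hA
  obtain ⟨P', h1⟩ := single (C.Q.bose_fld P hP) hf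
  obtain ⟨M', h2⟩ := single hM.1 hf
  have h3 := Al.add _ _ _ _ h1 (Al.smul (-1) _ _ h2)
  have e : (fun v => C.G (A f (C.G v))) = fun v => P f v + (-1 : ℂ) • M f v := by
    funext v
    rw [h f _ hf.1, b.gadd, C.gr.bose P f v hP hf.1, hM.2 f v hf.1, C.gr.inv,
      ← neg_one_smul ℂ (C.G (M f v)), b.gsmul, C.gr.inv]
  rw [e]
  exact ⟨_, h3⟩

theorem gam0 (b : B1 C) {W : Set V} {X X' : D → D} (h : Al C.Q W X X') :
    ∃ Y', Al C.Q W (fun v => C.G (X (C.G v))) Y' := by
  induction h with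
  | one =>
    simp only [C.gr.inv]
    exact ⟨_, Al.one⟩
  | add X X' Y Y' _ _ ih1 ih2 =>
    obtain ⟨_, h1⟩ := ih1
    obtain ⟨_, h2⟩ := ih2
    simp only [b.gadd]
    exact ⟨_, Al.add _ _ _ _ h1 h2⟩
  | smul c X X' _ ih =>
    obtain ⟨_, h1⟩ := ih
    simp only [b.gsmul]
    exact ⟨_, Al.smul c _ _ h1⟩
  | fld A B f X X' hA hB hadj hf _ ih =>
    obtain ⟨_, h1⟩ := ih
    obtain ⟨_, h2⟩ := gfld b hA hf
    have h3 := h2.mul h1
    simp only [C.gr.inv] at h3
    exact ⟨_, h3⟩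

theorem gam (b : B1 C) {W : Set V} {X X' : D → D} (h : Al C.Q W X X') :
    Al C.Q W (fun v => C.G (X (C.G v))) fun v => C.G (X' (C.G v)) := by
  obtain ⟨_, h1⟩ := gam0 b h
  exact fix h1 fun v w => by rw [C.gr.herm, h.adj, C.gr.herm]

theorem cpt {Q : Theory D} {W : Set V} {X X' : D → D} (h : Al Q W X X') :
    ∃ K, IsCompact K ∧ K ⊆ W ∧ Al Q K X X' := by
  induction h with
  | one => exact ⟨∅, isCompact_empty, Set.empty_subset _, Al.one⟩
  | add X X' Y Y' _ _ ih1 ih2 =>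
    obtain ⟨K, h1, h2, h3⟩ := ih1
    obtain ⟨K', h4, h5, h6⟩ := ih2
    exact ⟨K ∪ K', h1.union h4, Set.union_subset h2 h5, Al.add _ _ _ _
      (h3.mono Set.subset_union_left) (h6.mono Set.subset_union_right)⟩
  | smul c X X' _ ih =>
    obtain ⟨K, h1, h2, h3⟩ := ih
    exact ⟨K, h1, h2, Al.smul c _ _ h3⟩
  | fld A B f X X' hA hB hadj hf _ ih =>
    obtain ⟨K, h1, h2, h3⟩ := ih
    exact ⟨K ∪ tsupport f, h1.union hf.2.1, Set.union_subset h2 hf.2.2,
      Al.fld A B f _ _ hA hB hadj ⟨hf.1, hf.2.1, Set.subset_union_right⟩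
        (h3.mono Set.subset_union_left)⟩

theorem rs (Q : Theory D) {O : Set V} (hO : IsOpen O) (hne : O.Nonempty) :
    Dense {z : Completion D | ∃ X X', Al Q O X X' ∧ z = (X Q.vac : D)} := by
  let S : Submodule ℂ D :=
    { carrier := {v | ∃ X X', Al Q O X X' ∧ v = X Q.vac}
      add_mem' := by
        rintro _ _ ⟨X, X', h1, rfl⟩ ⟨Y, Y', h2, rfl⟩
        exact ⟨_, _, Al.add _ _ _ _ h1 h2, rfl⟩
      zero_mem' := ⟨_, _, P352.H246.Al.zero, rfl⟩
      smul_mem' := by
        rintro c _ ⟨X, X', h1, rfl⟩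
        exact ⟨_, _, Al.smul c _ _ h1, rfl⟩ }
  have h := Q352.rsb Q hO hne S ⟨_, _, Al.one, rfl⟩ (by
    rintro A f _ hA hf ⟨X, X', h1, rfl⟩
    obtain ⟨B, hB, h⟩ := Q.adj A hA
    exact ⟨_, _, Al.fld A B f _ _ hA hB h hf h1, rfl⟩)
  refine (Completion.denseRange_coe.dense_image (Completion.continuous_coe D) h).mono ?_
  rintro _ ⟨_, ⟨X, X', h1, rfl⟩, rfl⟩
  exact ⟨X, X', h1, rfl⟩

theorem cut {F : ℝ → Fn} (hF : IsCutoff F) {R : ℝ} (hR : 0 < R) :
    In Set.univ (F R) ∧ bar (F R) = F R := by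
  obtain ⟨a, c, ha, hc, -, -, h⟩ := hF
  obtain ⟨τ, hτ, h5⟩ := ha.isCompact.isBounded.exists_pos_norm_le
  obtain ⟨ρ, hρ, h6⟩ := hc.isCompact.isBounded.exists_pos_norm_le
  refine ⟨⟨(h R hR).1, HasCompactSupport.intro (isCompact_closedBall 0 (τ + ρ * R)) fun x hx => ?_,
    Set.subset_univ _⟩, funext fun x => by simp [bar, (h R hR).2]⟩
  by_contra k
  rw [(h R hR).2] at k
  have k1 := h5 _ (subset_tsupport a fun e : a (x o) = 0 => k (by simp [e]))
  have k2 := h6 _ (subset_tsupport c fun e : c (fun n => if n = o then 0 else x n / R) = 0 =>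
    k (by simp [e]))
  refine hx (mem_closedBall_zero_iff.2 ((pi_norm_le_iff_of_nonneg (by positivity)).2 fun n => ?_))
  by_cases e : n = o
  · rw [e]; nlinarith [mul_pos hρ hR]
  · have := (norm_le_pi_norm _ n).trans k2
    rw [if_neg e, norm_div, Real.norm_of_nonneg hR.le, div_le_iff₀ hR] at this
    linarith

theorem xin {f : Fn} (hf : In Set.univ f) (n : Ix) :
    In Set.univ fun x => (eta n : ℂ) * xr x n * f x := by
  obtain ⟨⟨g, rfl⟩, hc, -⟩ := hf
  have h1 : HasCompactSupport fun x => (eta n : ℂ) * xr x n * P352.GF.ev g x := hc.mul_left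
  have h2 : ContDiff ℝ (⊤ : ℕ∞) fun x : V => ((xr x n : ℝ) : ℂ) := by
    refine Complex.ofRealCLM.contDiff.comp (f := fun x : V => xr x n) ?_
    fin_cases n
    · exact contDiff_const
    · exact (contDiff_apply ℝ ℝ (2 : Ix)).neg
    · exact contDiff_apply ℝ ℝ (1 : Ix)
    · exact contDiff_const
  exact ⟨⟨h1.toSchwartzMap ((contDiff_const.mul h2).mul (g.smooth ⊤)), rfl⟩, h1, Set.subset_univ _⟩

theorem xbar {f : Fn} (hf : bar f = f) (n : Ix) :
    bar (fun x => (eta n : ℂ) * xr x n * f x) = fun x => (eta n : ℂ) * xr x n * f x := by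
  funext x
  have := congrFun hf x
  simp only [bar] at this ⊢
  rw [star_mul', star_mul', this]
  simp

end NSB2

open NSB2 in
theorem rowB2 {D : Type*} [NormedAddCommGroup D] [InnerProductSpace ℂ D] (C : Cx D) :
    RowB2 C := by
  intro g b
  have hcov : ∀ s L a W X X', 0 < s → IsLor L → Al C.Q W X X' →
      ∃ Y Y', Al C.Q (sim s L a '' W) Y Y' ∧ (∀ v, C.Q.U s L a (X v) = Y (C.Q.U s L a v)) ∧
        ∀ v, C.Q.U s L a (X' v) = Y' (C.Q.U s L a v) := fun s L a W X X' hs hL h =>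
    P352.H246.cov_al hs hL (cova g b s L a hs hL) h
  refine
    { adj := fun W X X' h => h.adj
      add := fun W X X' h => h.map_add
      smul := fun W X X' h => h.map_smul
      mul := fun W X X' Y Y' h h' => h.mul h'
      symm := fun W X X' h => h.star
      mono := fun W W' X X' hW h => h.mono hW
      cov := hcov
      vd := fun l t W X X' hl h => ?_
      gam := fun W X X' h => gam b h
      zom := fun e W X X' h => ?_
      cpt := fun W X X' h => cpt h
      rs := fun O hO hne => rs C.Q hO hne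
      qr := fun F R hF hR => ?_
      qg := fun F R v hF hR => ?_
      par := fun e B B' he hB hB' hadj => ⟨hB', fun f v hf => ?_⟩ }
  · obtain ⟨Y, Y', h1, h2, h3⟩ := hcov 1 (l (t / 2)) 0 W X X' one_pos (hl.lor _) h
    obtain ⟨Z, Z', h4, h5, h6⟩ := hcov 1 (l (t / 2)) 0 _ Y Y' one_pos (hl.lor _) h1
    refine ⟨Z, Z', ?_, fun v => by simp only [Cx.vd]; rw [h2, h5],
      fun v => by simp only [Cx.vd]; rw [h3, h6]⟩
    have e : l t = fun m => sim 1 (l (t / 2)) 0 (l (t / 2) m) := by rw [hl.add, add_halves]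
    rw [Set.image_image] at h4
    rw [e]
    simp only [g.comp]
    exact h4
  · refine ⟨_, _, Al.add _ _ _ _ (Al.smul ((1 + e * I) / 2) _ _ h)
      (Al.smul ((1 - e * I) / 2) _ _ (gam b h)), ?_⟩
    simp only [Cx.zd, C.ev]
  · obtain ⟨h1, h2⟩ := cut hF hR
    have := P352.H246.Al.finsum (Q := C.Q) (W := Set.univ) Finset.univ fun (n : Ix) _ =>
      Al.fld (C.T o n) (C.T o n) _ _ _ (C.Q.bose_fld _ (C.st.bose o n))
        (C.Q.bose_fld _ (C.st.bose o n)) (C.st.herm o n) (xin h1 n) Al.one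
    simp only [xbar h2] at this
    exact this
  · obtain ⟨h1, -⟩ := cut hF hR
    simp only [Cx.qr, N352.Dn.cur, Fin.sum_univ_four, b.gadd,
      fun n => C.gr.bose (C.T o n) _ v (C.st.bose o n) (xin h1 n).1]
  · have ht := P352.H246.isTest_bar hf
    refine ext_inner_left ℂ fun w => ?_
    have h1 := hadj (bar f) w (C.G v) ht
    have h2 := hadj (bar f) (C.G w) v ht
    rw [P352.H246.bar_bar] at h1 h2
    rw [← h1, inner_smul_right, ← C.gr.herm w, ← h2, hB.2 _ _ ht, inner_smul_left, C.gr.herm]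
    rcases he with rfl | rfl <;> simp

end

end Vale.Agent.SP352
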