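import Vale.Agent.Q352.NS

/-!
# P352, project NS: the theorem of Borchers
-/

set_option linter.all false

open Filter Topology
open Complex (I)
open scoped ComplexConjugate

namespace Vale.Agent.SP352

open P352.BW.H234U (Sc So Bd)
open P132 (ModData)

namespace BOR

/-- a bounded function on the strip with real boundary values is constant -/
theorem cst {F : ℂ → ℂ} (hF : Bd F) (h0 : ∀ t : ℝ, (F t).im = 0)
    (h1 : ∀ t : ℝ, (F (t - I / 2)).im = 0) (t : ℝ) : F t = F (0 : ℝ) := by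
  have key : ∀ s : ℝ, ∀ z ∈ Sc, 0 ≤ s * (F z).im := by
    intro s z hz
    have e : ∀ w, ‖Complex.exp (s * I * F w)‖ = Real.exp (-(s * (F w).im)) := fun w => by
      rw [Complex.norm_exp]; simp
    have hB : Bd fun w => Complex.exp (s * I * F w) := by
      obtain ⟨C, hC⟩ := hF.bd
      refine ⟨Complex.differentiable_exp.comp_diffContOnCl (hF.const_mul (s * I)).dc,
        Real.exp (|s| * C), fun w hw => ?_⟩
      rw [e]
      refine Real.exp_le_exp.2 ((neg_le_abs _).trans ?_)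
      rw [abs_mul]
      exact mul_le_mul_of_nonneg_left ((Complex.abs_im_le_norm _).trans (hC w hw)) (abs_nonneg _)
    have := P352.BW.H234U.bound hB zero_le_one (fun t => by rw [e, h0]; simp)
      (fun t => by rw [e, h1]; simp) hz
    rw [e, Real.exp_le_one_iff] at this
    linarith
  have hs : So ⊆ Sc := fun z hz => ⟨hz.1.le, hz.2.le⟩
  have hc : IsConnected So := by
    refine Convex.isConnected ((convex_halfSpace_im_gt _).inter (convex_halfSpace_im_lt _))
      ⟨-I / 4, ?_, ?_⟩ <;> simp <;> norm_num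
  obtain ⟨c, hc⟩ := (hF.dc.differentiableOn.analyticOnNhd
    P352.BW.H234U.isOpen_So).eq_const_of_im_eq_const (c₀ := 0) (fun z hz => by
      linarith [key 1 z (hs hz), key (-1) z (hs hz)]) P352.BW.H234U.isOpen_So hc
  have h2 : Set.EqOn F (fun _ => c) (closure So) :=
    Set.EqOn.of_subset_closure hc hF.dc.continuousOn continuousOn_const subset_closure subset_rfl
  rw [P352.BW.H234U.closure_So] at h2
  rw [h2 (P352.BW.H234U.real_mem t), h2 (P352.BW.H234U.real_mem 0)]

theorem cst2 {F G : ℂ → ℂ} (hF : Bd F) (hG : Bd G) (h0 : ∀ t : ℝ, conj (F t) = G t)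
    (h1 : ∀ t : ℝ, conj (F (t - I / 2)) = G (t - I / 2)) (t : ℝ) : F t = F (0 : ℝ) := by
  have k1 := cst (hF.add hG) (fun t => by rw [← h0]; simp) (fun t => by rw [← h1]; simp) t
  have k2 := cst ((hF.sub hG).const_mul I) (fun t => by rw [← h0]; simp)
    (fun t => by rw [← h1]; simp) t
  have k3 := mul_left_cancel₀ Complex.I_ne_zero k2
  linear_combination (1 / 2) * k1 + (1 / 2) * k3

variable {H : Type*} [NormedAddCommGroup H] [InnerProductSpace ℂ H] [CompleteSpace H]

theorem cont_app {A : ℂ → H →L[ℂ] H} {k : ℂ → H} {S : Set ℂ} (hA : ∀ z ∈ S, ‖A z‖ ≤ 1)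
    (hc : ∀ v, ContinuousOn (fun z => A z v) S) (hk : ContinuousOn k S) :
    ContinuousOn (fun z => A z (k z)) S := by
  intro z hz
  have h1 : Tendsto (fun w => A w (k w - k z)) (𝓝[S] z) (𝓝 0) := by
    refine squeeze_zero_norm' (a := fun w => ‖k w - k z‖) ?_
      (tendsto_iff_norm_sub_tendsto_zero.1 (hk z hz))
    filter_upwards [self_mem_nhdsWithin] with w hw
    exact ((A w).le_of_opNorm_le (hA w hw) _).trans_eq (one_mul _)
  have h2 := h1.add (hc (k z) z hz)
  rw [zero_add] at h2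
  exact h2.congr fun w => by simp

theorem diff_app {A : ℂ → H →L[ℂ] H} {k : ℂ → H} {S : Set ℂ} (hS : IsOpen S)
    (hA : ∀ z ∈ S, ‖A z‖ ≤ 1) (hc : ∀ v, DifferentiableOn ℂ (fun z => A z v) S)
    (hk : DifferentiableOn ℂ k S) : DifferentiableOn ℂ (fun z => A z (k z)) S := by
  intro z hz
  have hn := hS.mem_nhds hz
  have d1 := (hk.differentiableAt hn).hasDerivAt
  set k' := deriv k z
  have h1 : HasDerivAt (fun w => A w (k w - k z - (w - z) • k')) 0 z := by
    rw [hasDerivAt_iff_isLittleO] at d1 ⊢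
    refine Asymptotics.IsBigO.trans_isLittleO ?_ d1
    refine Asymptotics.IsBigO.of_bound 1 ?_
    filter_upwards [hn] with w hw
    simpa using (A w).le_of_opNorm_le (hA w hw) (k w - k z - (w - z) • k')
  have h2 := (h1.differentiableAt.add ((hc (k z)).differentiableAt hn)).add
    ((differentiableAt_id.sub_const z).smul ((hc k').differentiableAt hn))
  refine (h2.congr_of_eventuallyEq (Eventually.of_forall fun w => ?_)).differentiableWithinAt
  simp only [Pi.add_apply, Pi.smul_apply', id, map_sub, map_smul]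
  abel

variable {M : VonNeumannAlgebra H} {ξ : H} (E : ModData M ξ)

/-- the bilinear form -/
noncomputable def bil : H →L[ℂ] H →L[ℂ] ℂ :=
  (innerSL ℂ).comp (E.J.toContinuousLinearEquiv : H →L⋆[ℂ] H)

theorem bil_apply (u v : H) : bil E u v = inner ℂ (E.J u) v := rfl

theorem conj_J {X Y : H →L[ℂ] H} (hX : X ∈ M) (hY : Y ∈ M) :
    conj (inner ℂ (E.J (X ξ)) (Y ξ)) = inner ℂ (E.J (star X ξ)) (star Y ξ) := by
  rw [inner_conj_symm, ← E.Rm_xi, ContinuousLinearMap.star_eq_adjoint Y,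
    ContinuousLinearMap.adjoint_inner_right, E.comm_Rm hY hX,
    ← ContinuousLinearMap.adjoint_inner_right (E.Rm X),
    ← ContinuousLinearMap.star_eq_adjoint (E.Rm X), E.star_Rm, E.Rm_xi, star_star]

/-- the argument of the translation -/
noncomputable def ar (r : ℝ) (z : ℂ) : ℂ := Complex.exp (-(2 * Real.pi * z)) * r

theorem ar_im (r : ℝ) (z : ℂ) :
    (ar r z).im = Real.exp (-(2 * Real.pi * z.re)) * Real.sin (-(2 * Real.pi * z.im)) * r := by
  simp [ar, Complex.exp_im]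

theorem ar_Sc {r : ℝ} (hr : 0 < r) {z : ℂ} (hz : z ∈ Sc) : 0 ≤ (ar r z).im := by
  rw [ar_im]
  have := Real.pi_pos
  exact mul_nonneg (mul_nonneg (Real.exp_pos _).le (Real.sin_nonneg_of_nonneg_of_le_pi
    (by nlinarith [hz.2]) (by nlinarith [hz.1]))) hr.le

theorem ar_So {r : ℝ} (hr : 0 < r) {z : ℂ} (hz : z ∈ So) : 0 < (ar r z).im := by
  rw [ar_im]
  have := Real.pi_pos
  exact mul_pos (mul_pos (Real.exp_pos _) (Real.sin_pos_of_pos_of_lt_pi
    (by nlinarith [hz.2]) (by nlinarith [hz.1]))) hr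

theorem ar_real (r t : ℝ) : ar r t = (Real.exp (-(2 * Real.pi * t)) * r : ℝ) := by
  simp [ar]

theorem ar_low (r t : ℝ) :
    ar r (t - I / 2) = (-(Real.exp (-(2 * Real.pi * t)) * r) : ℝ) := by
  have e : -(2 * (Real.pi : ℂ) * (t - I / 2)) = -(2 * Real.pi * t) + Real.pi * I := by ring
  rw [ar, e, Complex.exp_add, Complex.exp_pi_mul_I]
  simp

theorem ar_diff (r : ℝ) : Differentiable ℂ (ar r) := by
  unfold ar; fun_prop

theorem ex_f (hK : KV H) (hE : EXT H) {W : ℝ → H →L[ℂ] H} (hW : UG W) (hP : Pos W) {r : ℝ}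
    (hr : 0 < r) {a b : H →L[ℂ] H} (ha : a ∈ M) (hb : b ∈ M) : ∃ f : ℂ → ℂ, Bd f ∧
      (∀ t : ℝ, f t = inner ℂ (E.J (E.sg t b ξ))
        (W (Real.exp (-(2 * Real.pi * t)) * r) (E.sg t a ξ))) ∧
      ∀ t : ℝ, f (t - I / 2) = inner ℂ (W (Real.exp (-(2 * Real.pi * t)) * r) (star (E.sg t b) ξ))
        (E.J (star (E.sg t a) ξ)) := by
  obtain ⟨We, e1, e2, e3, e4⟩ := hE W hW hP
  obtain ⟨ka, a1, a2, ⟨A, a3⟩, a4, a5⟩ := hK M ξ E a ha
  obtain ⟨kb, b1, b2, ⟨B, b3⟩, b4, b5⟩ := hK M ξ E b hb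
  have hs : So ⊆ Sc := fun z hz => ⟨hz.1.le, hz.2.le⟩
  have c1 : ContinuousOn (fun z => We (ar r z) (ka z)) Sc :=
    cont_app (A := fun z => We (ar r z)) (fun z hz => e2 _ (ar_Sc hr hz))
      (fun v => (e3 v).comp (ar_diff r).continuous.continuousOn fun z hz => ar_Sc hr hz) a1
  have c2 : DifferentiableOn ℂ (fun z => We (ar r z) (ka z)) So :=
    diff_app (A := fun z => We (ar r z)) P352.BW.H234U.isOpen_So
      (fun z hz => e2 _ (ar_Sc hr (hs hz)))
      (fun v => (e4 v).comp (ar_diff r).differentiableOn fun z hz => ar_So hr hz) a2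
  refine ⟨fun z => bil E (kb z) (We (ar r z) (ka z)), ⟨⟨?_, ?_⟩, B * A, fun z hz => ?_⟩,
    fun t => ?_, fun t => ?_⟩
  · exact ((bil E).differentiable.comp_differentiableOn b2).clm_apply c2
  · rw [P352.BW.H234U.closure_So]
    exact ((bil E).continuous.comp_continuousOn b1).clm_apply c1
  · rw [bil_apply]
    refine (norm_inner_le_norm _ _).trans ?_
    rw [E.norm_J]
    exact mul_le_mul (b3 z hz) (((We _).le_of_opNorm_le (e2 _ (ar_Sc hr hz)) _).trans
      (by rw [one_mul]; exact a3 z hz)) (norm_nonneg _) ((norm_nonneg _).trans (b3 z hz))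
  · simp only [bil_apply, a4, b4, ar_real, e1, E.sg_xi]
  · simp only [bil_apply, a5, b5, ar_low, e1, E.star_sg, E.sg_xi, ← E.J_U, E.J_J]
    rw [← hW.adj, ContinuousLinearMap.star_eq_adjoint (W _),
      ContinuousLinearMap.adjoint_inner_right]

theorem pos (hK : KV H) (hE : EXT H) {W : ℝ → H →L[ℂ] H} (hW : UG W) (hP : Pos W)
    (hx : ∀ r, W r ξ = ξ) (hM : ∀ r, 0 ≤ r → ∀ X ∈ M, W r * X * W (-r) ∈ M) {r : ℝ} (hr : 0 < r)
    (t : ℝ) : E.U t * W r = W (Real.exp (-(2 * Real.pi * t)) * r) * E.U t := by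
  have w1 : ∀ s (X : H →L[ℂ] H), W s (X ξ) = (W s * X * W (-s)) ξ := fun s X => by
    simp [hx]
  have w2 : ∀ s (X : H →L[ℂ] H), W s (star X ξ) = star (W s * X * W (-s)) ξ := fun s X => by
    simp [hx, hW.adj]
  have key : ∀ a ∈ M, ∀ b ∈ M, inner ℂ (E.J (E.sg t b ξ))
      (W (Real.exp (-(2 * Real.pi * t)) * r) (E.sg t a ξ)) = inner ℂ (E.J (b ξ)) (W r (a ξ)) := by
    intro a ha b hb
    obtain ⟨f, f1, f2, f3⟩ := ex_f E hK hE hW hP hr ha hb
    obtain ⟨g, g1, g2, g3⟩ := ex_f E hK hE hW hP hr (star_mem ha) (star_mem hb)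
    have hp : ∀ t : ℝ, 0 ≤ Real.exp (-(2 * Real.pi * t)) * r := fun t => by positivity
    have := cst2 f1 g1 (fun t => ?_) (fun t => ?_) t
    · rw [f2, f2] at this
      simpa using this
    · rw [f2, g2, ← E.star_sg, ← E.star_sg, w2, w1]
      exact conj_J E (E.sg_mem hb t) (hM _ (hp t) _ (E.sg_mem ha t))
    · rw [f3, g3, ← E.star_sg, ← E.star_sg, star_star, star_star, w2, w1, inner_conj_symm,
        ← conj_J E (E.sg_mem ha t) (hM _ (hp t) _ (E.sg_mem hb t)), inner_conj_symm]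
  have k2 : ∀ a ∈ M, E.U t (W r (a ξ)) = W (Real.exp (-(2 * Real.pi * t)) * r) (E.U t (a ξ)) := by
    intro a ha
    have : (fun y => inner ℂ (E.J y) (W (Real.exp (-(2 * Real.pi * t)) * r) (E.U t (a ξ)))) ∘ E.U t =
        fun y => inner ℂ (E.J y) (W r (a ξ)) := by
      refine Continuous.ext_on E.cyc (by fun_prop) (by fun_prop) ?_
      rintro _ ⟨b, hb, rfl⟩
      simpa only [E.sg_xi, Function.comp] using key a ha b hb
    refine ext_inner_left ℂ fun y => ?_
    have h := congrFun this (E.J (E.U (-t) y))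
    simp only [Function.comp, E.J_U, E.J_J, E.U_apply_neg] at h
    rw [h, ← E.inner_U_U t (E.U (-t) y), E.U_apply_neg]
  refine DFunLike.coe_injective (Continuous.ext_on E.cyc (by fun_prop) (by fun_prop) ?_)
  rintro _ ⟨a, ha, rfl⟩
  exact k2 a ha

end BOR

theorem rowBOR (H : Type*) [NormedAddCommGroup H] [InnerProductSpace ℂ H] [CompleteSpace H] :
    RowBOR H := by
  intro _ hK hE M ξ E W hW hP hx hM t r
  rcases lt_trichotomy r 0 with h | rfl | h
  · have h1 := congrArg star (BOR.pos E hK hE hW hP hx hM (neg_pos.2 h) t)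
    simp only [star_mul, hW.adj, E.star_U, mul_neg, neg_neg] at h1
    calc E.U t * W r = E.U t * (W r * E.U (-t)) * E.U t := by
          rw [mul_assoc, mul_assoc, E.U_neg_mul_U, mul_one]
      _ = _ := by rw [h1, ← mul_assoc, E.U_mul_U_neg, one_mul]
  · simp [hW.zero]
  · exact BOR.pos E hK hE hW hP hx hM h t

end Vale.Agent.SP352
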