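import Vale.Agent.Q352.NS

/-! Row CT: the rotations are continuous. -/

set_option linter.all false

open Filter Topology
open UniformSpace (Completion)

namespace Vale.Agent.SP352

open P352.GF (V Fn Ix Fld Theory IsTest IsLor IsCutoff sim one bar)
open P352.H246 (Al In Cov)
open N352.Dn (Reg Spc)

namespace CT

section
variable {H : Type*} [NormedAddCommGroup H] [InnerProductSpace ℂ H]

/-- Weak convergence on a dense set, with constant norm, gives strong convergence. -/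
theorem strong {ι : Type*} {l : Filter ι} (u : ι → H) (z : H) (S : Set H) (hS : Dense S)
    (hn : ∀ e, ‖u e‖ = ‖z‖)
    (hw : ∀ s ∈ S, Tendsto (fun e => inner ℂ s (u e)) l (𝓝 (inner ℂ s z))) :
    Tendsto u l (𝓝 z) := by
  have h1 : Tendsto (fun e => inner ℂ z (u e)) l (𝓝 (inner ℂ z z)) := by
    rw [Metric.tendsto_nhds]
    intro ε hε
    have hp : 0 < ε / 3 / (‖z‖ + 1) := by positivity
    obtain ⟨s, hs, hd⟩ := hS.exists_dist_lt z hp
    have hb : ‖z - s‖ * ‖z‖ ≤ ε / 3 := by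
      rw [dist_eq_norm, lt_div_iff₀ (by positivity)] at hd
      nlinarith [norm_nonneg (z - s), norm_nonneg z]
    filter_upwards [Metric.tendsto_nhds.1 (hw s hs) (ε / 3) (by positivity)] with e he
    rw [dist_eq_norm] at he ⊢
    have e1 : inner ℂ z (u e) - inner ℂ z z = inner ℂ (z - s) (u e) +
        (inner ℂ s (u e) - inner ℂ s z) - inner ℂ (z - s) z := by
      simp only [inner_sub_left]; ring
    have b1 : ‖inner ℂ (z - s) (u e)‖ ≤ ε / 3 :=
      (norm_inner_le_norm _ _).trans (by rw [hn]; exact hb)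
    have b2 : ‖inner ℂ (z - s) z‖ ≤ ε / 3 := (norm_inner_le_norm _ _).trans hb
    rw [e1]
    have := norm_sub_le (inner ℂ (z - s) (u e) + (inner ℂ s (u e) - inner ℂ s z))
      (inner ℂ (z - s) z)
    have := norm_add_le (inner ℂ (z - s) (u e)) (inner ℂ s (u e) - inner ℂ s z)
    linarith
  have h2 : Tendsto (fun e => ‖z - u e‖ ^ 2) l (𝓝 0) := by
    have h3 : Tendsto (fun e => ‖z‖ ^ 2 - 2 * RCLike.re (inner ℂ z (u e)) + ‖z‖ ^ 2) l
        (𝓝 (‖z‖ ^ 2 - 2 * RCLike.re (inner ℂ z z) + ‖z‖ ^ 2)) :=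
      ((((RCLike.continuous_re.tendsto _).comp h1).const_mul 2).const_sub _).add_const _
    have h4 : ‖z‖ ^ 2 - 2 * RCLike.re (inner ℂ z z) + ‖z‖ ^ 2 = 0 := by
      rw [inner_self_eq_norm_sq]; ring
    rw [h4] at h3
    refine h3.congr fun e => ?_
    rw [@norm_sub_sq ℂ, hn]
  rw [tendsto_iff_norm_sub_tendsto_zero]
  have h5 := (Real.continuous_sqrt.tendsto 0).comp h2
  rw [Real.sqrt_zero] at h5
  refine h5.congr fun e => ?_
  simp only [Function.comp, Real.sqrt_sq (norm_nonneg _)]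
  exact norm_sub_rev _ _

/-- Strong convergence of isometries on a dense set. -/
theorem dense_strong {ι : Type*} {l : Filter ι} (W : ι → H →L[ℂ] H) (hn : ∀ e z, ‖W e z‖ = ‖z‖)
    (S : Set H) (hS : Dense S) (h : ∀ s ∈ S, Tendsto (fun e => W e s) l (𝓝 s)) (z : H) :
    Tendsto (fun e => W e z) l (𝓝 z) := by
  rw [Metric.tendsto_nhds]
  intro ε hε
  obtain ⟨s, hs, hd⟩ := hS.exists_dist_lt z (show 0 < ε / 3 by positivity)
  filter_upwards [Metric.tendsto_nhds.1 (h s hs) (ε / 3) (by positivity)] with e he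
  have h1 : dist (W e z) (W e s) = dist z s := by
    rw [dist_eq_norm, dist_eq_norm, ← map_sub, hn]
  have := dist_triangle4 (W e z) (W e s) s z
  rw [dist_comm s z] at this
  linarith

end

variable {D : Type*} [NormedAddCommGroup D] [InnerProductSpace ℂ D] {C : Cx D}

theorem vv (b : Bs C) (e : ℝ) : C.Vg ro (-e) * C.Vg ro e = 1 := by
  rw [← b.b1.vadd _ _ _ b.geo.opr, neg_add_cancel, b.b1.v0 _ b.geo.opr]

theorem vv' (b : Bs C) (e : ℝ) : C.Vg ro e * C.Vg ro (-e) = 1 := by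
  simpa using vv b (-e)

theorem un (b : Bs C) (e : ℝ) (z : Completion D) : ‖C.Uc 1 (ro e) 0 z‖ = ‖z‖ :=
  ContinuousLinearMap.norm_map_of_mem_unitary (b.b1.uni 1 _ 0 one_pos (b.geo.opr.lor e)) z

theorem vn (b : Bs C) (e : ℝ) (z : Completion D) : ‖C.Vg ro e z‖ = ‖z‖ := by
  show ‖C.Uc 1 (ro (e / 2)) 0 (C.Uc 1 (ro (e / 2)) 0 z)‖ = _
  rw [un b, un b]

theorem vi (b : Bs C) (e : ℝ) (x y : Completion D) :
    inner ℂ x (C.Vg ro (-e) y) = inner ℂ (C.Vg ro e x) y := by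
  rw [← b.b1.vadj _ _ b.geo.opr, ContinuousLinearMap.star_eq_adjoint,
    ContinuousLinearMap.adjoint_inner_right]

/-- One field vectors. -/
theorem base (b : Bs C) (B : Fld D) (hB : C.Q.fld B) (f : Fn) (hf : In Set.univ f) :
    Tendsto (fun e => C.Vg ro e (B f C.Q.vac : D)) (𝓝 0) (𝓝 (B f C.Q.vac : D)) := by
  obtain ⟨F, hF, -⟩ := b.cut
  have h1 : Tendsto (fun e => C.Uc 1 (ro e) 0 (B f C.Q.vac : D)) (𝓝 0)
      (𝓝 (B f C.Q.vac : D)) := by
    refine strong _ _ _ (Completion.denseRange_coe (α := D)) (fun e => un b e _) ?_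
    rintro _ ⟨w, rfl⟩
    obtain ⟨c, -, hc⟩ := C.pg ro (fun _ => 0) xr b.geo.opr.zero rfl b.geo.opr.lor b.geo.isim
      b.geo.der F B f w hF hB hf
    have h2 := hc.continuousAt.tendsto
    simp only [b.geo.opr.zero, b.b1.u1] at h2
    simp only [fun e => b.b1.coe 1 (ro e) 0 (B f C.Q.vac) one_pos (b.geo.opr.lor e),
      Completion.inner_coe]
    exact h2
  have h3 : Tendsto (fun e : ℝ => e / 2) (𝓝 0) (𝓝 0) := by
    simpa using (tendsto_id (x := 𝓝 (0 : ℝ))).div_const 2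
  have h4 := tendsto_iff_norm_sub_tendsto_zero.1 (h1.comp h3)
  rw [tendsto_iff_norm_sub_tendsto_zero]
  refine squeeze_zero (fun _ => norm_nonneg _) (fun e => ?_) (by simpa using h4.add h4)
  generalize ((B f C.Q.vac : D) : Completion D) = z
  have e1 : C.Vg ro e z - z = C.Uc 1 (ro (e / 2)) 0 (C.Uc 1 (ro (e / 2)) 0 z - z) +
      (C.Uc 1 (ro (e / 2)) 0 z - z) := by
    rw [map_sub]
    show C.Uc 1 (ro (e / 2)) 0 (C.Uc 1 (ro (e / 2)) 0 z) - z = _
    abel
  rw [e1]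
  refine (norm_add_le _ _).trans ?_
  rw [un b]

theorem conj_mem (b : Bs C) (O : Set V) (hO : ∀ t, sim 1 (ro t) 0 '' O = O)
    (Y : Completion D →L[ℂ] Completion D) (hY : Y ∈ (C.MA O).commutant) (e : ℝ) :
    C.Vg ro (-e) * Y * C.Vg ro e ∈ (C.MA O).commutant := by
  rw [VonNeumannAlgebra.mem_commutant_iff] at hY ⊢
  intro Z hZ
  have h1 := b.nt.vg ro e O Z b.geo.opr hZ
  rw [hO] at h1
  have h2 := hY _ h1
  calc Z * (C.Vg ro (-e) * Y * C.Vg ro e)
      = (C.Vg ro (-e) * C.Vg ro e) * Z * (C.Vg ro (-e) * Y * C.Vg ro e) := by rw [vv b, one_mul]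
    _ = C.Vg ro (-e) * (C.Vg ro e * Z * C.Vg ro (-e) * Y) * C.Vg ro e := by
      simp only [mul_assoc]
    _ = C.Vg ro (-e) * Y * C.Vg ro e * Z * (C.Vg ro (-e) * C.Vg ro e) := by
      rw [h2]; simp only [mul_assoc]
    _ = _ := by rw [vv b, mul_one]

theorem poly (b : Bs C) (O S : Set V) (hO : IsOpen O) (hr : ∀ t, sim 1 (ro t) 0 '' O = O)
    (hS : IsOpen S) (hn : S.Nonempty) (hs : Spc O S) (X X' : D → D) (h : Al C.Q O X X') :
    Tendsto (fun e => C.Vg ro e (X C.Q.vac : D)) (𝓝 0) (𝓝 (X C.Q.vac : D)) := by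
  induction h with
  | one =>
    refine tendsto_const_nhds.congr fun e => ?_
    exact (b.b1.vvac ro e b.geo.opr).symm
  | add X X' Y Y' _ _ h1 h2 =>
    simp only [Completion.coe_add, map_add]
    exact h1.add h2
  | smul c X X' _ h1 =>
    simp only [Completion.coe_smul, map_smul]
    exact h1.const_smul c
  | fld A B g X X' hA hB had hg _ h1 =>
    refine strong _ _ _ (b.nt.cyc' O S hS hn hs) (fun e => vn b e _) ?_
    rintro _ ⟨Y, hY, rfl⟩
    have hY' : star Y ∈ (C.MA O).commutant := star_mem hY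
    have haf := b.nt.af O _ _ hO (Al.fld A B g _ _ hA hB had hg Al.one)
    have hb := base b B hB (bar g) (by
      obtain ⟨h1, h2, -⟩ := b.geo.inb O g hg
      exact ⟨h1, h2, Set.subset_univ _⟩)
    have key : ∀ e, inner ℂ (Y C.om) (C.Vg ro e (A g (X C.Q.vac) : D)) =
        inner ℂ (C.Vg ro e (B (bar g) C.Q.vac : D)) (star Y (C.Vg ro e (X C.Q.vac : D))) := by
      intro e
      have h2 := haf _ (conj_mem b O hr _ hY' e) (X C.Q.vac) C.Q.vac
      simp only [ContinuousLinearMap.mul_apply, vi b] at h2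
      rw [h2]
      have h3 : C.Vg ro e (C.Q.vac : D) = C.om := b.b1.vvac ro e b.geo.opr
      rw [h3, ContinuousLinearMap.star_eq_adjoint, ContinuousLinearMap.adjoint_inner_right]
    have k0 := key 0
    simp only [b.b1.v0 ro b.geo.opr, ContinuousLinearMap.one_apply] at k0
    simp only [key]
    rw [k0]
    exact hb.inner (((star Y).continuous.tendsto _).comp h1)

end CT

theorem rowCT {D : Type*} [NormedAddCommGroup D] [InnerProductSpace ℂ D] (C : Cx D) : RowCT C := by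
  intro b
  refine ⟨b.b1.v0 _ b.geo.opr, fun s t => b.b1.vadd _ s t b.geo.opr,
    fun t => b.b1.vadj _ t b.geo.opr, fun v => ?_⟩
  obtain ⟨O, S, hO, hK, hr, hS, hn, hs⟩ := b.geo.cyl {0} Bornology.isBounded_singleton
  have h0 : ∀ z, Tendsto (fun e => C.Vg ro e z) (𝓝 0) (𝓝 z) := by
    refine CT.dense_strong _ (CT.vn b) _ (b.b2.rs O hO.1 ⟨0, hK rfl⟩) ?_
    rintro _ ⟨X, X', h, rfl⟩
    exact CT.poly b O S hO.1 hr hS hn hs X X' h
  rw [continuous_iff_continuousAt]
  intro t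
  have h1 : Tendsto (fun s : ℝ => s - t) (𝓝 t) (𝓝 0) := by
    simpa using (tendsto_id (x := 𝓝 t)).sub_const t
  refine ((h0 (C.Vg ro t v)).comp h1).congr fun s => ?_
  show (C.Vg ro (s - t) * C.Vg ro t) v = _
  rw [← b.b1.vadd _ _ _ b.geo.opr, sub_add_cancel]

end Vale.Agent.SP352
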