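import Vale.Agent.Q352.NS

/-!
# P352, project NS, row CUT: a cutoff whose first moments are finite differences
-/

set_option linter.all false

open Filter Topology MeasureTheory
open scoped ContDiff

namespace Vale.Agent.SP352

open P352.GF (V Fn Ix IsTest IsCutoff)

noncomputable section

namespace Cut

/-- smooth functions vanishing far away -/
def Gd (f : ℝ → ℝ) : Prop := ContDiff ℝ ∞ f ∧ ∃ r : ℝ, ∀ s, r < |s| → f s = 0

theorem Gd.cs {f : ℝ → ℝ} (h : Gd f) : HasCompactSupport f := by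
  obtain ⟨r, hr⟩ := h.2
  refine HasCompactSupport.intro (isCompact_closedBall (0 : ℝ) r) fun s hs => hr s ?_
  simpa [Real.dist_eq] using hs

theorem Gd.scale {f : ℝ → ℝ} (h : Gd f) {R : ℝ} (hR : 0 < R) (c : ℝ) :
    Gd fun s => c * f (s / R) := by
  obtain ⟨r, hr⟩ := h.2
  refine ⟨contDiff_const.mul (h.1.comp (contDiff_id.div_const R)), r * R, fun s hs => ?_⟩
  have : r < |s / R| := by
    rw [abs_div, abs_of_pos hR, lt_div_iff₀ hR]
    exact hs
  simp [hr _ this]

theorem cs (f : Ix → ℝ → ℝ) (h : ∀ i, Gd (f i)) :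
    HasCompactSupport fun x : V => ∏ i, f i (x i) := by
  refine HasCompactSupport.intro (isCompact_univ_pi fun i => (h i).cs) fun x hx => ?_
  simp only [Set.mem_pi, Set.mem_univ, true_implies, not_forall] at hx
  obtain ⟨i, hi⟩ := hx
  exact Finset.prod_eq_zero (Finset.mem_univ i) (image_eq_zero_of_notMem_tsupport hi)

theorem test (f : Ix → ℝ → ℝ) (h : ∀ i, Gd (f i)) :
    IsTest fun x : V => ((∏ i, f i (x i) : ℝ) : ℂ) := by
  have h1 : ContDiff ℝ ∞ fun x : V => ∏ i, f i (x i) :=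
    contDiff_prod fun i _ => (h i).1.comp (contDiff_apply ℝ ℝ i)
  have h2 : ContDiff ℝ ∞ fun x : V => ((∏ i, f i (x i) : ℝ) : ℂ) :=
    Complex.ofRealCLM.contDiff.comp h1
  have h3 : HasCompactSupport fun x : V => ((∏ i, f i (x i) : ℝ) : ℂ) :=
    (cs f h).comp_left (g := fun r : ℝ => (r : ℂ)) (by simp)
  exact ⟨h3.toSchwartzMap h2, rfl⟩

/-- the bump -/
def bp : ContDiffBump (0 : ℝ) := ⟨1 / 4, 1 / 2, by norm_num, by norm_num⟩

/-- the bump as a function -/
def th (s : ℝ) : ℝ := bp s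

theorem th_zero {s : ℝ} (h : 1 / 2 ≤ |s|) : th s = 0 :=
  bp.zero_of_le_dist (by simpa [bp, Real.dist_eq] using h)

theorem th_one {s : ℝ} (h : |s| ≤ 1 / 4) : th s = 1 :=
  bp.one_of_mem_closedBall (by simpa [bp, Real.dist_eq] using h)

theorem th_gd : Gd th := ⟨bp.contDiff, 1 / 2, fun _ h => th_zero h.le⟩

theorem th_sh {s : ℝ} (h : |s| < 1 / 2) : th (s + 1) = 0 := by
  refine th_zero ?_
  rw [abs_lt] at h
  rw [abs_of_pos (by linarith)]
  linarith

/-- the primitive -/
def ph (s : ℝ) : ℝ := s * th s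

theorem ph_gd : Gd ph :=
  ⟨contDiff_id.mul th_gd.1, 1 / 2, fun _ h => by simp [ph, th_zero h.le]⟩

/-- the modified bump -/
def ch (s : ℝ) : ℝ := th s - ph (s + 1) / s

theorem ch_eq (s : ℝ) : s * ch s = ph s - ph (s + 1) := by
  by_cases h : s = 0
  · have : th 1 = 0 := th_zero (by norm_num)
    simp [h, ph, this]
  · unfold ch
    field_simp
    simp [ph]

theorem near : ∀ᶠ s in 𝓝 (0 : ℝ), |s| < 1 / 4 := by
  have : Metric.ball (0 : ℝ) (1 / 4) ∈ 𝓝 (0 : ℝ) := Metric.ball_mem_nhds _ (by norm_num)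
  filter_upwards [this] with s hs
  simpa [Real.dist_eq] using hs

theorem ch_one {s : ℝ} (h : |s| < 1 / 4) : ch s = 1 := by
  simp [ch, ph, th_one h.le, th_sh (s := s) (by linarith)]

theorem ch_gd : Gd ch := by
  refine ⟨contDiff_iff_contDiffAt.2 fun s => ?_, 3 / 2, fun s hs => ?_⟩
  · by_cases h : s = 0
    · subst h
      refine (contDiffAt_const (c := (1 : ℝ))).congr_of_eventuallyEq ?_
      filter_upwards [near] with s hs using ch_one hs
    · exact th_gd.1.contDiffAt.sub
        (((ph_gd.1.comp (contDiff_id.add contDiff_const)).contDiffAt).div contDiffAt_id h)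
  · have h1 : th s = 0 := th_zero (by linarith)
    have h2 : th (s + 1) = 0 := by
      refine th_zero ?_
      have := abs_add_le (s + 1) (-1)
      simp at this
      linarith
    simp [ch, ph, h1, h2]

/-- the time profile -/
def aa (s : ℝ) : ℝ := bp.normed volume s

theorem aa_gd : Gd aa :=
  ⟨bp.contDiff_normed, 1 / 2, fun s h => by
    have : bp s = 0 := th_zero h.le
    simp [aa, ContDiffBump.normed_def, this]⟩

theorem aa_int : ∫ t, aa t = 1 := bp.integral_normed

/-- the cutoff -/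
def FF (R : ℝ) (x : V) : ℂ :=
  ((aa (x 0) * ch (x 1 / R) * ch (x 2 / R) * th (x 3 / R) : ℝ) : ℂ)

theorem test4 {f0 f1 f2 f3 : ℝ → ℝ} (h0 : Gd f0) (h1 : Gd f1) (h2 : Gd f2) (h3 : Gd f3) :
    IsTest fun x : V => ((f0 (x 0) * f1 (x 1) * f2 (x 2) * f3 (x 3) : ℝ) : ℂ) := by
  have := test ![f0, f1, f2, f3] (fun i => by fin_cases i <;> simpa)
  simpa only [Fin.prod_univ_four, Matrix.cons_val_zero, Matrix.cons_val_one, Matrix.cons_val]
    using this

theorem Gd.dv {f : ℝ → ℝ} (h : Gd f) {R : ℝ} (hR : 0 < R) : Gd fun s => f (s / R) := by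
  simpa using h.scale hR 1

theorem cutoff : IsCutoff FF := by
  refine ⟨aa, fun x => th (x 0) * ch (x 1) * ch (x 2) * th (x 3), aa_gd.cs, ?_, aa_int, ?_,
    fun R hR => ⟨test4 aa_gd (ch_gd.dv hR) (ch_gd.dv hR) (th_gd.dv hR), fun x => ?_⟩⟩
  · have := cs ![th, ch, ch, th] (fun i => by
      fin_cases i <;> simp [th_gd, ch_gd])
    simpa only [Fin.prod_univ_four, Matrix.cons_val_zero, Matrix.cons_val_one, Matrix.cons_val]
      using this
  · have k : ∀ i : Ix, ∀ᶠ x in 𝓝 (0 : V), |x i| < 1 / 4 := fun i =>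
      ((continuous_apply i).tendsto' (0 : V) 0 rfl).eventually near
    filter_upwards [k 0, k 1, k 2, k 3] with x h0 h1 h2 h3
    simp [th_one h0.le, th_one h3.le, ch_one h1, ch_one h2]
  · have : th 0 = 1 := th_one (by norm_num)
    have e1 : (1 : Ix) ≠ 0 := by decide
    have e2 : (2 : Ix) ≠ 0 := by decide
    have e3 : (3 : Ix) ≠ 0 := by decide
    simp only [FF, P352.GF.o, if_true, e1, e2, e3, if_false, this]
    push_cast
    ring

theorem ch_sc {R : ℝ} (hR : 0 < R) (s : ℝ) :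
    s * ch (s / R) = R * ph (s / R) - R * ph ((R + s) / R) := by
  have h1 : (R + s) / R = s / R + 1 := by field_simp; ring
  rw [h1, ← mul_sub, ← ch_eq]
  field_simp

end Cut

open Cut in
theorem rowCut : CUT := by
  refine ⟨FF, cutoff, fun R hR k hk => ?_⟩
  rcases hk with rfl | rfl
  · refine ⟨_, ![0, R, 0, 0], test4 aa_gd (ph_gd.scale hR R) (ch_gd.dv hR) (th_gd.dv hR),
      fun x => ?_⟩
    have := ch_sc hR (x 1)
    simp only [FF, Pi.add_apply, Matrix.cons_val_zero, Matrix.cons_val_one, Matrix.cons_val,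
      zero_add]
    rw [← Complex.ofReal_mul, ← Complex.ofReal_sub]
    congr 1
    linear_combination (aa (x 0) * ch (x 2 / R) * th (x 3 / R)) * this
  · refine ⟨_, ![0, 0, R, 0], test4 aa_gd (ch_gd.dv hR) (ph_gd.scale hR R) (th_gd.dv hR),
      fun x => ?_⟩
    have := ch_sc hR (x 2)
    simp only [FF, Pi.add_apply, Matrix.cons_val_zero, Matrix.cons_val_one, Matrix.cons_val,
      zero_add]
    rw [← Complex.ofReal_mul, ← Complex.ofReal_sub]
    congr 1
    linear_combination (aa (x 0) * ch (x 1 / R) * th (x 3 / R)) * this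

end

end Vale.Agent.SP352
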