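import Vale.Agent.Q352.NS

/-!
# Weak derivatives on an invariant dense set are strong derivatives
-/

set_option linter.all false

open Filter Topology MeasureTheory

namespace Vale.Agent.SP352

namespace DERa

variable {H : Type*} [NormedAddCommGroup H] [InnerProductSpace ℂ H] [CompleteSpace H]

theorem move {W : ℝ → H →L[ℂ] H} (hW : UG W) (t : ℝ) (s v : H) :
    inner ℂ s (W t v) = inner ℂ (W (-t) s) v := by
  rw [← hW.adj, ContinuousLinearMap.star_eq_adjoint, ContinuousLinearMap.adjoint_inner_left]

theorem weak {W : ℝ → H →L[ℂ] H} {S : Set H} {ψ χ : H} (hW : UG W)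
    (hS : ∀ t, ∀ s ∈ S, W t s ∈ S)
    (h : ∀ s ∈ S, HasDerivAt (fun t => inner ℂ s (W t ψ)) (inner ℂ s χ) 0) {s : H} (hs : s ∈ S)
    (u : ℝ) : HasDerivAt (fun t => inner ℂ s (W t ψ)) (inner ℂ s (W u χ)) u := by
  have h1 := h _ (hS (-u) s hs)
  rw [← sub_self u] at h1
  have h2 := h1.comp_sub_const u u
  rw [← move hW] at h2
  refine h2.congr_of_eventuallyEq (Eventually.of_forall fun t => ?_)
  show inner ℂ s (W t ψ) = inner ℂ (W (-u) s) (W (t - u) ψ)
  rw [← move hW, ← ContinuousLinearMap.mul_apply, ← hW.add, add_sub_cancel]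

end DERa

/-- weak derivatives on an invariant dense set are strong derivatives -/
theorem rowDER (H : Type*) [NormedAddCommGroup H] [InnerProductSpace ℂ H] [CompleteSpace H] :
    DER H := by
  intro W S ψ χ hW hd hS h
  have hi : ∀ t : ℝ, IntervalIntegrable (fun u => W u χ) volume 0 t := fun t =>
    (hW.cont χ).intervalIntegrable 0 t
  have key : ∀ t : ℝ, W t ψ = ψ + ∫ u in (0 : ℝ)..t, W u χ := fun t => by
    refine hd.eq_of_inner_right (𝕜 := ℂ) fun s hs => ?_
    have h1 := intervalIntegral.integral_eq_sub_of_hasDerivAt (a := 0) (b := t)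
      (fun u _ => DERa.weak hW hS h hs u)
      ((continuous_const.inner (hW.cont χ)).intervalIntegrable 0 t)
    have h2 := (innerSL ℂ s).intervalIntegral_comp_comm (hi t)
    simp only [innerSL_apply_apply] at h2
    rw [inner_add_right, ← h2, h1, hW.zero]
    simp
  have h3 := (intervalIntegral.integral_hasDerivAt_right (hi 0)
    (hW.cont χ).stronglyMeasurable.stronglyMeasurableAtFilter
    (hW.cont χ).continuousAt).const_add ψ
  rw [hW.zero] at h3
  exact h3.congr_of_eventuallyEq (Eventually.of_forall key)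

end Vale.Agent.SP352
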