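import Vale.Agent.Q352.NS
import Mathlib.LinearAlgebra.Lagrange

/-!
# Exponential polynomials
-/

set_option linter.all false

open Filter Topology

namespace Vale.Agent.SP352

open P352.GF (Ix)

namespace ENr

theorem of_sum {ι : Type*} {N : ℕ} {F : ℝ → ℂ} (s : Finset ι) (a : ι → ℂ) (m : ι → ℤ)
    (hm : ∀ i ∈ s, m i ∈ Finset.Icc (-(N : ℤ)) N)
    (h : ∀ t, F t = ∑ i ∈ s, a i * (Real.exp (Real.pi * m i * t) : ℝ)) : EN N F := by
  classical
  refine ⟨fun k => ∑ i ∈ s with m i = k, a i, fun t => ?_⟩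
  rw [h, ← Finset.sum_fiberwise_of_maps_to hm]
  refine Finset.sum_congr rfl fun k _ => ?_
  rw [Finset.sum_mul]
  refine Finset.sum_congr rfl fun i hi => ?_
  rw [(Finset.mem_filter.1 hi).2]

theorem mono (N M : ℕ) (F : ℝ → ℂ) (h : N ≤ M) : EN N F → EN M F := fun ⟨c, hc⟩ =>
  of_sum _ c id (fun i hi => by
    rw [Finset.mem_Icc] at hi ⊢
    simp only [id]
    omega) hc

theorem const (N : ℕ) (c : ℂ) : EN N fun _ => c :=
  of_sum {()} (fun _ => c) (fun _ => 0) (fun _ _ => by simp) fun t => by simp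

theorem add (N : ℕ) (F G : ℝ → ℂ) : EN N F → EN N G → EN N fun t => F t + G t :=
  fun ⟨c, hc⟩ ⟨d, hd⟩ => ⟨fun k => c k + d k, fun t => by
    simp only [hc, hd, add_mul, Finset.sum_add_distrib]⟩

theorem sum (N : ℕ) (F : Ix → ℝ → ℂ) (h : ∀ i, EN N (F i)) : EN N fun t => ∑ i, F i t := by
  choose c hc using h
  refine ⟨fun k => ∑ i, c i k, fun t => ?_⟩
  simp only [hc, Finset.sum_mul]
  exact Finset.sum_comm

theorem mul (N M : ℕ) (F G : ℝ → ℂ) : EN N F → EN M G → EN (N + M) fun t => F t * G t :=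
  fun ⟨c, hc⟩ ⟨d, hd⟩ => of_sum (Finset.Icc (-(N : ℤ)) N ×ˢ Finset.Icc (-(M : ℤ)) M)
    (fun p => c p.1 * d p.2) (fun p => p.1 + p.2) (fun p hp => by
      simp only [Finset.mem_product, Finset.mem_Icc] at hp ⊢
      push_cast
      omega) fun t => by
    rw [hc, hd, Finset.sum_mul_sum, Finset.sum_product]
    refine Finset.sum_congr rfl fun i _ => Finset.sum_congr rfl fun j _ => ?_
    rw [Int.cast_add, mul_add, add_mul, Real.exp_add, Complex.ofReal_mul]
    ring

theorem neg (N : ℕ) (F : ℝ → ℂ) : EN N F → EN N fun t => F (-t) := fun ⟨c, hc⟩ =>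
  of_sum (Finset.Icc (-(N : ℤ)) N) c (fun k => -k) (fun i hi => by
    rw [Finset.mem_Icc] at hi ⊢
    omega) fun t => by
    rw [hc]
    refine Finset.sum_congr rfl fun i _ => ?_
    rw [Int.cast_neg, mul_neg, mul_neg, neg_mul]

theorem two (a b : ℂ) (F : ℝ → ℝ)
    (h : ∀ t, (F t : ℂ) = a * (Real.exp (2 * Real.pi * t) : ℝ) +
      b * (Real.exp (-(2 * Real.pi * t)) : ℝ)) : EN 2 fun t => (F t : ℂ) :=
  of_sum Finset.univ ![a, b] ![2, -2] (fun i _ => by fin_cases i <;> simp) fun t => by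
    rw [h, Fin.sum_univ_two]
    simp only [Matrix.cons_val_zero, Matrix.cons_val_one]
    congr 4 <;> push_cast <;> ring

theorem hc : EN 2 fun t => (Real.cosh (2 * Real.pi * t) : ℂ) :=
  two (1 / 2) (1 / 2) _ fun t => by rw [Real.cosh_eq]; push_cast; ring

theorem hs : EN 2 fun t => ((-Real.sinh (2 * Real.pi * t) : ℝ) : ℂ) :=
  two (-1 / 2) (1 / 2) _ fun t => by rw [Real.sinh_eq]; push_cast; ring

theorem bo (m n : Ix) : EN 2 fun t => (SP352.bo t m n : ℂ) := by
  fin_cases m <;> fin_cases n <;> first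
    | exact hc
    | exact hs
    | exact const 2 ((0 : ℝ) : ℂ)
    | exact const 2 ((1 : ℝ) : ℂ)

theorem top (s : Finset ℤ) (c : ℤ → ℂ) (m : ℤ → ℝ) (K : ℤ) (hK : K ∈ s) (N C : ℝ)
    (hm : ∀ k ∈ s, k ≠ K → m k < m K) (hN : N < m K)
    (hb : ∀ t, 0 ≤ t → ‖∑ k ∈ s, c k * (Real.exp (m k * t) : ℝ)‖ ≤ C * Real.exp (N * t)) :
    c K = 0 := by
  have lim : ∀ a : ℝ, a < m K → Tendsto (fun t => Real.exp (a * t) * Real.exp (-(m K * t)))
      atTop (𝓝 0) := fun a ha => by
    have h1 := Real.tendsto_exp_atBot.comp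
      (tendsto_id.const_mul_atTop_of_neg (sub_neg.2 ha) (l := atTop))
    refine h1.congr fun t => ?_
    rw [← Real.exp_add]
    simp only [Function.comp, id]
    congr 1
    ring
  have h1 : Tendsto (fun t => (∑ k ∈ s, c k * (Real.exp (m k * t) : ℝ)) *
      (Real.exp (-(m K * t)) : ℝ)) atTop (𝓝 (∑ k ∈ s, if k = K then c K else 0)) := by
    simp only [Finset.sum_mul]
    refine tendsto_finsetSum _ fun k hk => ?_
    split_ifs with e
    · subst e
      refine tendsto_const_nhds.congr fun t => ?_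
      rw [mul_assoc, ← Complex.ofReal_mul, ← Real.exp_add, add_neg_cancel, Real.exp_zero,
        Complex.ofReal_one, mul_one]
    · have := ((Complex.continuous_ofReal.tendsto 0).comp (lim _ (hm k hk e))).const_mul (c k)
      rw [Complex.ofReal_zero, mul_zero] at this
      refine this.congr fun t => ?_
      simp only [Function.comp, Complex.ofReal_mul, mul_assoc]
  rw [Finset.sum_ite_eq' s K, if_pos hK] at h1
  refine tendsto_nhds_unique h1 ?_
  have h2 := (lim N hN).const_mul C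
  rw [mul_zero] at h2
  refine squeeze_zero_norm' ((eventually_ge_atTop 0).mono fun t ht => ?_) h2
  rw [norm_mul, Complex.norm_real, Real.norm_of_nonneg (Real.exp_pos _).le, ← mul_assoc]
  exact mul_le_mul_of_nonneg_right (hb t ht) (Real.exp_pos _).le

theorem red (K N : ℕ) (F : ℝ → ℂ) (C : ℝ) (h : EN K F)
    (hb : ∀ t, ‖F t‖ ≤ C * Real.exp (Real.pi * N * |t|)) : EN N F := by
  induction K with
  | zero => exact mono _ _ _ (Nat.zero_le _) h
  | succ K ih =>
    by_cases hK : K + 1 ≤ N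
    · exact mono _ _ _ hK h
    obtain ⟨c, hc⟩ := h
    have hp := Real.pi_pos
    have hN : (N : ℝ) < (K + 1 : ℕ) := by exact_mod_cast (by omega : N < K + 1)
    have h1 : c (K + 1 : ℕ) = 0 := by
      refine top (Finset.Icc (-((K + 1 : ℕ) : ℤ)) (K + 1 : ℕ)) c (fun k => Real.pi * k) _
        (by rw [Finset.mem_Icc]; omega) (Real.pi * N) C (fun k hk e => ?_) ?_ fun t ht => ?_
      · rw [Finset.mem_Icc] at hk
        exact mul_lt_mul_of_pos_left (by exact_mod_cast lt_of_le_of_ne hk.2 e) hp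
      · exact mul_lt_mul_of_pos_left (by exact_mod_cast hN) hp
      · have := hb t
        rwa [hc, abs_of_nonneg ht] at this
    have h2 : c (-(K + 1 : ℕ)) = 0 := by
      refine top (Finset.Icc (-((K + 1 : ℕ) : ℤ)) (K + 1 : ℕ)) c (fun k => -(Real.pi * k)) _
        (by rw [Finset.mem_Icc]; omega) (Real.pi * N) C (fun k hk e => ?_) ?_ fun t ht => ?_
      · rw [Finset.mem_Icc] at hk
        exact neg_lt_neg
          (mul_lt_mul_of_pos_left (by exact_mod_cast lt_of_le_of_ne hk.1 e.symm) hp)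
      · rw [Int.cast_neg, mul_neg, neg_neg]
        exact mul_lt_mul_of_pos_left (by exact_mod_cast hN) hp
      · have := hb (-t)
        rw [hc, abs_neg, abs_of_nonneg ht] at this
        simpa only [mul_neg, neg_mul] using this
    refine ih ⟨c, fun t => (hc t).trans (Finset.sum_subset (fun k hk => ?_) fun k hk hk' => ?_).symm⟩
    · rw [Finset.mem_Icc] at hk ⊢
      omega
    · rw [Finset.mem_Icc] at hk hk'
      rcases (by omega : k = (K + 1 : ℕ) ∨ k = -(K + 1 : ℕ)) with e | e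
      · rw [e, h1, zero_mul]
      · rw [e, h2, zero_mul]

theorem bdd (N : ℕ) (F : ℝ → ℂ) (C : ℝ) (h : EN N F) (hb : ∀ t, ‖F t‖ ≤ C) (t : ℝ) :
    F t = F 0 := by
  obtain ⟨c, hc⟩ := red N 0 F C h fun t => by simpa using hb t
  rw [hc, hc]
  simp

theorem itp (N : ℕ) : ∃ (n : ℕ) (τ : Fin n → ℝ) (l : ℝ → Fin n → ℂ), ∀ F, EN N F → ∀ t,
    F t = ∑ j, l t j * F (τ j) := by
  set s := Finset.Icc (-(N : ℤ)) N
  set v : ℤ → ℂ := fun k => (Real.exp (Real.pi * k) : ℝ)
  have hv : Set.InjOn v s := fun a _ b _ e => by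
    have h1 := Real.exp_injective (Complex.ofReal_injective e)
    exact_mod_cast mul_left_cancel₀ Real.pi_ne_zero h1
  set p : ℝ → Polynomial ℂ := fun t =>
    Lagrange.interpolate s v fun k => ((Real.exp (Real.pi * k * t) : ℝ) : ℂ)
  refine ⟨s.card + 1, fun j => j, fun t j => (p t).coeff j, ?_⟩
  rintro F ⟨c, hc⟩ t
  simp only [hc, Finset.mul_sum]
  rw [Finset.sum_comm]
  refine Finset.sum_congr rfl fun k hk => ?_
  have h1 : (p t).natDegree < s.card + 1 :=
    Nat.lt_succ_of_le (Polynomial.natDegree_le_of_degree_le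
      (Lagrange.degree_interpolate_lt _ hv).le)
  have h2 : (p t).eval (v k) = (Real.exp (Real.pi * k * t) : ℝ) :=
    Lagrange.eval_interpolate_at_node _ hv hk
  rw [← h2, Polynomial.eval_eq_sum_range' h1, Finset.sum_range, Finset.mul_sum]
  refine Finset.sum_congr rfl fun j _ => ?_
  rw [mul_comm (Real.pi * k), Real.exp_nat_mul, Complex.ofReal_pow]
  ring

end ENr

theorem rowEN : ENs :=
  ⟨ENr.mono, ENr.const, ENr.add, ENr.sum, ENr.mul, ENr.neg, ENr.bo, ENr.red, ENr.bdd, ENr.itp⟩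

end Vale.Agent.SP352
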