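import Vale.Agent.Q352.NS
import Vale.Agent.P352X.SN.Inst

/-!
# P352, project NS: row EXT
-/

set_option linter.all false

open Filter Topology MeasureTheory
open Complex (I)

namespace Vale.Agent.SP352

namespace EXTr

open P352X.SN

noncomputable section

/-- projection to the closed upper half plane -/
def pj (z : ℂ) : ℂ := (z.re : ℂ) + ((max z.im 0 : ℝ) : ℂ) * I

lemma pj_of {z : ℂ} (h : 0 ≤ z.im) : pj z = z := by
  rw [pj, max_eq_left h, Complex.re_add_im]

lemma pj_im (z : ℂ) : 0 ≤ (pj z).im := by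
  simp [pj]

lemma pj_cont : Continuous pj := by
  unfold pj
  fun_prop

/-- the exponentials -/
def ex (z : ℂ) (l : ℝ) : ℂ := Complex.exp (I * z * ((max l 0 : ℝ) : ℂ))

lemma ex_norm (z : ℂ) (l : ℝ) : ‖ex z l‖ = Real.exp (-(z.im * max l 0)) := by
  rw [ex, Complex.norm_exp]
  simp

lemma ex_le {z : ℂ} (h : 0 ≤ z.im) (l : ℝ) : ‖ex z l‖ ≤ 1 := by
  rw [ex_norm, Real.exp_le_one_iff, neg_nonpos]
  exact mul_nonneg h (le_max_right _ _)

lemma ex_meas (z : ℂ) : Measurable (ex z) := by
  unfold ex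
  fun_prop

lemma ex_bd (z : ℂ) : Bd (ex (pj z)) := ⟨ex_meas _, 1, ex_le (pj_im z)⟩

lemma ex_der (z : ℂ) (l : ℝ) :
    HasDerivAt (fun w => ex w l) (I * ((max l 0 : ℝ) : ℂ) * ex z l) z := by
  have h := (((hasDerivAt_id z).const_mul I).mul_const ((max l 0 : ℝ) : ℂ)).cexp
  simpa [ex, mul_comm, mul_left_comm, mul_assoc] using h

lemma der_le {z : ℂ} {d : ℝ} (hd : 0 < d) (h : d ≤ z.im) (l : ℝ) :
    ‖I * ((max l 0 : ℝ) : ℂ) * ex z l‖ ≤ 1 / d := by
  have hx : 0 ≤ max l 0 := le_max_right _ _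
  rw [norm_mul, norm_mul, Complex.norm_I, one_mul, Complex.norm_real, Real.norm_of_nonneg hx,
    ex_norm, Real.exp_neg, ← div_eq_mul_inv, div_le_div_iff₀ (Real.exp_pos _) hd, one_mul]
  have h1 := Real.add_one_le_exp (z.im * max l 0)
  nlinarith [mul_le_mul_of_nonneg_right h hx]

end

end EXTr

open EXTr P352X.SN in
theorem rowEXT (H : Type*) [NormedAddCommGroup H] [InnerProductSpace ℂ H] [CompleteSpace H] :
    EXT H := by
  intro W hW hP
  have hU : URep fun (t : ℝ) (v : H) => W t v :=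
    { zero := fun v => by rw [hW.zero]; rfl
      add := fun x y v => by rw [hW.add]; rfl
      inn := fun x v w => by
        rw [← ContinuousLinearMap.adjoint_inner_right, ← ContinuousLinearMap.star_eq_adjoint,
          hW.adj, ← ContinuousLinearMap.mul_apply, ← hW.add, neg_add_cancel, hW.zero]
        rfl
      cont := hW.cont }
  obtain ⟨C⟩ := exists_BC isPair_mul hU
  obtain ⟨S, hS, hν⟩ := hP
  have hpos : ∀ v, ∀ᵐ l ∂C.nu v, l ∈ Set.Ici (0 : ℝ) := by
    refine C.toCalc.ae_of_dense measurableSet_Ici hS fun v hv => ?_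
    obtain ⟨ν, hf, h0, h1⟩ := hν v hv
    rw [← C.nu_unique isPair_mul (μ := ν) fun y => (h1 y).symm]
    exact h0
  refine ⟨fun z => C.Phi (ex (pj z)), fun r => ?_, fun z _ => ?_, fun v => ?_, fun v => ?_⟩
  · ext v
    rw [← C.Phi_ch r v]
    refine C.toCalc.congr_ae (ex_bd _) (isPair_mul.bd r) ?_
    filter_upwards [hpos v] with l hl
    rw [pj_of (by simp), ex, ch, max_eq_left hl]
    push_cast
    ring_nf
  · exact C.toCalc.opNorm_le (ex_bd z) zero_le_one (ex_le (pj_im z))
  · refine Continuous.continuousOn (continuous_iff_continuousAt.2 fun z => ?_)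
    refine C.toCalc.tendsto_Phi (fun w => ex_bd w) (ex_bd z) (K := 1)
      (Eventually.of_forall fun w => Eventually.of_forall (ex_le (pj_im w)))
      (Eventually.of_forall fun l => ?_)
    exact ((ex_der _ l).continuousAt.tendsto).comp (pj_cont.tendsto z)
  · intro z hz
    have hz : 0 < z.im := hz
    have hd : 0 < z.im / 2 := by linarith
    have hb : ∀ w ∈ Metric.ball z (z.im / 2), z.im / 2 ≤ w.im := fun w hw => by
      have h1 := Complex.abs_im_le_norm (w - z)
      rw [Metric.mem_ball, dist_eq_norm] at hw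
      rw [Complex.sub_im] at h1
      linarith [neg_abs_le (w.im - z.im)]
    have hB : Bd fun l => I * ((max l 0 : ℝ) : ℂ) * ex z l :=
      ⟨by have := ex_meas z; fun_prop, _, der_le hd (by linarith)⟩
    have hnb : ∀ᶠ w in 𝓝[≠] z, w ∈ Metric.ball z (z.im / 2) :=
      mem_nhdsWithin_of_mem_nhds (Metric.ball_mem_nhds z hd)
    have hT := C.toCalc.tendsto_Phi (l := 𝓝[≠] z)
      (F := fun w l => (w - z)⁻¹ * (ex (pj w) l - ex (pj z) l))
      (fun w => ((ex_bd w).sub (ex_bd z)).smul _) hB (K := 1 / (z.im / 2)) (v := v) ?_ ?_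
    · refine (HasDerivAt.differentiableAt (hasDerivAt_iff_tendsto_slope.2
        (hT.congr fun w => ?_))).differentiableWithinAt
      rw [C.smul _ ((ex_bd w).sub (ex_bd z)), C.toCalc.sub (ex_bd w) (ex_bd z)]
      rfl
    · filter_upwards [hnb, self_mem_nhdsWithin] with w hw hne
      refine Eventually.of_forall fun l => ?_
      have h1 := (convex_ball z (z.im / 2)).norm_image_sub_le_of_norm_hasDerivWithin_le
        (f := fun w => ex w l) (fun x _ => (ex_der x l).hasDerivWithinAt)
        (fun x hx => der_le hd (hb x hx) l) (Metric.mem_ball_self hd) hw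
      have h2 : 0 < ‖w - z‖ := norm_pos_iff.2 (sub_ne_zero.2 hne)
      rw [pj_of (hd.le.trans (hb w hw)), pj_of hz.le, norm_mul, norm_inv, inv_mul_le_iff₀ h2,
        mul_comm]
      exact h1
    · refine Eventually.of_forall fun l => ?_
      refine (hasDerivAt_iff_tendsto_slope.1 (ex_der z l)).congr' ?_
      filter_upwards [hnb] with w hw
      rw [pj_of (hd.le.trans (hb w hw)), pj_of hz.le]
      rfl

end Vale.Agent.SP352
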