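import Vale.Agent.Q352.NS

/-!
# P352, project NS, row FIN: the orbits of the one field vectors under the boosts
-/

set_option linter.all false

open Filter Topology MeasureTheory
open UniformSpace (Completion)

namespace Vale.Agent.SP352

open P352.GF (V Fn Ix Fld Theory IsTest IsLor sim one)
open P352.H246 (Al In Cov)

noncomputable section

variable {D : Type*} [NormedAddCommGroup D] [InnerProductSpace ℂ D]

namespace FIN

/-- the boosted vectors -/
def w (C : Cx D) (B : Fld D) (g : Fn) (t : ℝ) : Completion D :=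
  C.Vg bo t (B (cp (bo t) g) C.Q.vac : D)

theorem left (C : Cx D) (hb : Bs C) (hE : ENs) (E : C.Md) (hL : LAU C E) (h1 : ONE C E) (e : ℂ)
    (B : Fld D) (he : e = 1 ∨ e = -1) (hB : C.Par e B) : ∃ (n : ℕ) (τ : Fin n → ℝ)
    (l : ℝ → Fin n → ℂ), ∀ t g, In (Wl 0) g → w C B g t = ∑ j, l t j • w C B g (τ j) := by
  obtain ⟨N, hN⟩ := hL e B he hB
  obtain ⟨n, τ, l, hl⟩ := hE.itp N
  refine ⟨n, τ, fun t j => star (l t j), fun t g hg => ?_⟩
  have hd := hb.nt.cyc (Wr 0) (hb.geo.opn 0).1 (hb.geo.ne 0).1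
  have key : ∀ y ∈ {z | ∃ X ∈ C.MA (Wr 0), X C.om = z},
      inner ℂ (w C B g t) y = inner ℂ (∑ j, star (l t j) • w C B g (τ j)) y := by
    rintro y ⟨A, hA, rfl⟩
    have h2 := hE.neg N _ (hN g hg A hA)
    have h3 : (fun s : ℝ => inner ℂ ((B (cp (bo (- -s)) g) C.Q.vac : D) : Completion D)
        (E.U (-s) (A C.om))) = fun s => inner ℂ (w C B g s) (A C.om) := by
      funext s
      rw [neg_neg, h1 (-s), ← hb.b1.vadj bo s hb.geo.opb, ContinuousLinearMap.star_eq_adjoint,
        ContinuousLinearMap.adjoint_inner_right]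
      rfl
    rw [h3] at h2
    have h4 := hl _ h2 t
    rw [h4, sum_inner]
    refine Finset.sum_congr rfl fun j _ => ?_
    rw [inner_smul_left]
    simp
  have hc : IsClosed {y : Completion D | inner ℂ (w C B g t) y =
      inner ℂ (∑ j, star (l t j) • w C B g (τ j)) y} :=
    isClosed_eq (continuous_const.inner continuous_id) (continuous_const.inner continuous_id)
  refine ext_inner_right ℂ fun y => ?_
  exact hc.closure_subset_iff.2 key (hd y)

theorem shift (C : Cx D) (hb : Bs C) (B : Fld D) (hB : C.Q.fld B) (g : Fn) (hg : IsTest g) (c : V)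
    (t : ℝ) : w C B g t = C.Tr c (w C B (fun x => g (sim 1 one c x)) t) := by
  have G := hb.geo
  have hL := G.opb.lor t
  obtain ⟨a, ha⟩ := (G.bij 1 (bo t) 0 one_pos hL).2 c
  have hf : IsTest (cp (bo t) g) := G.test 1 (bo t) 0 g one_pos hL hg
  have h1 := C.Q.transl B a _ C.Q.vac hB hf
  rw [C.Q.U_vac 1 one a one_pos G.lor1] at h1
  have h2 : (fun x => cp (bo t) g (sim 1 one a x)) = cp (bo t) fun x => g (sim 1 one c x) := by
    funext x
    have h3 := G.lin (bo t) a x 1
    rw [one_smul, one_smul] at h3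
    simp only [cp]
    rw [G.sim1, G.sim1, h3, ha]
  rw [h2] at h1
  unfold w
  rw [h1, ← hb.b1.coe 1 one a _ one_pos G.lor1]
  have h4 := hb.b1.vt bo t a G.opb
  rw [ha] at h4
  exact congrArg (fun X : Completion D →L[ℂ] Completion D =>
    X (B (cp (bo t) fun x => g (sim 1 one c x)) C.Q.vac : D)) h4

theorem all (C : Cx D) (hb : Bs C) (B : Fld D) (hB : C.Q.fld B) {n : ℕ} (τ : Fin n → ℝ)
    (l : Fin n → ℂ) (t : ℝ)
    (h : ∀ g, In (Wl 0) g → w C B g t = ∑ j, l j • w C B g (τ j)) (g : Fn)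
    (hg : In Set.univ g) : w C B g t = ∑ j, l j • w C B g (τ j) := by
  have G := hb.geo
  obtain ⟨c, hc⟩ := (G.cov (tsupport g) hg.2.1.isCompact.isBounded).2
  have h1 := G.inn 1 one c (Wl c) g one_pos G.lor1 ⟨hg.1, hg.2.1, hc⟩
  have h2 : In (Wl 0) fun x => g (sim 1 one c x) := by
    refine ⟨h1.1, h1.2.1, h1.2.2.trans fun x hx => ?_⟩
    simp only [Set.mem_preimage, G.sim1, Wl, Set.mem_setOf_eq, Pi.add_apply, Pi.zero_apply] at hx ⊢
    rw [add_sub_cancel_left, sub_add_cancel_left] at hx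
    rw [sub_zero, zero_sub]
    exact hx
  rw [shift C hb B hB g hg.1 c t, h _ h2, map_sum]
  refine Finset.sum_congr rfl fun j _ => ?_
  rw [map_smul, ← shift C hb B hB g hg.1 c]

theorem sign (C : Cx D) (hb : Bs C) (e : ℂ) (B : Fld D) (he : e = 1 ∨ e = -1) (hB : C.Par e B)
    (t : ℝ) : ∃ s : ℂ, s * s = 1 ∧ ∀ g, IsTest g →
      w C B g t = s • ((C.Q.U 1 (bo t) 0 (B (cp (bo t) g) C.Q.vac) : D) : Completion D) := by
  have G := hb.geo
  have hL := G.opb.lor t
  have hee : e * e = 1 := by rcases he with rfl | rfl <;> simp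
  rcases hb.b1.vu bo t G.opb with h | h
  · refine ⟨1, one_mul 1, fun g hg => ?_⟩
    unfold w
    rw [h, one_smul, hb.b1.coe 1 _ 0 _ one_pos hL]
  · refine ⟨e, hee, fun g hg => ?_⟩
    have hf : IsTest (cp (bo t) g) := G.test 1 (bo t) 0 g one_pos hL hg
    have h1 := hB.2 _ C.Q.vac hf
    rw [C.ev] at h1
    have h2 : C.G (B (cp (bo t) g) C.Q.vac) = e • B (cp (bo t) g) C.Q.vac := by
      conv_rhs => rw [h1]
      rw [smul_smul, hee, one_smul]
    unfold w
    rw [h, hb.b1.gu 1 _ 0 one_pos hL, ContinuousLinearMap.mul_apply, C.net.ext, h2,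
      Completion.coe_smul, map_smul, hb.b1.coe 1 _ 0 _ one_pos hL]

end FIN

theorem rowFIN (C : Cx D) : RowFIN C := by
  intro hb hE E hL h1 e B he hB
  obtain ⟨n, τ, l, hl⟩ := FIN.left C hb hE E hL h1 e B he hB
  choose s hs hw using FIN.sign C hb e B he hB
  refine ⟨n, τ, fun t => ⟨fun j => s t * (l t j * s (τ j)), fun g hg => ?_⟩⟩
  have h2 := FIN.all C hb B hB.1 τ (l t) t (hl t) g hg
  apply Completion.coe_injective D
  have h3 : ∀ u : Fin n → D, ((∑ j, u j : D) : Completion D) = ∑ j, (u j : Completion D) :=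
    fun u => map_sum (Completion.toComplL (𝕜 := ℂ) (E := D)) u Finset.univ
  have h4 : ((C.Q.U 1 (bo t) 0 (B (cp (bo t) g) C.Q.vac) : D) : Completion D) =
      s t • FIN.w C B g t := by
    rw [hw t g hg.1, smul_smul, hs, one_smul]
  show ((_ : D) : Completion D) = ((_ : D) : Completion D)
  rw [h4, h2, h3, Finset.smul_sum]
  refine Finset.sum_congr rfl fun j _ => ?_
  rw [hw _ g hg.1, Completion.coe_smul, smul_smul, smul_smul, mul_assoc]

end

end Vale.Agent.SP352
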