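import Vale.Agent.Q352.NS

/-!
# P352, project NS, row FIX: `zt` fixes the vectors made by the stress tensor from the vacuum
-/

set_option linter.all false

open Filter Topology MeasureTheory
open UniformSpace (Completion)
open Complex (I)

namespace Vale.Agent.SP352

open P352.GF (V Fn Ix Fld Theory IsTest IsLor IsCutoff sim one bar mdot pd eta)
open P352.H246 (Al In Cov)

noncomputable section

namespace FIXr

variable {D : Type*} [NormedAddCommGroup D] [InnerProductSpace ℂ D] {C : Cx D}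

theorem even (m n : Ix) {f : Fn} (hf : IsTest f) :
    C.Γ (C.T m n f C.Q.vac : D) = (C.T m n f C.Q.vac : D) := by
  rw [C.net.ext, ← C.gr.bose _ f _ (C.st.bose m n) hf, C.ev]

theorem par (m n : Ix) : C.Par 1 (C.T m n) :=
  ⟨C.Q.bose_fld _ (C.st.bose m n), fun f v hf => by
    rw [one_smul]; exact C.gr.bose _ f v (C.st.bose m n) hf⟩

theorem cov0 (h : Bs C) (m n : Ix) {L : Ix → V} (hL : IsLor L) (a : V) {f : Fn} (hf : IsTest f) :
    ((C.T m n f C.Q.vac : D) : Completion D) = ∑ k, ∑ l, (L k m * L l n : ℂ) •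
      C.Uc 1 L a (C.T k l (fun x => f (sim 1 L a x)) C.Q.vac : D) := by
  have h1 := C.st.cov m n L a f C.Q.vac hL hf
  rw [C.Q.U_vac 1 L a one_pos hL] at h1
  rw [h1]
  simp only [h.b1.coe 1 L a _ one_pos hL, Fin.sum_univ_four, Completion.coe_add,
    Completion.coe_smul]

theorem vgE (h : Bs C) (t : ℝ) {y : Completion D} (hy : C.Γ y = y) :
    C.Uc 1 (bo t) 0 y = C.Vg bo t y := by
  rcases h.b1.vu bo t h.geo.opb with e | e
  · rw [e]
  · rw [e, h.b1.gu 1 (bo t) 0 one_pos (h.geo.opb.lor t), ContinuousLinearMap.mul_apply, hy]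

theorem vv (h : Bs C) (t : ℝ) (y : Completion D) : C.Vg bo t (C.Vg bo (-t) y) = y := by
  rw [← ContinuousLinearMap.mul_apply, ← h.b1.vadd bo t (-t) h.geo.opb, add_neg_cancel,
    h.b1.v0 bo h.geo.opb, ContinuousLinearMap.one_apply]

theorem boost (h : Bs C) (m n : Ix) (t : ℝ) {g : Fn} (hg : IsTest g) :
    C.Vg bo t (C.T m n g C.Q.vac : D) = ∑ k, ∑ l, (bo (-t) k m * bo (-t) l n : ℂ) •
      ((C.T k l (cp (bo (-t)) g) C.Q.vac : D) : Completion D) := by
  have hL := h.geo.opb.lor (-t)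
  have ht : IsTest (cp (bo (-t)) g) := h.geo.test 1 _ 0 g one_pos hL hg
  rw [cov0 h m n hL 0 hg, map_sum]
  refine Finset.sum_congr rfl fun k _ => ?_
  rw [map_sum]
  refine Finset.sum_congr rfl fun l _ => ?_
  rw [map_smul]
  congr 1
  change C.Vg bo t (C.Uc 1 (bo (-t)) 0 (C.T k l (cp (bo (-t)) g) C.Q.vac : D)) = _
  rw [vgE h (-t) (even k l ht), vv h]

theorem mat (h : Bs C) {E : C.Md} (z : ZG C E) (t : ℝ) (x y : Completion D) :
    inner ℂ x (C.zt E t y) = inner ℂ (C.Vg bo t x) (E.U t y) := by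
  unfold Cx.zt
  rw [z.vc, ContinuousLinearMap.mul_apply, ← h.b1.vadj bo t h.geo.opb,
    ContinuousLinearMap.star_eq_adjoint, ContinuousLinearMap.adjoint_inner_right]

theorem en (h : Bs C) (he : ENs) {E : C.Md} (hl : LAU C E) (z : ZG C E) (m n : Ix) {g : Fn}
    (hg : In (Wl 0) g) {A} (hA : A ∈ C.MA (Wr 0)) :
    ∃ N, EN N fun t => inner ℂ ((C.T m n g C.Q.vac : D) : Completion D) (C.zt E t (A C.om)) := by
  choose N hN using fun k l => hl 1 (C.T k l) (Or.inl rfl) (par k l)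
  refine ⟨2 + 2 + ∑ k, ∑ l, N k l, ?_⟩
  have e : (fun t => inner ℂ ((C.T m n g C.Q.vac : D) : Completion D) (C.zt E t (A C.om))) =
      fun t => ∑ k, ∑ l, (bo (-t) k m * bo (-t) l n : ℂ) *
        inner ℂ ((C.T k l (cp (bo (-t)) g) C.Q.vac : D) : Completion D) (E.U t (A C.om)) := by
    funext t
    rw [mat h z, boost h m n t hg.1, sum_inner]
    refine Finset.sum_congr rfl fun k _ => ?_
    rw [sum_inner]
    refine Finset.sum_congr rfl fun l _ => ?_
    rw [inner_smul_left, map_mul, Complex.conj_ofReal, Complex.conj_ofReal]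
  rw [e]
  refine he.sum _ _ fun k => he.sum _ _ fun l => ?_
  refine he.mono (2 + 2 + N k l) _ _ ?_ (he.mul _ _ _ _
    (he.mul _ _ _ _ (he.neg _ _ (he.bo k m)) (he.neg _ _ (he.bo l n))) (hN k l g hg A hA))
  refine Nat.add_le_add_left ?_ _
  exact (Finset.single_le_sum (f := fun l => N k l) (fun _ _ => Nat.zero_le _)
    (Finset.mem_univ l)).trans (Finset.single_le_sum (f := fun k => ∑ l, N k l)
      (fun _ _ => Nat.zero_le _) (Finset.mem_univ k))

theorem left (h : Bs C) (he : ENs) {E : C.Md} (hl : LAU C E) (z : ZG C E) (t : ℝ) (m n : Ix)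
    {g : Fn} (hg : In (Wl 0) g) :
    C.zt E t (C.T m n g C.Q.vac : D) = (C.T m n g C.Q.vac : D) := by
  refine (h.nt.cyc (Wr 0) (h.geo.opn 0).1 (h.geo.ne 0).1).eq_of_inner_left (𝕜 := ℂ) ?_
  rintro _ ⟨A, hA, rfl⟩
  obtain ⟨N, hN⟩ := en h he hl z m n hg hA
  have h1 := he.bdd N _ (‖((C.T m n g C.Q.vac : D) : Completion D)‖ * ‖A C.om‖) hN (fun s => by
    refine (norm_inner_le_norm _ _).trans ?_
    rw [ContinuousLinearMap.norm_map_of_mem_unitary (z.uni s)]) (-t)
  rw [z.zero, ContinuousLinearMap.one_apply, ← z.adj, ContinuousLinearMap.star_eq_adjoint,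
    ContinuousLinearMap.adjoint_inner_right] at h1
  exact h1

end FIXr

theorem rowFIX {D : Type*} [NormedAddCommGroup D] [InnerProductSpace ℂ D] (C : Cx D) :
    RowFIX C := by
  intro h he E hl z t m n g hg
  obtain ⟨c, hc⟩ := (h.geo.cov (tsupport g) hg.2.1.isCompact.isBounded).2
  have h1 : In (Wl c) g := ⟨hg.1, hg.2.1, hc⟩
  have h2 := h.geo.inn 1 one c _ g one_pos h.geo.lor1 h1
  have h3 : In (Wl 0) fun x => g (sim 1 one c x) := by
    refine ⟨h2.1, h2.2.1, h2.2.2.trans fun x hx => ?_⟩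
    simpa [Wl, h.geo.sim1] using hx
  have h4 := C.Q.transl (C.T m n) c g C.Q.vac (FIXr.par m n).1 hg.1
  rw [C.Q.U_vac 1 one c one_pos h.geo.lor1] at h4
  have h5 : ((C.T m n g C.Q.vac : D) : Completion D) =
      C.Tr c (C.T m n (fun x => g (sim 1 one c x)) C.Q.vac : D) := by
    rw [h4]; exact (h.b1.coe 1 one c _ one_pos h.geo.lor1).symm
  rw [h5, ← ContinuousLinearMap.mul_apply, z.tr, ContinuousLinearMap.mul_apply,
    FIXr.left h he hl z t m n h3]

end

end Vale.Agent.SP352
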