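import Vale.Agent.Q352.NS

/-!
# P352, project NS, row GR: growth of the boosted one field vectors
-/

set_option linter.all false

open Filter Topology MeasureTheory

namespace Vale.Agent.SP352

open P352.GF (V Fn Ix Fld Theory IsTest IsLor IsCutoff sim one bar mdot pd eta Sch ev)

noncomputable section

namespace GRa

/-- the linear map of a matrix -/
def Lc (L : Ix → V) : V →L[ℝ] V :=
  LinearMap.toContinuousLinearMap
    { toFun := fun x => sim 1 L 0 x
      map_add' := fun x y => by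
        funext n
        simp [sim, add_mul, Finset.sum_add_distrib]
      map_smul' := fun c x => by
        funext n
        simp [sim, Finset.mul_sum, mul_assoc] }

lemma Lc_apply (L : Ix → V) (x : V) : Lc L x = sim 1 L 0 x := rfl

lemma ch_le (s : ℝ) : Real.cosh s + |Real.sinh s| ≤ Real.exp |s| := by
  rw [Real.abs_sinh, ← Real.cosh_abs, Real.cosh_add_sinh]

lemma two_le (a b c s M : ℝ) (ha : |a| ≤ M) (hb : |b| ≤ M) (hc : 0 ≤ c) :
    |a * c + b * s| ≤ (c + |s|) * M := by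
  have h1 : |a * c + b * s| ≤ |a| * c + |b| * |s| := by
    calc |a * c + b * s| ≤ |a * c| + |b * s| := abs_add_le _ _
      _ = |a| * c + |b| * |s| := by rw [abs_mul, abs_mul, abs_of_nonneg hc]
  have h2 : |a| * c ≤ M * c := mul_le_mul_of_nonneg_right ha hc
  have h3 : |b| * |s| ≤ M * |s| := mul_le_mul_of_nonneg_right hb (abs_nonneg _)
  nlinarith

lemma norm_bo (t : ℝ) : ‖Lc (bo t)‖ ≤ Real.exp |2 * Real.pi * t| := by
  refine ContinuousLinearMap.opNorm_le_bound _ (Real.exp_pos _).le fun x => ?_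
  have hx : ∀ n, |x n| ≤ ‖x‖ := fun n => by simpa using norm_le_pi_norm x n
  have h1 : (1 : ℝ) ≤ Real.exp |2 * Real.pi * t| := Real.one_le_exp (abs_nonneg _)
  have hc := ch_le (2 * Real.pi * t)
  have hp := (Real.cosh_pos (2 * Real.pi * t)).le
  have hn : 0 ≤ ‖x‖ := norm_nonneg x
  refine (pi_norm_le_iff_of_nonneg (by positivity)).2 fun n => ?_
  rw [Lc_apply, Real.norm_eq_abs]
  fin_cases n
  · have := two_le (x 0) (x 1) (Real.cosh (2 * Real.pi * t)) (-Real.sinh (2 * Real.pi * t)) ‖x‖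
      (hx 0) (hx 1) hp
    rw [abs_neg] at this
    have e : sim 1 (bo t) 0 x 0 = x 0 * Real.cosh (2 * Real.pi * t) +
        x 1 * -Real.sinh (2 * Real.pi * t) := by
      simp [sim, bo, Fin.sum_univ_four]
    calc |sim 1 (bo t) 0 x 0| ≤ _ := by rw [e]; exact this
      _ ≤ _ := mul_le_mul_of_nonneg_right hc hn
  · have := two_le (x 1) (x 0) (Real.cosh (2 * Real.pi * t)) (-Real.sinh (2 * Real.pi * t)) ‖x‖
      (hx 1) (hx 0) hp
    rw [abs_neg] at this
    have e : sim 1 (bo t) 0 x 1 = x 1 * Real.cosh (2 * Real.pi * t) +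
        x 0 * -Real.sinh (2 * Real.pi * t) := by
      simp [sim, bo, Fin.sum_univ_four]
      ring
    calc |sim 1 (bo t) 0 x 1| ≤ _ := by rw [e]; exact this
      _ ≤ _ := mul_le_mul_of_nonneg_right hc hn
  · have e : sim 1 (bo t) 0 x 2 = x 2 := by
      simp [sim, bo, Fin.sum_univ_four]
    calc |sim 1 (bo t) 0 x 2| ≤ ‖x‖ := by rw [e]; exact hx 2
      _ ≤ _ := le_mul_of_one_le_left hn h1
  · have e : sim 1 (bo t) 0 x 3 = x 3 := by
      simp [sim, bo, Fin.sum_univ_four]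
    calc |sim 1 (bo t) 0 x 3| ≤ ‖x‖ := by rw [e]; exact hx 3
      _ ≤ _ := le_mul_of_one_le_left hn h1

lemma inv_bo (g : Geo) (t : ℝ) (x : V) : Lc (bo (-t)) (Lc (bo t) x) = x := by
  rw [Lc_apply, Lc_apply, ← g.comp, g.opb.add, neg_add_cancel, g.opb.zero, g.sim1, zero_add]

lemma sem_comp (L L' : V →L[ℝ] V) (M : ℝ) (hL : ‖L‖ ≤ M) (hL' : ‖L'‖ ≤ M)
    (h : ∀ x, L' (L x) = x) (f f' : Sch) (hf : ∀ x, f' x = f (L x)) (k n : ℕ) :
    SchwartzMap.seminorm ℂ k n f' ≤ M ^ (k + n) * SchwartzMap.seminorm ℂ k n f := by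
  have hM : 0 ≤ M := (norm_nonneg _).trans hL
  refine SchwartzMap.seminorm_le_bound ℂ k n f' (by positivity) fun x => ?_
  have e : (f' : V → ℂ) = f ∘ L := funext hf
  have h1 : ‖iteratedFDeriv ℝ n f' x‖ ≤ ‖iteratedFDeriv ℝ n f (L x)‖ * M ^ n := by
    rw [e, L.iteratedFDeriv_comp_right (f.smooth ⊤) x (by exact_mod_cast le_top)]
    refine (ContinuousMultilinearMap.norm_compContinuousLinearMap_le _ _).trans ?_
    rw [Finset.prod_const, Finset.card_univ, Fintype.card_fin]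
    gcongr
  have h2 : ‖x‖ ≤ M * ‖L x‖ := by
    calc ‖x‖ = ‖L' (L x)‖ := by rw [h]
      _ ≤ ‖L'‖ * ‖L x‖ := L'.le_opNorm _
      _ ≤ _ := by gcongr
  have h3 := SchwartzMap.le_seminorm ℂ k n f (L x)
  calc ‖x‖ ^ k * ‖iteratedFDeriv ℝ n f' x‖
      ≤ (M * ‖L x‖) ^ k * (‖iteratedFDeriv ℝ n f (L x)‖ * M ^ n) := by gcongr
    _ = M ^ (k + n) * (‖L x‖ ^ k * ‖iteratedFDeriv ℝ n f (L x)‖) := by
        rw [mul_pow, pow_add]; ring
    _ ≤ _ := by gcongr

variable {D : Type*} [NormedAddCommGroup D] [InnerProductSpace ℂ D]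

/-- a field applied to a vector, as a linear map on Schwartz space -/
def lm (Q : Theory D) (B : Fld D) (hB : Q.fld B) (v : D) : Sch →ₗ[ℂ] D where
  toFun := fun f => B (ev f) v
  map_add' := fun f f' => by
    have h := Q.lin B (ev f) (ev f') 1 v hB ⟨f, rfl⟩ ⟨f', rfl⟩
    have e : (fun x => ev f x + 1 * ev f' x) = ev (f + f') := by
      funext x; simp [ev]
    rw [e, one_smul] at h
    exact h
  map_smul' := fun c f => by
    have h0 := Q.lin B (ev 0) (ev 0) 1 v hB ⟨0, rfl⟩ ⟨0, rfl⟩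
    have e0 : (fun x => ev 0 x + 1 * ev 0 x) = ev 0 := by
      funext x; simp [ev]
    rw [e0, one_smul] at h0
    have z : B (ev 0) v = 0 := by simpa using h0
    have h := Q.lin B (ev 0) (ev f) c v hB ⟨0, rfl⟩ ⟨f, rfl⟩
    have e : (fun x => ev 0 x + c * ev f x) = ev (c • f) := by
      funext x; simp [ev]
    rw [e, z, zero_add] at h
    exact h

lemma bound (Q : Theory D) (B : Fld D) (hB : Q.fld B) (v : D) :
    ∃ (s : Finset (ℕ × ℕ)) (C : ℝ), 0 ≤ C ∧ ∀ f : Sch,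
      ‖B (ev f) v‖ ≤ C * ∑ p ∈ s, SchwartzMap.seminorm ℂ p.1 p.2 f := by
  have hq : Continuous ((normSeminorm ℂ D).comp (lm Q B hB v)) :=
    continuous_norm.comp (Q.cont B v hB)
  obtain ⟨s, C, -, h⟩ :=
    Seminorm.bound_of_continuous (schwartz_withSeminorms ℂ V ℂ) _ hq
  refine ⟨s, C, C.2, fun f => ?_⟩
  have h1 := h f
  have h2 : (s.sup (schwartzSeminormFamily ℂ V ℂ)) f ≤
      ∑ p ∈ s, SchwartzMap.seminorm ℂ p.1 p.2 f := by
    refine Seminorm.finset_sup_apply_le (Finset.sum_nonneg fun p _ => apply_nonneg _ _)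
      fun p hp => ?_
    exact Finset.single_le_sum (f := fun p : ℕ × ℕ => SchwartzMap.seminorm ℂ p.1 p.2 f)
      (fun p _ => apply_nonneg _ _) hp
  calc ‖B (ev f) v‖ ≤ (C : ℝ) * (s.sup (schwartzSeminormFamily ℂ V ℂ)) f := h1
    _ ≤ _ := mul_le_mul_of_nonneg_left h2 C.2

end GRa

open GRa in
theorem rowGR {D : Type*} [NormedAddCommGroup D] [InnerProductSpace ℂ D] (g : Geo)
    (Q : Theory D) : GR Q := by
  intro B hB
  obtain ⟨s, C, hC, h⟩ := bound Q B hB Q.vac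
  refine ⟨2 * s.sup fun p => p.1 + p.2, ?_⟩
  rintro _ ⟨f, rfl⟩
  refine ⟨C * ∑ p ∈ s, SchwartzMap.seminorm ℂ p.1 p.2 f, fun t => ?_⟩
  obtain ⟨f', hf'⟩ := g.test 1 (bo t) 0 (ev f) one_pos (g.opb.lor t) ⟨f, rfl⟩
  have e : cp (bo t) (ev f) = ev f' := hf'.symm
  have hff : ∀ x, f' x = f (Lc (bo t) x) := fun x => congrFun hf' x
  set K : ℕ := s.sup fun p => p.1 + p.2 with hK
  set M : ℝ := Real.exp |2 * Real.pi * t| with hM
  have h1 : (1 : ℝ) ≤ M := Real.one_le_exp (abs_nonneg _)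
  have hL' : ‖Lc (bo (-t))‖ ≤ M := by
    have := norm_bo (-t)
    rwa [mul_neg, abs_neg] at this
  have hMK : M ^ K = Real.exp (Real.pi * ((2 * K : ℕ) : ℝ) * |t|) := by
    rw [hM, ← Real.exp_nat_mul, abs_mul, abs_of_pos (by positivity : (0 : ℝ) < 2 * Real.pi)]
    congr 1
    push_cast
    ring
  rw [e, ← hMK]
  refine (h f').trans ?_
  rw [mul_assoc, Finset.sum_mul]
  refine mul_le_mul_of_nonneg_left (Finset.sum_le_sum fun p hp => ?_) hC
  have h2 := sem_comp (Lc (bo t)) (Lc (bo (-t))) M (norm_bo t) hL' (inv_bo g t) f f' hff p.1 p.2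
  have h3 : M ^ (p.1 + p.2) ≤ M ^ K :=
    pow_le_pow_right₀ h1 (Finset.le_sup (f := fun p : ℕ × ℕ => p.1 + p.2) hp)
  calc _ ≤ _ := h2
    _ ≤ M ^ K * SchwartzMap.seminorm ℂ p.1 p.2 f :=
        mul_le_mul_of_nonneg_right h3 (apply_nonneg _ _)
    _ = _ := mul_comm _ _

end

end Vale.Agent.SP352
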