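import Vale.Agent.Q352.NS
import Vale.Agent.P352.H246.Dense

/-!
# P352, project NS, row HOL: unique continuation in the translations
-/

set_option linter.all false

open UniformSpace (Completion)

namespace Vale.Agent.SP352

open P352.GF (V one)

namespace HOL

theorem neg {F : P352.Mink → ℂ} (h : P352.H246.Hol F) : P352.H246.Hol fun a => -1 * F a := by
  obtain ⟨N, h⟩ := h
  exact ⟨N, h.smul (-1)⟩

end HOL

/-- **row HOL** -/
theorem rowHOL {D : Type*} [NormedAddCommGroup D] [InnerProductSpace ℂ D] (C : Cx D) :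
    RowHOL C := by
  intro hB A f y y' v O hA hf hO hne h
  obtain ⟨g, rfl⟩ := P352.exists_fl hf
  obtain ⟨x, hx⟩ := hne
  have h1 := (P352.H246.hol_fld (Q := C.Q) hA g y v).add
    (HOL.neg (P352.H246.hol_vec (Q := C.Q) y' v))
  have h2 := h1.unique (O := {a : P352.Mink | a.ofLp ∈ O})
    (hO.preimage (PiLp.continuous_ofLp 2 _)) ⟨WithLp.toLp 2 x, hx⟩ (fun a ha => by
      have e := h a.ofLp ha
      show inner ℂ y ((A (P352.fl g) (C.Q.U 1 one a.ofLp v) : D) : Completion D) +
        -1 * inner ℂ y' ((C.Q.U 1 one a.ofLp v : D) : Completion D) = 0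
      rw [e]
      ring) 0
  have h3 : inner ℂ y ((A (P352.fl g) (C.Q.U 1 one 0 v) : D) : Completion D) +
      -1 * inner ℂ y' ((C.Q.U 1 one 0 v : D) : Completion D) = 0 := h2
  rw [hB.b1.u1 v] at h3
  linear_combination h3

end Vale.Agent.SP352
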