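import Vale.Agent.Q352.NS
import Vale.Agent.P352.BW.H268.Comm
import Mathlib.Analysis.Normed.Module.WeakDual

/-!
# P352, project NS: row KEY
-/

set_option linter.all false

open Filter Topology
open UniformSpace (Completion)
open scoped InnerProductSpace

namespace Vale.Agent.SP352

open P352.BW.H268

noncomputable section

namespace KEYr

section

variable {H : Type*} [NormedAddCommGroup H] [InnerProductSpace ℂ H] [CompleteSpace H]

/-- bounded sequences have weak cluster points -/
theorem weak_lim (ξ : ℕ → H) (C : ℝ) (h : ∀ n, ‖ξ n‖ ≤ C) : ∃ x : H, ∀ y L,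
    Tendsto (fun n => ⟪ξ n, y⟫_ℂ) atTop (𝓝 L) → ⟪x, y⟫_ℂ = L := by
  let u : ℕ → WeakDual ℂ H := fun n => StrongDual.toWeakDual (InnerProductSpace.toDual ℂ H (ξ n))
  obtain ⟨φ, -, hφ⟩ := (WeakDual.isCompact_closedBall (0 : StrongDual ℂ H) C).exists_mapClusterPt
    (f := atTop) (u := u) (by
      rw [le_principal_iff, mem_map]
      refine Eventually.of_forall fun n => ?_
      show InnerProductSpace.toDual ℂ H (ξ n) ∈ Metric.closedBall (0 : StrongDual ℂ H) C
      rw [mem_closedBall_zero_iff, LinearIsometryEquiv.norm_map]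
      exact h n)
  refine ⟨(InnerProductSpace.toDual ℂ H).symm (WeakDual.toStrongDual φ), fun y L hL => ?_⟩
  rw [InnerProductSpace.toDual_symm_apply]
  have h1 := hφ.continuousAt_comp (WeakDual.eval_continuous y).continuousAt
  exact eq_of_nhds_neBot (h1.clusterPt.mono hL).neBot

theorem nA (x : H) : ‖(inA x : WithLp 2 (H × H))‖ = ‖x‖ := WithLp.norm_toLp_fst 2 H H x

theorem nB (x : H) : ‖(inB x : WithLp 2 (H × H))‖ = ‖x‖ := WithLp.norm_toLp_snd 2 H H x

theorem npA (z : WithLp 2 (H × H)) : ‖prA z‖ ≤ ‖z‖ := WithLp.norm_fst_le H z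

theorem npB (z : WithLp 2 (H × H)) : ‖prB z‖ ≤ ‖z‖ := WithLp.norm_snd_le H z

theorem iA (x : H) (z : WithLp 2 (H × H)) : ⟪inA x, z⟫_ℂ = ⟪x, prA z⟫_ℂ := by
  rw [inner_pr, prA_inA, prB_inA, inner_zero_left, add_zero]

theorem iB (x : H) (z : WithLp 2 (H × H)) : ⟪z, inB x⟫_ℂ = ⟪prB z, x⟫_ℂ := by
  rw [inner_pr, prA_inB, prB_inB, inner_zero_right, zero_add]

end

variable {D : Type*} [NormedAddCommGroup D] [InnerProductSpace ℂ D]

/-- bounded approximations of `Y'` in the algebra -/
theorem app (M : VonNeumannAlgebra (Completion D)) (Y Y' : D → D) (h : Af M Y Y') (s : ℝ)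
    (hs : 0 < s) : ∃ a ∈ M,
      (∀ w : D, ‖a w - ((Y' w : D) : Completion D)‖ ≤ s * ‖Y (Y' w)‖) ∧
      (∀ v : D, ‖star a (v : Completion D) - ((Y v : D) : Completion D)‖ ≤ s * ‖Y' (Y v)‖) ∧
      ∀ w : D, ‖star a (a (w : Completion D))‖ ≤ 4 * ‖Y (Y' w)‖ := by
  have s0 : (s : ℂ) ≠ 0 := Complex.ofReal_ne_zero.2 hs.ne'
  have ns : ‖(s : ℂ)‖ = s := by rw [Complex.norm_real, Real.norm_of_nonneg hs.le]
  let S : Set (WithLp 2 (Completion D × Completion D)) :=
    {z | ∃ B ∈ M.commutant, ∃ u : D, z = inA (B u) + (s : ℂ) • inB (B (Y u : D))}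
  let G : Submodule ℂ (WithLp 2 (Completion D × Completion D)) :=
    (Submodule.span ℂ S).topologicalClosure
  have : CompleteSpace G := (Submodule.isClosed_topologicalClosure _).completeSpace_coe
  have hS : ∀ u : D, inA (u : Completion D) + (s : ℂ) • inB ((Y u : D) : Completion D) ∈ G :=
    fun u => Submodule.le_topologicalClosure _ (Submodule.subset_span ⟨1, one_mem _, u, rfl⟩)
  have hG : ∀ B ∈ M.commutant, ∀ z ∈ G, dg B z ∈ G := by
    intro B hB z hz
    have hcl : IsClosed {z : WithLp 2 (Completion D × Completion D) | dg B z ∈ G} :=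
      (Submodule.isClosed_topologicalClosure _).preimage (dg B).continuous
    refine closure_minimal (s := (Submodule.span ℂ S : Set (WithLp 2 (Completion D × Completion D)))) ?_ hcl hz
    intro z hz
    refine Submodule.le_topologicalClosure _ ?_
    induction hz using Submodule.span_induction with
    | mem z hz =>
      obtain ⟨B', hB', u, rfl⟩ := hz
      refine Submodule.subset_span ⟨B * B', mul_mem hB hB', u, ?_⟩
      rw [map_add, map_smul, dg_inA, dg_inB]
      rfl
    | zero => rw [map_zero]; exact zero_mem _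
    | add a b _ _ ha hb => rw [map_add]; exact add_mem ha hb
    | smul c a _ ha => rw [map_smul]; exact Submodule.smul_mem _ c ha
  have hO : ∀ w : D, G.starProjection
      (inB (w : Completion D) - (s : ℂ) • inA ((Y' w : D) : Completion D)) = 0 := by
    intro w
    rw [Submodule.starProjection_apply_eq_zero_iff, Submodule.orthogonal_closure,
      Submodule.mem_orthogonal']
    intro z hz
    induction hz using Submodule.span_induction with
    | mem z hz =>
      obtain ⟨B, hB, u, rfl⟩ := hz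
      rw [inner_pr]
      simp only [map_sub, map_add, map_smul, prA_inA, prA_inB, prB_inA, prB_inB, smul_zero,
        zero_sub, sub_zero, add_zero, zero_add, inner_neg_left, inner_smul_left, inner_smul_right,
        Complex.conj_ofReal]
      rw [h B hB u w]
      ring
    | zero => exact inner_zero_right _
    | add a b _ _ ha hb => rw [inner_add_right, ha, hb, add_zero]
    | smul c a _ ha => rw [inner_smul_right, ha, mul_zero]
  let P := G.starProjection
  have nP : ∀ z, ‖P z‖ ≤ ‖z‖ := G.norm_starProjection_apply_le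
  have hF : ∀ u : D, P (inA (u : Completion D)) + (s : ℂ) • P (inB ((Y u : D) : Completion D)) =
      inA (u : Completion D) + (s : ℂ) • inB ((Y u : D) : Completion D) := fun u => by
    rw [← map_smul, ← map_add]
    exact Submodule.starProjection_eq_self_iff.2 (hS u)
  have hK : ∀ w : D, P (inB (w : Completion D)) = (s : ℂ) • P (inA ((Y' w : D) : Completion D)) :=
    fun w => by
      have := hO w
      rwa [map_sub, map_smul, sub_eq_zero] at this
  let p : Completion D →L[ℂ] Completion D := prA.comp (P.comp inB)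
  let q : Completion D →L[ℂ] Completion D := prB.comp (P.comp inA)
  have hp : p ∈ M := by
    rw [← M.commutant_commutant, VonNeumannAlgebra.mem_commutant_iff]
    intro B hB
    refine ContinuousLinearMap.ext fun x => ?_
    show B (prA (G.starProjection (inB x))) = prA (G.starProjection (inB (B x)))
    rw [← dg_inB, proj_comm G B (hG B hB) (hG _ (star_mem hB)), prA_dg]
  have hq : star p = q := by
    rw [ContinuousLinearMap.star_eq_adjoint, eq_comm, ContinuousLinearMap.eq_adjoint_iff]
    intro x y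
    show ⟪prB (G.starProjection (inA x)), y⟫_ℂ = ⟪x, prA (G.starProjection (inB y))⟫_ℂ
    rw [← iB, ← iA, Submodule.inner_starProjection_left_eq_right]
  have hsa : star ((s : ℂ)⁻¹ • p) = (s : ℂ)⁻¹ • q := by
    rw [star_smul, hq, star_inv₀, Complex.star_def, Complex.conj_ofReal]
  have e1 : ∀ w : D, ((s : ℂ)⁻¹ • p) w = prA (P (inA ((Y' w : D) : Completion D))) := fun w => by
    show (s : ℂ)⁻¹ • prA (P (inB (w : Completion D))) = _
    rw [hK, map_smul, smul_smul, inv_mul_cancel₀ s0, one_smul]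
  have e2 : ∀ v : D, ((s : ℂ)⁻¹ • q) v =
      ((Y v : D) : Completion D) - prB (P (inB ((Y v : D) : Completion D))) := fun v => by
    have := congrArg prB (hF v)
    rw [map_add, map_add, map_smul, map_smul, prB_inA, prB_inB, zero_add, ← eq_sub_iff_add_eq,
      ← smul_sub] at this
    show (s : ℂ)⁻¹ • prB (P (inA (v : Completion D))) = _
    rw [this, smul_smul, inv_mul_cancel₀ s0, one_smul]
  have n2 : ∀ x : Completion D, ‖x - prB (P (inB x))‖ ≤ 2 * ‖x‖ := fun x => by
    have := (npB _).trans ((nP _).trans_eq (nB x))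
    linarith [norm_sub_le x (prB (P (inB x)))]
  refine ⟨(s : ℂ)⁻¹ • p, M.toStarSubalgebra.smul_mem hp _, fun w => ?_, fun v => ?_, fun w => ?_⟩
  · have := congrArg prA (hF (Y' w))
    rw [map_add, map_add, map_smul, map_smul, prA_inA, prA_inB, smul_zero, add_zero,
      ← eq_sub_iff_add_eq] at this
    rw [e1, this, sub_sub_cancel_left, norm_neg, norm_smul, ns, ← Completion.norm_coe (Y (Y' w))]
    exact mul_le_mul_of_nonneg_left ((npA _).trans ((nP _).trans_eq (nB _))) hs.le
  · rw [hsa, e2, sub_sub_cancel_left, norm_neg, hK, map_smul, norm_smul, ns,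
      ← Completion.norm_coe (Y' (Y v))]
    exact mul_le_mul_of_nonneg_left ((npB _).trans ((nP _).trans_eq (nA _))) hs.le
  · have k : ∀ x : Completion D, q (prA (P (inA x))) = q x - prB (P (inB (q x))) := fun x => by
      have e : P (P (inA x)) = P (inA x) :=
        Submodule.starProjection_eq_self_iff.2 (Submodule.starProjection_apply_mem G _)
      have e' := congrArg prB e
      rw [← in_pr (P (inA x)), map_add, map_add, in_pr] at e'
      exact eq_sub_of_add_eq e'
    have k' : ∀ x : Completion D, ((s : ℂ)⁻¹ • q) (prA (P (inA x))) =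
        ((s : ℂ)⁻¹ • q) x - prB (P (inB (((s : ℂ)⁻¹ • q) x))) := fun x => by
      simp only [ContinuousLinearMap.smul_apply, k, map_smul, smul_sub]
    rw [hsa, e1, k', e2, ← Completion.norm_coe (Y (Y' w))]
    linarith [n2 (((Y (Y' w) : D) : Completion D) -
      prB (P (inB ((Y (Y' w) : D) : Completion D)))), n2 ((Y (Y' w) : D) : Completion D)]

theorem lim0 {E : Type*} [NormedAddCommGroup E] {x : ℕ → E} {y : E} {C : ℝ}
    (h : ∀ n, ‖x n - y‖ ≤ 1 / ((n : ℝ) + 1) * C) : Tendsto x atTop (𝓝 y) := by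
  rw [tendsto_iff_norm_sub_tendsto_zero]
  refine squeeze_zero (fun _ => norm_nonneg _) h ?_
  simpa using (tendsto_one_div_add_atTop_nhds_zero_nat (𝕜 := ℝ)).mul_const C

end KEYr

theorem rowKEY (D : Type*) [NormedAddCommGroup D] [InnerProductSpace ℂ D] : KEY D := by
  intro M z ω X X' Y Y' hz hω hM hX hY
  choose a ha h1 h2 h3 using fun n : ℕ => KEYr.app M Y Y' hY (1 / ((n : ℝ) + 1)) (by positivity)
  have zz : ∀ x, star z (z x) = x := fun x =>
    congrArg (fun T : Completion D →L[ℂ] Completion D => T x) (Unitary.mem_iff.1 hz).1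
  have zω : star z (ω : Completion D) = ω := by
    have := zz ω
    rwa [hω] at this
  have ad : ∀ (T : Completion D →L[ℂ] Completion D) x y, ⟪T x, y⟫_ℂ = ⟪x, star T y⟫_ℂ :=
    fun T x y => by
      rw [ContinuousLinearMap.star_eq_adjoint, ContinuousLinearMap.adjoint_inner_right]
  have nz : ∀ x, ‖z x‖ = ‖x‖ := fun x => by
    have : ⟪z x, z x⟫_ℂ = ⟪x, x⟫_ℂ := by rw [ad, zz]
    rw [norm_eq_sqrt_re_inner (𝕜 := ℂ), norm_eq_sqrt_re_inner (𝕜 := ℂ), this]
  have hX' : ∀ A ∈ M, ∀ w : D, ⟪(w : Completion D), z (A (star z (X ω : D)))⟫_ℂ =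
      ⟪((X' w : D) : Completion D), z (A ω)⟫_ℂ := fun A hA w => by
    have := hX (z * A * star z) (by rw [M.commutant_commutant]; exact hM A hA) ω w
    simp only [ContinuousLinearMap.mul_apply, zω] at this
    exact this.symm
  let ξ : ℕ → Completion D := fun n => z (a n (star z (X ω : D)))
  have hb : ∀ n, ‖ξ n‖ ≤ √(‖((X' (X ω) : D) : Completion D)‖ * (4 * ‖Y (Y' ω)‖)) := fun n => by
    refine Real.le_sqrt_of_sq_le ?_
    have e : ⟪ξ n, ξ n⟫_ℂ = ⟪((X' (X ω) : D) : Completion D), z (star (a n) (a n ω))⟫_ℂ := by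
      have := hX' (star (a n) * a n) (mul_mem (star_mem (ha n)) (ha n)) (X ω)
      simp only [ContinuousLinearMap.mul_apply] at this
      rw [← this, ad, zz, ad, ad, star_star]
    rw [← inner_self_eq_norm_sq (𝕜 := ℂ), e]
    refine (RCLike.re_le_norm _).trans ((norm_inner_le_norm _ _).trans ?_)
    rw [nz]
    exact mul_le_mul_of_nonneg_left (h3 n ω) (norm_nonneg _)
  obtain ⟨x, hx⟩ := KEYr.weak_lim ξ _ hb
  refine ⟨x, fun w => ?_, fun η => hx _ _ ?_⟩
  · rw [← inner_conj_symm, hx w ⟪z (Y' ω : D), ((X' w : D) : Completion D)⟫_ℂ, inner_conj_symm]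
    have e : ∀ n, ⟪ξ n, (w : Completion D)⟫_ℂ = ⟪z (a n ω), ((X' w : D) : Completion D)⟫_ℂ :=
      fun n => by rw [← inner_conj_symm, hX' _ (ha n), inner_conj_symm]
    simp only [e]
    exact ((z.continuous.tendsto _).comp (KEYr.lim0 fun n => h1 n ω)).inner tendsto_const_nhds
  · have e : ∀ n, ⟪ξ n, z η⟫_ℂ = ⟪((X ω : D) : Completion D), z (star (a n) η)⟫_ℂ :=
      fun n => by rw [ad, zz, ad, ad, star_star]
    simp only [e]
    exact tendsto_const_nhds.inner ((z.continuous.tendsto _).comp (KEYr.lim0 fun n => h2 n η))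

end

end Vale.Agent.SP352
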