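import Vale.Agent.Q352.NS
import Vale.Agent.P352.BW.H266.Ana

/-! # P352, project NS, row KV: the KMS vector function -/

set_option linter.all false

open Set Filter MeasureTheory Topology Metric
open scoped BoundedContinuousFunction

namespace Vale.Agent.SP352

open P352.BW.H234U (Sc So)
open P132 (ModData expB)

namespace KVr

/-- the symbol -/
noncomputable def sy (τ : ℂ) (h : ℝ) : ℂ :=
  Complex.exp (Complex.I * τ * h) / (1 + Real.exp (h / 2) : ℝ)

theorem sy_norm (τ : ℂ) (h : ℝ) :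
    ‖sy τ h‖ = Real.exp (-τ.im * h) / (1 + Real.exp (h / 2)) := by
  rw [sy, norm_div, Complex.norm_exp, Complex.norm_real, Real.norm_of_nonneg (by positivity)]
  congr 2
  simp

theorem sy_le {τ : ℂ} (hτ : τ ∈ Sc) (h : ℝ) : ‖sy τ h‖ ≤ 1 := by
  have h1 : -(1 / 2) ≤ τ.im := hτ.1
  have h2 : τ.im ≤ 0 := hτ.2
  rw [sy_norm, div_le_one (by positivity)]
  rcases le_total 0 h with hh | hh
  · have : Real.exp (-τ.im * h) ≤ Real.exp (h / 2) := Real.exp_le_exp.2 (by nlinarith)
    linarith
  · have : Real.exp (-τ.im * h) ≤ Real.exp 0 := Real.exp_le_exp.2 (by nlinarith)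
    rw [Real.exp_zero] at this
    have := Real.exp_pos (h / 2)
    linarith

theorem sy_cont (τ : ℂ) : Continuous (sy τ) := by
  unfold sy
  refine Continuous.div (by fun_prop) (by fun_prop) fun h => ?_
  exact Complex.ofReal_ne_zero.2 (by positivity)

open Classical in
/-- the symbol as a bounded continuous function -/
noncomputable def At (τ : ℂ) : ℝ →ᵇ ℂ :=
  if hτ : τ ∈ Sc then
    BoundedContinuousFunction.ofNormedAddCommGroup (sy τ) (sy_cont τ) 1 (sy_le hτ)
  else 0

theorem at_apply {τ : ℂ} (hτ : τ ∈ Sc) (h : ℝ) : At τ h = sy τ h := by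
  rw [At, dif_pos hτ]
  rfl

theorem at_norm (τ : ℂ) : ‖At τ‖ ≤ 1 := by
  by_cases hτ : τ ∈ Sc
  · rw [BoundedContinuousFunction.norm_le zero_le_one]
    intro h
    rw [at_apply hτ]
    exact sy_le hτ h
  · rw [At, dif_neg hτ]
    simp

theorem at_diff : DifferentiableOn ℂ (fun τ => At τ) So := by
  intro τ hτ
  obtain ⟨r, hr, hsub⟩ := Metric.isOpen_iff.1 P352.BW.H234U.isOpen_So τ hτ
  refine (P352.BW.H266.diff_bcf (r := r) (C := 1) hr (fun h => ?_)
    (fun z hz h => ?_)).differentiableWithinAt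
  · have h1 : Differentiable ℂ fun τ : ℂ => sy τ h := by
      unfold sy
      fun_prop
    refine h1.differentiableOn.congr fun z hz => ?_
    exact at_apply ⟨(hsub hz).1.le, (hsub hz).2.le⟩ h
  · exact ((At z).norm_coe_le_norm h).trans (at_norm z)

theorem re_mem (t : ℝ) : (t : ℂ) ∈ Sc := ⟨by norm_num, by simp⟩

theorem lo_mem (t : ℝ) : (t : ℂ) - Complex.I / 2 ∈ Sc := ⟨by norm_num, by norm_num⟩

theorem hat (t h : ℝ) : Real.exp (h / 2) * At (t : ℂ) h = (expB t - At (t : ℂ)) h := by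
  rw [BoundedContinuousFunction.coe_sub, Pi.sub_apply, at_apply (re_mem t), sy,
    P132.expB_apply]
  have h2 : ((1 + Real.exp (h / 2) : ℝ) : ℂ) ≠ 0 := Complex.ofReal_ne_zero.2 (by positivity)
  field_simp
  push_cast
  ring_nf

theorem hat2 (t : ℝ) : At ((t : ℂ) - Complex.I / 2) = expB t - At (t : ℂ) := by
  ext h
  rw [← hat, at_apply (lo_mem t), at_apply (re_mem t), sy, sy, mul_div_assoc',
    Complex.ofReal_exp, ← Complex.exp_add]
  congr 2
  push_cast
  ring_nf
  rw [Complex.I_sq]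
  ring

variable {H : Type*} [NormedAddCommGroup H] [InnerProductSpace ℂ H] [CompleteSpace H]
variable {M : VonNeumannAlgebra H} {ξ : H}

/-- the functional calculus applied to a vector, as a continuous linear map -/
noncomputable def T (E : ModData M ξ) (v : H) : (ℝ →ᵇ ℂ) →L[ℂ] H :=
  LinearMap.mkContinuous
    { toFun := fun F => E.Th F v
      map_add' := fun F G => by rw [map_add, ContinuousLinearMap.add_apply]
      map_smul' := fun c F => by rw [map_smul, ContinuousLinearMap.smul_apply]; rfl } ‖v‖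
    (fun F => by
      rw [mul_comm]
      exact ((E.Th F).le_opNorm v).trans
        (mul_le_mul_of_nonneg_right (E.norm_Th_le F) (norm_nonneg _)))

theorem cont (E : ModData M ξ) (v : H) : ContinuousOn (fun τ => E.Th (At τ) v) Sc := by
  intro τ hτ
  refine E.tendsto_Th v (l := 𝓝[Sc] τ) (fun τ => At τ) (At τ) 1
    (Eventually.of_forall fun z x => ((At z).norm_coe_le_norm x).trans (at_norm z)) fun x => ?_
  have h1 : Continuous fun τ : ℂ => sy τ x := by
    unfold sy
    fun_prop
  have h2 : Tendsto (fun z => sy z x) (𝓝[Sc] τ) (𝓝 (sy τ x)) :=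
    (h1.tendsto τ).mono_left nhdsWithin_le_nhds
  rw [at_apply hτ]
  refine h2.congr' ?_
  filter_upwards [self_mem_nhdsWithin] with z hz
  exact (at_apply hz x).symm

end KVr

open KVr in
/-- **row KV** -/
theorem rowKV (H : Type*) [NormedAddCommGroup H] [InnerProductSpace ℂ H] [CompleteSpace H] :
    KV H := by
  intro M ξ E X hX
  have hk : ∀ t : ℝ, E.Th (At (t : ℂ)) (E.J (star X ξ)) = E.Th (expB t - At (t : ℂ)) (X ξ) :=
    fun t => E.kms X hX _ _ (fun h => (hat t h).symm)
  refine ⟨fun z => E.Th (At z) (X ξ + E.J (star X ξ)), cont E _,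
    (T E (X ξ + E.J (star X ξ))).differentiable.comp_differentiableOn at_diff,
    ⟨‖X ξ + E.J (star X ξ)‖, fun z _ => ?_⟩, fun t => ?_, fun t => ?_⟩
  · have h1 : ‖E.Th (At z)‖ ≤ 1 := (E.norm_Th_le _).trans (at_norm z)
    calc ‖E.Th (At z) (X ξ + E.J (star X ξ))‖ ≤ ‖E.Th (At z)‖ * ‖X ξ + E.J (star X ξ)‖ :=
          ContinuousLinearMap.le_opNorm _ _
      _ ≤ 1 * ‖X ξ + E.J (star X ξ)‖ := by gcongr
      _ = _ := one_mul _
  · change E.Th (At (t : ℂ)) (X ξ + E.J (star X ξ)) = E.U t (X ξ)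
    rw [map_add, hk t, ← ContinuousLinearMap.add_apply, ← map_add, add_sub_cancel]
    rfl
  · change E.Th (At ((t : ℂ) - Complex.I / 2)) (X ξ + E.J (star X ξ)) = E.U t (E.J (star X ξ))
    rw [hat2 t, map_add, ← hk t, ← ContinuousLinearMap.add_apply, ← map_add, add_sub_cancel]
    rfl

end Vale.Agent.SP352
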