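import Vale.Agent.Q352.NS

/-!
# P352, project NS: row LAU

The matrix elements of the modular group between boosted one field vectors and the vectors of the
wedge algebra are exponential polynomials.
-/

set_option linter.all false

open Filter Topology MeasureTheory
open UniformSpace (Completion)
open Complex (I)

namespace Vale.Agent.SP352

open P352.GF (V Fn Ix Fld Theory IsTest IsLor IsCutoff sim one bar mdot pd eta)
open P352.H246 (Al In Cov)
open P352.BW.H234U (Sc So isOpen_So)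
open P132 (ModData jconj)
open N352.Dn (Reg Spc cur)

noncomputable section

namespace LAUx

variable {H : Type*} [NormedAddCommGroup H] [InnerProductSpace ℂ H]

theorem nc_app {φ : ℂ → H →L[ℂ] ℂ} {k : ℂ → H} (hφ : Nc φ) (hk : Nc k) :
    Nc fun z => φ z (k z) := by
  refine ⟨hφ.cont.clm_apply hk.cont, hφ.diff.clm_apply hk.diff, ?_⟩
  obtain ⟨C, r, hC, hr, h⟩ := hφ.gr
  obtain ⟨C', r', hC', hr', h'⟩ := hk.gr
  refine ⟨C * C', r + r', mul_nonneg hC hC', add_nonneg hr hr', fun z hz => ?_⟩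
  calc ‖φ z (k z)‖ ≤ ‖φ z‖ * ‖k z‖ := (φ z).le_opNorm _
    _ ≤ (C * Real.exp (r * |z.re|)) * (C' * Real.exp (r' * |z.re|)) :=
        mul_le_mul (h z hz) (h' z hz) (norm_nonneg _) (by positivity)
    _ = _ := by rw [add_mul, Real.exp_add]; ring

theorem nc_bdd {k : ℂ → H} (h1 : ContinuousOn k Sc) (h2 : DifferentiableOn ℂ k So)
    (h3 : ∃ B : ℝ, ∀ z ∈ Sc, ‖k z‖ ≤ B) : Nc k := by
  obtain ⟨B, hB⟩ := h3
  refine ⟨h1, h2, max B 0, 0, le_max_right _ _, le_rfl, fun z hz => ?_⟩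
  simpa using Or.inl (hB z hz)

theorem nc_clm {E : Type*} [NormedAddCommGroup E] [NormedSpace ℂ E] (L : H →L[ℂ] E) {k : ℂ → H}
    (hk : Nc k) : Nc fun z => L (k z) := by
  refine ⟨L.continuous.comp_continuousOn hk.cont, L.differentiable.comp_differentiableOn hk.diff, ?_⟩
  obtain ⟨C, r, hC, hr, h⟩ := hk.gr
  refine ⟨‖L‖ * C, r, mul_nonneg (norm_nonneg _) hC, hr, fun z hz => ?_⟩
  calc ‖L (k z)‖ ≤ ‖L‖ * ‖k z‖ := L.le_opNorm _
    _ ≤ ‖L‖ * (C * Real.exp (r * |z.re|)) := mul_le_mul_of_nonneg_left (h z hz) (norm_nonneg _)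
    _ = _ := by ring

theorem nc_refl {c : ℂ → H} (hc : Nc c) :
    Nc fun z => innerSL ℂ (c (-(starRingEnd ℂ z))) := by
  have m1 : Set.MapsTo (fun z : ℂ => -(starRingEnd ℂ z)) Sc Sc := by
    intro z hz
    exact ⟨by simpa using hz.1, by simpa using hz.2⟩
  have m2 : Set.MapsTo (fun z : ℂ => -(starRingEnd ℂ z)) So So := by
    intro z hz
    exact ⟨by simpa using hz.1, by simpa using hz.2⟩
  refine ⟨?_, ?_, ?_⟩
  · exact (innerSL ℂ (E := H)).continuous.comp_continuousOn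
      (hc.cont.comp (Complex.continuous_conj.neg.continuousOn) m1)
  · intro z hz
    have h1 : DifferentiableAt ℂ c (-(starRingEnd ℂ z)) :=
      (hc.diff _ (m2 hz)).differentiableAt (isOpen_So.mem_nhds (m2 hz))
    have h2 : DifferentiableAt ℂ (fun w => c (-w)) (starRingEnd ℂ z) :=
      DifferentiableAt.comp (starRingEnd ℂ z) (g := c) (f := fun w => -w) h1
        differentiable_neg.differentiableAt
    have h3 := h2.comp_semilinear₁ (σ := starRingEnd ℂ) (starRingEnd ℂ) (innerSL ℂ (E := H))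
    rw [Complex.conj_conj] at h3
    exact h3.differentiableWithinAt
  · obtain ⟨C, r, hC, hr, h⟩ := hc.gr
    refine ⟨C, r, hC, hr, fun z hz => ?_⟩
    have := h _ (m1 hz)
    simpa using this

/-- the bilinear form of a conjugation -/
def bil (J : H ≃ₗᵢ⋆[ℂ] H) : H →L[ℂ] H →L[ℂ] ℂ :=
  (innerSL ℂ (E := H)).comp (J.toLinearIsometry.toContinuousLinearMap)

theorem bil_apply (J : H ≃ₗᵢ⋆[ℂ] H) (v w : H) : bil J v w = inner ℂ (J v) w := rfl

variable {D : Type*} [NormedAddCommGroup D] [InnerProductSpace ℂ D]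

theorem in_bo (g0 : Geo) (t : ℝ) {g : Fn} :
    (In (Wr 0) g → In (Wr 0) (cp (bo t) g)) ∧ (In (Wl 0) g → In (Wl 0) (cp (bo t) g)) := by
  constructor
  · intro hg
    have h := g0.inn 1 (bo t) 0 _ g one_pos (g0.opb.lor t) hg
    exact ⟨h.1, h.2.1, fun x hx => (g0.bow t x).1.1 (h.2.2 hx)⟩
  · intro hg
    have h := g0.inn 1 (bo t) 0 _ g one_pos (g0.opb.lor t) hg
    exact ⟨h.1, h.2.1, fun x hx => (g0.bow t x).2.1 (h.2.2 hx)⟩

theorem in_rf (g0 : Geo) {g : Fn} (hg : In (Wl 0) g) : In (Wr 0) fun x => g (rf x) := by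
  have h := g0.inr _ g hg
  exact ⟨h.1, h.2.1, fun x hx => (g0.rfw x).2.1 (h.2.2 hx)⟩

theorem zd_vac (C : Cx D) (e : ℝ) : C.zd e C.Q.vac = C.Q.vac := by
  rw [Cx.zd, C.ev, ← add_smul]
  have : ((1 + e * I) / 2 + (1 - e * I) / 2 : ℂ) = 1 := by ring
  rw [this, one_smul]

theorem zd_par (C : Cx D) {e : ℂ} (he : e = 1 ∨ e = -1) {B : Fld D} (hB : C.Par e B) {f : Fn}
    (hf : IsTest f) : C.zd 1 (B f C.Q.vac) =
      ((1 + I) / 2 + (1 - I) / 2 * e : ℂ) • B f C.Q.vac := by
  have h1 := hB.2 f C.Q.vac hf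
  rw [C.ev] at h1
  have h2 : C.G (B f C.Q.vac) = e • B f C.Q.vac := by
    have : e * e = 1 := by rcases he with rfl | rfl <;> norm_num
    conv_rhs => rw [h1, smul_smul, this, one_smul]
  rw [Cx.zd, h2, smul_smul, ← add_smul]
  simp

end LAUx

open LAUx

theorem rowLAU {D : Type*} [NormedAddCommGroup D] [InnerProductSpace ℂ D] (C : Cx D) :
    RowLAU C := by
  intro hb _ hKV hOF hGR hLP E e B he hB
  have g0 := hb.geo
  obtain ⟨B', hB', hadj⟩ := C.Q.adj B hB.1
  have hP' : C.Par e B' := hb.b2.par e B B' he hB hB' hadj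
  obtain ⟨N, hN⟩ := hGR B hB.1
  refine ⟨N, fun g hg A hA => ?_⟩
  obtain ⟨C0, hC0⟩ := hN g hg.1
  obtain ⟨c, hc, hc1, hc2⟩ := (hOF B g hB.1).2 hg
  have hh : In (Wr 0) fun x => bar g (rf x) := in_rf g0 (g0.inb _ _ hg)
  obtain ⟨b, hbn, hb1, hb2⟩ := (hOF B' _ hB').1 hh
  obtain ⟨k, hk1, hk2, hk3, hk4, hk5⟩ := hKV _ _ E A hA
  have hk : Nc k := nc_bdd hk1 hk2 hk3
  have hF := nc_app (nc_refl hc) hk
  have hG := nc_app (nc_clm (bil E.J) hk) hbn
  have hreal : ∀ t : ℝ, innerSL ℂ (c (-(starRingEnd ℂ (t : ℂ)))) (k t) =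
      inner ℂ ((B (cp (bo (-t)) g) C.Q.vac : D) : Completion D) (E.U t (A C.om)) := by
    intro t
    rw [Complex.conj_ofReal, ← Complex.ofReal_neg, hc1, hk4, innerSL_apply_apply]
  have key := hLP _ _ e N (C0 * ‖A C.om‖) hF hG he ?_ ?_ ?_
  · simpa only [hreal] using key
  · intro t
    have e1 : -(starRingEnd ℂ ((t : ℂ) - I / 2)) = ((-t : ℝ) : ℂ) - I / 2 := by
      rw [map_sub, map_div₀, Complex.conj_ofReal, Complex.conj_I, map_ofNat, Complex.ofReal_neg]
      ring
    have hf : In (Wr 0) (cp (bo (-t)) fun x => g (rf x)) := (in_bo g0 (-t)).1 (in_rf g0 hg)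
    have hal := Al.fld (Q := C.Q) (W := Wr 0) B B' _ _ _ hB.1 hB' hadj hf Al.one
    have haf := hb.nt.symm _ _ _ (hb.nt.af _ _ _ (g0.opn 0).1 hal)
    have hY : jconj E.J (star (E.sg t A)) ∈ (C.MA (Wr 0)).commutant :=
      E.J_mem _ (star_mem (E.sg_mem hA t))
    have h1 := haf _ hY C.Q.vac C.Q.vac
    have h2 : jconj E.J (star (E.sg t A)) (C.Q.vac : D) = E.U t (E.J (star A C.om)) := by
      change jconj E.J (star (E.sg t A)) C.om = _
      rw [P132.jconj_apply, E.J_xi, E.star_sg, E.sg_xi, E.J_U]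
    have h3 : ∀ y : Completion D, inner ℂ ((C.Q.vac : D) : Completion D)
        (jconj E.J (star (E.sg t A)) y) = inner ℂ (E.J (E.U t (A C.om))) y := by
      intro y
      rw [← E.star_jconj, ContinuousLinearMap.star_eq_adjoint,
        ContinuousLinearMap.adjoint_inner_right]
      change inner ℂ (jconj E.J (E.sg t A) C.om) y = _
      rw [P132.jconj_apply, E.J_xi, E.sg_xi]
    rw [h2, h3] at h1
    simp only [e1, hc2, hk5, innerSL_apply_apply, bil_apply, hk4, hb1]
    exact h1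
  · intro t
    have hf : In (Wl 0) (cp (bo (-t)) g) := (in_bo g0 (-t)).2 hg
    have hal := Al.fld (Q := C.Q) (W := Wl 0) B B' _ _ _ hB.1 hB' hadj hf Al.one
    have haf := hb.nt.symm _ _ _ (hb.nt.tw (Wr 0) _ _ _ (g0.opn 0).2 (g0.spc 0).1 hal)
    have hY : E.sg t A ∈ (C.MA (Wr 0)).commutant.commutant := by
      rw [VonNeumannAlgebra.commutant_commutant]
      exact E.sg_mem hA t
    have h1 := haf _ hY C.Q.vac C.Q.vac
    simp only [Cx.tw, zd_vac] at h1
    rw [zd_par C he hB hf.1, zd_par C he hP' (g0.tb _ hf.1), Completion.coe_smul,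
      Completion.coe_smul, map_smul, inner_smul_left, inner_smul_right] at h1
    have h2 : E.sg t A (C.Q.vac : D) = E.U t (A C.om) := E.sg_xi t A
    have h3 : ∀ y : Completion D, inner ℂ ((C.Q.vac : D) : Completion D) (E.sg t A y) =
        inner ℂ (E.J (E.U t (E.J (star A C.om)))) y := by
      intro y
      rw [E.J_U, E.J_J, ← E.sg_xi, ← E.star_sg, ContinuousLinearMap.star_eq_adjoint,
        ContinuousLinearMap.adjoint_inner_left]
      rfl
    rw [h2, h3] at h1
    have e2 : (cp (bo (-t)) fun x => (fun x => bar g (rf x)) (rf x)) = bar (cp (bo (-t)) g) := by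
      funext x
      simp only [cp, g0.rfr, bar]
    simp only [hreal, bil_apply, hk5, hb2, e2]
    rcases he with rfl | rfl
    · have : ((1 + I) / 2 + (1 - I) / 2 * 1 : ℂ) = 1 := by ring
      rw [this] at h1
      simpa using h1.symm
    · have : ((1 + I) / 2 + (1 - I) / 2 * (-1) : ℂ) = I := by ring
      rw [this, Complex.conj_I] at h1
      refine mul_left_cancel₀ Complex.I_ne_zero ?_
      rw [← h1]
      ring
  · intro t
    rw [hreal]
    calc _ ≤ ‖((B (cp (bo (-t)) g) C.Q.vac : D) : Completion D)‖ * ‖E.U t (A C.om)‖ :=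
          norm_inner_le_norm _ _
      _ ≤ (C0 * Real.exp (Real.pi * N * |t|)) * ‖A C.om‖ := by
          rw [E.norm_U, Completion.norm_coe]
          refine mul_le_mul_of_nonneg_right ?_ (norm_nonneg _)
          simpa only [abs_neg] using hC0 (-t)
      _ = _ := by ring

end

end Vale.Agent.SP352
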