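import Vale.Agent.Q352.NS

/-!
# Row LB: the generator of the rotations on the vectors of the polynomial algebra
-/

set_option linter.all false

open Filter Topology MeasureTheory
open UniformSpace (Completion)
open Complex (I)

namespace Vale.Agent.SP352

open P352.GF (V Fn Ix Fld Theory IsTest IsLor IsCutoff sim one bar mdot pd eta)
open P352.H246 (Al In Cov)
open N352.Dn (Reg Spc cur)

namespace LB

variable {D : Type*} [NormedAddCommGroup D] [InnerProductSpace ℂ D]

/-- the commutant of the algebra of an invariant region is invariant -/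
theorem conj_mem {C : Cx D} (h : Bs C) (hU : UG (C.Vg ro)) {O : Set V}
    (hO : ∀ t, sim 1 (ro t) 0 '' O = O) (t : ℝ) {Y : Completion D →L[ℂ] Completion D}
    (hY : Y ∈ (C.MA O).commutant) : C.Vg ro t * Y * C.Vg ro (-t) ∈ (C.MA O).commutant := by
  rw [VonNeumannAlgebra.mem_commutant_iff] at hY ⊢
  intro Z hZ
  have h1 := h.nt.vg ro (-t) O Z h.geo.opr hZ
  rw [hO, neg_neg] at h1
  have h2 := hY _ h1
  have e1 : C.Vg ro t * C.Vg ro (-t) = 1 := by rw [← hU.add, add_neg_cancel, hU.zero]
  calc Z * (C.Vg ro t * Y * C.Vg ro (-t))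
      = (C.Vg ro t * C.Vg ro (-t)) * Z * (C.Vg ro t * Y * C.Vg ro (-t)) := by rw [e1, one_mul]
    _ = C.Vg ro t * (C.Vg ro (-t) * Z * C.Vg ro t * Y) * C.Vg ro (-t) := by
      simp only [mul_assoc]
    _ = C.Vg ro t * Y * C.Vg ro (-t) * Z * (C.Vg ro t * C.Vg ro (-t)) := by
      rw [h2]; simp only [mul_assoc]
    _ = _ := by rw [e1, mul_one]

theorem sub_of {C : Cx D} (h : Bs C) {W : Set V} {X X' : D → D} (hX : Al C.Q W X X') (v w : D) :
    X (v - w) = X v - X w := by
  rw [eq_sub_iff_add_eq, ← h.b2.add W X X' hX, sub_add_cancel]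

end LB

theorem rowLB {D : Type*} [NormedAddCommGroup D] [InnerProductSpace ℂ D] (C : Cx D) :
    RowLB C := by
  intro h hD hU h0 F O hF hO
  filter_upwards [h0 F O hF hO, eventually_gt_atTop 0] with R hR hR0
  have hq := h.b2.qr F R hF hR0
  generalize C.qr (F R) = q at hR hq ⊢
  obtain ⟨K, hK, -, hqK⟩ := h.b2.cpt _ _ _ hq
  obtain ⟨O', S, hO', hsub, hinv, hS, hSn, hsp⟩ := h.geo.cyl (O ∪ K) (hO.2.union hK.isBounded)
  have aq : Af (C.MA O') q q :=
    h.nt.af _ _ _ hO'.1 (h.b2.mono _ _ _ _ (Set.subset_union_right.trans hsub) hqK)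
  have hv : ∀ e, C.Vg ro e (C.Q.vac : D) = (C.Q.vac : D) := fun e => h.b1.vvac ro e h.geo.opr
  intro X X' hX
  induction hX with
  | one =>
    simp only [hv, sub_self, Completion.coe_zero, smul_zero]
    exact hasDerivAt_const _ _
  | add X X' Y Y' _ _ ih ih' =>
    simp only [Completion.coe_add, map_add]
    refine (ih.fun_add ih').congr_deriv ?_
    rw [h.b2.add _ _ _ hq, ← smul_add, ← Completion.coe_add]
    congr 2
    abel
  | smul c X X' _ ih =>
    simp only [Completion.coe_smul, map_smul]
    refine (ih.fun_const_smul c).congr_deriv ?_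
    rw [h.b2.smul _ _ _ hq, ← smul_sub, Completion.coe_smul, smul_comm]
  | fld A B g X X' hA hB hadj hg hX ih =>
    have hAg : Al C.Q O (fun v => A g v) fun v => B (bar g) v :=
      Al.fld A B g _ _ hA hB hadj hg Al.one
    have aA : Af (C.MA O') (fun v => A g v) fun v => B (bar g) v :=
      h.nt.af _ _ _ hO'.1 (h.b2.mono _ _ _ _ (Set.subset_union_left.trans hsub) hAg)
    have hb := hR B (bar g) hB (h.geo.inb O g hg)
    refine hD _ _ _ _ hU (h.nt.cyc' O' S hS hSn hsp) ?_ ?_
    · rintro t _ ⟨Y, hY, rfl⟩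
      refine ⟨_, LB.conj_mem h hU hinv t hY, ?_⟩
      rw [ContinuousLinearMap.mul_apply, ContinuousLinearMap.mul_apply,
        h.b1.vvac ro _ h.geo.opr]
    · rintro _ ⟨Y, hY, rfl⟩
      have hZ : star Y ∈ (C.MA O').commutant := star_mem hY
      have adj : ∀ (T : Completion D →L[ℂ] Completion D) a b,
          inner ℂ (T a) b = inner ℂ a (star T b) := fun T a b => by
        rw [ContinuousLinearMap.star_eq_adjoint, ContinuousLinearMap.adjoint_inner_right]
      have e : (fun t => inner ℂ (Y C.om) (C.Vg ro t (A g (X C.Q.vac) : D))) = fun t =>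
          inner ℂ (C.Vg ro t (B (bar g) C.Q.vac : D)) (star Y (C.Vg ro t (X C.Q.vac : D))) := by
        funext t
        have h1 := LB.conj_mem h hU hinv (-t) hZ
        rw [neg_neg] at h1
        have h2 := aA _ h1 (X C.Q.vac) C.Q.vac
        simp only [ContinuousLinearMap.mul_apply] at h2
        rw [adj (C.Vg ro t), hU.adj, h2, ← hU.adj, ← adj, hv, adj Y]
        rfl
      rw [e]
      have d := hb.inner ℂ
        (((star Y).restrictScalars ℝ).hasFDerivAt.comp_hasDerivAt (0 : ℝ) ih)
      simp only [hU.zero, Function.comp_def, ContinuousLinearMap.coe_restrictScalars',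
        ContinuousLinearMap.one_apply] at d
      refine d.congr_deriv (Eq.symm ?_)
      have a1 := aA _ hZ
      have a2 := aq _ hZ
      beta_reduce at a1
      rw [adj Y, map_smul, map_smul, inner_smul_right, inner_smul_right, inner_smul_left, a1,
        LB.sub_of h hAg]
      simp only [Completion.coe_sub, map_sub, inner_sub_left, inner_sub_right, a1, a2,
        Complex.conj_I, Cx.om]
      ring

end Vale.Agent.SP352
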