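import Vale.Agent.Q352.NS

/-!
# P352, project NS, row LB0: the generator of the rotations on one field vectors
-/

set_option linter.all false

open Filter Topology
open UniformSpace (Completion)
open Complex (I)

namespace Vale.Agent.SP352

open P352.GF (V Fn Ix Fld Theory IsTest IsLor IsCutoff Sep sim one bar mdot pd eta ev o)
open P352.H246 (In)
open N352.Dn (Reg cur)

namespace LB0

variable {D : Type*} [NormedAddCommGroup D] [InnerProductSpace ℂ D]

theorem test_coord {g : Fn} (hg : IsTest g) (c : ℂ) (k : Ix) :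
    IsTest fun x => c * (x k : ℂ) * g x := by
  obtain ⟨g, rfl⟩ := hg
  have h : Function.HasTemperateGrowth fun x : V => ((x k : ℝ) : ℂ) :=
    (Complex.ofRealCLM.comp (ContinuousLinearMap.proj (R := ℝ) (φ := fun _ : Ix => ℝ) k)
      ).hasTemperateGrowth
  refine ⟨c • SchwartzMap.smulLeftCLM ℂ (fun x : V => ((x k : ℝ) : ℂ)) g, funext fun x => ?_⟩
  simp only [ev, SchwartzMap.smul_apply, SchwartzMap.smulLeftCLM_apply_apply h, smul_eq_mul,
    mul_assoc]

theorem test_xr {g : Fn} (hg : IsTest g) (n : Ix) :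
    IsTest fun x => (eta n : ℂ) * xr x n * g x := by
  fin_cases n
  · simpa [xr] using test_coord hg 0 0
  · simpa [xr] using test_coord hg (-(eta 1 : ℂ)) 2
  · simpa [xr] using test_coord hg (eta 2 : ℂ) 1
  · simpa [xr] using test_coord hg 0 0

theorem test_sub {f g : Fn} (hf : IsTest f) (hg : IsTest g) : IsTest fun x => f x - g x := by
  obtain ⟨f, rfl⟩ := hf
  obtain ⟨g, rfl⟩ := hg
  exact ⟨f - g, funext fun x => by simp [ev]⟩

/-- a smeared field is additive -/
def fm {Q : Theory D} {B : Fld D} {f : Fn} (hB : Q.fld B) (hf : IsTest f) : D →+ D :=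
  AddMonoidHom.mk' (B f) fun u w => by
    obtain ⟨B', -, h⟩ := Q.adj B hB
    refine ext_inner_right ℂ fun z => ?_
    rw [inner_add_left, h f _ _ hf, h f _ _ hf, h f _ _ hf, inner_add_left]

/-- two large cutoffs differ only at spacelike distance -/
theorem far {F : ℝ → Fn} (hF : IsCutoff F) {O : Set V} (hO : Bornology.IsBounded O) :
    ∃ R0 > 0, ∀ R R', R0 ≤ R → R0 ≤ R' → ∀ h f : Fn, (∀ x, F R x = F R' x → h x = 0) →
      tsupport f ⊆ O → Sep h f := by
  obtain ⟨a, c, ha, -, -, hc, hF⟩ := hF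
  obtain ⟨A, hA0, hA⟩ := ha.isCompact.isBounded.subset_closedBall_lt 0 0
  obtain ⟨δ, hδ, hc⟩ := Metric.eventually_nhds_iff.1 hc
  obtain ⟨ρ, hρ0, hρ⟩ := hO.subset_closedBall_lt 0 0
  have hM : 0 < A + 2 * ρ + 1 := by positivity
  refine ⟨(A + 2 * ρ + 1) / δ, by positivity, fun R R' hR hR' h f hh hf => ?_⟩
  have hcl : IsClosed {x : V | |x 0| ≤ A ∧ ∃ k, k ≠ 0 ∧ A + 2 * ρ + 1 ≤ |x k|} := by
    refine (isClosed_le (f := fun x : V => |x 0|) (by fun_prop) continuous_const).inter ?_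
    have : {x : V | ∃ k, k ≠ 0 ∧ A + 2 * ρ + 1 ≤ |x k|} =
        ⋃ k, {x : V | k ≠ 0 ∧ A + 2 * ρ + 1 ≤ |x k|} := by ext; simp
    show IsClosed {x : V | ∃ k, k ≠ 0 ∧ A + 2 * ρ + 1 ≤ |x k|}
    rw [this]
    refine isClosed_iUnion_of_finite fun k => ?_
    exact isClosed_const.inter
      (isClosed_le (g := fun x : V => |x k|) continuous_const (by fun_prop))
  have hs : tsupport h ⊆ {x : V | |x 0| ≤ A ∧ ∃ k, k ≠ 0 ∧ A + 2 * ρ + 1 ≤ |x k|} := by
    refine closure_minimal (fun x hx => ?_) hcl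
    by_contra hn
    refine hx (hh x ?_)
    have p : ∀ R, (A + 2 * ρ + 1) / δ ≤ R → 0 < R := fun R hR => lt_of_lt_of_le (by positivity) hR
    rw [(hF R (p R hR)).2, (hF R' (p R' hR')).2]
    by_cases h0 : |x 0| ≤ A
    · have h1 : ∀ k, k ≠ 0 → |x k| < A + 2 * ρ + 1 := fun k hk =>
        lt_of_not_ge fun h1 => hn ⟨h0, k, hk, h1⟩
      have h2 : ∀ R, (A + 2 * ρ + 1) / δ ≤ R → c (fun n => if n = o then 0 else x n / R) = 1 := by
        intro R hR
        refine hc ?_
        rw [dist_zero_right, pi_norm_lt_iff hδ]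
        intro k
        split_ifs with hk
        · simpa using hδ
        · rw [Real.norm_eq_abs, abs_div, abs_of_pos (p R hR), div_lt_iff₀ (p R hR)]
          rw [div_le_iff₀ hδ] at hR
          linarith [h1 k hk]
      rw [h2 R hR, h2 R' hR']
    · have : a (x o) = 0 := by
        by_contra h1
        exact h0 (by simpa [o] using hA (subset_tsupport _ h1))
      simp [this]
  intro x hx y hy
  obtain ⟨h0, k, hk, h1⟩ := hs hx
  have hy' : ∀ m, |y m| ≤ ρ := fun m =>
    (norm_le_pi_norm y m).trans (by simpa using hρ (hf hy))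
  have e0 : (x 0 - y 0) ^ 2 ≤ (A + ρ) ^ 2 :=
    sq_le_sq.2 (((abs_sub _ _).trans (add_le_add h0 (hy' 0))).trans (le_abs_self _))
  have e1 : (A + ρ) ^ 2 < (x k - y k) ^ 2 := by
    refine sq_lt_sq.2 ?_
    rw [abs_of_pos (by positivity)]
    linarith [abs_sub_abs_le_abs_sub (x k) (y k), hy' k]
  simp only [mdot, eta, o, Fin.sum_univ_four]
  simp only [Fin.isValue, ↓reduceIte, one_ne_zero, Fin.reduceEq]
  have s1 := sq_nonneg (x 1 - y 1)
  have s2 := sq_nonneg (x 2 - y 2)
  have s3 := sq_nonneg (x 3 - y 3)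
  fin_cases k
  · exact absurd rfl hk
  all_goals
    simp only [Fin.reduceFinMk, Fin.mk_one] at e1
    nlinarith

/-- the commutator does not depend on the cutoff -/
theorem const (C : Cx D) {F : ℝ → Fn} (hF : IsCutoff F) {O : Set V} (hO : Bornology.IsBounded O) :
    ∃ R0, ∀ R R', R0 ≤ R → R0 ≤ R' → ∀ B f v, C.Q.fld B → In O f →
      C.qr (F R) (B f v) - B f (C.qr (F R) v) = C.qr (F R') (B f v) - B f (C.qr (F R') v) := by
  obtain ⟨R0, h0, h⟩ := far hF hO
  refine ⟨R0, fun R R' hR hR' B f v hB hf => ?_⟩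
  obtain ⟨a, c, -, -, -, -, hF⟩ := hF
  have t := (hF R (h0.trans_le hR)).1
  have t' := (hF R' (h0.trans_le hR')).1
  have l : ∀ u, B f u = fm hB hf.1 u := fun _ => rfl
  simp only [Cx.qr, cur]
  rw [l (∑ i, _), l (∑ i, _), map_sum, map_sum, ← Finset.sum_sub_distrib, ← Finset.sum_sub_distrib]
  refine Finset.sum_congr rfl fun n _ => ?_
  have b := C.st.bose o n
  have d := test_sub (test_xr t n) (test_xr t' n)
  have e : ∀ u, C.T o n (fun x => (eta n : ℂ) * xr x n * F R x) u =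
      C.T o n (fun x => (eta n : ℂ) * xr x n * F R' x) u +
      C.T o n (fun x => (eta n : ℂ) * xr x n * F R x - (eta n : ℂ) * xr x n * F R' x) u := by
    intro u
    have := C.Q.lin _ _ _ 1 u (C.Q.bose_fld _ b) (test_xr t' n) d
    rw [one_smul] at this
    rw [← this]
    congr 1
    funext x
    ring
  have k := C.Q.loc _ _ _ _ v b hB d hf.1
    (h R R' hR hR' _ f (fun x e => by rw [e, sub_self]) hf.2.2)
  rw [e, e, map_add, k]
  simp only [← l]
  abel

/-- the lift agrees with the representation near the identity -/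
theorem agree (C : Cx D) (b : Bs C) (u : UG (C.Vg ro)) (ψ : D)
    (h : ∀ w, ContinuousAt (fun e => inner ℂ w (C.Q.U 1 (ro e) 0 ψ)) 0) :
    ∀ᶠ e in 𝓝 (0 : ℝ), C.Vg ro e ψ = (C.Q.U 1 (ro e) 0 ψ : D) := by
  have lo := b.geo.opr.lor
  by_cases h0 : C.G ψ = ψ
  · refine Eventually.of_forall fun e => ?_
    rcases b.b1.vu ro e b.geo.opr with k | k
    · rw [k, b.b1.coe _ _ _ _ one_pos (lo e)]
    · rw [k, b.b1.gu _ _ _ one_pos (lo e), ContinuousLinearMap.mul_apply, C.net.ext, h0,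
        b.b1.coe _ _ _ _ one_pos (lo e)]
  set φ : D := ψ + (-1 : ℂ) • C.G ψ with hφ
  have hG : C.G φ = (-1 : ℂ) • φ := by
    rw [hφ, b.b1.gadd, b.b1.gsmul, C.gr.inv]
    module
  have hne : φ ≠ 0 := fun e => h0 (by
    rw [hφ, neg_one_smul, ← sub_eq_add_neg, sub_eq_zero] at e
    exact e.symm)
  have hp : 0 < (inner ℂ φ φ).re := by
    have := inner_self_eq_norm_sq (𝕜 := ℂ) φ
    rw [RCLike.re_to_complex] at this
    rw [this]
    positivity
  have c1 : ContinuousAt (fun e => (inner ℂ (φ : Completion D) (C.Vg ro e φ)).re) 0 :=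
    (Complex.continuous_re.comp (continuous_const.inner (u.cont _))).continuousAt
  have c2 : ContinuousAt (fun e => (inner ℂ φ (C.Q.U 1 (ro e) 0 φ)).re) 0 := by
    have e : ∀ e, inner ℂ φ (C.Q.U 1 (ro e) 0 φ) = inner ℂ φ (C.Q.U 1 (ro e) 0 ψ) +
        (-1 : ℂ) * inner ℂ (C.G φ) (C.Q.U 1 (ro e) 0 ψ) := fun e => by
      conv_lhs => rw [hφ]
      rw [b.b1.uadd _ _ _ _ _ one_pos (lo e), b.b1.usmul _ _ _ _ _ one_pos (lo e),
        C.gr.GU _ _ _ _ one_pos (lo e), inner_add_right, inner_smul_right, ← C.gr.herm]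
    simp only [e]
    exact Complex.continuous_re.continuousAt.comp ((h φ).add (continuousAt_const.mul (h _)))
  have p1 := c1.eventually (lt_mem_nhds (a := (0 : ℝ)) (by
    simpa only [u.zero, ContinuousLinearMap.one_apply, Completion.inner_coe] using hp))
  have p2 := c2.eventually (lt_mem_nhds (a := (0 : ℝ)) (by
    simpa only [b.geo.opr.zero, b.b1.u1] using hp))
  filter_upwards [p1, p2] with e p1 p2
  rcases b.b1.vu ro e b.geo.opr with k | k
  · rw [k, b.b1.coe _ _ _ _ one_pos (lo e)]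
  · exfalso
    rw [k, b.b1.gu _ _ _ one_pos (lo e), ContinuousLinearMap.mul_apply, C.net.ext, hG,
      b.b1.coe _ _ _ _ one_pos (lo e), b.b1.usmul _ _ _ _ _ one_pos (lo e), Completion.inner_coe,
      inner_smul_right] at p1
    simp only [neg_mul, one_mul, Complex.neg_re] at p1
    linarith

end LB0

open LB0 in
theorem rowLB0 {D : Type*} [NormedAddCommGroup D] [InnerProductSpace ℂ D] (C : Cx D) :
    RowLB0 C := by
  intro b der u F O hF hO
  obtain ⟨R0, h⟩ := const C hF hO.2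
  filter_upwards [eventually_ge_atTop R0] with R hR B f hB hf
  have g := fun w => C.pg ro (fun _ => 0) xr b.geo.opr.zero rfl b.geo.opr.lor b.geo.isim b.geo.der
    F B f w hF hB ⟨hf.1, hf.2.1, Set.subset_univ _⟩
  have k : ∀ w, HasDerivAt (fun e => inner ℂ w (C.Q.U 1 (ro e) 0 (B f C.Q.vac)))
      (I * inner ℂ w (C.qr (F R) (B f C.Q.vac) - B f (C.qr (F R) C.Q.vac))) 0 := fun w => by
    obtain ⟨c, h1, h2⟩ := g w
    obtain rfl : c = inner ℂ w (C.qr (F R) (B f C.Q.vac) - B f (C.qr (F R) C.Q.vac)) := by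
      refine tendsto_nhds_unique h1 (tendsto_const_nhds.congr' ?_)
      filter_upwards [eventually_ge_atTop R0] with R' hR'
      exact congrArg _ (h R R' hR hR' B f _ hB hf)
    exact h2
  refine der _ (Set.range ((↑) : D → Completion D)) _ _ u Completion.denseRange_coe ?_ ?_
  · rintro t _ ⟨v, rfl⟩
    exact ⟨_, (b.b1.vcoe ro t v b.geo.opr).symm⟩
  · rintro _ ⟨w, rfl⟩
    rw [inner_smul_right, Completion.inner_coe]
    refine (k w).congr_of_eventuallyEq ?_
    filter_upwards [agree C b u _ fun w => (k w).continuousAt] with e he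
    rw [he, Completion.inner_coe]

end Vale.Agent.SP352
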