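import Vale.Agent.Q352.NS

/-!
# P352, project NS: row LP (periodic continuation)
-/

set_option linter.all false

open Filter Topology MeasureTheory Set
open Complex (I exp)

namespace Vale.Agent.SP352

open P352.BW.H234U (Sc So)

namespace LPr

/-- a continuous periodic function with finitely many Fourier coefficients -/
theorem fourier_fin {T : ℝ} (hT : 0 < T) {ψ : ℝ → ℂ} (h0 : ψ 0 = ψ T)
    (hc : ContinuousOn ψ (Icc 0 T)) (s : Finset ℤ)
    (hn : ∀ n ∉ s, ∫ y in (0:ℝ)..T, exp (2 * Real.pi * I * (-n : ℤ) * y / T) * ψ y = 0) :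
    ψ 0 = ∑ n ∈ s, (1 / T : ℝ) • ∫ y in (0:ℝ)..T,
      exp (2 * Real.pi * I * (-n : ℤ) * y / T) * ψ y := by
  have : Fact (0 < T) := ⟨hT⟩
  let F : C(AddCircle T, ℂ) := ⟨AddCircle.liftIco T 0 ψ, AddCircle.liftIco_zero_continuous h0 hc⟩
  have hF : ∀ n : ℤ, fourierCoeff F n
      = (1 / T : ℝ) • ∫ y in (0:ℝ)..T, exp (2 * Real.pi * I * (-n : ℤ) * y / T) * ψ y := by
    intro n
    have h2 : fourierCoeff F n = fourierCoeff (AddCircle.liftIco T 0 ψ) n := rfl
    rw [h2, fourierCoeff_eq_intervalIntegral _ _ 0]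
    congr 1
    rw [zero_add]
    refine intervalIntegral.integral_congr_Ioo_of_le hT.le fun x hx => ?_
    rw [AddCircle.liftIco_zero_coe_apply (Ioo_subset_Ico_self hx), fourier_coe_apply, smul_eq_mul]
  have hz : ∀ n ∉ s, fourierCoeff F n = 0 := fun n hn0 => by rw [hF, hn n hn0, smul_zero]
  have h3 := has_pointwise_sum_fourier_series_of_summable (summable_of_ne_finset_zero hz)
    ((0 : ℝ) : AddCircle T)
  have h4 : HasSum (fun i => fourierCoeff F i • fourier i ((0 : ℝ) : AddCircle T))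
      (∑ i ∈ s, fourierCoeff F i • fourier i ((0 : ℝ) : AddCircle T)) :=
    hasSum_sum_of_ne_finset_zero fun n hn0 => by rw [hz n hn0, zero_smul]
  have h6 : F ((0 : ℝ) : AddCircle T) = ψ 0 := AddCircle.liftIco_zero_coe_apply ⟨le_rfl, hT⟩
  rw [← h6, h3.unique h4]
  refine Finset.sum_congr rfl fun n _ => ?_
  rw [hF, fourier_coe_apply]
  simp

theorem mem_sc (x y : ℝ) (hy : y ∈ Icc (0 : ℝ) (1 / 2)) : (x + y * I - I / 2 : ℂ) ∈ Sc := by
  have e : (x + y * I - I / 2 : ℂ).im = y - 1 / 2 := by simp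
  constructor <;> rw [e] <;> linarith [hy.1, hy.2]

/-- vertical integrals of a periodic function -/
theorem vert {H : ℂ → ℂ} (h1 : ContinuousOn H Sc) (h2 : DifferentiableOn ℂ H So)
    (h3 : ∀ s : ℝ, H (s - I / 2) = H s) (a b : ℝ) :
    ∫ y in (0:ℝ)..(1 / 2), H (a + y * I - I / 2) = ∫ y in (0:ℝ)..(1 / 2), H (b + y * I - I / 2) := by
  have key := Complex.integral_boundary_rect_eq_zero_of_continuousOn_of_differentiableOn
    (fun z => H (z - I / 2)) ⟨a, 0⟩ ⟨b, 1 / 2⟩ ?_ ?_
  · have e5 : (∫ x : ℝ in a..b, H (x + (0 : ℝ) * I - I / 2)) =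
        ∫ x : ℝ in a..b, H (x + (1 / 2 : ℝ) * I - I / 2) := by
      refine intervalIntegral.integral_congr fun x _ => ?_
      have e1 : (x + (0 : ℝ) * I - I / 2 : ℂ) = x - I / 2 := by simp
      have e2 : (x + (1 / 2 : ℝ) * I - I / 2 : ℂ) = x := by push_cast; ring
      simp only [e1, e2, h3]
    simp only at key
    rw [e5, sub_self, zero_add, ← smul_sub, smul_eq_mul, mul_eq_zero] at key
    exact (sub_eq_zero.1 (key.resolve_left Complex.I_ne_zero)).symm
  · refine h1.comp (by fun_prop) fun z hz => ?_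
    have hz2 : z.im ∈ uIcc (0:ℝ) (1 / 2) := hz.2
    rw [uIcc_of_le (by norm_num)] at hz2
    have := mem_sc z.re z.im hz2
    rwa [Complex.re_add_im] at this
  · refine h2.comp (by fun_prop) fun z hz => ?_
    have hz2 : z.im ∈ Ioo (min (0:ℝ) (1 / 2)) (max 0 (1 / 2)) := hz.2
    rw [min_eq_left (by norm_num), max_eq_right (by norm_num)] at hz2
    have e : (z - I / 2).im = z.im - 1 / 2 := by simp
    constructor <;> rw [e] <;> linarith [hz2.1, hz2.2]

theorem eq_zero {c : ℂ} {C r κ : ℝ} (hr : r < |κ|)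
    (h : ∀ x : ℝ, ‖c‖ ≤ C * Real.exp (r * |x| - κ * x)) : c = 0 := by
  have h1 : ∀ u : ℝ, 0 ≤ u → ‖c‖ ≤ C * Real.exp (-((|κ| - r) * u)) := fun u hu => by
    rcases le_total 0 κ with hk | hk
    · have := h u
      rw [abs_of_nonneg hu] at this
      rw [abs_of_nonneg hk]
      convert this using 3
      ring
    · have := h (-u)
      rw [abs_neg, abs_of_nonneg hu] at this
      rw [abs_of_nonpos hk]
      convert this using 3
      ring
  have h5 : Tendsto (fun u : ℝ => -((|κ| - r) * u)) atTop atBot :=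
    tendsto_neg_atTop_atBot.comp (tendsto_id.const_mul_atTop (sub_pos.2 hr))
  have h6 := (Real.tendsto_exp_atBot.comp h5).const_mul C
  rw [mul_zero] at h6
  exact norm_le_zero_iff.1 (ge_of_tendsto h6 ((eventually_ge_atTop 0).mono h1))

theorem single (k : ℤ) (c : ℂ) :
    EN k.natAbs fun t => c * (Real.exp (Real.pi * k * t) : ℝ) := by
  classical
  refine ⟨fun j => if j = k then c else 0, fun t => ?_⟩
  rw [Finset.sum_eq_single k]
  · simp
  · intro j _ hj
    simp [hj]
  · intro hk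
    exact absurd (Finset.mem_Icc.2 ⟨by omega, by omega⟩) hk

theorem add (E : ENs) {F G : ℝ → ℂ} (hF : ∃ K, EN K F) (hG : ∃ K, EN K G) :
    ∃ K, EN K fun t => F t + G t := by
  obtain ⟨K, hF⟩ := hF
  obtain ⟨L, hG⟩ := hG
  exact ⟨K + L, E.add _ _ _ (E.mono _ _ _ (by omega) hF) (E.mono _ _ _ (by omega) hG)⟩

theorem sum (E : ENs) (k : ℤ → ℤ) (c : ℤ → ℂ) (s : Finset ℤ) :
    ∃ K, EN K fun t => ∑ n ∈ s, c n * (Real.exp (Real.pi * k n * t) : ℝ) := by
  classical
  induction s using Finset.induction_on with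
  | empty => exact ⟨0, by simpa using E.const 0 0⟩
  | insert a s ha ih =>
    simp only [Finset.sum_insert ha]
    exact add E ⟨_, single (k a) (c a)⟩ ih

/-- functions that are periodic up to a fourth root of unity -/
theorem core (E : ENs) {h : ℂ → ℂ} (hN : Nc h) (m : ℤ)
    (hp : ∀ t : ℝ, h (t - I / 2) = exp (-(Real.pi * m * (I / 2))) * h t) :
    ∃ K, EN K fun t => h t := by
  obtain ⟨C, r, hC, hr, hb⟩ := hN.gr
  let g : ℤ → ℂ → ℂ := fun n w => h w * exp (-(Real.pi * (m + 4 * n) * w))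
  have g1 : ∀ n, ContinuousOn (g n) Sc := fun n => hN.cont.mul (by fun_prop)
  have g2 : ∀ n, DifferentiableOn ℂ (g n) So := fun n => hN.diff.mul (by fun_prop)
  have g3 : ∀ n (s : ℝ), g n (s - I / 2) = g n s := fun n s => by
    simp only [g]
    rw [hp, mul_comm (exp _) (h _), mul_assoc, ← Complex.exp_add]
    congr 1
    rw [Complex.exp_eq_exp_iff_exists_int]
    exact ⟨n, by ring⟩
  let c : ℤ → ℂ := fun n => ∫ y in (0:ℝ)..(1 / 2), g n ((0 : ℝ) + y * I - I / 2)
  have hc : ∀ n (x : ℝ), ∫ y in (0:ℝ)..(1 / 2), g n (x + y * I - I / 2) = c n := fun n x =>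
    vert (g1 n) (g2 n) (g3 n) x 0
  have hz : ∀ n : ℤ, r < |Real.pi * (m + 4 * n)| → c n = 0 := fun n hn => by
    refine eq_zero (C := C * |1 / 2 - 0|) hn fun x => ?_
    rw [← hc n x, mul_right_comm]
    refine intervalIntegral.norm_integral_le_of_norm_le_const fun y hy => ?_
    rw [uIoc_of_le (by norm_num)] at hy
    have h1 := hb _ (mem_sc x y ⟨hy.1.le, hy.2⟩)
    have e1 : (x + y * I - I / 2 : ℂ).re = x := by simp
    have e2 : (-(Real.pi * (m + 4 * n) * (x + y * I - I / 2)) : ℂ).re =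
        -(Real.pi * (m + 4 * n) * x) := by simp
    rw [e1] at h1
    simp only [g]
    rw [norm_mul, Complex.norm_exp, e2, sub_eq_add_neg (r * |x|), Real.exp_add, ← mul_assoc]
    exact mul_le_mul_of_nonneg_right h1 (Real.exp_pos _).le
  obtain ⟨M, hM⟩ := exists_nat_gt (r + |(m : ℝ)|)
  have hz' : ∀ n ∉ Finset.Icc (-(M : ℤ)) M, c n = 0 := fun n hn => hz n (by
    have h1 : (M : ℝ) ≤ |(n : ℝ)| := by
      rw [Finset.mem_Icc] at hn
      have : (M : ℤ) ≤ |n| := by rw [le_abs]; omega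
      exact_mod_cast this
    have h2 : 4 * |(n : ℝ)| - |(m : ℝ)| ≤ |(m : ℝ) + 4 * n| := by
      have := abs_sub ((m : ℝ) + 4 * n) m
      rw [add_sub_cancel_left, abs_mul, abs_of_pos (by norm_num : (0 : ℝ) < 4)] at this
      linarith
    rw [abs_mul, abs_of_pos Real.pi_pos]
    have := abs_nonneg (n : ℝ)
    have := abs_nonneg ((m : ℝ) + 4 * n)
    nlinarith [Real.pi_gt_three])
  obtain ⟨K, hK⟩ := sum E (fun n => m + 4 * n) (fun n => 2 * c n) (Finset.Icc (-(M : ℤ)) M)
  refine ⟨K, ?_⟩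
  convert hK using 2 with x
  have key : ∀ n : ℤ, ∫ y in (0:ℝ)..(1 / 2), exp (2 * Real.pi * I * (-n : ℤ) * y / (1 / 2 : ℝ)) *
      g 0 (x + y * I - I / 2) = exp (4 * Real.pi * n * x) * c n := fun n => by
    rw [← hc n x, ← intervalIntegral.integral_const_mul]
    refine intervalIntegral.integral_congr fun y _ => ?_
    simp only [g]
    rw [mul_left_comm, mul_left_comm (exp _) (h _), ← Complex.exp_add, ← Complex.exp_add]
    congr 1
    rw [Complex.exp_eq_exp_iff_exists_int]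
    exact ⟨-n, by push_cast; ring⟩
  have e1 : (x + (0 : ℝ) * I - I / 2 : ℂ) = x - I / 2 := by simp
  have e2 : (x + (1 / 2 : ℝ) * I - I / 2 : ℂ) = x := by push_cast; ring
  have hf := fourier_fin (T := 1 / 2) (ψ := fun y : ℝ => g 0 (x + y * I - I / 2)) (by norm_num)
    (by simp only [e1, e2, g3]) ((g1 0).comp (by fun_prop) fun y hy => mem_sc x y hy)
    (Finset.Icc (-(M : ℤ)) M) fun n hn => by rw [key, hz' n hn, mul_zero]
  simp only [e1, g3, key] at hf
  have e3 : h x = g 0 x * exp (Real.pi * m * x) := by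
    simp only [g]
    rw [mul_assoc, ← Complex.exp_add]
    simp
  rw [e3, hf, Finset.sum_mul]
  refine Finset.sum_congr rfl fun n _ => ?_
  have e4 : ((Real.exp (Real.pi * (m + 4 * n : ℤ) * x) : ℝ) : ℂ) =
      exp (4 * Real.pi * n * x) * exp (Real.pi * m * x) := by
    rw [← Complex.exp_add]
    push_cast
    congr 1
    ring
  rw [e4, Complex.real_smul]
  push_cast
  ring

theorem comb {F G : ℂ → ℂ} (hF : Nc F) (hG : Nc G) (a b : ℂ) : Nc fun z => a * F z + b * G z := by
  obtain ⟨C, r, hC, hr, h1⟩ := hF.gr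
  obtain ⟨C', r', hC', hr', h2⟩ := hG.gr
  refine ⟨(continuousOn_const.mul hF.cont).add (continuousOn_const.mul hG.cont),
    (hF.diff.const_mul a).add (hG.diff.const_mul b), ‖a‖ * C + ‖b‖ * C', r + r', by positivity,
    by positivity, fun z hz => ?_⟩
  have k1 : Real.exp (r * |z.re|) ≤ Real.exp ((r + r') * |z.re|) := by gcongr; linarith
  have k2 : Real.exp (r' * |z.re|) ≤ Real.exp ((r + r') * |z.re|) := by gcongr; linarith
  calc _ ≤ ‖a‖ * ‖F z‖ + ‖b‖ * ‖G z‖ := by rw [← norm_mul, ← norm_mul]; exact norm_add_le _ _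
    _ ≤ ‖a‖ * (C * Real.exp ((r + r') * |z.re|)) + ‖b‖ * (C' * Real.exp ((r + r') * |z.re|)) := by
      gcongr
      · exact (h1 z hz).trans (by gcongr)
      · exact (h2 z hz).trans (by gcongr)
    _ = _ := by ring

end LPr

theorem rowLP : RowLP := by
  intro E F G ε N C hF hG hε h1 h2 hb
  have k : ∀ m : ℤ, exp (-(Real.pi * m * (I / 2))) * exp (-(Real.pi * m * (I / 2))) = ε →
      ∃ K, EN K fun t : ℝ => 1 / 2 * F t + ε * exp (-(Real.pi * m * (I / 2))) / 2 * G t :=
    fun m hm => LPr.core E (LPr.comb hF hG _ _) m fun t => by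
      have h3 : ε * ε = 1 := by rcases hε with rfl | rfl <;> norm_num
      rw [h1, h2]
      linear_combination exp (-(Real.pi * m * (I / 2))) / 2 * F t * h3 - G t / 2 * h3 -
        ε * G t / 2 * hm
  have k2 : ∀ m : ℤ, exp (-(Real.pi * (m + 2 : ℤ) * (I / 2))) = -exp (-(Real.pi * m * (I / 2))) :=
    fun m => by
      rw [← Complex.exp_sub_pi_mul_I]
      congr 1
      push_cast
      ring
  obtain ⟨m, hm⟩ : ∃ m : ℤ,
      exp (-(Real.pi * m * (I / 2))) * exp (-(Real.pi * m * (I / 2))) = ε := by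
    rcases hε with rfl | rfl
    · exact ⟨0, by simp⟩
    · refine ⟨-1, ?_⟩
      rw [← Complex.exp_add, ← Complex.exp_pi_mul_I]
      congr 1
      push_cast
      ring
  obtain ⟨K, hK⟩ := LPr.add E (k m hm) (k (m + 2) (by rw [k2, neg_mul_neg, hm]))
  refine E.red K N _ C ?_ hb
  convert hK using 2 with t
  rw [k2]
  ring

end Vale.Agent.SP352
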