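import Vale.Agent.Q352.NS
import Vale.Agent.P352.BW.H820.Tk0

/-!
# P352, project NS, row MD: modular theory
-/

set_option linter.all false

namespace Vale.Agent.SP352

open P132 (ModData)

theorem rowMD (H : Type*) [NormedAddCommGroup H] [InnerProductSpace ℂ H] [CompleteSpace H] :
    MD H where
  nat M M' ξ E E' W hW hξ h1 h2 t := by
    have e1 : ∀ z, (star W) (W z) = z := fun z =>
      congrArg (fun T : H →L[ℂ] H => T z) (Unitary.star_mul_self_of_mem hW)
    have e2 : ∀ z, W ((star W) z) = z := fun z =>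
      congrArg (fun T : H →L[ℂ] H => T z) (Unitary.mul_star_self_of_mem hW)
    ext z
    exact P352.BW.H234.U_nat E E' (Unitary.linearIsometryEquiv ⟨W, hW⟩) hξ
      (fun X hX => ⟨_, h1 X hX, fun z => congrArg (fun v => W (X v)) (e1 z)⟩)
      (fun Y hY => ⟨_, h2 Y hY, fun z => (e2 (Y (W z))).symm⟩) t z
  com M ξ E := by
    obtain ⟨E'⟩ := P352.BW.H820.exists_comm E
    exact ⟨E', P352.BW.H820.U_comm E E'⟩
  tak M M0 ξ E h1 h2 h3 := P352.BW.H820.le_of_inv' E M0 h1 h2 h3
  ex M ξ h1 h2 h3 := by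
    refine P132.exists_modData M ξ h1 h2 fun a ha h => ?_
    ext v
    have hcl : IsClosed {v : H | a v = 0} := isClosed_eq a.continuous continuous_const
    refine closure_minimal ?_ hcl (h3 v)
    rintro _ ⟨b, hb, rfl⟩
    have k := congrArg (fun T : H →L[ℂ] H => T ξ) (VonNeumannAlgebra.mem_commutant_iff.1 hb a ha)
    change a (b ξ) = b (a ξ) at k
    change a (b ξ) = 0
    rw [k, h, map_zero]
  vac M ξ E t := E.U_xi t
  zero M ξ E := E.U_zero

end Vale.Agent.SP352
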