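import Vale.Agent.Q352.NS

/-!
# P352, project NS, row NE0
-/

set_option linter.all false

open Filter Topology MeasureTheory
open UniformSpace (Completion)
open Complex (I)

namespace Vale.Agent.SP352

open P352.GF (V Fn Ix Fld Theory IsTest IsLor IsCutoff sim one bar mdot pd eta o ev)
open P352.H246 (Al In Cov)
open N352.Dn (Reg Spc cur)

namespace NE0

theorem cpt {F : ℝ → Fn} (hF : IsCutoff F) {R : ℝ} (hR : 0 < R) : HasCompactSupport (F R) := by
  obtain ⟨a, c, ha, hc, -, -, h⟩ := hF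
  obtain ⟨A, hA⟩ := ha.isCompact.isBounded.exists_norm_le
  obtain ⟨B, hB⟩ := hc.isCompact.isBounded.exists_norm_le
  refine HasCompactSupport.of_support_subset_isCompact
    (isCompact_closedBall (0 : V) (max 0 (max A (R * B)))) fun x hx => ?_
  rw [Function.mem_support, (h R hR).2 x] at hx
  have h1 := hA (x o) (subset_tsupport _ fun e => hx (by rw [e]; simp))
  have h2 := hB (fun n => if n = o then 0 else x n / R)
    (subset_tsupport _ fun e => hx (by rw [e]; simp))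
  rw [mem_closedBall_zero_iff, pi_norm_le_iff_of_nonneg (le_max_left _ _)]
  intro n
  refine le_max_of_le_right ?_
  by_cases e : n = o
  · rw [e]; exact le_max_of_le_left h1
  · refine le_max_of_le_right ?_
    have h3 := (norm_le_pi_norm _ n).trans h2
    simp only [if_neg e, norm_div, Real.norm_eq_abs, abs_of_pos hR] at h3
    rwa [div_le_iff₀' hR] at h3

theorem inq {F : ℝ → Fn} (hF : IsCutoff F) {R : ℝ} (hR : 0 < R) (n : Ix) :
    In Set.univ fun x => (eta n : ℂ) * xr x n * F R x := by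
  have hc : HasCompactSupport fun x => (eta n : ℂ) * xr x n * F R x := (cpt hF hR).mul_left
  obtain ⟨a, c, -, -, -, -, h⟩ := hF
  obtain ⟨g, hg⟩ := (h R hR).1
  have h1 : ContDiff ℝ (⊤ : ℕ∞) (F R) := hg ▸ g.smooth ⊤
  have h2 : ContDiff ℝ (⊤ : ℕ∞) fun x : V => xr x n := by
    fin_cases n <;> simp [xr] <;> fun_prop
  have h3 : ContDiff ℝ (⊤ : ℕ∞) fun x : V => (eta n : ℂ) * xr x n * F R x :=
    (contDiff_const.mul (Complex.ofRealCLM.contDiff.comp h2)).mul h1
  exact ⟨⟨hc.toSchwartzMap h3, rfl⟩, hc, Set.subset_univ _⟩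

theorem barq {F : ℝ → Fn} (hF : IsCutoff F) {R : ℝ} (hR : 0 < R) (n : Ix) :
    (bar fun x => (eta n : ℂ) * xr x n * F R x) = fun x => (eta n : ℂ) * xr x n * F R x := by
  obtain ⟨a, c, -, -, -, -, h⟩ := hF
  funext x
  simp [bar, (h R hR).2 x]

variable {D : Type*} [NormedAddCommGroup D] [InnerProductSpace ℂ D]

theorem coe_sum (f : Ix → D) : ((∑ n, f n : D) : Completion D) = ∑ n, (f n : Completion D) :=
  map_sum (Completion.toComplL (𝕜 := ℂ) (E := D)) f _

theorem wcq {C : Cx D} {E : C.Md} (hW : WC C E) {F : ℝ → Fn} (hF : IsCutoff F) {R : ℝ}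
    (hR : 0 < R) (t : ℝ) {X X' : D → D} (η : D) (hX : Al C.Q Set.univ X X') :
    inner ℂ ((C.qr (F R) (X C.Q.vac) : D) : Completion D) (C.zt E t η) =
      inner ℂ ((X C.Q.vac : D) : Completion D) (C.zt E t (C.qr (F R) η : D)) := by
  unfold Cx.qr cur
  rw [coe_sum, coe_sum, map_sum, sum_inner, inner_sum]
  refine Finset.sum_congr rfl fun n _ => ?_
  have := hW t o n _ X X' η (inq hF hR n) hX
  rwa [barq hF hR] at this

theorem zd_of {C : Cx D} (e : ℝ) {v : D} (h : C.G v = v) : C.zd e v = v := by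
  unfold Cx.zd
  rw [h, ← add_smul]
  have : ((1 + e * I) / 2 + (1 - e * I) / 2 : ℂ) = 1 := by ring
  rw [this, one_smul]

end NE0

open NE0 in
theorem rowNE0 {D : Type*} [NormedAddCommGroup D] [InnerProductSpace ℂ D] (C : Cx D) :
    RowNE0 C := by
  rintro ⟨geo, -, b1, b2, nt⟩ key ⟨F, hF, hvac⟩ wl lb E zg - wc t X X' Y Y' hX hY
  obtain ⟨K1, cK1, sK1, aX⟩ := b2.cpt _ _ _ hX
  obtain ⟨K2, cK2, sK2, aY⟩ := b2.cpt _ _ _ hY
  obtain ⟨ρ, hρ⟩ := (cK1.union cK2).isBounded.subset_ball (0 : V)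
  obtain ⟨R, hR, R0⟩ := ((lb F (Metric.ball 0 ρ) hF ⟨Metric.isOpen_ball,
    Metric.isBounded_ball⟩).and (eventually_gt_atTop 0)).exists
  set z := C.zt E t with hz
  set q := C.qr (F R) with hq
  have aq : Al C.Q Set.univ q q := b2.qr F R hF R0
  have gq : C.G (q C.Q.vac) = q C.Q.vac := by
    rw [hq, ← b2.qg F R _ hF R0, C.ev]
  have fX := nt.tw (Wr 0) (Wl 0) X X' (geo.opn 0).2 (geo.spc 0).1 hX
  have fY := nt.af (Wr 0) Y Y' (geo.opn 0).1 hY
  obtain ⟨ξ1, h1, -⟩ := key (C.MA (Wr 0)) z C.Q.vac _ _ _ _ (zg.uni t) (zg.vac t) (zg.nor t 0)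
    (nt.symm _ _ _ fX) (nt.symm _ _ _ fY)
  obtain ⟨ξ2, -, h2⟩ := key (C.MA (Wr 0)) z C.Q.vac _ _ _ _ (zg.uni t) (zg.vac t) (zg.nor t 0)
    fX fY
  have main : ∀ s : ℝ, 0 < s → s ≤ 1 → HasDerivAt (fun e => inner ℂ
      (C.Vg ro e (C.Zc 1 (X C.Q.vac : D))) (z (C.Vg ro e (Y C.Q.vac : D))))
      (I * (star (inner ℂ (C.Dl s ξ1) ((q C.Q.vac : D) : Completion D)) -
        inner ℂ (C.Dl s (star z ξ2)) ((q C.Q.vac : D) : Completion D))) 0 := by
    intro s s0 s1
    have sub : ∀ K, K ⊆ K1 ∪ K2 → sim s one 0 '' K ⊆ Metric.ball 0 ρ := by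
      rintro K hK _ ⟨x, hx, rfl⟩
      have := hρ (hK hx)
      rw [geo.simd, mem_ball_zero_iff, norm_smul, Real.norm_eq_abs, abs_of_pos s0]
      rw [mem_ball_zero_iff] at this
      exact (mul_le_of_le_one_left (norm_nonneg _) s1).trans_lt this
    obtain ⟨Xs, Xs', aXs, eX, -⟩ := b2.cov s one 0 K1 X X' s0 geo.lor1 aX
    obtain ⟨Ys, Ys', aYs, eY, -⟩ := b2.cov s one 0 K2 Y Y' s0 geo.lor1 aY
    have dX := hR Xs Xs' (b2.mono _ _ _ _ (sub K1 Set.subset_union_left) aXs)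
    have dY := hR Ys Ys' (b2.mono _ _ _ _ (sub K2 Set.subset_union_right) aYs)
    have cD : ∀ v : D, C.Dl s v = (C.Q.U s one 0 v : D) := fun v => b1.coe s one 0 v s0 geo.lor1
    have uD : ∀ a b, inner ℂ (C.Dl s a) (C.Dl s b) = inner ℂ a b := fun a b =>
      ContinuousLinearMap.inner_map_map_of_mem_unitary (b1.uni s one 0 s0 geo.lor1) a b
    have zD : ∀ a, z (C.Dl s a) = C.Dl s (z a) := fun a =>
      congrArg (fun W : Completion D →L[ℂ] Completion D => W a) (zg.dl t s s0)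
    have ZD : ∀ a, C.Zc 1 (C.Dl s a) = C.Dl s (C.Zc 1 a) := fun a =>
      congrArg (fun W : Completion D →L[ℂ] Completion D => W a)
        (b1.zc 1 _ (b1.gu s one 0 s0 geo.lor1))
    have VD : ∀ e a, C.Vg ro e (C.Dl s a) = C.Dl s (C.Vg ro e a) := fun e a =>
      congrArg (fun W : Completion D →L[ℂ] Completion D => W a) (b1.vdl ro e s geo.opr s0)
    have ZV : ∀ e a, C.Zc 1 (C.Vg ro e a) = C.Vg ro e (C.Zc 1 a) := fun e a =>
      congrArg (fun W : Completion D →L[ℂ] Completion D => W a)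
        (b1.zc 1 _ (b1.vg ro e geo.opr))
    have uv : C.Q.U s one 0 C.Q.vac = C.Q.vac := C.Q.U_vac s one 0 s0 geo.lor1
    have oX : ((Xs C.Q.vac : D) : Completion D) = C.Dl s (X C.Q.vac : D) := by
      rw [cD, eX, uv]
    have oY : ((Ys C.Q.vac : D) : Completion D) = C.Dl s (Y C.Q.vac : D) := by
      rw [cD, eY, uv]
    obtain ⟨v, cv, gv⟩ : ∃ v : D, (v : Completion D) = star (C.Dl s) (q C.Q.vac : D) ∧
        C.G v = v := by
      refine ⟨C.Q.U s⁻¹ one 0 (q C.Q.vac), ?_, ?_⟩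
      · rw [b1.dadj s s0]
        exact (b1.coe s⁻¹ one 0 _ (inv_pos.2 s0) geo.lor1).symm
      · rw [← C.gr.GU _ _ _ _ (inv_pos.2 s0) geo.lor1, gq]
    have ev : C.Q.U s one 0 v = q C.Q.vac := by
      apply Completion.coe_injective D
      rw [← cD, cv]
      exact congrArg (fun W : Completion D →L[ℂ] Completion D => W (q C.Q.vac : D))
        (b1.uni s one 0 s0 geo.lor1).2
    have adj : ∀ (W : Completion D →L[ℂ] Completion D) a b,
        inner ℂ (star W a) b = inner ℂ a (W b) := fun W a b =>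
      ContinuousLinearMap.adjoint_inner_left W b a
    have adj' : ∀ (W : Completion D →L[ℂ] Completion D) a b,
        inner ℂ a (star W b) = inner ℂ (W a) b := fun W a b =>
      ContinuousLinearMap.adjoint_inner_right W a b
    have t1 : inner ℂ (C.Zc 1 (Xs (q C.Q.vac) : D)) (z (Ys C.Q.vac : D)) =
        star (inner ℂ (C.Dl s ξ1) ((q C.Q.vac : D) : Completion D)) := by
      rw [← ev, ← eX, ← cD, ZD, oY, zD, uD, b1.zcoe, ev, ← adj', ← cv, RCLike.star_def,
        inner_conj_symm, h1]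
      unfold Cx.tw
      rw [zd_of _ gv]
    have t2 : inner ℂ (C.Zc 1 (Xs C.Q.vac : D)) (z (Ys (q C.Q.vac) : D)) =
        inner ℂ (C.Dl s (star z ξ2)) ((q C.Q.vac : D) : Completion D) := by
      rw [← adj' (C.Dl s), ← cv, adj, h2, oX, ZD, ← ev, ← eY, ← cD, zD, uD, b1.zcoe]
      unfold Cx.tw
      rw [zd_of _ C.ev]
    have t3 : inner ℂ (C.Zc 1 (q (Xs C.Q.vac) : D)) (z (Ys C.Q.vac : D)) =
        inner ℂ (C.Zc 1 (Xs C.Q.vac : D)) (z (q (Ys C.Q.vac) : D)) := by
      obtain ⟨X2, X2', a2, e2⟩ := b2.zom 1 _ _ _ aXs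
      have e3 : C.zd 1 (q (Xs C.Q.vac)) = q (X2 C.Q.vac) := by
        rw [← e2]
        unfold Cx.zd
        rw [b2.add _ _ _ aq, b2.smul _ _ _ aq, b2.smul _ _ _ aq, hq, b2.qg F R _ hF R0]
      rw [b1.zcoe, b1.zcoe, e3, e2]
      exact wcq wc hF R0 t _ (b2.mono _ _ _ _ (Set.subset_univ _) a2)
    have d1 := ((C.Zc 1).restrictScalars ℝ).hasFDerivAt.comp_hasDerivAt (0 : ℝ) dX
    have d2 := (z.restrictScalars ℝ).hasFDerivAt.comp_hasDerivAt (0 : ℝ) dY
    have d3 := HasDerivAt.inner ℂ d1 d2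
    simp only [Function.comp_apply, ContinuousLinearMap.coe_restrictScalars', b1.v0 ro geo.opr,
      ContinuousLinearMap.one_apply, map_smul, Completion.coe_sub, map_sub, inner_smul_left,
      inner_smul_right, inner_sub_left, inner_sub_right, Complex.conj_I] at d3
    refine (d3.congr_deriv ?_).congr_of_eventuallyEq (Eventually.of_forall fun e => ?_)
    · rw [← t1, ← t2, t3]
      ring
    · beta_reduce
      rw [oX, oY, VD, VD, ZD, zD, uD, ZV]
  have lim := ((continuous_star.tendsto _).comp (wl ξ1 _ (hvac R R0))).sub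
    (wl (star z ξ2) _ (hvac R R0))
  have lim2 := lim.const_mul I
  simp only [star_zero, sub_zero, mul_zero] at lim2
  have h := main 1 one_pos le_rfl
  have e := tendsto_nhds_unique (tendsto_const_nhds.congr' (by
    filter_upwards [Ioc_mem_nhdsGT (zero_lt_one' ℝ)] with s hs
    exact h.unique (main s hs.1 hs.2))) lim2
  exact e ▸ h

end Vale.Agent.SP352
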