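import Vale.Agent.Q352.NS

/-! # P352, project NS: row NEU -/

set_option linter.all false

open Filter Topology MeasureTheory
open UniformSpace (Completion)

namespace Vale.Agent.SP352

open P352.GF (V Fn Ix Fld Theory IsTest IsLor IsCutoff sim one bar mdot pd eta)
open P352.H246 (Al In Cov)

namespace RNEU

theorem jc : Continuous fun p : ℝ × V => sim 1 (ro p.1) 0 p.2 := by
  refine continuous_pi fun n => ?_
  unfold sim
  refine continuous_const.add (continuous_const.mul (continuous_finset_sum _ fun m _ =>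
    ((continuous_apply m).comp continuous_snd).mul ?_))
  fin_cases m <;> fin_cases n <;> simp [ro] <;> fun_prop

theorem nb0 (f : ℝ → V → V) (hf : Continuous fun q : ℝ × V => f q.1 q.2) (h0 : ∀ x, f 0 x = x)
    (W : Set V) (hW : IsOpen W) (hne : W.Nonempty) :
    ∃ (O : Set V) (δ : ℝ), IsOpen O ∧ O.Nonempty ∧ 0 < δ ∧ ∀ e, |e| < δ → f e '' O ⊆ W := by
  obtain ⟨p, hp⟩ := hne
  have h : (fun q : ℝ × V => f q.1 q.2) ⁻¹' W ∈ 𝓝 ((0 : ℝ), p) :=
    (hW.preimage hf).mem_nhds (by simpa [h0] using hp)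
  obtain ⟨u, v, hu, h0, hv, hpv, huv⟩ := mem_nhds_prod_iff'.1 h
  obtain ⟨δ, hδ, hb⟩ := Metric.isOpen_iff.1 hu 0 h0
  refine ⟨v, δ, hv, ⟨p, hpv⟩, hδ, fun e he => ?_⟩
  rintro _ ⟨x, hx, rfl⟩
  have he' : e ∈ u := hb (by simpa [Metric.mem_ball, Real.dist_eq] using he)
  exact huv (Set.mk_mem_prod he' hx)

theorem nb (g : Geo) (W : Set V) (hW : IsOpen W) (hne : W.Nonempty) :
    ∃ (O : Set V) (δ : ℝ), IsOpen O ∧ O.Nonempty ∧ 0 < δ ∧
      ∀ e, |e| < δ → sim 1 (ro e) 0 '' O ⊆ W :=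
  nb0 (fun e => sim 1 (ro e) 0) jc (fun x => by rw [g.opr.zero, g.sim1, zero_add]) W hW hne

variable {D : Type*} [NormedAddCommGroup D] [InnerProductSpace ℂ D]

theorem mv (C : Cx D) (h : Bs C) (O W : Set V) (e : ℝ) (hO : sim 1 (ro e) 0 '' O ⊆ W) (X X' : D → D)
    (hX : Al C.Q O X X') : ∃ Y Y', Al C.Q W Y Y' ∧
      C.Vg ro e (X C.Q.vac : D) = ((Y C.Q.vac : D) : Completion D) := by
  obtain ⟨Y, Y', hY, h1, -⟩ := h.b2.vd ro e O X X' h.geo.opr hX
  refine ⟨Y, Y', h.b2.mono _ _ _ _ hO hY, ?_⟩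
  have hv : C.vd ro e C.Q.vac = C.Q.vac := by
    apply Completion.coe_injective D
    have := h.b1.vvac ro e h.geo.opr
    unfold Cx.om at this
    rw [h.b1.vcoe ro e _ h.geo.opr] at this
    exact this
  rw [h.b1.vcoe ro e _ h.geo.opr, h1, hv]

theorem loc (C : Cx D) (h : Bs C) (E : C.Md) (hN : NE0 C E) (t : ℝ) :
    ∃ δ : ℝ, 0 < δ ∧ ∀ e, |e| < δ → C.zt E t * C.Vg ro e = C.Vg ro e * C.zt E t := by
  obtain ⟨O1, δ1, o1, n1, p1, s1⟩ := nb h.geo (Wl 0) (h.geo.opn 0).2 (h.geo.ne 0).2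
  obtain ⟨O2, δ2, o2, n2, p2, s2⟩ := nb h.geo (Wr 0) (h.geo.opn 0).1 (h.geo.ne 0).1
  have hop := h.geo.opr
  refine ⟨min δ1 δ2, lt_min p1 p2, fun e he => ?_⟩
  have key : ∀ X X' Y Y', Al C.Q O1 X X' → Al C.Q O2 Y Y' →
      inner ℂ (C.Vg ro e (C.Zc 1 (X C.Q.vac : D))) (C.zt E t (C.Vg ro e (Y C.Q.vac : D))) =
      inner ℂ (C.Zc 1 (X C.Q.vac : D)) (C.zt E t (Y C.Q.vac : D)) := by
    intro X X' Y Y' hX hY
    set φ : ℝ → ℂ := fun e =>
      inner ℂ (C.Vg ro e (C.Zc 1 (X C.Q.vac : D))) (C.zt E t (C.Vg ro e (Y C.Q.vac : D))) with hφ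
    have hd : ∀ e0 ∈ Set.Ioo (-(min δ1 δ2)) (min δ1 δ2), HasDerivAt φ 0 e0 := by
      intro e0 he0
      have he0' : |e0| < min δ1 δ2 := abs_lt.2 he0
      obtain ⟨X1, X1', hX1, e1⟩ := mv C h O1 _ e0 (s1 e0 (he0'.trans_le (min_le_left _ _))) X X' hX
      obtain ⟨Y1, Y1', hY1, e2⟩ := mv C h O2 _ e0 (s2 e0 (he0'.trans_le (min_le_right _ _))) Y Y' hY
      have h0 := hN t X1 X1' Y1 Y1' hX1 hY1
      rw [← sub_self e0] at h0
      have h1 := h0.comp_sub_const e0 e0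
      refine h1.congr_of_eventuallyEq (Eventually.of_forall fun s => ?_)
      have hs : C.Vg ro s = C.Vg ro (s - e0) * C.Vg ro e0 := by
        rw [← h.b1.vadd ro _ _ hop, sub_add_cancel]
      have hz : C.Vg ro e0 (C.Zc 1 (X C.Q.vac : D)) = C.Zc 1 (C.Vg ro e0 (X C.Q.vac : D)) := by
        have := h.b1.zc 1 _ (h.b1.vg ro e0 hop)
        exact (congrArg (fun A : Completion D →L[ℂ] Completion D => A (X C.Q.vac : D)) this).symm
      show φ s = _
      simp only [hφ]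
      rw [hs, ContinuousLinearMap.mul_apply, ContinuousLinearMap.mul_apply, hz, e1, e2]
    have hc : φ e = φ 0 :=
      isOpen_Ioo.is_const_of_deriv_eq_zero isPreconnected_Ioo
        (fun x hx => (hd x hx).differentiableAt.differentiableWithinAt)
        (fun x hx => (hd x hx).deriv) (abs_lt.1 he) ⟨by simpa using lt_min p1 p2, lt_min p1 p2⟩
    simp only [hφ] at hc
    rw [hc, h.b1.v0 ro hop]
    rfl
  have all : ∀ u v : Completion D, inner ℂ (C.Vg ro e (C.Zc 1 u)) (C.zt E t (C.Vg ro e v)) =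
      inner ℂ (C.Zc 1 u) (C.zt E t v) := by
    intro u v
    refine Dense.induction (h.b2.rs O1 o1 n1) (P := fun u =>
      inner ℂ (C.Vg ro e (C.Zc 1 u)) (C.zt E t (C.Vg ro e v)) = inner ℂ (C.Zc 1 u) (C.zt E t v))
      ?_ (isClosed_eq (by fun_prop) (by fun_prop)) u
    rintro _ ⟨X, X', hX, rfl⟩
    refine Dense.induction (h.b2.rs O2 o2 n2) (P := fun v =>
      inner ℂ (C.Vg ro e (C.Zc 1 (X C.Q.vac : D))) (C.zt E t (C.Vg ro e v)) =
        inner ℂ (C.Zc 1 (X C.Q.vac : D)) (C.zt E t v))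
      ?_ (isClosed_eq (by fun_prop) (by fun_prop)) v
    rintro _ ⟨Y, Y', hY, rfl⟩
    exact key X X' Y Y' hX hY
  have hvv : C.Vg ro e * C.Vg ro (-e) = 1 := by
    rw [← h.b1.vadd ro _ _ hop, add_neg_cancel, h.b1.v0 ro hop]
  have hA : C.Vg ro (-e) * C.zt E t * C.Vg ro e = C.zt E t := by
    ext v
    refine ext_inner_left ℂ fun w => ?_
    have hw : w = C.Zc 1 (C.Zc (-1) w) := by
      rw [← ContinuousLinearMap.mul_apply, h.b1.zz.1, ContinuousLinearMap.one_apply]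
    rw [hw, ← all, ← h.b1.vadj ro e hop, ContinuousLinearMap.mul_apply,
      ContinuousLinearMap.mul_apply, ContinuousLinearMap.star_eq_adjoint,
      ContinuousLinearMap.adjoint_inner_right]
  calc C.zt E t * C.Vg ro e = C.Vg ro e * C.Vg ro (-e) * C.zt E t * C.Vg ro e := by
        rw [hvv, one_mul]
    _ = C.Vg ro e * (C.Vg ro (-e) * C.zt E t * C.Vg ro e) := by simp only [mul_assoc]
    _ = _ := by rw [hA]

end RNEU

theorem rowNEU {D : Type*} [NormedAddCommGroup D] [InnerProductSpace ℂ D] (C : Cx D) :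
    RowNEU C := by
  intro h E _ hN t e
  obtain ⟨δ, hδ, hl⟩ := RNEU.loc C h E hN t
  have hop := h.geo.opr
  have hn : ∀ (n : ℕ) (s : ℝ), |s| < δ → C.zt E t * C.Vg ro (n * s) = C.Vg ro (n * s) * C.zt E t := by
    intro n s hs
    induction n with
    | zero => simp [h.b1.v0 ro hop]
    | succ n ih =>
      rw [Nat.cast_succ, add_mul, one_mul, h.b1.vadd ro _ _ hop, ← mul_assoc, ih, mul_assoc,
        hl s hs, mul_assoc]
  obtain ⟨n, hn'⟩ := exists_nat_gt (|e| / δ)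
  have hpos : (0 : ℝ) < n := lt_of_le_of_lt (by positivity) hn'
  have he : e = n * (e / n) := by field_simp
  rw [he]
  refine hn n _ ?_
  rw [abs_div, abs_of_pos hpos, div_lt_iff₀ hpos]
  rw [div_lt_iff₀ hδ] at hn'
  linarith

end Vale.Agent.SP352
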