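import Vale.Agent.Q352.NS
import Vale.Agent.P352.BW.H268.Comm

/-!
# P352, project NS: row NT (the net)
-/

set_option linter.all false

open Filter Topology MeasureTheory
open UniformSpace (Completion)
open Complex (I)

namespace Vale.Agent.SP352

open P352.GF (V Fn Ix Fld Theory IsTest IsLor IsCutoff sim one bar mdot pd eta)
open P352.H246 (Al In Cov)
open N352.Dn (Reg Spc cur)

noncomputable section

variable {D : Type*} [NormedAddCommGroup D] [InnerProductSpace ℂ D]

namespace NTr

/-- the commutant of the algebra of a region -/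
theorem memc (C : Cx D) (S : Set V) (Y : Completion D →L[ℂ] Completion D) :
    Y ∈ (C.MA S).commutant ↔ ∀ O, Reg O → O ⊆ S → ∀ X ∈ C.N O, X * Y = Y * X := by
  unfold Cx.MA
  rw [VonNeumannAlgebra.commutant_commutant]
  change Y ∈ StarSubalgebra.centralizer ℂ _ ↔ _
  rw [StarSubalgebra.mem_centralizer_iff]
  constructor
  · intro h O hO hS X hX
    exact (h X ⟨O, hO, hS, hX⟩).1
  · rintro h X ⟨O, hO, hS, hX⟩
    exact ⟨h O hO hS X hX, h O hO hS _ (star_mem hX)⟩

theorem smem (M : VonNeumannAlgebra (Completion D)) (c : ℂ) (X : Completion D →L[ℂ] Completion D)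
    (h : X ∈ M) : c • X ∈ M :=
  M.toStarSubalgebra.smul_mem (x := X) h c

theorem mem_iff (M : VonNeumannAlgebra (Completion D)) (X : Completion D →L[ℂ] Completion D) :
    X ∈ M ↔ ∀ Y ∈ M.commutant, Y * X = X * Y := by
  rw [← VonNeumannAlgebra.mem_commutant_iff, VonNeumannAlgebra.commutant_commutant]

theorem mem (C : Cx D) (O S : Set V) (X : Completion D →L[ℂ] Completion D) (hO : Reg O)
    (hS : O ⊆ S) (hX : X ∈ C.N O) : X ∈ C.MA S := by
  rw [mem_iff]
  intro Y hY
  exact ((memc C S Y).1 hY O hO hS X hX).symm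

theorem mono (C : Cx D) (S S' : Set V) (X : Completion D →L[ℂ] Completion D) (h : S ⊆ S')
    (hX : X ∈ C.MA S) : X ∈ C.MA S' := by
  rw [mem_iff] at hX ⊢
  intro Y hY
  refine hX Y ((memc C S Y).2 fun O hO hS B hB => ?_)
  exact (memc C S' Y).1 hY O hO (hS.trans h) B hB

theorem symm (M : VonNeumannAlgebra (Completion D)) (X X' : D → D) (h : Af M X X') :
    Af M X' X := by
  intro Y hY v w
  have h1 := h (star Y) (star_mem hY) w v
  rw [ContinuousLinearMap.star_eq_adjoint, ContinuousLinearMap.adjoint_inner_right,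
    ContinuousLinearMap.adjoint_inner_right] at h1
  rw [← inner_conj_symm, ← h1, inner_conj_symm]

theorem spc_symm {S S' : Set V} (h : Spc S S') : Spc S' S := by
  intro x hx y hy
  have := h y hy x hx
  have e : mdot (x - y) (x - y) = mdot (y - x) (y - x) := by
    unfold mdot
    refine Finset.sum_congr rfl fun m _ => ?_
    simp only [Pi.sub_apply]
    ring
  rwa [e]

theorem af (C : Cx D) (S : Set V) (X X' : D → D) (hS : IsOpen S) (h : Al C.Q S X X') :
    Af (C.MA S) X X' := by
  induction h with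
  | one => intro Y _ v w; rfl
  | add X X' Z Z' _ _ ih1 ih2 =>
    intro Y hY v w
    simp only [Completion.coe_add, inner_add_left, map_add, inner_add_right]
    rw [ih1 Y hY v w, ih2 Y hY v w]
  | smul c X X' _ ih =>
    intro Y hY v w
    simp only [Completion.coe_smul, inner_smul_left, map_smul, inner_smul_right]
    rw [ih Y hY v w]
    simp
  | fld A B g X X' hA hB hadj hg _ ih =>
    intro Y hY v w
    rw [ih Y hY v (B (bar g) w)]
    obtain ⟨r, hr⟩ := hg.2.1.isBounded.subset_ball (0 : V)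
    have hO : Reg (S ∩ Metric.ball 0 r) :=
      ⟨hS.inter Metric.isOpen_ball, Metric.isBounded_ball.subset Set.inter_subset_right⟩
    refine C.aff _ hO Y ?_ A B g (X v) w hA hadj ⟨hg.1, hg.2.1, Set.subset_inter hg.2.2 hr⟩
      (C.cy _) (C.cy _)
    rw [VonNeumannAlgebra.mem_commutant_iff]
    exact (memc C S Y).1 hY _ hO Set.inter_subset_left

/-- conjugation by an invertible operator -/
theorem conj (M M' : VonNeumannAlgebra (Completion D)) (W W' : Completion D →L[ℂ] Completion D)
    (h1 : W * W' = 1) (h : ∀ Y ∈ M'.commutant, W' * Y * W ∈ M.commutant)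
    (X : Completion D →L[ℂ] Completion D) (hX : X ∈ M) : W * X * W' ∈ M' := by
  rw [mem_iff] at hX ⊢
  intro Y hY
  have e := hX _ (h Y hY)
  calc Y * (W * X * W') = (W * W') * Y * (W * X * W') := by rw [h1, one_mul]
    _ = W * (W' * Y * W * X) * W' := by noncomm_ring
    _ = W * (X * (W' * Y * W)) * W' := by rw [e]
    _ = W * X * W' * Y * (W * W') := by noncomm_ring
    _ = W * X * W' * Y := by rw [h1, mul_one]

theorem conj' (C : Cx D) (S S' : Set V) (W W' : Completion D →L[ℂ] Completion D)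
    (h1 : W * W' = 1) (h2 : W' * W = 1)
    (h : ∀ O, Reg O → O ⊆ S → ∀ B ∈ C.N O, ∃ B' ∈ C.MA S', B' * W = W * B)
    (X : Completion D →L[ℂ] Completion D) (hX : X ∈ C.MA S) : W * X * W' ∈ C.MA S' := by
  refine conj _ _ W W' h1 (fun Y hY => ?_) X hX
  rw [memc]
  intro O hO hS B hB
  obtain ⟨B', hB', e⟩ := h O hO hS B hB
  have e1 := (mem_iff _ _).1 hB' Y hY
  calc B * (W' * Y * W) = (W' * W) * B * (W' * Y * W) := by rw [h2, one_mul]
    _ = W' * (W * B) * W' * Y * W := by noncomm_ring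
    _ = W' * (B' * W) * W' * Y * W := by rw [e]
    _ = W' * B' * (W * W') * Y * W := by noncomm_ring
    _ = W' * (B' * Y) * W := by rw [h1]; noncomm_ring
    _ = W' * (Y * B') * W := by rw [e1]
    _ = W' * Y * (B' * W) := by noncomm_ring
    _ = W' * Y * W * B := by rw [e]; noncomm_ring

theorem cov (C : Cx D) (g : Geo) (b : B1 C) (s : ℝ) (L : Ix → V) (a : V) (S : Set V)
    (X : Completion D →L[ℂ] Completion D) (hs : 0 < s) (hL : IsLor L) (hX : X ∈ C.MA S) :
    C.Uc s L a * X * star (C.Uc s L a) ∈ C.MA (sim s L a '' S) := by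
  have hu := b.uni s L a hs hL
  refine conj' C S _ _ _ (Unitary.mul_star_self_of_mem hu) (Unitary.star_mul_self_of_mem hu)
    (fun O hO hS B hB => ?_) X hX
  obtain ⟨B', hB', e⟩ := C.net.cov s L a O hO B hB hs hL
  refine ⟨B', mem C _ _ _ (g.reg s L a O hs hL hO) (Set.image_mono hS) hB', ?_⟩
  ext1 z
  simp only [ContinuousLinearMap.mul_apply]
  rw [b.ue s L a _ hs hL, b.ue s L a _ hs hL, e]

theorem gam (C : Cx D) (b : B1 C) (S : Set V) (X : Completion D →L[ℂ] Completion D)
    (hX : X ∈ C.MA S) : C.Γ * X * C.Γ ∈ C.MA S := by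
  refine conj' C S S _ _ b.gg b.gg (fun O hO hS B hB => ?_) X hX
  refine ⟨_, mem C _ _ _ hO hS (C.net.gam O hO B hB), ?_⟩
  rw [mul_assoc, b.gg, mul_one]

theorem vg (C : Cx D) (g : Geo) (b : B1 C) (l : ℝ → Ix → V) (t : ℝ) (S : Set V)
    (X : Completion D →L[ℂ] Completion D) (hl : Op l) (hX : X ∈ C.MA S) :
    C.Vg l t * X * C.Vg l (-t) ∈ C.MA (sim 1 (l t) 0 '' S) := by
  have h := cov C g b 1 (l t) 0 S X one_pos (hl.lor t) hX
  rw [← b.vadj l t hl]
  rcases b.vu l t hl with e | e
  · rw [e]; exact h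
  · rw [e, star_mul, b.gs]
    have := gam C b _ _ h
    convert this using 1
    noncomm_ring

theorem zform (C : Cx D) (b : B1 C) (e : ℝ) (he : e = 1 ∨ e = -1)
    (B : Completion D →L[ℂ] Completion D) : C.Zc e * B * C.Zc (-e) =
      (1 / 2 : ℂ) • (B + C.Γ * B * C.Γ) + (e * I / 2 : ℂ) • ((B - C.Γ * B * C.Γ) * C.Γ) := by
  have h2 : (e : ℂ) * e = 1 := by rcases he with h | h <;> simp [h]
  have hI : I * I = -1 := Complex.I_mul_I
  have e1 : (B - C.Γ * B * C.Γ) * C.Γ = B * C.Γ - C.Γ * B := by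
    rw [sub_mul, mul_assoc (C.Γ * B), b.gg, mul_one]
  rw [e1]
  unfold Cx.Zc
  simp only [add_mul, mul_add, smul_mul_assoc, mul_smul_comm, one_mul, mul_one, smul_add, smul_sub,
    smul_smul, Complex.ofReal_neg]
  have a1 : (1 + -(e : ℂ) * I) / 2 * ((1 + e * I) / 2) = 1 / 2 := by
    linear_combination (-1 / 4 : ℂ) * (e * e) * hI + (1 / 4 : ℂ) * h2
  have a2 : (1 + -(e : ℂ) * I) / 2 * ((1 - e * I) / 2) = -(e * I / 2) := by
    linear_combination (1 / 4 : ℂ) * (e * e) * hI - (1 / 4 : ℂ) * h2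
  have a3 : (1 - -(e : ℂ) * I) / 2 * ((1 + e * I) / 2) = e * I / 2 := by
    linear_combination (1 / 4 : ℂ) * (e * e) * hI - (1 / 4 : ℂ) * h2
  have a4 : (1 - -(e : ℂ) * I) / 2 * ((1 - e * I) / 2) = 1 / 2 := by
    linear_combination (-1 / 4 : ℂ) * (e * e) * hI + (1 / 4 : ℂ) * h2
  rw [a1, a2, a3, a4, neg_smul]
  abel

theorem zz (C : Cx D) (b : B1 C) (e : ℝ) (he : e = 1 ∨ e = -1) : C.Zc e * C.Zc (-e) = 1 := by
  rcases he with h | h
  · rw [h]; exact b.zz.1
  · rw [h, neg_neg]; exact b.zz.2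

theorem loc (C : Cx D) (b : B1 C) (e : ℝ) (S S' : Set V) (X : Completion D →L[ℂ] Completion D)
    (he : e = 1 ∨ e = -1) (h : Spc S S') (hX : X ∈ C.MA S') :
    C.Zc e * X * C.Zc (-e) ∈ (C.MA S).commutant := by
  have he' : -e = 1 ∨ -e = -1 := by rcases he with h | h <;> simp [h]
  have h1 := zz C b e he
  rw [memc]
  intro O hO hS B hB
  have hc : C.Zc (-e) * B * C.Zc e ∈ (C.MA S').commutant := by
    rw [memc]
    intro O' hO' hS' A hA
    have hl := C.net.loc O O' hO hO' (fun x hx y hy => h x (hS hx) y (hS' hy)) B hB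
    have hz := zform C b (-e) he' B
    rw [neg_neg] at hz
    have : C.Zc (-e) * B * C.Zc e ∈ (C.N O').commutant := by
      rw [hz]
      exact add_mem (smem _ _ _ hl.1) (smem _ _ _ hl.2)
    exact VonNeumannAlgebra.mem_commutant_iff.1 this A hA
  have e1 := (mem_iff _ _).1 hX _ hc
  calc B * (C.Zc e * X * C.Zc (-e)) = (C.Zc e * C.Zc (-e)) * B * (C.Zc e * X * C.Zc (-e)) := by
        rw [h1, one_mul]
    _ = C.Zc e * (C.Zc (-e) * B * C.Zc e * X) * C.Zc (-e) := by noncomm_ring
    _ = C.Zc e * (X * (C.Zc (-e) * B * C.Zc e)) * C.Zc (-e) := by rw [e1]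
    _ = C.Zc e * X * C.Zc (-e) * B * (C.Zc e * C.Zc (-e)) := by noncomm_ring
    _ = C.Zc e * X * C.Zc (-e) * B := by rw [h1, mul_one]

theorem tw (C : Cx D) (b : B1 C) (S S' : Set V) (X X' : D → D) (hS : IsOpen S') (h : Spc S S')
    (hX : Al C.Q S' X X') : Af (C.MA S).commutant (C.tw X) (C.tw X') := by
  intro Y hY v w
  rw [VonNeumannAlgebra.commutant_commutant] at hY
  have hl := loc C b (-1) S' S Y (Or.inr rfl) (spc_symm h) hY
  rw [neg_neg] at hl
  have ha := af C S' X X' hS hX _ hl (C.zd (-1) v) (C.zd (-1) w)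
  have z1 : ∀ z, C.Zc 1 (C.Zc (-1) z) = z := fun z => by
    rw [← ContinuousLinearMap.mul_apply, b.zz.1]; rfl
  have ad : ∀ (e : ℝ) x y, inner ℂ (C.Zc e x) y = inner ℂ x (C.Zc (-e) y) := fun e x y => by
    rw [← b.zadj e, ContinuousLinearMap.star_eq_adjoint, ContinuousLinearMap.adjoint_inner_right]
  simp only [ContinuousLinearMap.mul_apply] at ha
  rw [← b.zcoe (-1) v, ← b.zcoe (-1) w, z1, ad (-1), neg_neg, z1] at ha
  unfold Cx.tw
  rw [← b.zcoe 1, ← b.zcoe 1, ad 1]
  exact ha

theorem ext_in (a c : Completion D)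
    (h : ∀ w : D, inner ℂ (w : Completion D) a = inner ℂ (w : Completion D) c) : a = c := by
  refine ext_inner_left ℂ fun w => ?_
  induction w using Completion.induction_on with
  | hp => exact isClosed_eq (by fun_prop) (by fun_prop)
  | ih w => exact h w

theorem cyc (C : Cx D) (b : B2 C) (S : Set V) (hS : IsOpen S) (hn : S.Nonempty) :
    Dense {z | ∃ X ∈ C.MA S, X C.om = z} := by
  let K0 : Submodule ℂ (Completion D) :=
    { carrier := {z | ∃ X ∈ C.MA S, X C.om = z}
      add_mem' := by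
        rintro _ _ ⟨X, hX, rfl⟩ ⟨Y, hY, rfl⟩
        exact ⟨X + Y, add_mem hX hY, rfl⟩
      zero_mem' := ⟨0, zero_mem _, rfl⟩
      smul_mem' := by
        rintro c _ ⟨X, hX, rfl⟩
        exact ⟨c • X, smem _ c X hX, rfl⟩ }
  let K : Submodule ℂ (Completion D) := K0.topologicalClosure
  have : CompleteSpace K := (Submodule.isClosed_topologicalClosure _).completeSpace_coe
  have hinv : ∀ Y ∈ C.MA S, ∀ z ∈ K, Y z ∈ K := by
    intro Y hY z hz
    have hcl : IsClosed {z : Completion D | Y z ∈ K} :=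
      (Submodule.isClosed_topologicalClosure _).preimage Y.continuous
    refine closure_minimal (s := (K0 : Set (Completion D))) ?_ hcl hz
    rintro _ ⟨X, hX, rfl⟩
    exact Submodule.le_topologicalClosure _ ⟨Y * X, mul_mem hY hX, rfl⟩
  have hP : K.starProjection ∈ (C.MA S).commutant := by
    rw [VonNeumannAlgebra.mem_commutant_iff]
    intro Y hY
    ext1 z
    simp only [ContinuousLinearMap.mul_apply]
    symm
    refine (Submodule.eq_starProjection_of_mem_of_inner_eq_zero
      (hinv Y hY _ (Submodule.starProjection_apply_mem K z)) ?_)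
    intro w hw
    rw [← map_sub, ← ContinuousLinearMap.adjoint_inner_right, ← ContinuousLinearMap.star_eq_adjoint]
    exact Submodule.starProjection_inner_eq_zero z _ (hinv _ (star_mem hY) w hw)
  have hom : K.starProjection C.om = C.om :=
    Submodule.starProjection_eq_self_iff.2 (Submodule.le_topologicalClosure _ ⟨1, one_mem _, rfl⟩)
  have hsub : {z : Completion D | ∃ X X', Al C.Q S X X' ∧ z = (X C.Q.vac : D)} ⊆
      closure {z | ∃ X ∈ C.MA S, X C.om = z} := by
    rintro _ ⟨X, X', hX, rfl⟩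
    have e : K.starProjection (X C.Q.vac : D) = (X C.Q.vac : D) := by
      refine ext_in _ _ fun w => ?_
      have h1 := af C S X X' hS hX _ hP C.Q.vac w
      rw [← h1]
      change inner ℂ _ (K.starProjection C.om) = _
      rw [hom]
      change inner ℂ ((X' w : D) : Completion D) ((C.Q.vac : D) : Completion D) = _
      rw [Completion.inner_coe, Completion.inner_coe, ← inner_conj_symm, ← b.adj S X X' hX,
        inner_conj_symm]
    have : ((X C.Q.vac : D) : Completion D) ∈ K := e ▸ Submodule.starProjection_apply_mem K _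
    exact this
  exact dense_closure.1 ((b.rs S hS hn).mono hsub)

theorem cyc' (C : Cx D) (b1 : B1 C) (b : B2 C) (S S' : Set V) (hS : IsOpen S') (hn : S'.Nonempty)
    (h : Spc S S') : Dense {z | ∃ X ∈ (C.MA S).commutant, X C.om = z} := by
  have hsurj : Function.Surjective (C.Zc 1) := fun z =>
    ⟨C.Zc (-1) z, by rw [← ContinuousLinearMap.mul_apply, b1.zz.1]; rfl⟩
  have hd := hsurj.denseRange.dense_image (C.Zc 1).continuous (cyc C b S' hS hn)
  refine hd.mono ?_
  rintro _ ⟨_, ⟨X, hX, rfl⟩, rfl⟩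
  refine ⟨_, loc C b1 1 S S' X (Or.inl rfl) h hX, ?_⟩
  simp only [ContinuousLinearMap.mul_apply]
  rw [b1.zv]

theorem comm (M : VonNeumannAlgebra (Completion D)) (X X' Y Y' : D → D) (hX : Af M X X')
    (hY : Af M.commutant Y Y') (v : D) : X (Y v) = Y (X v) := by
  refine P352.BW.H268.comm_of_weak M (Completion.toComplₗᵢ (𝕜 := ℂ) (E := D))
    (Completion.denseRange_coe) X X' Y Y' (fun Z hZ v w => hX Z hZ v w) (fun Z hZ v w => ?_) v
  exact hY Z (by rwa [VonNeumannAlgebra.commutant_commutant]) v w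

theorem sep (C : Cx D) (g : Geo) (b1 : B1 C) (b : B2 C) (X X' : D → D)
    (hX : Al C.Q Set.univ X X') (h0 : X C.Q.vac = 0) (v : D) : X v = 0 := by
  obtain ⟨K, hK, -, hXK⟩ := b.cpt _ X X' hX
  obtain ⟨O, S, hO, hKO, -, hS, hn, hsp⟩ := g.cyl K hK.isBounded
  have ha := af C O X X' hO.1 (b.mono K O X X' hKO hXK)
  have hd := cyc' C b1 b O S hS hn hsp
  have h' : ∀ w, X' w = 0 := by
    intro w
    have hz : ∀ z, inner ℂ ((X' w : D) : Completion D) z = 0 := by
      intro z
      have hcl : IsClosed {z : Completion D | inner ℂ ((X' w : D) : Completion D) z = 0} :=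
        isClosed_eq (by fun_prop) continuous_const
      refine hcl.closure_subset_iff.2 ?_ (hd z)
      rintro _ ⟨Y, hY, rfl⟩
      have := ha Y hY C.Q.vac w
      rw [h0, Completion.coe_zero, map_zero, inner_zero_right] at this
      exact this
    have := hz ((X' w : D) : Completion D)
    rw [Completion.inner_coe, inner_self_eq_zero] at this
    exact this
  have := b.adj _ X X' hX v (X v)
  rw [h', inner_zero_right, inner_self_eq_zero] at this
  exact this

end NTr

theorem rowNT (C : Cx D) : RowNT C := fun g b1 b2 =>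
  { mem := NTr.mem C
    mono := NTr.mono C
    symm := NTr.symm
    af := NTr.af C
    tw := NTr.tw C b1
    cov := NTr.cov C g b1
    vg := NTr.vg C g b1
    gam := NTr.gam C b1
    loc := NTr.loc C b1
    cyc := NTr.cyc C b2
    cyc' := NTr.cyc' C b1 b2
    comm := NTr.comm
    sep := NTr.sep C g b1 b2 }

end

end Vale.Agent.SP352
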