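import Vale.Agent.Q352.NS
import Vale.Agent.P352.BW.T.O

/-! # P352 NS, row OF -/

set_option linter.all false

noncomputable section

open MeasureTheory SchwartzMap Complex Filter Topology
open scoped SchwartzMap ComplexConjugate ENNReal

namespace Vale.Agent.SP352

open P352 P352.BW P352.BW.O649
open P352.GF (Ix V Fn Fld Theory bas sim o)
open P352.H246 P352.H496 P352.H746 P352.H755 P352.H15
open UniformSpace (Completion)

namespace OFr

variable {D : Type*} [NormedAddCommGroup D] [InnerProductSpace ℂ D] {Q : Theory D}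

theorem gen {a b : V} (ha : IsNull a) (hb : IsNull b) (hab : GF.mdot a b = 1) {B : Fld D}
    (hB : Q.fld B) {g : Fn} (hg : In (Wdg a b 0) g) : ∃ c : ℂ → Completion D, Nc c ∧
      (∀ t : ℝ, c t = (B (T.cp (bi a b t) g) Q.vac : D)) ∧
      ∀ t : ℝ, c (t - I / 2) = (B (T.cp (bi a b t) (T.cp (T.rq a b) g)) Q.vac : D) := by
  obtain ⟨F, rfl⟩ := exists_fl hg.1
  have hF := isTest_of_in hg
  obtain ⟨μ, K⟩ := exists_cvd (Q := Q) (kf hB) (kf_cov hB)
  have hc : ContinuousOn (fun z => K.J (gz a b μ F z)) H234U.Sc :=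
    K.J.continuous.comp_continuousOn (cont_gz ha hb hab K.temp K.cone F hF)
  refine ⟨fun z => K.J (gz a b μ F z), ⟨hc, ?_, ?_⟩, fun t => ?_, fun t => ?_⟩
  · refine T.nrm_diff H234U.isOpen_So (hc.mono fun z hz => ⟨hz.1.le, hz.2.le⟩) fun y => ?_
    have e : (fun z => inner ℂ y (K.J (gz a b μ F z))) = fun z =>
        inner ℂ (ContinuousLinearMap.adjoint K.J y) (gz a b μ F z) := by
      funext z
      rw [ContinuousLinearMap.adjoint_inner_left]
    rw [e]
    exact (nice_gz ha hb hab K.temp K.cone F hF _).diff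
  · obtain ⟨N, hN⟩ := exists_wt_memLp K.temp
    obtain ⟨C, r, hC, hr, h⟩ := T.decay_cb ha hb hab F hF N
    refine ⟨‖K.J‖ * (C * ‖hN.toLp _‖), r, by positivity, hr, fun z hz => ?_⟩
    have h1 : ‖gz a b μ F z‖ ≤ C * Real.exp (r * |z.re|) * ‖hN.toLp _‖ := by
      refine Lp.norm_le_mul_norm_of_ae_le_mul ?_
      filter_upwards [K.cone, coe_gz ha hb hab K.temp K.cone F hF hz, hN.coeFn_toLp]
        with p hp e1 e2
      rw [e1, e2, Real.norm_of_nonneg (wt_nonneg N p)]
      exact h p hp z hz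
    calc _ ≤ ‖K.J‖ * ‖gz a b μ F z‖ := K.J.le_opNorm _
      _ ≤ ‖K.J‖ * (C * Real.exp (r * |z.re|) * ‖hN.toLp _‖) := by gcongr
      _ = _ := by ring
  · show K.J _ = _
    rw [gz_real ha hb hab K.temp K.cone F hF, K.J_toL, cp_bi ha hb hab]
    rfl
  · show K.J _ = _
    rw [gz_half ha hb hab K.temp K.cone F hF, K.J_toL, cp_rq ha hb hab, cp_bi ha hb hab]
    rfl

def va : V := ![1, 1, 0, 0]

def vb : V := ![1 / 2, -(1 / 2), 0, 0]

theorem da (x : V) : GF.mdot va x = x 0 - x 1 := by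
  simp [GF.mdot, va, Fin.sum_univ_four, GF.eta, o]
  ring

theorem db (x : V) : GF.mdot vb x = (x 0 + x 1) / 2 := by
  simp [GF.mdot, vb, Fin.sum_univ_four, GF.eta, o]
  ring

theorem na : IsNull va := ⟨by rw [da]; simp [va], by simp [va, o]⟩

theorem nb : IsNull vb := ⟨by rw [db]; simp [vb], by simp [vb, o]⟩

theorem ab : GF.mdot va vb = 1 := by rw [da]; simp [vb]; norm_num

theorem ba : GF.mdot vb va = 1 := by rw [db]; simp [va]

theorem sbo (t : ℝ) (x : V) : sim 1 (bo t) 0 x =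
    ![x 0 * Real.cosh (2 * Real.pi * t) - x 1 * Real.sinh (2 * Real.pi * t),
      -(x 0 * Real.sinh (2 * Real.pi * t)) + x 1 * Real.cosh (2 * Real.pi * t), x 2, x 3] := by
  funext n
  fin_cases n <;> simp [sim, bo, Fin.sum_univ_four] <;> ring

theorem ex4 {x y : V} (h0 : x 0 = y 0) (h1 : x 1 = y 1) (h2 : x 2 = y 2) (h3 : x 3 = y 3) :
    x = y := by
  funext n
  fin_cases n
  exacts [h0, h1, h2, h3]

theorem b1 (t : ℝ) (g : Fn) : T.cp (bi va vb t) g = cp (bo (-t)) g := by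
  funext x
  simp only [T.cp, cp, bi, sim_bst, da, db, sbo, mul_neg, Real.cosh_neg, Real.sinh_neg,
    Real.cosh_eq, Real.sinh_eq]
  congr 1
  refine ex4 ?_ ?_ ?_ ?_ <;> simp only [Pi.add_apply, Pi.smul_apply] <;> simp [va, vb] <;> ring

theorem b2 (t : ℝ) (g : Fn) : T.cp (bi vb va t) g = cp (bo t) g := by
  funext x
  simp only [T.cp, cp, bi, sim_bst, da, db, sbo, Real.cosh_eq, Real.sinh_eq]
  congr 1
  refine ex4 ?_ ?_ ?_ ?_ <;> simp only [Pi.add_apply, Pi.smul_apply] <;> simp [va, vb] <;> ring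

theorem r1 (g : Fn) : T.cp (T.rq va vb) g = fun x => g (rf x) := by
  funext x
  simp only [T.cp, T.rq, sim_bst, da, db]
  congr 1
  refine ex4 ?_ ?_ ?_ ?_ <;> simp only [Pi.add_apply, Pi.smul_apply] <;> simp [va, vb, rf] <;> ring

theorem r2 (g : Fn) : T.cp (T.rq vb va) g = fun x => g (rf x) := by
  funext x
  simp only [T.cp, T.rq, sim_bst, da, db]
  congr 1
  refine ex4 ?_ ?_ ?_ ?_ <;> simp only [Pi.add_apply, Pi.smul_apply] <;> simp [va, vb, rf] <;> ring

end OFr

open OFr in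
theorem rowOF {D : Type*} [NormedAddCommGroup D] [InnerProductSpace ℂ D] (Q : Theory D) :
    OF Q := by
  intro B g hB
  refine ⟨fun hg => ?_, fun hg => ?_⟩
  · have := gen na nb ab hB (g := g) ⟨hg.1, hg.2.1, hg.2.2.trans fun x hx => ?_⟩
    · simpa only [b1, r1] using this
    · have h := abs_lt.1 (show |x 0 - (0 : V) 0| < x 1 - (0 : V) 1 from hx)
      simp only [Pi.zero_apply, sub_zero] at h
      simp only [Wdg, Set.mem_setOf_eq, sub_zero, da, db]
      constructor <;> linarith [h.1, h.2]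
  · have := gen nb na ba hB (g := g) ⟨hg.1, hg.2.1, hg.2.2.trans fun x hx => ?_⟩
    · simpa only [b2, r2] using this
    · have h := abs_lt.1 (show |x 0 - (0 : V) 0| < (0 : V) 1 - x 1 from hx)
      simp only [Pi.zero_apply, sub_zero, zero_sub] at h
      simp only [Wdg, Set.mem_setOf_eq, sub_zero, da, db]
      constructor <;> linarith [h.1, h.2]

end Vale.Agent.SP352

end
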