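import Vale.Agent.Q352.NS

/-!
# P352, project NS, row ONE: the modular group of the wedge is the group of boosts
-/

set_option linter.all false

open Filter Topology MeasureTheory
open UniformSpace (Completion)

namespace Vale.Agent.SP352

open P352.GF (V Ix sim one)
open P132 (ModData)

noncomputable section

namespace ONE

variable {H : Type*} [NormedAddCommGroup H] [InnerProductSpace ℂ H] [CompleteSpace H]

/-- the conjugate of a von Neumann algebra by a unitary -/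
theorem exists_conj (L : VonNeumannAlgebra H) (Z Z' : H →L[ℂ] H) (h1 : Z * Z' = 1)
    (h2 : Z' * Z = 1) (hs : star Z = Z') :
    ∃ M0 : VonNeumannAlgebra H, ∀ X, X ∈ M0 ↔ Z' * X * Z ∈ L := by
  have hs' : star Z' = Z := by rw [← hs, star_star]
  have c1 : ∀ A : H →L[ℂ] H, Z * (Z' * A) = A := fun A => by rw [← mul_assoc, h1, one_mul]
  have c2 : ∀ A : H →L[ℂ] H, Z' * (Z * A) = A := fun A => by rw [← mul_assoc, h2, one_mul]
  refine ⟨cm {X | ∃ Y ∈ L.commutant, X = Z * Y * Z'}, fun X => ?_⟩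
  have hm : X ∈ cm {X | ∃ Y ∈ L.commutant, X = Z * Y * Z'} ↔
      X ∈ StarSubalgebra.centralizer ℂ {X | ∃ Y ∈ L.commutant, X = Z * Y * Z'} := Iff.rfl
  rw [hm, StarSubalgebra.mem_centralizer_iff]
  conv_rhs => rw [← L.commutant_commutant, VonNeumannAlgebra.mem_commutant_iff]
  constructor
  · intro h Y hY
    have := (h _ ⟨Y, hY, rfl⟩).1
    have e := congrArg (fun A => Z' * A * Z) this
    simpa only [mul_assoc, c2, h2, mul_one] using e
  · intro h
    have k : ∀ Y ∈ L.commutant, Z * Y * Z' * X = X * (Z * Y * Z') := fun Y hY => by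
      have e := congrArg (fun A => Z * A * Z') (h Y hY)
      simpa only [mul_assoc, c1, h1, mul_one] using e
    rintro _ ⟨Y, hY, rfl⟩
    refine ⟨k Y hY, ?_⟩
    have := k (star Y) (star_mem hY)
    simpa only [star_mul, hs, hs', mul_assoc] using this

/-- the abstract argument -/
theorem main (hM : MD H) (M L : VonNeumannAlgebra H) (ξ : H) (E : ModData M ξ)
    (Z Z' ρ ρ' : H →L[ℂ] H) (B z : ℝ → H →L[ℂ] H)
    (z1 : Z * Z' = 1) (z2 : Z' * Z = 1) (zs : star Z = Z')
    (r1 : ρ * ρ' = 1) (r2 : ρ' * ρ = 1) (rs : star ρ = ρ')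
    (zv : Z ξ = ξ) (zv' : Z' ξ = ξ) (rv : ρ ξ = ξ)
    (b1 : ∀ t, B t * B (-t) = 1)
    (hz : ∀ t, z t = E.U t * B (-t))
    (vc : ∀ s t, E.U s * B t = B t * E.U s)
    (zu : ∀ t, Z * E.U t = E.U t * Z) (zu' : ∀ t, Z' * E.U t = E.U t * Z')
    (z0 : z 0 = 1) (za : ∀ s t, z (s + t) = z s * z t) (zj : ∀ t, star (z t) = z (-t))
    (nor : ∀ t, ∀ A ∈ M, z t * A * star (z t) ∈ M)
    (n1 : ∀ t, z t * ρ = ρ * z t) (n2 : ∀ t, z t * ρ' = ρ' * z t)
    (ml : ∀ X ∈ M, ρ * X * ρ' ∈ L) (lm : ∀ X ∈ L, ρ' * X * ρ ∈ M)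
    (bl : ∀ t, ∀ X ∈ L, B t * X * B (-t) ∈ L)
    (loc : ∀ X ∈ L, Z * X * Z' ∈ M.commutant)
    (cyc : Dense {y | ∃ X ∈ L, X ξ = y})
    (rb : ∀ t, ρ * B t = B (-t) * ρ) : ∀ t, E.U t = B t := by
  have b2 : ∀ t, B (-t) * B t = 1 := fun t => by simpa using b1 (-t)
  have c1 : ∀ A : H →L[ℂ] H, Z * (Z' * A) = A := fun A => by rw [← mul_assoc, z1, one_mul]
  have c2 : ∀ A : H →L[ℂ] H, Z' * (Z * A) = A := fun A => by rw [← mul_assoc, z2, one_mul]
  have d1 : ∀ A : H →L[ℂ] H, ρ * (ρ' * A) = A := fun A => by rw [← mul_assoc, r1, one_mul]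
  have uz : ∀ t, E.U t = z t * B t := fun t => by rw [hz, mul_assoc, b2, mul_one]
  have uz' : ∀ t, E.U (-t) = B (-t) * star (z t) := fun t => by
    rw [zj, hz, neg_neg, vc, ← mul_assoc, b2, one_mul]
  have zl : ∀ t, ∀ Y ∈ L, z t * Y * star (z t) ∈ L := fun t Y hY => by
    have h := ml _ (nor t _ (lm Y hY))
    have e : ρ * (z t * (ρ' * Y * ρ) * star (z t)) * ρ' = z t * Y * star (z t) := by
      rw [zj]
      calc ρ * (z t * (ρ' * Y * ρ) * z (-t)) * ρ'
          = ρ * ((z t * ρ') * Y * ρ * (z (-t) * ρ')) := by simp only [mul_assoc]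
        _ = ρ * ((ρ' * z t) * Y * ρ * (ρ' * z (-t))) := by rw [n2, n2]
        _ = z t * Y * z (-t) := by simp only [mul_assoc, d1]
    rwa [e] at h
  have ul : ∀ t, ∀ Y ∈ L, E.U t * Y * E.U (-t) ∈ L := fun t Y hY => by
    have h := zl t _ (bl t Y hY)
    have e : z t * (B t * Y * B (-t)) * star (z t) = E.U t * Y * E.U (-t) := by
      rw [uz', uz t]; simp only [mul_assoc]
    rwa [e] at h
  obtain ⟨M0, h0⟩ := exists_conj L Z Z' z1 z2 zs
  have tak : ∀ X ∈ M.commutant, X ∈ M0 := by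
    refine hM.tak M M0 ξ E (fun X hX => ?_) (fun t X hX => ?_) ?_
    · have h := loc _ ((h0 X).1 hX)
      simpa only [mul_assoc, c1, z1, mul_one] using h
    · have h := ul t _ ((h0 X).1 hX)
      have e : E.U t * (Z' * X * Z) * E.U (-t) = Z' * (E.U t * X * E.U (-t)) * Z := by
        calc E.U t * (Z' * X * Z) * E.U (-t)
            = (E.U t * Z') * X * (Z * E.U (-t)) := by simp only [mul_assoc]
          _ = (Z' * E.U t) * X * (E.U (-t) * Z) := by rw [zu, zu']
          _ = _ := by simp only [mul_assoc]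
      rw [h0, ← e]; exact h
    · have hs : DenseRange (Z : H → H) := Function.Surjective.denseRange fun y =>
        ⟨Z' y, by rw [← ContinuousLinearMap.mul_apply, z1, ContinuousLinearMap.one_apply]⟩
      refine (hs.dense_image Z.continuous cyc).mono ?_
      rintro _ ⟨_, ⟨X, hX, rfl⟩, rfl⟩
      refine ⟨Z * X * Z', (h0 _).2 ?_, by simp only [ContinuousLinearMap.mul_apply, zv']⟩
      simpa only [mul_assoc, c2, z2, mul_one] using hX
  obtain ⟨E', hE'⟩ := hM.com M ξ E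
  have sw : star (Z * ρ) = ρ' * Z' := by rw [star_mul, zs, rs]
  have nat := hM.nat M M.commutant ξ E E' (Z * ρ)
    ⟨by rw [sw]; simp only [mul_assoc, c2, r2], by rw [sw]; simp only [mul_assoc, d1, z1]⟩
    (by simp only [ContinuousLinearMap.mul_apply, rv, zv])
    (fun X hX => by
      have h := loc _ (ml X hX)
      rw [sw]; simpa only [mul_assoc] using h)
    (fun Y hY => by
      have h := lm _ ((h0 Y).1 (tak Y hY))
      rw [sw]; simpa only [mul_assoc] using h)
  have ru : ∀ t, ρ * E.U t = E.U (-t) * ρ := fun t => by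
    have h := nat t
    rw [hE', ← mul_assoc (E.U (-t)), ← zu] at h
    have e := congrArg (fun A => Z' * A) h
    simpa only [mul_assoc, c2] using e
  have ev : ∀ t, z t = z (-t) := fun t => by
    have e : z t * ρ = z (-t) * ρ := by
      calc z t * ρ = ρ * (E.U t * B (-t)) := by rw [n1, hz]
        _ = E.U (-t) * (ρ * B (-t)) := by rw [← mul_assoc, ru, mul_assoc]
        _ = z (-t) * ρ := by rw [rb, hz, mul_assoc]
    have e' := congrArg (fun A => A * ρ') e
    simpa only [mul_assoc, r1, mul_one] using e'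
  intro t
  have h1 : z t = 1 := by
    have := za (t / 2) (t / 2)
    rw [add_halves] at this
    rw [this]
    conv_lhs => rhs; rw [ev]
    rw [← za, add_neg_cancel, z0]
  rw [uz, h1, one_mul]

theorem ro_neg : ro (-Real.pi) = ro Real.pi := by
  simp only [ro, Real.cos_neg, Real.sin_neg, Real.sin_pi, neg_zero]

end ONE

theorem rowONE {D : Type*} [NormedAddCommGroup D] [InnerProductSpace ℂ D] (C : Cx D) :
    RowONE C := by
  intro bs hM E zg neu
  have g := bs.geo
  have b := bs.b1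
  have n := bs.nt
  have vv : ∀ l, Op l → ∀ t, C.Vg l t * C.Vg l (-t) = 1 := fun l hl t => by
    rw [← b.vadd l _ _ hl, add_neg_cancel, b.v0 l hl]
  refine ONE.main hM (C.MA (Wr 0)) (C.MA (Wl 0)) C.om E (C.Zc 1) (C.Zc (-1)) (C.Vg ro Real.pi)
    (C.Vg ro (-Real.pi)) (C.Vg bo) (C.zt E) b.zz.1 b.zz.2 (b.zadj 1) (vv ro g.opr _)
    (by simpa using vv ro g.opr (-Real.pi)) (b.vadj ro _ g.opr) (b.zv 1) (b.zv (-1))
    (b.vvac ro _ g.opr) (vv bo g.opb) (fun _ => rfl) zg.vc (fun t => b.zc _ _ (zg.ug t))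
    (fun t => b.zc _ _ (zg.ug t)) zg.zero zg.add zg.adj (fun t => zg.nor t 0)
    (fun t => neu t _) (fun t => neu t _) (fun X hX => ?_) (fun X hX => ?_) (fun t X hX => ?_)
    (fun X hX => n.loc 1 _ _ X (Or.inl rfl) (g.spc 0).1 hX)
    (n.cyc _ (g.opn 0).2 (g.ne 0).2) b.rb
  · refine n.mono _ _ _ ?_ (n.vg ro Real.pi _ X g.opr hX)
    rintro _ ⟨x, hx, rfl⟩
    exact (g.row x).2.2 hx
  · have h := n.vg ro (-Real.pi) _ X g.opr hX
    rw [neg_neg, ONE.ro_neg] at h
    refine n.mono _ _ _ ?_ h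
    rintro _ ⟨x, hx, rfl⟩
    exact (g.row x).1.2 hx
  · refine n.mono _ _ _ ?_ (n.vg bo t _ X g.opb hX)
    rintro _ ⟨x, hx, rfl⟩
    exact (g.bow t x).2.2 hx

end

end Vale.Agent.SP352
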