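import Vale.Agent.Q352.NS
import Vale.Agent.N352.F.Cn

/-! # P352 NS: finite orbits under the boosts give finite spin -/

set_option linter.all false

open Filter Topology Set

noncomputable section

namespace Vale.Agent.SP352

open P352 P352.H746 P352.H15 P352.H246 P352.H496 P352X
open P352.GF (Ix V Fn Fld Theory sim IsLor)
open P352R.Cf (Lact lo fin_orbit fo_cp)
open P352R.Ct (Wv rs ac ac_rs)
open P352H (Np np_lor np_zero)
open P352X.CA (mm)

namespace Sp

section

variable {W : Type*} [AddCommGroup W] [Module ℂ W] {ρ : (Ix → V) → W →ₗ[ℂ] W}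
  {Λ : Set (W →ₗ[ℂ] ℂ)}

open P352R.Cf.Rpp in
theorem rpb (h : Lact ρ Λ) (x : W) [FiniteDimensional ℂ (lo ρ x)] {n : ℕ}
    (b : Module.Basis (Fin n) ℂ (lo ρ x)) : ∃ k : N352.Dn.Rp, ∃ e : k.n = n,
      ∀ L (a : Fin k.n), IsLor L → (b (a.cast e) : W) = ∑ c, k.ρ L c a • ρ L (b (c.cast e)) := by
  let M : (Ix → V) → Matrix _ _ ℂ := fun L => LinearMap.toMatrix b b (P352R.Cf.Rpp.rs h x L)
  have M1 : M GF.one = 1 := by
    show LinearMap.toMatrix b b (P352R.Cf.Rpp.rs h x GF.one) = 1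
    rw [rs_one, LinearMap.toMatrix_one]
  have Mm : ∀ L L', IsLor L → IsLor L' → M (P352R.Cf.cp L L') = M L * M L' ∨
      M (P352R.Cf.cp L L') = -(M L * M L') := by
    intro L L' hL hL'
    refine (rs_mul h x hL hL').imp (fun e => ?_) fun e => ?_
    · show LinearMap.toMatrix b b _ = _
      rw [e, LinearMap.toMatrix_mul]
    · show LinearMap.toMatrix b b _ = _
      rw [e, map_neg, LinearMap.toMatrix_mul]
  have Mu : ∀ L, IsLor L → IsUnit (M L).det := by
    intro L hL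
    have h1 := Mm L _ hL (H246.isLor_linv hL)
    rw [show P352R.Cf.cp L (H246.linv L) = GF.one from H755.linv_id hL, M1] at h1
    rcases h1 with e | e
    · exact Matrix.isUnit_det_of_right_inverse e.symm
    · rw [← mul_neg] at e
      exact Matrix.isUnit_det_of_right_inverse e.symm
  choose S hS using fun a c => rs_der h x (b c) (b.coord a)
  refine ⟨⟨n, fun L => (M L)⁻¹, fun m n => Matrix.of fun a c => -S a c m n, ?_, ?_, ?_⟩, rfl, ?_⟩
  · show (M GF.one)⁻¹ = 1
    rw [M1, inv_one]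
  · intro L L' hL hL'
    refine (Mm L L' hL hL').imp (fun e => ?_) fun e => ?_
    · show (M (P352R.Cf.cp L L'))⁻¹ = _
      rw [e, Matrix.mul_inv_rev]
    · show (M (P352R.Cf.cp L L'))⁻¹ = _
      rw [e]
      refine Matrix.inv_eq_right_inv ?_
      rw [neg_mul_neg, ← Matrix.mul_inv_rev, Matrix.mul_nonsing_inv]
      rw [Matrix.det_mul]
      exact (Mu L hL).mul (Mu L' hL')
  · intro L w a c h0 hL hw
    have h1 := dinv (M := fun e => M (L e)) (M' := Matrix.of fun a c => ∑ m, ∑ n, w m n * S a c m n)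
      (by rw [h0, M1]) (fun e => Mu _ (hL e)) (fun a c => by
        have h2 := hS a c L w h0 hL hw
        simp only [M, LinearMap.toMatrix_apply, Matrix.of_apply]
        exact h2) a c
    simp only [Matrix.of_apply, mul_neg, Finset.sum_neg_distrib] at h1 ⊢
    exact h1
  · intro L a hL
    have h1 : ∀ c, P352R.Cf.Rpp.rs h x L (b c) = ∑ d, M L d c • b d := fun c => by
      simp only [M, LinearMap.toMatrix_apply]
      exact (b.sum_repr _).symm
    have h2 : b a = ∑ c, (M L)⁻¹ c a • P352R.Cf.Rpp.rs h x L (b c) := by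
      simp only [h1, Finset.smul_sum, smul_smul]
      rw [Finset.sum_comm]
      have h3 : ∀ d, ∑ c, ((M L)⁻¹ c a * M L d c) • b d = (1 : Matrix _ _ ℂ) d a • b d := by
        intro d
        rw [← Finset.sum_smul, ← Matrix.mul_nonsing_inv _ (Mu L hL), Matrix.mul_apply]
        simp only [mul_comm]
      simp only [h3, Matrix.one_apply, ite_smul, one_smul, zero_smul, Finset.sum_ite_eq',
        Finset.mem_univ, if_true]
    have h4 := congrArg Subtype.val h2
    simp only [Submodule.coe_sum, Submodule.coe_smul, rs_coe h x hL] at h4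
    exact h4

/-- a multiplet in the orbit that contains the given vector -/
theorem rpo (h : Lact ρ Λ) (x : W) (hx : x ≠ 0) [FiniteDimensional ℂ (lo ρ x)] :
    ∃ (k : N352.Dn.Rp) (y : Fin k.n → W) (a : Fin k.n), y a = x ∧
      (∀ c, ∃ L, IsLor L ∧ y c = ρ L x) ∧
      ∀ L a, IsLor L → y a = ∑ c, k.ρ L c a • ρ L (y c) := by
  have hm : x ∈ lo ρ x := by
    have h1 : ρ GF.one x ∈ lo ρ x := Submodule.subset_span ⟨⟨_, H496.isLor_one⟩, rfl⟩
    rwa [h.id] at h1
  let t : Set (lo ρ x) := {y | ∃ L, IsLor L ∧ y.1 = ρ L x}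
  have hs : LinearIndepOn ℂ id ({⟨x, hm⟩} : Set (lo ρ x)) :=
    LinearIndepOn.singleton fun k => hx (congrArg Subtype.val k)
  have hst : ({⟨x, hm⟩} : Set (lo ρ x)) ⊆ t := by
    rintro _ rfl
    exact ⟨GF.one, H496.isLor_one, by rw [h.id]; rfl⟩
  have ht : ⊤ ≤ Submodule.span ℂ t := by
    rintro ⟨y, hy⟩ -
    induction hy using Submodule.span_induction with
    | mem y hy =>
      obtain ⟨L, rfl⟩ := hy
      exact Submodule.subset_span ⟨L.1, L.2, rfl⟩
    | zero => exact zero_mem _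
    | add y z _ _ a b => exact add_mem a b
    | smul c y _ a => exact Submodule.smul_mem _ c a
  let b0 := Module.Basis.extendLe hs hst ht
  have : Finite (hs.extend hst) := Module.Finite.finite_basis b0
  obtain ⟨n, ⟨q⟩⟩ := Finite.exists_equiv_fin (hs.extend hst)
  obtain ⟨k, e, hk⟩ := rpb h x (b0.reindex q)
  subst e
  obtain ⟨i, hi⟩ := Module.Basis.subset_extendLe hs hst ht (mem_singleton _)
  refine ⟨k, fun c => b0.reindex q c, q i, ?_, fun c => ?_, fun L a hL => hk L a hL⟩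
  · simp only [Module.Basis.reindex_apply, Equiv.symm_apply_apply]
    exact congrArg Subtype.val hi
  · simp only [Module.Basis.reindex_apply]
    exact Module.Basis.extendLe_subset hs hst ht ⟨_, rfl⟩

theorem bo_dg (s : ℝ) : bo s = P352H.Dg (Real.exp (-(2 * Real.pi * s))) 1 0 := by
  funext m n
  fin_cases m <;> fin_cases n <;> simp [bo, P352H.Dg, Real.cosh_eq, Real.sinh_eq, Real.exp_neg] <;> ring

theorem np_dg {l : ℝ} (hl : l ≠ 0) (σ : ℝ) :
    Np (σ * l) 0 = mm (mm (P352H.Dg l⁻¹ 1 0) (Np σ 0)) (P352H.Dg l 1 0) := by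
  funext m n
  fin_cases m <;> fin_cases n <;> simp [mm, Np, P352H.Dg, Fin.sum_univ_four] <;> field_simp <;> ring

theorem np_bo (t : ℝ) : t = 0 ∨ ∃ σ s : ℝ, (σ = 1 ∨ σ = -1) ∧
    Np t 0 = P352R.Cf.cp (bo s) (P352R.Cf.cp (Np σ 0) (bo (-s))) := by
  have k : ∀ l σ : ℝ, 0 < l → ∃ s, Np (σ * l) 0 =
      P352R.Cf.cp (bo s) (P352R.Cf.cp (Np σ 0) (bo (-s))) := fun l σ hl => by
    have e : -(2 * Real.pi * (-Real.log l / (2 * Real.pi))) = Real.log l := by
      field_simp
    have e' : -(2 * Real.pi * (-(-Real.log l / (2 * Real.pi)))) = -Real.log l := by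
      field_simp
    refine ⟨-Real.log l / (2 * Real.pi), ?_⟩
    rw [fo_cp, fo_cp, bo_dg, bo_dg, e, e', Real.exp_neg, Real.exp_log hl, np_dg hl.ne']
  rcases lt_trichotomy t 0 with h | h | h
  · obtain ⟨s, e⟩ := k (-t) (-1) (neg_pos.2 h)
    exact .inr ⟨-1, s, .inr rfl, by rw [← e]; simp⟩
  · exact .inl h
  · obtain ⟨s, e⟩ := k t 1 h
    exact .inr ⟨1, s, .inl rfl, by rw [← e, one_mul]⟩

theorem img {l : ℝ → W →ₗ[ℂ] W}
    (a : ∀ y, FiniteDimensional ℂ (Submodule.span ℂ (range fun t => l t y)))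
    (U : Submodule ℂ W) [FiniteDimensional ℂ U] :
    ∃ S : Submodule ℂ W, FiniteDimensional ℂ S ∧ ∀ t, ∀ u ∈ U, l t u ∈ S := by
  obtain ⟨t, ht⟩ := (Submodule.fg_iff_finiteDimensional U).2 inferInstance
  have := fun z : t => a z
  refine ⟨⨆ z : t, Submodule.span ℂ (range fun s => l s z), inferInstance, fun s u hu => ?_⟩
  rw [← ht] at hu
  refine Submodule.span_induction (p := fun z _ => l s z ∈ _) (fun z hz => ?_) ?_ ?_ ?_ hu
  · exact Submodule.mem_iSup_of_mem ⟨z, hz⟩ (Submodule.subset_span ⟨s, rfl⟩)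
  · rw [map_zero]; exact zero_mem _
  · intro u v _ _ i j; rw [map_add]; exact add_mem i j
  · intro c u _ i; rw [map_smul]; exact Submodule.smul_mem _ c i

theorem fin_lo (h : Lact ρ Λ) (lb : ∀ t, IsLor (bo t))
    (a : ∀ y, FiniteDimensional ℂ (Submodule.span ℂ (range fun t => ρ (bo t) y))) (x : W) :
    FiniteDimensional ℂ (lo ρ x) := by
  have k := fin_orbit ρ (-1) ⊤ (fun _ _ _ _ => Submodule.mem_top) (fun L L' a b y _ => by
    rcases h.mul L' L b a with e | e <;> rw [fo_cp] at e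
    · exact .inr (.inl (by rw [e]; rfl))
    · exact .inr (.inr (.inr (by rw [e]; rfl)))) (fun y _ => by
      have := a y
      obtain ⟨S, s, k⟩ := img a ((Submodule.span ℂ (range fun t => ρ (bo t) y)).map (ρ (Np 1 0)))
      obtain ⟨S', s', k'⟩ :=
        img a ((Submodule.span ℂ (range fun t => ρ (bo t) y)).map (ρ (Np (-1) 0)))
      refine Submodule.finiteDimensional_of_le (S₂ := (S ⊔ S') ⊔ Submodule.span ℂ {y})
        (Submodule.span_le.2 ?_)
      rintro _ ⟨t, rfl⟩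
      rcases np_bo t with rfl | ⟨σ, s, hσ, e⟩
      · simp only [np_zero, h.id]
        exact Submodule.mem_sup_right (Submodule.subset_span rfl)
      · have m : ρ (bo s) (ρ (Np σ 0) (ρ (bo (-s)) y)) ∈ S ⊔ S' := by
          rcases hσ with rfl | rfl
          · exact Submodule.mem_sup_left (k s _ ⟨_, Submodule.subset_span ⟨_, rfl⟩, rfl⟩)
          · exact Submodule.mem_sup_right (k' s _ ⟨_, Submodule.subset_span ⟨_, rfl⟩, rfl⟩)
        refine Submodule.mem_sup_left ?_
        simp only [e]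
        rcases h.mul _ _ (lb s) (P352R.Cf.Rpp.lor_cp (np_lor σ 0) (lb (-s))) with e1 | e1 <;>
          rcases h.mul _ _ (np_lor σ 0) (lb (-s)) with e2 | e2 <;> rw [e1, e2]
        · exact m
        · simpa using m
        · simpa using m
        · simpa using m) x Submodule.mem_top
  refine Submodule.finiteDimensional_of_le (S₂ := Submodule.span ℂ
    ((fun L => ρ L x) '' {L | IsLor L})) (Submodule.span_mono ?_)
  rintro _ ⟨L, rfl⟩
  exact ⟨L.1, L.2, rfl⟩

end

variable {D : Type*} [NormedAddCommGroup D] [InnerProductSpace ℂ D] {C : Cx D} {e : ℂ}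

/-- the Lorentz transforms of the fields are fields -/
def Lcv (Q : Theory D) : Prop := ∀ L B, IsLor L → Q.fld B → ∃ B', Q.fld B' ∧ ∀ f v, GF.IsTest f →
  Q.U 1 L 0 (B (fun x => f (sim 1 L 0 x)) v) = B' f (Q.U 1 L 0 v)

theorem al_sum (Q : Theory D) {ι : Type*} (s : Finset ι) (A : ι → Fld D) (hA : ∀ i, Q.fld (A i))
    (c : ι → ℂ) {f : Fn} (hf : In univ f) : ∃ X', Al Q univ (fun v => ∑ i ∈ s, c i • A i f v) X' := by
  classical
  induction s using Finset.induction_on with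
  | empty => exact ⟨_, by simpa only [zero_smul, Finset.sum_empty] using Al.smul 0 _ _ (Al.one (Q := Q) (W := univ))⟩
  | insert i s hi ih =>
    obtain ⟨X', h⟩ := ih
    obtain ⟨B, hB, a⟩ := Q.adj _ (hA i)
    simp only [Finset.sum_insert hi]
    exact ⟨_, Al.add _ _ _ _ (Al.smul (c i) _ _ (Al.fld _ _ f _ _ (hA i) hB a hf Al.one)) h⟩

theorem dens {Q : Theory D} {ι : Type*} [Fintype ι] {A : ι → Fld D} (hA : ∀ i, Q.fld (A i))
    (c : ι → ℂ) {B : Fld D} (hB : Q.fld B) (v : D)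
    (k : ∀ f, In univ f → B f v = ∑ i, c i • A i f v) {f : Fn} (hf : GF.IsTest f) :
    B f v = ∑ i, c i • A i f v := by
  obtain ⟨F, rfl⟩ := exists_fl hf
  obtain ⟨g, hg, l⟩ := exists_compact_seq F
  have c1 : Continuous fun F => ∑ i, c i • A i (fl F) v :=
    continuous_finset_sum _ fun i _ => (fld_cont (hA i) v).const_smul _
  exact tendsto_nhds_unique (((fld_cont hB v).tendsto F).comp l)
    (((c1.tendsto F).comp l).congr fun n =>
      (k _ ⟨isTest_fl (g n), hasCompactSupport_fl (hg n), subset_univ _⟩).symm)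

theorem sepL (nt : NT C) {ι : Type*} [Fintype ι] {A : ι → Fld D} (hA : ∀ i, C.Q.fld (A i))
    (c : ι → ℂ) {B : Fld D} (hB : C.Q.fld B)
    (k : ∀ f, GF.IsTest f → B f C.Q.vac = ∑ i, c i • A i f C.Q.vac) {f : Fn} (v : D)
    (hf : GF.IsTest f) : B f v = ∑ i, c i • A i f v := by
  refine dens hA c hB v (fun f hf => ?_) hf
  obtain ⟨X', h⟩ := al_sum C.Q Finset.univ A hA c hf
  obtain ⟨B', hB', a⟩ := C.Q.adj _ hB
  have := nt.sep _ _ (Al.add _ _ _ _ (Al.fld _ _ f _ _ hB hB' a hf Al.one) (Al.smul (-1) _ _ h))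
    (by simp only [neg_one_smul]; rw [k f hf.1, add_neg_cancel]) v
  simp only [neg_one_smul] at this
  exact add_neg_eq_zero.1 this

theorem par_cov (h : Lcv C.Q) {L : Ix → V} (hL : IsLor L) {B : Fld D} (hB : C.Par e B) :
    ∃ B', C.Par e B' ∧ ∀ f v, GF.IsTest f →
      C.Q.U 1 L 0 (B (fun x => f (sim 1 L 0 x)) v) = B' f (C.Q.U 1 L 0 v) := by
  have g := C.gr
  obtain ⟨B', c1, c2⟩ := h L B hL hB.1
  refine ⟨B', ⟨c1, fun f v hf => ?_⟩, c2⟩
  obtain ⟨w, rfl⟩ := P352R.Cf.Cb.onto (Q := C.Q) (G := C.G) ⟨g.1, g.2, g.3, g.4, g.5, g.6, g.7⟩ hL v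
  rw [← g.GU 1 L 0 w one_pos hL, ← c2 f _ hf, ← c2 f _ hf,
    hB.2 _ w (Ap.test_sim one_pos hL 0 hf), U_smul one_pos hL, g.GU 1 L 0 _ one_pos hL]

variable (C e) in
/-- the span of the one field vectors -/
def Ws : Submodule ℂ (Wv D) := Submodule.span ℂ (rs C.Q '' {B | C.Par e B})

theorem ws_mem (h : Lcv C.Q) {L : Ix → V} (hL : IsLor L) (ψ : Wv D) (k : ψ ∈ Ws C e) :
    ac C.Q one_pos hL ψ ∈ Ws C e := by
  induction k using Submodule.span_induction with
  | mem y hy =>
    obtain ⟨B, hB, rfl⟩ := hy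
    obtain ⟨B', c1, c2⟩ := par_cov h hL hB
    exact Submodule.subset_span ⟨B', c1, (ac_rs one_pos hL c2).symm⟩
  | zero => rw [map_zero]; exact zero_mem _
  | add y z _ _ a b => rw [map_add]; exact add_mem a b
  | smul c y _ a => rw [map_smul]; exact Submodule.smul_mem _ c a

open Classical in
variable (e) in
/-- the action of the Lorentz group -/
def sg (h : Lcv C.Q) (L : Ix → V) : Ws C e →ₗ[ℂ] Ws C e :=
  if hL : IsLor L then (ac C.Q one_pos hL).restrict (ws_mem h hL) else 1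

theorem sg_val (h : Lcv C.Q) {L : Ix → V} (hL : IsLor L) (ψ : Ws C e) :
    (sg e h L ψ).1 = ac C.Q one_pos hL ψ.1 := by
  rw [sg, dif_pos hL]
  rfl

theorem sg_app (h : Lcv C.Q) {L : Ix → V} (hL : IsLor L) (ψ : Ws C e) (f) :
    (sg e h L ψ).1 f =
      C.Q.U 1 L 0 (ψ.1 ⟨fun x => f.1 (sim 1 L 0 x), Ap.test_sim one_pos hL 0 f.2⟩) := by
  rw [sg_val h hL]
  rfl

theorem ws_par (b : B1 C) {ψ : Wv D} (k : ψ ∈ Ws C e) (f) : ψ f = e • C.G (ψ f) := by
  induction k using Submodule.span_induction with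
  | mem y hy =>
    obtain ⟨B, hB, rfl⟩ := hy
    have p := hB.2 f.1 C.Q.vac f.2
    rwa [C.ev] at p
  | zero =>
    have := b.gsmul 0 0
    rw [zero_smul, zero_smul] at this
    show (0 : D) = e • C.G 0
    rw [this, smul_zero]
  | add y z _ _ a c =>
    show y f + z f = e • C.G (y f + z f)
    rw [b.gadd, smul_add, ← a, ← c]
  | smul c y _ a =>
    show c • y f = e • C.G (c • y f)
    rw [b.gsmul, smul_comm, ← a]

theorem ws_cont {ψ : Wv D} (k : ψ ∈ Ws C e) : Continuous fun F => ψ ⟨fl F, isTest_fl F⟩ := by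
  induction k using Submodule.span_induction with
  | mem y hy =>
    obtain ⟨B, hB, rfl⟩ := hy
    exact fld_cont hB.1 _
  | zero => exact continuous_const
  | add y z _ _ a c => exact a.add c
  | smul c y _ a => exact a.const_smul c

theorem ws_zero (ψ : Ws C e) (k : ∀ f : {f : Fn // GF.IsTest f}, HasCompactSupport f.1 →
    ψ.1 f = 0) : ψ = 0 := by
  refine Subtype.ext (funext fun ⟨f, hf⟩ => ?_)
  obtain ⟨F, rfl⟩ := exists_fl hf
  obtain ⟨g, hg, l⟩ := exists_compact_seq F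
  exact tendsto_nhds_unique (((ws_cont ψ.2).tendsto F).comp l)
    (tendsto_const_nhds.congr fun n => (k ⟨_, isTest_fl (g n)⟩ (hasCompactSupport_fl (hg n))).symm)

variable (C e) in
/-- the matrix elements with compactly supported test functions -/
def Lc : Set (Ws C e →ₗ[ℂ] ℂ) :=
  {l | ∃ w f, HasCompactSupport f.1 ∧ ∀ ψ : Ws C e, l ψ = inner ℂ w (ψ.1 f)}

theorem lact (b : B1 C) (h : Lcv C.Q) (he : e = 1 ∨ e = -1) : Lact (sg e h) (Lc C e) where
  id := by
    refine LinearMap.ext fun ψ => Subtype.ext (funext fun f => ?_)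
    rw [sg_app h H496.isLor_one]
    refine (b.u1 _).trans (congrArg ψ.1 (Subtype.ext (funext fun x => ?_)))
    refine congrArg f.1 (funext fun n => ?_)
    simp [sim, GF.one, GF.bas]
  mul L L' hL hL' := by
    have l : IsLor (P352R.Cf.cp L L') := BW.ue_lor hL hL'
    have key : ∀ ε : ℂ, (∀ (ψ : Ws C e) f, C.Q.U 1 (P352R.Cf.cp L L') 0 (ψ.1 f) =
        ε • C.Q.U 1 L 0 (C.Q.U 1 L' 0 (ψ.1 f))) →
        sg e h (P352R.Cf.cp L L') = ε • (sg e h L * sg e h L') := fun ε m => by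
      refine LinearMap.ext fun ψ => Subtype.ext (funext fun f => ?_)
      have e1 : (fun x => f.1 (sim 1 (P352R.Cf.cp L L') 0 x)) =
          fun x => f.1 (sim 1 L 0 (sim 1 L' 0 x)) := by
        funext x
        rw [P352R.Ct.sim_sim, mul_one]
      rw [sg_app h l, m]
      show _ = ε • (sg e h L (sg e h L' _)).1 f
      rw [sg_app h hL, sg_app h hL']
      simp only [e1]
    rcases C.gr.mul 1 L 0 1 L' 0 one_pos one_pos hL hL' with m | ⟨-, -, m⟩
    · exact .inl ((key 1 fun ψ f => by rw [m, P352R.Cf.Cb.sim0, mul_one, one_smul]).trans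
        (one_smul _ _))
    · have := key e fun ψ f => by
        rw [m, P352R.Cf.Cb.sim0, mul_one, ← C.gr.GU 1 _ 0 _ one_pos l, ← U_smul one_pos l,
          ← ws_par b ψ.2]
      rcases he with rfl | rfl
      · exact .inl (this.trans (one_smul _ _))
      · exact .inr (this.trans (LinearMap.ext fun y => Subtype.ext
          (neg_one_smul ℂ ((sg (-1) h L * sg (-1) h L') y).1)))
  sep ψ k := ws_zero ψ fun f c => ext_inner_left ℂ fun v =>
    (k (((innerₛₗ ℂ v).comp (LinearMap.proj f)).comp (Ws C e).subtype)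
      ⟨v, f, c, fun _ => rfl⟩).trans (inner_zero_right _).symm
  der := by
    rintro ⟨ψ, hψ⟩ l ⟨z, f, c, e1⟩
    induction hψ using Submodule.span_induction with
    | mem y hy =>
      obtain ⟨B, hB, rfl⟩ := hy
      obtain ⟨S, hS⟩ := N352.F.Cn.der (fun m n => C.Q.bose_fld _ (C.st.bose m n)) C.pg hB.1 f.2 c z
      refine ⟨S, fun L w L0 hL dL => ?_⟩
      have := hS L w L0 hL dL
      simp only [e1, fun t => sg_app (e := e) h (hL t)]
      exact this
    | zero =>
      refine ⟨0, fun L w _ _ _ => ?_⟩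
      have : (⟨0, zero_mem _⟩ : Ws C e) = 0 := rfl
      simpa [this] using hasDerivAt_const (0 : ℝ) (0 : ℂ)
    | add y y' hy hy' h1 h2 =>
      obtain ⟨S, hS⟩ := h1
      obtain ⟨S', hS'⟩ := h2
      refine ⟨S + S', fun L w h0 hL hw => ?_⟩
      have h3 := (hS L w h0 hL hw).fun_add (hS' L w h0 hL hw)
      have : (⟨y + y', add_mem hy hy'⟩ : Ws C e) = ⟨y, hy⟩ + ⟨y', hy'⟩ := rfl
      simp only [this, map_add, Pi.add_apply, mul_add, Finset.sum_add_distrib]
      exact h3
    | smul a y hy h1 =>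
      obtain ⟨S, hS⟩ := h1
      refine ⟨a • S, fun L w h0 hL hw => ?_⟩
      have h3 := (hS L w h0 hL hw).const_mul a
      have : (⟨a • y, Submodule.smul_mem _ a hy⟩ : Ws C e) = a • ⟨y, hy⟩ := rfl
      simp only [this, map_smul, Pi.smul_apply, smul_eq_mul]
      have e2 : ∑ m, ∑ n, (w m n : ℂ) * (a * S m n) = a * ∑ m, ∑ n, (w m n : ℂ) * S m n := by
        simp only [Finset.mul_sum]
        exact Finset.sum_congr rfl fun m _ => Finset.sum_congr rfl fun n _ => by ring
      rw [e2]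
      exact h3

theorem fin_bo (g : Geo) (h : Lcv C.Q) (he : e = 1 ∨ e = -1) (fin : FIN C) (y : Ws C e) :
    FiniteDimensional ℂ (Submodule.span ℂ (range fun t => sg e h (bo t) y)) := by
  obtain ⟨ψ, hψ⟩ := y
  induction hψ using Submodule.span_induction with
  | mem y hy =>
    obtain ⟨B, hB, rfl⟩ := hy
    obtain ⟨n, τ, k⟩ := fin e B he hB
    have := FiniteDimensional.span_of_finite ℂ (finite_range fun j =>
      sg e h (bo (τ j)) ⟨rs C.Q B, Submodule.subset_span ⟨B, hB, rfl⟩⟩)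
    refine Submodule.finiteDimensional_of_le (S₂ := Submodule.span ℂ (range fun j =>
      sg e h (bo (τ j)) ⟨rs C.Q B, Submodule.subset_span ⟨B, hB, rfl⟩⟩)) (Submodule.span_le.2 ?_)
    rintro _ ⟨t, rfl⟩
    obtain ⟨μ, k⟩ := k t
    refine (Submodule.mem_span_range_iff_exists_fun ℂ).2 ⟨μ, (sub_eq_zero.1 (ws_zero _ ?_)).symm⟩
    intro f c
    have := k f.1 ⟨f.2, c, subset_univ _⟩
    simp only [Submodule.coe_sub, Submodule.coe_sum, Submodule.coe_smul, Pi.sub_apply,
      Finset.sum_apply, Pi.smul_apply, sg_app h (g.opb.lor _)]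
    exact sub_eq_zero.2 this
  | zero =>
    refine Submodule.finiteDimensional_of_le (S₂ := ⊥) (Submodule.span_le.2 ?_)
    rintro _ ⟨t, rfl⟩
    exact (sg e h (bo t)).map_zero
  | add y y' hy hy' h1 h2 =>
    have : (⟨y + y', add_mem hy hy'⟩ : Ws C e) = ⟨y, hy⟩ + ⟨y', hy'⟩ := rfl
    refine Submodule.finiteDimensional_of_le (S₂ := Submodule.span ℂ (range fun t =>
      sg e h (bo t) ⟨y, hy⟩) ⊔ Submodule.span ℂ (range fun t => sg e h (bo t) ⟨y', hy'⟩))
      (Submodule.span_le.2 ?_)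
    rintro _ ⟨t, rfl⟩
    simp only [this, map_add]
    exact Submodule.add_mem_sup (Submodule.subset_span ⟨t, rfl⟩) (Submodule.subset_span ⟨t, rfl⟩)
  | smul a y hy h1 =>
    have : (⟨a • y, Submodule.smul_mem _ a hy⟩ : Ws C e) = a • ⟨y, hy⟩ := rfl
    refine Submodule.finiteDimensional_of_le (S₂ := Submodule.span ℂ (range fun t =>
      sg e h (bo t) ⟨y, hy⟩)) (Submodule.span_le.2 ?_)
    rintro _ ⟨t, rfl⟩
    simp only [this, map_smul]
    exact Submodule.smul_mem _ a (Submodule.subset_span ⟨t, rfl⟩)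

theorem mf_par (b : Bs C) (h : Lcv C.Q) (he : e = 1 ∨ e = -1) (fin : FIN C) {B : Fld D}
    (hB : C.Par e B) : ∃ (n : ℕ) (A : Fin n → Fld D),
      (∀ i, ∃ k Φ a, ((∀ c, C.Q.fld (Φ c)) ∧ N352.Dn.IsMl C.Q k Φ) ∧ A i = Φ a) ∧
      ∀ f v, GF.IsTest f → B f v = ∑ i, A i f v := by
  let x : Ws C e := ⟨rs C.Q B, Submodule.subset_span ⟨B, hB, rfl⟩⟩
  by_cases hx : x = 0
  · refine ⟨0, Fin.elim0, fun i => i.elim0, fun f v hf => ?_⟩
    have := sepL b.nt (ι := Fin 0) (A := Fin.elim0) (fun i => i.elim0) Fin.elim0 hB.1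
      (fun f hf => (congrFun (congrArg Subtype.val hx) ⟨f, hf⟩).trans (by simp)) v hf
    simpa using this
  have hl := lact b.b1 h he
  have := fin_lo hl b.geo.opb.lor (fin_bo b.geo h he fin) x
  obtain ⟨k, y, a, e1, e2, e3⟩ := rpo hl x hx
  have e4 : ∀ c, ∃ Φ, C.Par e Φ ∧ (y c).1 = rs C.Q Φ := fun c => by
    obtain ⟨L, hL, e5⟩ := e2 c
    obtain ⟨B', c1, c2⟩ := par_cov h hL hB
    exact ⟨B', c1, by rw [e5, sg_val h hL]; exact ac_rs one_pos hL c2⟩
  choose Φ p1 p2 using e4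
  refine ⟨1, fun _ => Φ a, fun _ => ⟨k, Φ, a, ⟨fun c => (p1 c).1, fun c L f v hL hf => ?_⟩, rfl⟩,
    fun f v hf => ?_⟩
  · choose A c1 c2 using fun d => par_cov h hL (p1 d)
    simp only [c2 _ f v hf]
    refine sepL b.nt (fun d => (c1 d).1) _ (p1 c).1 (fun g hg => ?_) _ hf
    have := congrFun (congrArg Subtype.val (e3 L c hL)) ⟨g, hg⟩
    simp only [Submodule.coe_sum, Submodule.coe_smul, sg_val h hL, p2,
      fun d => ac_rs one_pos hL (c2 d), Finset.sum_apply, Pi.smul_apply] at this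
    exact this
  · have := sepL b.nt (ι := Fin 1) (A := fun _ => Φ a) (fun _ => (p1 a).1) (fun _ => 1) hB.1
      (fun g hg => by
        have := congrFun ((congrArg Subtype.val e1).symm.trans (p2 a)) ⟨g, hg⟩
        rw [Fin.sum_univ_one, one_smul]
        exact this) v hf
    simpa only [one_smul] using this

end Sp

/-- **finite spin** -/
theorem mfa {D : Type*} [NormedAddCommGroup D] [InnerProductSpace ℂ D] {C : Cx D} (b : Bs C)
    (h : Sp.Lcv C.Q) (fin : FIN C) : N352.Dn.MfA C.Q := by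
  intro B hB
  obtain ⟨A, A', a, a', d⟩ := C.gr.split B hB
  obtain ⟨n, E, e1, e2⟩ := Sp.mf_par b h (.inl rfl) fin (B := A)
    ⟨C.Q.bose_fld A a, fun f v hf => by rw [C.gr.bose A f v a hf, one_smul]⟩
  obtain ⟨n', E', e1', e2'⟩ := Sp.mf_par b h (.inr rfl) fin (B := A')
    ⟨a'.1, fun f v hf => by rw [a'.2 f v hf, neg_one_smul]⟩
  refine ⟨n + n', Fin.append E E', fun i => ?_, fun f v hf => ?_⟩
  · refine Fin.addCases (fun i => ?_) (fun i => ?_) i
    · rw [Fin.append_left]; exact e1 i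
    · rw [Fin.append_right]; exact e1' i
  · simp only [Fin.sum_univ_add, Fin.append_left, Fin.append_right]
    rw [d f v hf, e2 f v hf, e2' f v hf]

end Vale.Agent.SP352

end
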