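import Vale.Agent.Q352.NS

/-!
# P352, project NS: row VAC
-/

set_option linter.all false

open Filter Topology MeasureTheory
open UniformSpace (Completion)

namespace Vale.Agent.SP352

open P352.GF (V Fn Ix Fld Theory IsTest IsLor IsCutoff sim one bar mdot pd eta o)

noncomputable section

variable {D : Type*} [NormedAddCommGroup D] [InnerProductSpace ℂ D]

namespace VACr

theorem shift {C : Cx D} (B : Bs C) {A : Fld D} (hA : C.Q.fld A) {h : Fn} (hh : IsTest h) (b : V)
    {y : Completion D} (hy : ∀ a, C.Tr a y = y) :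
    inner ℂ y ((A h C.Q.vac : D) : Completion D) =
      inner ℂ y ((A (fun x => h (b + x)) C.Q.vac : D) : Completion D) := by
  have h1 := C.Q.transl A b h C.Q.vac hA hh
  rw [C.Q.U_vac 1 one b one_pos B.geo.lor1] at h1
  simp only [B.geo.sim1] at h1
  have h2 : ∀ w : D, C.Tr b w = (C.Q.U 1 one b w : D) := fun w =>
    B.b1.coe 1 one b w one_pos B.geo.lor1
  rw [h1, ← h2, ← ContinuousLinearMap.adjoint_inner_left, ← ContinuousLinearMap.star_eq_adjoint,
    B.b1.tadj, hy]

theorem diff {C : Cx D} {A : Fld D} (hA : C.Q.fld A) {f g u : Fn} (hf : IsTest f) (hg : IsTest g)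
    {y : Completion D} (e : inner ℂ y ((A f C.Q.vac : D) : Completion D) =
      inner ℂ y ((A g C.Q.vac : D) : Completion D)) (hu : ∀ x, u x = f x - g x) :
    inner ℂ y ((A u C.Q.vac : D) : Completion D) = 0 := by
  have h1 : u = fun x => f x + (-1 : ℂ) * g x := funext fun x => by rw [hu]; ring
  rw [h1, C.Q.lin A f g (-1) _ hA hf hg, Completion.coe_add, Completion.coe_smul, inner_add_right,
    inner_smul_right, e]
  ring

end VACr

theorem rowVAC {D : Type*} [NormedAddCommGroup D] [InnerProductSpace ℂ D] (C : Cx D) :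
    RowVAC C := by
  intro B
  obtain ⟨F, hF, hc⟩ := B.cut
  refine ⟨F, hF, fun R hR y hy => ?_⟩
  obtain ⟨h1, b1, t1, e1⟩ := hc R hR 1 (Or.inl rfl)
  obtain ⟨h2, b2, t2, e2⟩ := hc R hR 2 (Or.inr rfl)
  have hT : ∀ n, C.Q.fld (C.T o n) := fun n => C.Q.bose_fld _ (C.st.bose o n)
  have ts : ∀ (h : Fn) (b : V), IsTest h → IsTest fun x => h (b + x) := fun h b t => by
    simpa only [B.geo.sim1] using B.geo.test 1 one b h one_pos B.geo.lor1 t
  have key : ∀ n : Ix, inner ℂ y ((C.T o n (fun x => (eta n : ℂ) * xr x n * F R x) C.Q.vac : D) :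
      Completion D) = 0 := by
    intro n
    fin_cases n
    · exact VACr.diff (hT _) t1 t1 rfl fun x => by simp [xr]
    · exact VACr.diff (hT _) t2 (ts h2 b2 t2) (VACr.shift B (hT _) t2 b2 hy) fun x => by
        rw [← e2]; simp [xr, eta, o]
    · exact VACr.diff (hT _) (ts h1 b1 t1) t1 (VACr.shift B (hT _) t1 b1 hy).symm fun x => by
        rw [← neg_sub, ← e1]; simp [xr, eta, o]
    · exact VACr.diff (hT _) t1 t1 rfl fun x => by simp [xr]
  simp only [Cx.qr, N352.Dn.cur, Fin.sum_univ_four, Completion.coe_add, inner_add_right]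
  rw [key 0, key 1, key 2, key 3]
  simp

end

end Vale.Agent.SP352
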