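import Vale.Agent.Q352.NS

/-!
# P352, project NS, row WC: `zt` commutes weakly with the stress tensor
-/

set_option linter.all false

open Filter Topology MeasureTheory
open UniformSpace (Completion)
open Complex (I)

namespace Vale.Agent.SP352

open P352.GF (V Fn Ix Fld Theory IsTest IsLor IsCutoff sim one bar mdot pd eta)
open P352.H246 (Al In Cov)

noncomputable section

variable {D : Type*} [NormedAddCommGroup D] [InnerProductSpace ℂ D]

namespace WCs

theorem coe_inj {v w : D} (h : (v : Completion D) = w) : v = w :=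
  Completion.coe_injective D h

/-- a vector is determined by its inner products with the domain -/
theorem ext_d {x y : Completion D} (h : ∀ w : D, inner ℂ (w : Completion D) x =
    inner ℂ (w : Completion D) y) : x = y := by
  refine ext_inner_left ℂ fun z => ?_
  refine Completion.induction_on z (isClosed_eq ?_ ?_) h
  · exact continuous_id.inner continuous_const
  · exact continuous_id.inner continuous_const

theorem af_adj {M : VonNeumannAlgebra (Completion D)} {X X' : D → D} (h : Af M X X') (v w : D) :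
    inner ℂ ((X' w : D) : Completion D) (v : Completion D) =
      inner ℂ (w : Completion D) ((X v : D) : Completion D) :=
  h 1 (one_mem _) v w

variable {C : Cx D}

theorem zd_vac (b : B1 C) (e : ℝ) : C.zd e C.Q.vac = C.Q.vac :=
  coe_inj ((b.zcoe e _).symm.trans (b.zv e))

theorem zd_zd (b : B1 C) (v : D) : C.zd 1 (C.zd (-1) v) = v := by
  refine coe_inj ?_
  rw [← b.zcoe, ← b.zcoe, ← ContinuousLinearMap.mul_apply, b.zz.1]
  rfl

theorem u_vac (g : Geo) (b : B1 C) (a : V) : C.Q.U 1 one a C.Q.vac = C.Q.vac :=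
  coe_inj ((b.coe 1 one a _ one_pos g.lor1).symm.trans (b.vac 1 one a one_pos g.lor1))

theorem u_zd (g : Geo) (b : B1 C) (a : V) (e : ℝ) (v : D) :
    C.Q.U 1 one a (C.zd e v) = C.zd e (C.Q.U 1 one a v) := by
  unfold Cx.zd
  rw [b.uadd _ _ _ _ _ one_pos g.lor1, b.usmul _ _ _ _ _ one_pos g.lor1,
    b.usmul _ _ _ _ _ one_pos g.lor1, C.gr.GU _ _ _ _ one_pos g.lor1]

theorem wl_add {c c' a x : V} (ha : a ∈ Wl (c - c')) (hx : x ∈ Wl c') : a + x ∈ Wl c := by
  simp only [Wl, Set.mem_setOf_eq, Pi.add_apply, Pi.sub_apply, abs_lt] at *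
  constructor <;> linarith [ha.1, ha.2, hx.1, hx.2]

/-- the claim for the twisted vectors of the opposite wedge -/
theorem step (hB : Bs C) (hK : KEY D) {E : C.Md} (hZ : ZG C E) (hF : FIX C E) (t : ℝ) (m n : Ix)
    {f : Fn} {c : V} (hf : In (Wr c) f) {X X' : D → D} (hX : Al C.Q (Wl c) X X') (η : D) :
    inner ℂ ((C.T m n (bar f) (C.zd 1 (X C.Q.vac)) : D) : Completion D) (C.zt E t η) =
      inner ℂ ((C.zd 1 (X C.Q.vac) : D) : Completion D) (C.zt E t (C.T m n f η : D)) := by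
  have hT : C.Q.fld (C.T m n) := C.Q.bose_fld _ (C.st.bose m n)
  have hY : Al C.Q (Wr c) (fun v => C.T m n f v) (fun v => C.T m n (bar f) v) :=
    Al.fld _ _ f _ _ hT hT (C.st.herm m n) hf Al.one
  have aY := hB.nt.af _ _ _ (hB.geo.opn c).1 hY
  have aX := hB.nt.tw (Wr c) (Wl c) X X' (hB.geo.opn c).2 (hB.geo.spc c).1 hX
  obtain ⟨ξ, h1, h2⟩ := hK (C.MA (Wr c)) (C.zt E t) C.Q.vac _ _ _ _ (hZ.uni t) (hZ.vac t)
    (hZ.nor t c) aX aY
  have hb : In Set.univ (bar f) :=
    hB.geo.inb _ _ ⟨hf.1, hf.2.1, Set.subset_univ _⟩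
  have e1 : ξ = ((C.tw X (C.T m n (bar f) C.Q.vac) : D) : Completion D) :=
    ext_d fun w => by rw [h1 w, hF t m n _ hb, af_adj aX]
  have e2 : C.T m n (bar f) (C.tw X C.Q.vac) = C.tw X (C.T m n (bar f) C.Q.vac) :=
    hB.nt.comm _ _ _ _ _ (hB.nt.symm _ _ _ aY) aX C.Q.vac
  have e3 : C.tw X C.Q.vac = C.zd 1 (X C.Q.vac) := by
    show C.zd 1 (X (C.zd (-1) C.Q.vac)) = _
    rw [zd_vac hB.b1]
  have := h2 η
  rw [e1, ← e2, e3] at this
  exact this

end WCs

open WCs in
theorem rowWC (C : Cx D) : RowWC C := by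
  intro hB hK hH E hZ hF t m n f X X' η hf hX
  obtain ⟨c, hc⟩ := (hB.geo.cov _ hf.2.1.isCompact.isBounded).1
  have hf' : In (Wr c) f := ⟨hf.1, hf.2.1, hc⟩
  obtain ⟨Y, Y', hY, eY⟩ := hB.b2.zom (-1) _ _ _ hX
  obtain ⟨K, hK1, -, hYK⟩ := hB.b2.cpt _ _ _ hY
  obtain ⟨c', hc'⟩ := (hB.geo.cov _ hK1.isBounded).2
  have eX : X C.Q.vac = C.zd 1 (Y C.Q.vac) := by rw [← eY, zd_zd hB.b1]
  have hT : C.Q.fld (C.T m n) := C.Q.bose_fld _ (C.st.bose m n)
  have key := hH (C.T m n) (bar f) (C.zt E t η) (C.zt E t (C.T m n f η : D)) (X C.Q.vac)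
    (Wl (c - c')) hT (hB.geo.tb _ hf.1) (hB.geo.opn _).2 (hB.geo.ne _).2 fun a ha => by
      obtain ⟨Z, Z', hZ1, eZ, -⟩ := hB.b2.cov 1 one a K Y Y' one_pos hB.geo.lor1 hYK
      have hs : sim 1 one a '' K ⊆ Wl c := by
        rintro _ ⟨x, hx, rfl⟩
        rw [hB.geo.sim1]
        exact wl_add ha (hc' hx)
      have e : C.Q.U 1 one a (X C.Q.vac) = C.zd 1 (Z C.Q.vac) := by
        rw [eX, u_zd hB.geo hB.b1, eZ, u_vac hB.geo hB.b1]
      rw [e, ← inner_conj_symm, step hB hK hZ hF t m n hf' (hB.b2.mono _ _ _ _ hs hZ1) η,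
        inner_conj_symm]
  rw [← inner_conj_symm, key, inner_conj_symm]

end

end Vale.Agent.SP352
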