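import Vale.Agent.Q352.NS

/-!
# P352, project NS, row WL: the limit of short distances
-/

set_option linter.all false

open Filter Topology
open UniformSpace (Completion)

namespace Vale.Agent.SP352

open P352.GF (V one)

variable {D : Type*} [NormedAddCommGroup D] [InnerProductSpace ℂ D]

namespace WL

theorem nrm {C : Cx D} (h : Bs C) {s : ℝ} (hs : 0 < s) (v : Completion D) : ‖C.Dl s v‖ = ‖v‖ :=
  ContinuousLinearMap.norm_map_of_mem_unitary (h.b1.uni s one 0 hs h.geo.lor1) v

theorem adj {C : Cx D} (h : Bs C) (a : V) (v w : Completion D) :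
    inner ℂ (C.Tr a v) w = inner ℂ v (C.Tr (-a) w) := by
  rw [← h.b1.tadj, ContinuousLinearMap.star_eq_adjoint, ContinuousLinearMap.adjoint_inner_right]

theorem dtv {C : Cx D} (h : Bs C) {s : ℝ} (hs : 0 < s) (a : V) (v : Completion D) :
    C.Dl s (C.Tr a v) = C.Tr (s • a) (C.Dl s v) :=
  congrArg (fun X : Completion D →L[ℂ] Completion D => X v) (h.b1.dt s a hs)

/-- the vectors with the property -/
def S (C : Cx D) (η : Completion D) : Submodule ℂ (Completion D) where
  carrier := {ξ | Tendsto (fun s => inner ℂ (C.Dl s ξ) η) (𝓝[>] 0) (𝓝 0)}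
  zero_mem' := by
    simp only [Set.mem_setOf_eq, map_zero, inner_zero_left]
    exact tendsto_const_nhds
  add_mem' := by
    intro x y hx hy
    simp only [Set.mem_setOf_eq, map_add, inner_add_left] at hx hy ⊢
    simpa using hx.add hy
  smul_mem' := by
    intro c x hx
    simp only [Set.mem_setOf_eq, map_smul, inner_smul_left] at hx ⊢
    simpa using hx.const_mul ((starRingEnd ℂ) c)

theorem mem_S {C : Cx D} {η ξ : Completion D} :
    ξ ∈ S C η ↔ Tendsto (fun s => inner ℂ (C.Dl s ξ) η) (𝓝[>] 0) (𝓝 0) := Iff.rfl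

theorem closed {C : Cx D} (h : Bs C) (η ξ : Completion D)
    (hξ : ξ ∈ closure (S C η : Set (Completion D))) : ξ ∈ S C η := by
  rw [mem_S, Metric.tendsto_nhds]
  intro ε hε
  have h1 : 0 < ‖η‖ + 1 := by positivity
  obtain ⟨x, hx, hd⟩ := Metric.mem_closure_iff.1 hξ (ε / 2 / (‖η‖ + 1)) (by positivity)
  have h2 := Metric.tendsto_nhds.1 (mem_S.1 hx) (ε / 2) (by positivity)
  filter_upwards [h2, self_mem_nhdsWithin] with s h3 hs
  rw [dist_zero_right] at h3 ⊢
  have e : inner ℂ (C.Dl s ξ) η = inner ℂ (C.Dl s x) η + inner ℂ (C.Dl s (ξ - x)) η := by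
    rw [← inner_add_left, ← map_add, add_sub_cancel]
  have h4 : ‖inner ℂ (C.Dl s (ξ - x)) η‖ ≤ ε / 2 := by
    refine (norm_inner_le_norm _ _).trans ?_
    rw [nrm h hs, ← dist_eq_norm]
    rw [lt_div_iff₀ h1] at hd
    nlinarith [dist_nonneg (x := ξ) (y := x)]
  rw [e]
  exact (norm_add_le _ _).trans_lt (by linarith)

theorem inv_mem {C : Cx D} (h : Bs C) {η : Completion D}
    (hη : ∀ y, (∀ a, C.Tr a y = y) → inner ℂ y η = 0) {z : Completion D}
    (hz : ∀ a, C.Tr a z = z) : z ∈ S C η := by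
  rw [mem_S]
  refine tendsto_const_nhds.congr' ?_
  filter_upwards [self_mem_nhdsWithin] with s hs
  have hs : 0 < s := hs
  refine (hη _ fun a => ?_).symm
  have h1 := dtv h hs (s⁻¹ • a) z
  rw [hz, smul_smul, mul_inv_cancel₀ hs.ne', one_smul] at h1
  exact h1.symm

theorem dif_mem {C : Cx D} (h : Bs C) (η x : Completion D) (a : V) : C.Tr a x - x ∈ S C η := by
  rw [mem_S]
  have h1 : Tendsto (fun s : ℝ => ‖x‖ * ‖C.Tr (-(s • a)) η - η‖) (𝓝 0) (𝓝 0) := by
    have h2 : Continuous fun s : ℝ => ‖x‖ * ‖C.Tr (-(s • a)) η - η‖ :=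
      continuous_const.mul ((((h.b1.tcont η).comp
        (continuous_id.smul continuous_const).neg).sub continuous_const).norm)
    have h3 := h2.tendsto 0
    simpa [h.b1.t0] using h3
  refine squeeze_zero_norm' ?_ (h1.mono_left nhdsWithin_le_nhds)
  filter_upwards [self_mem_nhdsWithin] with s hs
  have hs : 0 < s := hs
  rw [map_sub, inner_sub_left, dtv h hs, adj h, ← inner_sub_right]
  refine (norm_inner_le_norm _ _).trans ?_
  rw [nrm h hs]

end WL

theorem rowWL (C : Cx D) : RowWL C := by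
  intro h ξ η hη
  have ho : (WL.S C η)ᗮ = ⊥ := by
    rw [Submodule.eq_bot_iff]
    intro z hz
    rw [Submodule.mem_orthogonal] at hz
    have h1 : ∀ a, C.Tr a z = z := by
      intro a
      refine ext_inner_left ℂ fun x => ?_
      have h2 := hz _ (WL.dif_mem h η x (-a))
      rw [inner_sub_left, WL.adj h, neg_neg] at h2
      exact sub_eq_zero.1 h2
    exact inner_self_eq_zero.1 (hz z (WL.inv_mem h hη h1))
  have ht := Submodule.topologicalClosure_eq_top_iff.2 ho
  refine WL.mem_S.1 (WL.closed h η ξ ?_)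
  rw [← Submodule.topologicalClosure_coe, ht]
  trivial

end Vale.Agent.SP352
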