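import Vale.Agent.Q352.NS

/-!
# P352, project NS, row ZG: the difference of the modular group and the boosts is a group
-/

set_option linter.all false

open Filter Topology MeasureTheory
open UniformSpace (Completion)
open Complex (I)

namespace Vale.Agent.SP352

open P352.GF (V Fn Ix Fld Theory IsTest IsLor IsCutoff sim one bar mdot pd eta)

noncomputable section

namespace ZGr

variable {D : Type*} [NormedAddCommGroup D] [InnerProductSpace ℂ D] {C : Cx D}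

theorem vv (h : Bs C) (t : ℝ) : C.Vg bo t * C.Vg bo (-t) = 1 := by
  rw [← h.b1.vadd _ _ _ h.geo.opb, add_neg_cancel, h.b1.v0 _ h.geo.opb]

theorem vv' (h : Bs C) (t : ℝ) : C.Vg bo (-t) * C.Vg bo t = 1 := by
  rw [← h.b1.vadd _ _ _ h.geo.opb, neg_add_cancel, h.b1.v0 _ h.geo.opb]

theorem vuni (h : Bs C) (t : ℝ) : C.Vg bo t ∈ unitary (Completion D →L[ℂ] Completion D) := by
  rw [Unitary.mem_iff, h.b1.vadj _ _ h.geo.opb]
  exact ⟨vv' h t, vv h t⟩

theorem vmem (h : Bs C) (t : ℝ) {X} (hX : X ∈ C.MA (Wr 0)) :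
    C.Vg bo t * X * C.Vg bo (-t) ∈ C.MA (Wr 0) := by
  refine h.nt.mono _ _ _ ?_ (h.nt.vg bo t _ X h.geo.opb hX)
  rintro _ ⟨x, hx, rfl⟩
  exact (h.geo.bow t x).1.2 hx

theorem vc (h : Bs C) (m : MD (Completion D)) (E : C.Md) (s t : ℝ) :
    E.U s * C.Vg bo t = C.Vg bo t * E.U s := by
  refine (m.nat _ _ _ E E (C.Vg bo t) (vuni h t) (h.b1.vvac _ _ h.geo.opb) ?_ ?_ s).symm
  · intro X hX
    rw [h.b1.vadj _ _ h.geo.opb]
    exact vmem h t hX
  · intro Y hY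
    have h1 := vmem h (-t) hY
    rw [neg_neg] at h1
    rw [h.b1.vadj _ _ h.geo.opb]
    exact h1

theorem ug (h : Bs C) (m : MD (Completion D)) (E : C.Md) (t : ℝ) :
    C.Γ * E.U t = E.U t * C.Γ := by
  refine m.nat _ _ _ E E C.Γ ?_ h.b1.gv ?_ ?_ t
  · rw [Unitary.mem_iff, h.b1.gs]
    exact ⟨h.b1.gg, h.b1.gg⟩
  · intro X hX
    rw [h.b1.gs]
    exact h.nt.gam _ X hX
  · intro X hX
    rw [h.b1.gs]
    exact h.nt.gam _ X hX

theorem dmem (h : Bs C) {s : ℝ} (hs : 0 < s) {X} (hX : X ∈ C.MA (Wr 0)) :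
    C.Dl s * X * star (C.Dl s) ∈ C.MA (Wr 0) := by
  refine h.nt.mono _ _ _ ?_ (h.nt.cov s one 0 _ X hs h.geo.lor1 hX)
  rintro _ ⟨x, hx, rfl⟩
  rw [h.geo.simd]
  simp only [Wr, Set.mem_setOf_eq, Pi.zero_apply, sub_zero, Pi.smul_apply, smul_eq_mul] at hx ⊢
  rw [abs_mul, abs_of_pos hs]
  exact mul_lt_mul_of_pos_left hx hs

theorem ud (h : Bs C) (m : MD (Completion D)) (E : C.Md) {s : ℝ} (hs : 0 < s) (t : ℝ) :
    C.Dl s * E.U t = E.U t * C.Dl s := by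
  refine m.nat _ _ _ E E (C.Dl s) (h.b1.uni s one 0 hs h.geo.lor1)
    (h.b1.vac s one 0 hs h.geo.lor1) (fun X hX => dmem h hs hX) ?_ t
  intro Y hY
  have h1 := dmem h (inv_pos.2 hs) hY
  rw [h.b1.dadj _ (inv_pos.2 hs), inv_inv] at h1
  rw [h.b1.dadj _ hs]
  exact h1

theorem tmem (h : Bs C) (a c : V) {X} (hX : X ∈ C.MA (Wr c)) :
    C.Tr a * X * C.Tr (-a) ∈ C.MA (Wr (a + c)) := by
  rw [← h.b1.tadj]
  refine h.nt.mono _ _ _ ?_ (h.nt.cov 1 one a _ X one_pos h.geo.lor1 hX)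
  rintro _ ⟨x, hx, rfl⟩
  rw [h.geo.sim1]
  simpa only [Wr, Set.mem_setOf_eq, Pi.add_apply, add_sub_add_left_eq_sub] using hx

theorem tt (h : Bs C) (a : V) : C.Tr a * C.Tr (-a) = 1 := by
  rw [← h.b1.tadd, add_neg_cancel, h.b1.t0]

theorem tr (h : Bs C) {E : C.Md} (hz : ZT C E) (t : ℝ) (a : V) :
    C.zt E t * C.Tr a = C.Tr a * C.zt E t := by
  have h1 : sim 1 (bo t) 0 (sim 1 (bo (-t)) 0 a) = a := by
    rw [← h.geo.comp, h.geo.opb.add, add_neg_cancel, h.geo.opb.zero, h.geo.sim1, zero_add]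
  unfold Cx.zt
  rw [mul_assoc, h.b1.vt _ _ _ h.geo.opb, ← mul_assoc, hz, h1, mul_assoc]

theorem adj (h : Bs C) (m : MD (Completion D)) (E : C.Md) (t : ℝ) :
    star (C.zt E t) = C.zt E (-t) := by
  unfold Cx.zt
  rw [star_mul, h.b1.vadj _ _ h.geo.opb, E.star_U, vc h m]

theorem add (h : Bs C) (m : MD (Completion D)) (E : C.Md) (s t : ℝ) :
    C.zt E (s + t) = C.zt E s * C.zt E t := by
  unfold Cx.zt
  rw [E.U_add, neg_add, h.b1.vadd _ _ _ h.geo.opb, mul_assoc, mul_assoc, ← mul_assoc (E.U t),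
    vc h m, mul_assoc]

theorem zero (h : Bs C) (E : C.Md) : C.zt E 0 = 1 := by
  unfold Cx.zt
  rw [E.U_zero, neg_zero, h.b1.v0 _ h.geo.opb, one_mul]

theorem nor0 (h : Bs C) (E : C.Md) (t : ℝ) {A} (hA : A ∈ C.MA (Wr 0)) :
    C.zt E t * A * star (C.zt E t) ∈ C.MA (Wr 0) := by
  have h1 : E.U t * (C.Vg bo (-t) * A * C.Vg bo (- -t)) * E.U (-t) ∈ C.MA (Wr 0) :=
    E.U_mem _ (vmem h (-t) hA) t
  unfold Cx.zt
  rw [star_mul, h.b1.vadj _ _ h.geo.opb, E.star_U]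
  simpa only [mul_assoc] using h1

theorem nor (h : Bs C) {E : C.Md} (hz : ZT C E) (t : ℝ) (c : V) {A} (hA : A ∈ C.MA (Wr c)) :
    C.zt E t * A * star (C.zt E t) ∈ C.MA (Wr c) := by
  have h1 := tmem h (-c) c hA
  rw [neg_add_cancel, neg_neg] at h1
  have h2 := tmem h c 0 (nor0 h E t h1)
  rw [add_zero] at h2
  have h3 : star (C.zt E t) * C.Tr (-c) = C.Tr (-c) * star (C.zt E t) := by
    have := congrArg star (tr h hz t c)
    rw [star_mul, star_mul, h.b1.tadj] at this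
    exact this.symm
  have h4 : C.Tr c * (C.zt E t * (C.Tr (-c) * A * C.Tr c) * star (C.zt E t)) * C.Tr (-c) =
      C.zt E t * A * star (C.zt E t) := by
    calc C.Tr c * (C.zt E t * (C.Tr (-c) * A * C.Tr c) * star (C.zt E t)) * C.Tr (-c)
        = (C.Tr c * C.zt E t) * C.Tr (-c) * A * C.Tr c * (star (C.zt E t) * C.Tr (-c)) := by
          simp only [mul_assoc]
      _ = C.zt E t * (C.Tr c * C.Tr (-c)) * A * (C.Tr c * C.Tr (-c)) * star (C.zt E t) := by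
          rw [← tr h hz, h3]
          simp only [mul_assoc]
      _ = C.zt E t * A * star (C.zt E t) := by rw [tt h, mul_one, mul_one]
  rw [h4] at h2
  exact h2

end ZGr

theorem rowZG {D : Type*} [NormedAddCommGroup D] [InnerProductSpace ℂ D] (C : Cx D) :
    RowZG C := by
  intro h m E hz
  refine ⟨ZGr.vc h m E, ZGr.ug h m E, ZGr.zero h E, ZGr.add h m E, ZGr.adj h m E, ?_, ?_, ?_,
    ZGr.tr h hz, ?_, fun t c A hA => ZGr.nor h hz t c hA⟩
  · intro t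
    rw [Unitary.mem_iff, ZGr.adj h m, ← ZGr.add h m, ← ZGr.add h m, neg_add_cancel,
      add_neg_cancel, ZGr.zero h]
    exact ⟨rfl, rfl⟩
  · intro t
    show E.U t (C.Vg bo (-t) C.om) = C.om
    rw [h.b1.vvac _ _ h.geo.opb, E.U_xi]
  · intro t
    unfold Cx.zt
    rw [← mul_assoc, ZGr.ug h m, mul_assoc, h.b1.vg _ _ h.geo.opb, mul_assoc]
  · intro t s hs
    unfold Cx.zt
    rw [mul_assoc, h.b1.vdl _ _ _ h.geo.opb hs, ← mul_assoc, ← ZGr.ud h m E hs, mul_assoc]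

end

end Vale.Agent.SP352
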