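import Vale.Agent.Q352.NSGeo
import Vale.Agent.Q352.NSCut
import Vale.Agent.Q352.NSEN
import Vale.Agent.Q352.NSLP
import Vale.Agent.Q352.NSMD
import Vale.Agent.Q352.NSKV
import Vale.Agent.Q352.NSEXT
import Vale.Agent.Q352.NSBOR
import Vale.Agent.Q352.NSDER
import Vale.Agent.Q352.NSKEY
import Vale.Agent.Q352.NSOF
import Vale.Agent.Q352.NSGR
import Vale.Agent.Q352.NSB1
import Vale.Agent.Q352.NSB2
import Vale.Agent.Q352.NSNT
import Vale.Agent.Q352.NSLAU
import Vale.Agent.Q352.NSZT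
import Vale.Agent.Q352.NSZG
import Vale.Agent.Q352.NSFIX
import Vale.Agent.Q352.NSHOL
import Vale.Agent.Q352.NSWC
import Vale.Agent.Q352.NSVAC
import Vale.Agent.Q352.NSWL
import Vale.Agent.Q352.NSCT
import Vale.Agent.Q352.NSLB0
import Vale.Agent.Q352.NSLB
import Vale.Agent.Q352.NSNE0
import Vale.Agent.Q352.NSNEU
import Vale.Agent.Q352.NSONE
import Vale.Agent.Q352.NSFIN
import Vale.Agent.Q352.NSSp
import Vale.Agent.N352.F.Rs
import Vale.Agent.N352.F.Fs

/-! # P352 NS: the assembly -/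

set_option linter.all false

open Filter Topology Set
open UniformSpace (Completion)

noncomputable section

namespace Vale.Agent.SP352

open P352.GF (Ix V Fn Fld Theory sim IsLor IsTest one bar)

variable {D : Type*} [NormedAddCommGroup D] [InnerProductSpace ℂ D]

theorem bs (C : Cx D) : Bs C :=
  have g := rowGeo
  have b1 := rowB1 C g
  have b2 := rowB2 C g b1
  ⟨g, rowCut, b1, b2, rowNT C g b1 b2⟩

theorem md (C : Cx D) : Nonempty C.Md :=
  have b := bs C
  (rowMD _).ex _ _ b.b1.nom (b.nt.cyc _ (b.geo.opn 0).1 (b.geo.ne 0).1)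
    (b.nt.cyc' _ _ (b.geo.opn 0).2 (b.geo.ne 0).2 (b.geo.spc 0).1)

theorem lau (C : Cx D) (E : C.Md) : LAU C E :=
  rowLAU C (bs C) (rowMD _) (rowKV _) (rowOF _) (rowGR rowGeo _) (rowLP rowEN) E

/-- **the Bisognano-Wichmann property** -/
theorem bw (C : Cx D) (E : C.Md) : ONE C E := by
  have b := bs C
  have m := rowMD (Completion D)
  have zg := rowZG C b m E (rowZT C b m (rowBOR _ m (rowKV _) (rowEXT _)) E)
  have fx := rowFIX C b rowEN E (lau C E) zg
  have ct := rowCT C b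
  exact rowONE C b m E zg (rowNEU C b E zg (rowNE0 C b (rowKEY D) (rowVAC C b) (rowWL C b)
    (rowLB C b (rowDER _) ct (rowLB0 C b (rowDER _) ct)) E zg fx
    (rowWC C b (rowKEY D) (rowHOL C b) E zg fx)))

theorem fin (C : Cx D) : FIN C :=
  have ⟨E⟩ := md C
  rowFIN C (bs C) rowEN E (lau C E) (bw C E)

variable {Q : Theory D} {G : D → D}

/-- identities between fields extend from the generated domain -/
theorem ext_cyc {ι : Type*} [Fintype ι] {A : ι → Fld D} (hA : ∀ i, Q.fld (A i)) (c : ι → ℂ)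
    {B : Fld D} (hB : Q.fld B) {f : Fn} (hf : IsTest f)
    (k : ∀ v : N352.cy Q, B f v = ∑ i, c i • A i f v) (v : D) : B f v = ∑ i, c i • A i f v := by
  have d : Dense (N352.cy Q : Set D) :=
    Q.cyclic _ N352.cyc_vac fun A f v hA hf hv => N352.Cyc.fld hv hA hf
  obtain ⟨B', -, b⟩ := Q.adj B hB
  choose A' a' a using fun i => Q.adj _ (hA i)
  refine ext_inner_right ℂ fun w => ?_
  have e : ∀ u : D, inner ℂ (∑ i, c i • A i f u) w =
      inner ℂ u (∑ i, star (c i) • A' i (bar f) w) := fun u => by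
    simp only [sum_inner, inner_sum, inner_smul_left, inner_smul_right, a _ f u w hf]
    rfl
  rw [e, b f v w hf]
  refine congrFun ((continuous_id.inner continuous_const).ext_on d
    (continuous_id.inner continuous_const) (f := fun u => inner ℂ u (B' (bar f) w))
    (g := fun u => inner ℂ u (∑ i, star (c i) • A' i (bar f) w)) fun u hu => ?_) v
  show inner ℂ u _ = inner ℂ u _
  rw [← e, ← b f u w hf, k ⟨u, hu⟩]

theorem cov_of (g : N352.Dn.Gr Q G) (l : Sp.Lcv Q) (d : ∀ s, 0 < s → P352R.P.Cov Q s one 0)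
    (s : ℝ) (L : Ix → V) (a : V) (hs : 0 < s) (hL : IsLor L) : P352R.P.Cov Q s L a := by
  have g' := N352.F.gr.1 g
  have o := rowGeo
  refine N352.cov_all hs hL (P352R.Lg.sur g' hs hL a).denseRange (fun v => ?_) (d s hs)
    ⟨(P352R.Lg.sur g' one_pos hL 0).denseRange, fun B b => ?_⟩
  · rcases g.mul 1 L 0 s one 0 one_pos hs hL o.lor1 with m | ⟨-, m, -⟩
    · rcases g.mul 1 one a s L 0 one_pos hs o.lor1 hL with m' | ⟨m', -⟩
      · rw [m, one_mul, o.oner, o.sim0, m', one_mul, o.onel, o.sim0]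
      · exact (m' rfl).elim
    · exact (m rfl).elim
  · obtain ⟨B', b', e⟩ := l L B hL b
    exact ⟨1, fun _ => 1, fun _ => B', fun _ => b', fun f v hf => by simp [e f v hf]⟩

open N352.F in
/-- **finite spin** -/
theorem mfa_dn {T Γ N} (g : N352.Dn.Gr Q G) (e : G Q.vac = Q.vac) (s : N352.Dn.Stress Q T)
    (p : N352.Dn.PGen Q T) (n : N352.Dn.Net Q G Γ N) (a : N352.Dn.Aff Q N) (l : Sp.Lcv Q)
    (d : ∀ s, 0 < s → P352R.P.Cov Q s one 0) : N352.Dn.MfA Q := by
  have g' := gr.1 g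
  have cv := cov_of g l d
  have h : Ok Q := ok_cov cv
  have g1 := rs_gr (h := h) g' e
  have t := fun m n => Q.bose_fld _ (s.bose m n)
  have i := (io Q).injective
  have cv' : ∀ s L, 0 < s → IsLor L → P352.H246.Cov (rs Q h) s L 0 := fun s L hs hL => by
    refine ⟨(P352R.Lg.sur g1 hs hL 0).denseRange, ?_⟩
    rintro C ⟨B, b, x⟩
    obtain ⟨n, c, A, p, q⟩ := (cv s L 0 hs hL).2 B b
    refine ⟨n, c, fun i => N352.F.rf Q (A i), fun i => rs_fld (p i), fun f v hf => i ?_⟩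
    rw [rs_U hs hL, x _ _ (N352.t_sim hs hL 0 hf), q f _ hf]
    simp only [map_sum, map_smul, rf_xt (p _) _ _ hf, rs_U hs hL]
  let C : Cx (N352.cy Q) := ⟨rs Q h, rg Q G, pg Q Γ, fun m n => N352.F.rf Q (T m n), pb Q N, gr.2 g1,
    rs_even g' e, stress (rs_st0 (st0_of g' s p)), rs_pgen t p,
    (rs_rst (h := h)).net (rg_coe g' e) n, (rs_rst (h := h)).aff a, cy.2 rs_cy, cv'⟩
  have m : N352.Dn.MfA (rs Q h) := mfa (bs C) (C := C) (by
    rintro L _ hL ⟨B, b, x⟩
    obtain ⟨B', b', u⟩ := l L B hL b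
    refine ⟨N352.F.rf Q B', rs_fld (h := h) b', fun f v hf => i ?_⟩
    show io Q ((rs Q h).U 1 L 0 _) = io Q (N352.F.rf Q B' f ((rs Q h).U 1 L 0 v))
    rw [rs_U one_pos hL, x _ _ (N352.t_sim one_pos hL 0 hf), u f _ hf, rf_xt b' _ _ hf,
      rs_U one_pos hL]) (fin C)
  intro B b
  obtain ⟨r, E, e1, e2⟩ := m _ (rs_fld b)
  choose k Φ c e1 e3 using e1
  choose Ψ y z using fun i j => (e1 i).1 j
  refine ⟨r, fun i => Ψ i (c i), fun i => ⟨k i, Ψ i, c i, ⟨y i, fun j L f v hL hf => ?_⟩, rfl⟩,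
    fun f v hf => ?_⟩
  · choose Ψ' y' z' using fun j => l L _ hL (y i j)
    simp only [z' _ f _ hf]
    refine ext_cyc y' _ (y i j) hf (fun w => ?_) _
    obtain ⟨w, rfl⟩ := P352R.Lg.sur g1 one_pos hL 0 w
    have := congrArg (io Q) ((e1 i).2 j L f w hL hf)
    simp only [map_sum, map_smul, z _ _ _ _ hf, z _ _ _ _ (N352.t_sim one_pos hL 0 hf),
      rs_U one_pos hL, z' _ f _ hf] at this
    have u : (((rs Q h).U 1 L 0 w : N352.cy Q) : D) = Q.U 1 L 0 (io Q w) := rs_U one_pos hL 0 w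
    rw [u]
    exact this
  · have := ext_cyc (fun i => y i (c i)) (fun _ => 1) b hf (fun w => ?_) v
    · simpa only [one_smul] using this
    have := congrArg (io Q) (e2 f w hf)
    simp only [map_sum, e3, z _ _ _ _ hf, rf_xt b _ _ hf] at this
    simp only [one_smul]
    exact this

end Vale.Agent.SP352

end
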