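import Vale.Agent.Q352.IfG
import Vale.Agent.Q352.NSA
import Vale.Agent.Q352.DefS
import Vale.Agent.N352.V6.Tv

/-!
# P352: no spin condition for nets, and theories with energy bounds
-/

set_option linter.all false

open Filter Topology

namespace Vale.Agent.N352.V6

noncomputable section

universe u

open P352.GF P352R P352R.P F
open V5 (gen0 pch_of0 pg_ext0 pg_enl0)
open UniformSpace (Completion)

variable {D : Type u} [NormedAddCommGroup D] [InnerProductSpace ℂ D] {Q : Theory D} {G : D → D}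
  {T : Ix → Ix → Fld D} {Γ : Completion D →L[ℂ] Completion D}

open Gz (ext_congr conf_congr) in
/-- **the local extension** -/
theorem extc (H : Hw Q G T Γ) : ∃ S, Q.IsStress S ∧ Dn.Same Q T S ∧
    ∃ (E : Type u) (_ : NormedAddCommGroup E) (_ : InnerProductSpace ℂ E) (P : Theory E)
      (k : E →ₗᵢ[ℂ] Completion D) (G' : E → E) (e : Fld D → Fld E) (t : Ix → Ix → Fld E)
      (L : Fld E), Dn.Ext Q Γ P k G' e ∧ P.IsScalar L 2 ∧
        (∀ m n f v, IsTest f → t m n f v = improve (fun m n => e (S m n)) L m n f v) ∧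
        ∀ R, Dn.IsEnl P R → Dn.Gr R G' →
          Dk.Cnf R G' (fun m n => e (S m n)) t ∧ Dn.PGen R fun m n => e (S m n) := by
  have g := gr.1 H.grading
  obtain ⟨h, A, a⟩ := prep0 g H.even H.spin H.cd
  obtain ⟨⟨S, S', h1, h2, b, c, h5, M, E, P, G1, e, L, y, ⟨gn, q⟩, s', sc, r⟩, -⟩ := H.kit a
  have s := fun m n => Q.bose_fld _ (b.bose m n)
  have u := (rs_rst (h := h)).ext (Γ := Γ) (fun _ => rf_xt) y
  have cg := fun m n f v (hf : IsTest f) => ext_congr y (rs_fld (h := h) (s m n))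
    ((rs Q h).bose_fld _ (h1.bose m n)) (fun f v hf => (io Q).injective
      ((rf_xt (s m n) f v hf).trans (h5 m n f v hf).symm)) hf v
  obtain ⟨A', -, a'⟩ := gen0 (P352X.Fss.G.m1_gr (Br.gr.1 y.toGr)) (F.cy.1 gn.1) q
  have pg := K.pgen_congr cg (pg_ext0 y (rs_cy (h := h)) a.der a' h1.bose h2 gn sc
    (K.cnf y.toGr (r P ⟨rfl, rfl, fun _ h => h, fun _ h => h⟩ y.toGr)).toConf)
  have bo := fun m n => u.bos _ (b.bose m n)
  have pc' := pch_of0 y.toGr a' (Br.mfa.2 q) bo pg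
  exact ⟨S', b, c, E, _, _, P, _, G1, _, _, L, u, sc,
    fun m n f v hf => by simp only [improve, cg m n f v hf],
    fun R u w => have r := r R (enl.1 u) (gr.1 w)
      (fun x => ⟨x, pg_enl0 a' pc' bo u x.toConf⟩) (K.cnf (gr.1 w) ⟨conf_congr cg r.1, r.2⟩)⟩

end

end Vale.Agent.N352.V6

namespace Vale.Agent.Q352.Cv

open N352

noncomputable section

variable {H : Type*} [NormedAddCommGroup H] [InnerProductSpace ℂ H] [CompleteSpace H]
  {K : Frame H} {Q R : Theory K} {T t : Fin 4 → Fin 4 → Fld H} {A : Fld H}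

theorem u_sum (K : Frame H) {s L} (hs : 0 < s) (hL : IsLor L) (a) {n : ℕ} (c : Fin n → ℂ)
    (x : Fin n → H) : K.U s L a (∑ i, c i • x i) = ∑ i, c i • K.U s L a (x i) := by
  have k : ∀ y, inner ℂ (K.U s L a y) (K.U s L a (∑ i, c i • x i) - ∑ i, c i • K.U s L a (x i)) =
      0 := fun y => by
    simp only [inner_sub_right, inner_sum, inner_smul_right, K.unitary s L a _ _ hs hL, sub_self]
  refine sub_eq_zero.1 (inner_self_eq_zero (𝕜 := ℂ).1 ?_)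
  conv_lhs => rw [inner_sub_left, k, sum_inner]
  simp only [inner_smul_left, k, mul_zero, Finset.sum_const_zero, sub_self]

theorem dil_of (h : Scl Q A) {s : ℝ} (hs : 0 < s) : S.Dil Q s A := by
  obtain ⟨F, B, p, q⟩ := h
  refine ⟨F.card, fun i => (s : ℂ) ^ (4 - (F.equivFin.symm i).1.1) *
    (Real.log s : ℂ) ^ (F.equivFin.symm i).1.2, fun i => B (F.equivFin.symm i), fun i => p _,
    fun f t v m => (q s f hs t v m).trans ?_⟩
  rw [← Finset.sum_coe_sort, ← F.equivFin.symm.sum_comp]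

theorem spin : Spin Q A ↔ Dh.Spin (th Q) A :=
  ⟨fun ⟨n, k, Φ, a, p, q, r⟩ => ⟨n, fun i => rp (k i), Φ, a, p, q, r⟩,
    fun ⟨n, k, Φ, a, p, q, r⟩ => ⟨n, fun i => pr (k i), Φ, a, p, q, r⟩⟩

theorem scl (h : Scl Q A) : Dh.Scl (th Q) A := have ⟨F, B, p, q⟩ := h; ⟨F, B, p, q⟩

theorem cvr (a : ∀ A, Q.fld A → Spin Q A) (d : ∀ A s, Q.fld A → 0 < s → S.Dil Q s A) :
    Dh.Cvr (th Q) := fun A b => ⟨spin.1 (a A b), fun s hs => by
  obtain ⟨n, c, B, p, q⟩ := d A s b hs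
  refine ⟨∑ i, c i • B i, Submodule.sum_mem _ fun i _ => Submodule.smul_mem _ _
    (Submodule.subset_span (p i)), fun f t v m => (q f t v m).trans ?_⟩
  simp only [Finset.sum_apply, Pi.smul_apply]
  exact (u_sum K hs N352.lor1 0 c _).symm⟩

theorem pgen_of {W} (h : Glb R t W) : PGen R t := by
  intro L a X l a0 hL d F B f hF b i w _
  have da : ∀ n, HasDerivAt (fun e => a e n) (X 0 n) 0 := fun n => by simpa [sim] using d n 0
  have dl : ∀ m n, HasDerivAt (fun e => L e m n) (X (bas m 1) n - X 0 n) 0 := fun m n => by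
    simpa [sim, bas] using (d n (bas m 1)).fun_sub (da n)
  have e : kil (0, fun m n => X (bas m 1) n - X 0 n, X 0, 0) = X := by
    funext z n
    have k := (da n).fun_add (HasDerivAt.fun_sum (u := Finset.univ) fun j _ =>
      (dl j n).const_mul (z j))
    rw [(d n z).unique (by simpa only [sim, one_mul] using k)]
    simp [kil, mdot]
  have k := h.gen (fun e => (1, L e, a e, 0)) (0, fun m n => X (bas m 1) n - X 0 n, X 0, 0) _ F
    (by rw [l, a0]) (fun e => ⟨one_pos, hL e⟩) (hasDerivAt_const _ _) dl da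
    (fun _ => hasDerivAt_const _ _) (.mul B f _ b i .unit) hF
  simp only [e, fun e v => h.poi (L e) (a e) v (hL e)] at k
  obtain ⟨r0, k0⟩ := k.exists
  refine ⟨_, tendsto_const_nhds.congr' (k.mono fun r k => ?_), by
    simpa only [inner_smul_right, inner_zero_left, add_zero] using
      (hasDerivAt_const (0 : ℝ) w).inner ℂ k0⟩
  exact congrArg _ (smul_right_injective H Complex.I_ne_zero (k0.unique k))

theorem mon_adj {Y} (h : Mon R Y) : ∃ Y', Dh.Mon (th R) Y Y' ∧ (∀ v ∈ R.dom, Y v ∈ R.dom) ∧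
    ∀ v ∈ R.dom, ∀ w ∈ R.dom, inner ℂ (Y' w) v = inner ℂ w (Y v) := by
  induction h with
  | unit => exact ⟨_, .unit, fun _ m => m, fun _ _ _ _ => rfl⟩
  | mul A f Y a i _ k =>
    obtain ⟨Y', p, q, r⟩ := k
    obtain ⟨B, b, d⟩ := R.adj A a
    refine ⟨_, .mul A B f Y Y' a d i p, fun v m => R.inv.2 A f a i.1 _ (q v m),
      fun v m w n => ?_⟩
    refine (r v m _ (R.inv.2 B _ b (N352.t_bar i.1) w n)).trans ?_
    have := d f i.1 _ (q v m) w n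
    rw [← inner_conj_symm, ← inner_conj_symm w]
    exact congrArg _ this.symm

theorem ward_of {S} (c : Dh.Conf (th R) S t) (s : Stress R t) (q : Pm) (Y F) (k : Skew q.2.1)
    (m : Mon R Y) (hF : IsCutoff F) : Tendsto (fun r => inner ℂ K.Ω
      (cur t (kil q) (F r) (Y K.Ω) - Y (cur t (kil q) (F r) K.Ω))) atTop (𝓝 0) := by
  obtain ⟨Y', p, i, j⟩ := mon_adj m
  refine (c.ward _ Y Y' (kil_of k) p F hF).congr' ?_
  obtain ⟨a, b, -, -, -, -, z⟩ := id hF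
  filter_upwards [N352.Tn.cut_cpt hF, eventually_gt_atTop 0] with r u hr
  have e : ∀ n, IsTest fun x => (eta n : ℂ) * kil q x n * F r x := fun n =>
    N352.H.t_cur (X := kil q) (fun n => by
      simp only [kil, mdot]
      fun_prop) u n
  have o := R.inv.1
  have x : cur t (kil q) (F r) K.Ω ∈ R.dom :=
    sum_mem fun n _ => R.inv.2 _ _ (s.1 0 n).1 (e n) _ o
  rw [inner_sub_right, ← j _ x _ o]
  refine congrArg₂ (· - ·) ?_ rfl
  refine (sum_inner _ _ _).trans ((Finset.sum_congr rfl fun n _ => ?_).trans (inner_sum _ _ _).symm)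
  refine (s.2 0 n _ (e n) _ o _ (i _ o)).trans ?_
  refine congrArg (fun g => inner ℂ K.Ω (t 0 n g (Y K.Ω))) (funext fun y => ?_)
  simp [bar, (z r hr).2]

end

end Vale.Agent.Q352.Cv

namespace Vale.Agent.N352.H

open P352.GF F
open Q352 (Net Aff Rec Agr Vir Uniq Fnt Cnt)
open UniformSpace (Completion)

noncomputable section

universe u

variable {H : Type u} [NormedAddCommGroup H] [InnerProductSpace ℂ H] [CompleteSpace H]

/-- **finite spin** -/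
theorem spin_of {K : Q352.Frame H} {Q : Q352.Theory K} {T N} (s : Q352.Stress Q T)
    (p : Q352.PGen Q T) (l : Q352.S.Lcv Q) (d : ∀ A s, Q.fld A → 0 < s → Q352.S.Dil Q s A)
    (n : Net K N) (a : Aff Q N) (A) (b : Q.fld A) : Q352.Spin Q A := by
  obtain ⟨Q', G, R⟩ := ex_rl (Q352.Cv.th Q)
  have s := Q352.Cv.stress.1 s
  choose T' _ x y using fun m n => R.rep (s.1 m n).1
  obtain ⟨Γ, g⟩ := p_sur (iso _ R.dr).conjStarAlgEquiv K.Γ
  obtain ⟨N', n'⟩ := ex_dn (iso _ R.dr) N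
  have c := iso_coe _ R.dr
  have g' := Z.gr.1 R.gr
  have i := Q.dom.subtypeₗᵢ.injective
  have m := SP352.mfa_dn g' R.even (Z.stress.1 ((R.stress x).1 ⟨s, fun m n => y m n (s.1 m n)⟩).1)
    (Z.pgen.1 ((R.pgen x).1 p)) (Z.net.1 ((R.net c n' g).1 (Q352.Cv.net.1 n)))
    (Z.aff.1 ((R.aff c n').1 (Q352.Cv.aff.1 a))) (fun L B hL b => ?_) fun s hs => ?_
  · obtain ⟨B, b, x⟩ := R.dn A b
    obtain ⟨n, C, p, e⟩ := Z.mfa.2 m B b
    choose r Ψ a p q using p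
    choose Φ y z using fun i c => R.up _ ((p i).1 c)
    exact Q352.Cv.spin.2 ⟨n, fun i => rh (r i), Φ, a, y, fun i c L f l t => R.all.2 fun v =>
      (R.ml (z i) c L f v l t).2 ((p i).2 c L f v l t), fun f t => R.all.2 fun v => by
        rw [x f v t, e f v t, map_sum]
        exact Finset.sum_congr rfl fun i _ => by rw [q i, z _ _ f v t]⟩
  · obtain ⟨A, a, x⟩ := R.up B b
    obtain ⟨C, e, q⟩ := l L A hL a
    obtain ⟨C', e', z⟩ := R.dn C e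
    refine ⟨C', e', fun f v t => i ?_⟩
    rw [← R.U _ _ _ _ one_pos hL, ← x _ v (t_sim one_pos hL 0 t), ← z f _ t,
      ← R.U _ _ _ _ one_pos hL]
    exact q f t _ (R.mem v)
  have M := P352X.Fss.G.m1_gr (P352R.Br.gr.1 (F.gr.1 g'))
  have o := inv_pos.2 hs
  refine ⟨(P352R.Lg.sur (F.gr.1 g') hs lor1 0).denseRange, fun B b => ?_⟩
  obtain ⟨A, a, x⟩ := R.up B b
  obtain ⟨n, e, C, q, w⟩ := d A _ a o
  choose C' q' z using fun i => R.dn _ (q i)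
  refine ⟨n, e, C', q', fun f v t => ?_⟩
  have t' := t_sim hs lor1 0 t
  have e1 : B (fun x => f (sim s one 0 x)) v =
      ∑ i, e i • Q'.U s⁻¹ one 0 (C' i f (Q'.U s one 0 v)) := i (by
    have u := R.U _ _ 0 (Q'.U s one 0 v) o lor1
    rw [show Q'.U s⁻¹ one 0 (Q'.U s one 0 v) = v from P352X.Fss.G.inv_u M hs v] at u
    refine (x _ v t').symm.trans ((congrArg _ u.symm).trans
      ((w _ t' _ (R.mem (Q'.U s one 0 v))).trans ?_))
    rw [map_sum]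
    refine Finset.sum_congr rfl fun j _ => ?_
    rw [map_smul]
    refine congrArg _ (Eq.trans ?_ (R.U _ _ _ _ o lor1))
    refine congrArg _ (Eq.trans ?_ (z j f _ t))
    exact congrArg (fun g => C j g _) (P352X.Fss.ds_inv hs f))
  rw [e1]
  refine (map_sum (um Q' hs lor1 0) _ _).trans (Finset.sum_congr rfl fun j _ => ?_)
  rw [map_smul]
  exact congrArg _ (P352X.Fss.G.u_inv M hs _)

/-- the hypotheses on the domain -/
theorem hyn_dn {K : Dh.Frame H} {S : Dh.Theory K} {T N} (h : Dh.Hyq S T) (p : Dh.Net K N)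
    (q : Dh.Aff S N ∨ Dh.Rel S N) : ∃ Q G T' Γ N', ∃ R : Rl S Q S.dom.subtypeₗᵢ G,
    (iso _ R.dr).conjStarAlgEquiv Γ = K.Γ ∧
      (∀ O X, X ∈ N' O ↔ (iso _ R.dr).conjStarAlgEquiv X ∈ N O) ∧
      (∀ m n, Eqv S.dom.subtypeₗᵢ (T m n) (T' m n)) ∧ Dn.Hy Q G T' Γ N' := by
  obtain ⟨Q, G, R⟩ := ex_rl S
  choose T' a x b using fun m n => R.rep (h.1.1 m n).1
  obtain ⟨Γ, g⟩ := p_sur (iso _ R.dr).conjStarAlgEquiv K.Γ
  obtain ⟨N', n⟩ := ex_dn (iso _ R.dr) N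
  have c := iso_coe _ R.dr
  refine ⟨Q, G, T', Γ, N', R, g, n, x, Z.gr.1 R.gr, R.even,
    Z.stress.1 ((R.stress x).1 ⟨h.1, fun m n => b m n (h.1.1 m n)⟩).1,
    Z.pgen.1 ((R.pgen x).1 h.2), h.3.imp (fun ⟨J, v⟩ => ?_) (R.ivac c),
    .inr ((R.fin.1 h.4).imp Z.mfa.1 Z.fsl.1), Z.net.1 ((R.net c n g).1 p),
    q.imp (fun k => Z.aff.1 ((R.aff c n).1 k)) fun k => Z.rel.1 ((R.rel c n g).1 k)⟩
  choose J' a' y b' using fun m => R.rep (v.1 m).1
  exact ⟨J', Z.vir.1 ((R.vir x y).1 ⟨v, fun m => b' m (v.1 m)⟩).1⟩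

variable {K : Q352.Frame H} {Q : Q352.Theory K} {T : Fin 4 → Fin 4 → Q352.Fld H}

/-- finite scaling support -/
theorem glob2 (hq : Dh.Hyq (Q352.Cv.th Q) T) :
    ∃ R t S L W, Q352.CInv Q R T t S L W ∧ ∀ N, Net K N → Aff Q N ∨ Q352.Rel Q N → Rec Q N →
      ∃ B, Q.fld B ∧ Agr Q B L := by
  let p := ∃ N, Net K N ∧ (Aff Q N ∨ Q352.Rel Q N) ∧ Rec Q N
  obtain ⟨Q', G, T', Γ, N', R, g, x, y, y'⟩ : ∃ Q' G T' Γ N',
      ∃ R : Rl (Q352.Cv.th Q) Q' Q.dom.subtypeₗᵢ G, (iso _ R.dr).conjStarAlgEquiv Γ = K.Γ ∧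
      (∀ m n, Eqv Q.dom.subtypeₗᵢ (T m n) (T' m n)) ∧ Dn.Hz Q' G T' Γ N' ∧
      (p → Dn.Hy Q' G T' Γ N' ∧ ∃ N, Dh.Rec (Q352.Cv.th Q) N ∧
        ∀ O X, X ∈ N' O ↔ (iso _ R.dr).conjStarAlgEquiv X ∈ N O) := by
    by_cases hh : p
    · obtain ⟨N, a, b, c⟩ := hh
      obtain ⟨Q', G, T', Γ, N', R, g, n, x, y⟩ := hyn_dn hq (Q352.Cv.net.1 a)
        (b.imp Q352.Cv.aff.1 Q352.Cv.rel.1)
      exact ⟨Q', G, T', Γ, N', R, g, x, N352.K.hz y, fun _ => ⟨y, N, Q352.Cv.rec' c, n⟩⟩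
    obtain ⟨Q', G, T', Γ, N', R, g, x, y⟩ := hyq_dn hq
    exact ⟨Q', G, T', Γ, N', R, g, x, y, fun k => (hh k).elim⟩
  obtain ⟨s, a, b, E, _, _, P, k, G', e, t, L, c, c0, sc, fm, z⟩ := Y.ext9 y fun k => (y' k).1
  obtain ⟨S', R', q, f, w, v⟩ := R.ext_up0 (iso_coe _ R.dr) g c
  have mx : p → ∃ B, Q.fld B ∧ ∀ f, IsTest f →
      B f K.Ω = up ((iso _ R.dr).toLinearIsometry.comp k) L f K.Ω := fun hh => by
    obtain ⟨-, N, r, n⟩ := y' hh
    refine (rec_max r).1 S' _ ⟨q, fun O Z z => ?_⟩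
      (R'.scalar_up (up_eqv _ L) (f _ (P.bose_fld _ sc.1)) sc)
    obtain ⟨Z, rfl⟩ := p_sur (iso _ R.dr).conjStarAlgEquiv Z
    exact (R'.tw (fun _ => rfl) g).2 ((N352.Z.ext (c0 hh)).rel O Z ((out n).1 z))
  have a' := fun m n => Q'.bose_fld _ (a.1 m n)
  choose A o i using fun m n => R.up _ (a' m n)
  generalize (iso _ R.dr).toLinearIsometry.comp k = ψ at R' f w v mx
  obtain ⟨B, d, bk, i'⟩ := bor_of q fun _ _ _ _ r r' t t' s _ m =>
    Bo.rel_loc q hq.finite r r' t t' s m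
  obtain ⟨R1, r, x1⟩ := v B d i'
  obtain ⟨z1, z2, ⟨c', x', f0, P', rfl, rfl, rfl, al, dt⟩, sp⟩ :=
    z _ ⟨x1.1, x1.2, x1.3, x1.4⟩ (Z.gr.1 r.gr)
  have cf := r.conf_up (iso_coe _ r.dr) (fun m n => up_eqv ψ (e (s m n))) (fun _ _ => up_eqv _ _)
    (fun m n => x1.3 _ (c.fld _ (a' m n))) (Z.cf z1)
  obtain ⟨B, rfl⟩ : ∃ B', Q352.Cv.th B' = B := ⟨Q352.Cv.ht B, rfl⟩
  obtain ⟨W, hW⟩ := P352X.CA.G.Gl.glob al dt r.vac r.gam r.U r.dr (R := B)
    (t := fun m n => up ψ (c'.t m n)) r.dn fun m n f v _ => up_eq _ _ _ _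
  have sA := ((R.stress i).2 ⟨Z.st a, o⟩).1
  have st := stress_bor cf bk
  have cd : ∀ v, Dh.Cyc (Q352.Cv.th Q) v → v ∈ (Q352.Cv.th B).dom := fun v c => d ▸ cyc_dom q c
  have ag := fun m n => w _ _ (a' m n) (i m n)
  have fL := f _ (P.bose_fld _ sc.1)
  refine ⟨B, _, A, up ψ L, W, ⟨fun C => (bk.all C).trans Q352.Cv.relLoc.symm, fun B0 b0 => ?_,
    Q352.Cv.stress.2 st, cf.traceless, Q352.Cv.chg (fun m n => (hq.1.1 m n).1) (fun m n => (st.1 m n).1) cd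
      (chg ((R.same x i).2 b) (fun m n => (sA.1 m n).1) ag cf.same cd),
    ⟨Q352.Cv.stress.2 sA, Q352.Cv.scalar (r.scalar_up (up_eqv _ L) (i' _ fL)
      ⟨x1.4 _ sc.1, sc.2.1, x1.2 ▸ sc.2.2⟩), fun m n f v hf cv => ?_⟩,
    fun A B a b => Q352.Cv.act (cf.act A B a b), Q352.Cv.ward hW,
    have ⟨k, p, q, a, b, c⟩ := cf.prim; ⟨Q352.Cv.pr k, p, q, a, b, Q352.Cv.prim c⟩, Q352.Cv.glb hW⟩,
    fun N n1 n2 n3 => ?_⟩
  · obtain ⟨C, p, u⟩ := q B0 b0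
    obtain ⟨C', b', a'⟩ := R'.dn C p
    exact ⟨C, i' C p, u, Q352.Cv.desc (r.ds_up (iso_coe _ r.dr) (fun _ _ => up_eqv _ _) z2 b' a')⟩
  · obtain ⟨v', rfl⟩ := R'.sur v (cyc_dom q cv)
    have := (ag m n f _ hf cv).symm.trans (up_eq _ _ _ _)
    rw [up_eq, fm m n f v' hf]
    simp only [Q352.improve, P352.GF.improve, map_sub, map_add, map_smul, map_sum, this, up_eq]
    rfl
  obtain ⟨B0, b0, e0⟩ := mx ⟨N, n1, n2, n3⟩
  obtain ⟨C, p, u⟩ := q B0 b0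
  obtain ⟨X, x0, x2⟩ := r.dn (cb 1 (-1) C (up ψ L)) ((bk.all _).2
    (rl_cb 1 (-1) ((bk.all _).1 (i' C p)) ((bk.all _).1 (i' _ fL))))
  refine ⟨B0, b0, fun f v hf cv => ?_⟩
  obtain ⟨v', rfl⟩ := R'.sur v (cyc_dom q cv)
  have := x2 f v' hf
  rw [sp X x0 (fun f hf => ψ.injective ?_) f v' hf, map_zero, cb, u f _ hf cv, one_smul,
    neg_one_smul, add_neg_eq_zero] at this
  · exact this.symm
  rw [← x2 f _ hf, ← r.vac, cb, u f _ hf cyc_om, e0 f hf, map_zero, one_smul, neg_one_smul,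
    add_neg_cancel]

/-- energy bounds -/
theorem glob3 (h1 : Q352.Stress Q T) (h2 : Q352.PGen Q T)
    (h3 : (∃ J, Dh.Vir (Q352.Cv.th Q) T J) ∨ Dh.IVac (Q352.Cv.fr K)) (h4 : Dh.Cvr (Q352.Cv.th Q))
    (h5 : ∀ m n, Q352.Scl Q (T m n)) (eb : Q352.EBd Q) (h7 : Q352.Rgl Q T) :
    ∃ R t S L, Q352.S.Cfm Q R T t S L := by
  obtain ⟨Q', G, T', Γ, R, g, x, y⟩ := hyd_dv (Q352.Cv.stress.1 h1) h2 h3 h4
    (fun m n => Q352.Cv.scl (h5 m n)) eb (Q352.Cv.rgl h7)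
  obtain ⟨s, a, b, E, _, _, P, k, G', e, t, L, c, sc, fm, z⟩ := V6.extc y
  obtain ⟨S', R', q, f, w, v⟩ := R.ext_up0 (iso_coe _ R.dr) g c
  have a' := fun m n => Q'.bose_fld _ (a.1 m n)
  choose A o i using fun m n => R.up _ (a' m n)
  generalize (iso _ R.dr).toLinearIsometry.comp k = ψ at R' f w v
  obtain ⟨B, d, bk, i'⟩ := bor_of q fun _ _ _ _ r r' t t' s _ m =>
    Bo.rel_loc1 q h4 r r' t t' s m
  obtain ⟨R1, r, x1⟩ := v B d i'
  obtain ⟨z1, z2⟩ := z _ ⟨x1.1, x1.2, x1.3, x1.4⟩ (Z.gr.1 r.gr)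
  have j := fun m n => up_eqv ψ (e (s m n))
  have cf := r.conf_up (iso_coe _ r.dr) j (fun _ _ => up_eqv _ _)
    (fun m n => x1.3 _ (c.fld _ (a' m n))) (Z.cf z1)
  have pg := cf.poincare ((r.pgen j).2 (Z.pgen.2 z2))
  obtain ⟨B, rfl⟩ : ∃ B', Q352.Cv.th B' = B := ⟨Q352.Cv.ht B, rfl⟩
  have sA := ((R.stress i).2 ⟨Z.st a, o⟩).1
  have st := stress_bor cf bk
  have cd : ∀ v, Dh.Cyc (Q352.Cv.th Q) v → v ∈ (Q352.Cv.th B).dom := fun v c => d ▸ cyc_dom q c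
  have ag := fun m n => w _ _ (a' m n) (i m n)
  have fL := f _ (P.bose_fld _ sc.1)
  refine ⟨B, _, A, up ψ L, fun C => (bk.all C).trans Q352.Cv.relLoc.symm, bk.mem,
    Q352.Cv.stress.2 st, cf.traceless, pg,
    Q352.Cv.chg (fun m n => (h1.1 m n).1) (fun m n => (st.1 m n).1) cd
      (chg ((R.same x i).2 b) (fun m n => (sA.1 m n).1) ag cf.same cd),
    ⟨Q352.Cv.stress.2 sA, Q352.Cv.scalar (r.scalar_up (up_eqv _ L) (i' _ fL)
      ⟨x1.4 _ sc.1, sc.2.1, x1.2 ▸ sc.2.2⟩), fun m n f v hf cv => ?_⟩,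
    fun A B a b => Q352.Cv.act (cf.act A B a b), Q352.Cv.ward_of cf (Q352.Cv.stress.2 st),
    have ⟨k, p, q, a, b, c⟩ := cf.prim; ⟨Q352.Cv.pr k, p, q, a, b, Q352.Cv.prim c⟩⟩
  obtain ⟨v', rfl⟩ := R'.sur v (cyc_dom q cv)
  have := (ag m n f _ hf cv).symm.trans (up_eq _ _ _ _)
  rw [up_eq, fm m n f v' hf]
  simp only [Q352.improve, P352.GF.improve, map_sub, map_add, map_smul, map_sum, this, up_eq]
  rfl

/-- **the theorem** -/
theorem nospin (h : Q352.S.Hys Q T) : ∃ R t S L, Q352.S.Cfm Q R T t S L ∧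
    (Cnt Q ∨ (∀ A, Q.fld A → Q352.Scl Q A) → Q352.S.Full Q R t L) := by
  have s := Q352.Cv.stress.1 h.1
  have h3 : (∃ J, Dh.Vir (Q352.Cv.th Q) T J) ∨ Dh.IVac (Q352.Cv.fr K) :=
    h.3.imp (Exists.imp fun _ => Q352.Cv.vir.1) fun k => k.elim id (uni (Q352.Cv.fr K))
  have sp : (∀ A s, Q.fld A → 0 < s → Q352.S.Dil Q s A) → ¬Cnt Q → ∀ A, Q.fld A → Q352.Spin Q A :=
    fun d c => (h.4.resolve_left c).1.elim id fun ⟨l, N, n, a⟩ => spin_of h.1 h.2 l d n a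
  by_cases f : Cnt Q ∨ ∀ A, Q.fld A → Q352.Scl Q A
  · have k : Dh.Fin' (Q352.Cv.th Q) := by
      by_cases c : Cnt Q
      · exact cnt_dn s h.2 (Q352.Cv.cnt.1 c)
      have l := f.resolve_left c
      exact Q352.Cv.fnt.1 fun A a => ⟨sp (fun A s a hs => Q352.Cv.dil_of (l A a) hs) c A a, l A a⟩
    obtain ⟨R, t, S, L, W, c, r⟩ := glob2 ⟨s, h.2, h3, k, Q352.Cv.rgl h.5⟩
    exact ⟨R, t, S, L, ⟨c.all, fun B b => (c.mem B b).imp fun _ x => ⟨x.1, x.2.1⟩, c.stress,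
      c.traceless, Q352.Cv.pgen_of c.glob, c.same, c.form, c.act, fun q Y F a b d =>
        tendsto_const_nhds.congr' ((c.ward q Y F a b d).mono fun _ e => e.symm), c.prim⟩,
      fun _ => ⟨W, have g := c.glob; ⟨g.1, g.2, g.3, g.4, g.5, g.6, g.7, g.8⟩, c.mem, r⟩⟩
  have c := fun c => f (.inl c)
  obtain ⟨e, l, d⟩ := (h.4.resolve_left c).2.resolve_left fun l => f (.inr l)
  obtain ⟨R, t, S, L, x⟩ := glob3 h.1 h.2 h3 (Q352.Cv.cvr (sp d c) d) l e h.5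
  exact ⟨R, t, S, L, x, fun k => (f k).elim⟩

/-- **the witness** -/
theorem wis : ∃ (H : Type) (_ : NormedAddCommGroup H) (_ : InnerProductSpace ℂ H)
    (_ : CompleteSpace H) (K : Q352.Frame H) (Q R : Q352.Theory K) (T J N : _), Q352.S.Hys Q T ∧
      Vir Q T J ∧ Q352.S.IVac K ∧ Uniq K ∧ Q352.S.Fnt Q ∧ Cnt Q ∧ Q352.S.Lcv Q ∧
      (∀ A s, Q.fld A → 0 < s → Q352.S.Dil Q s A) ∧
      (Net K N ∧ Aff Q N ∧ Q352.Rel Q N ∧ Rec Q N) ∧
      (Q352.S.EBd Q ∧ Q352.S.FBT Q T ∧ Q352.S.SL Q T) ∧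
      (R.dom = Q.dom ∧ (∀ A, R.fld A → Q.fld A) ∧ Q352.S.Fnt R ∧ Q352.S.Ana R ∧ Q352.S.LEB R Q) ∧
      ∃ f, Q352.IsTest f ∧ Q352.tr T f K.Ω ≠ 0 := by
  obtain ⟨H, _, _, _, K, Q, R, T, J, N, h, v, u, f, c, z⟩ := wig
  exact ⟨H, _, _, _, K, Q, R, T, J, N, ⟨h.1, h.2, .inl ⟨J, v⟩, .inl c, h.5⟩, v,
    uni (Q352.Cv.fr K) u, u, f, c, fun L B => c.2 1 L B one_pos,
    fun A s a hs => Q352.Cv.dil_of (f A a).2 hs, z⟩

end

end Vale.Agent.N352.H
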