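import Vale.Agent.N352.DefF
import Vale.Agent.P352.H246.Defs
import Vale.Agent.P132.Bd8.B2
import Vale.Agent.P352.BW.H234.StripU

/-!
# P352, project NS: the Bisognano-Wichmann property from the stress tensor, and finite spin

Rows: prove `theorem rowX : RowX ..` exactly as stated, in a file `Vale/Agent/Q352/NS<X>.lean`.
-/

set_option linter.all false

open Filter Topology MeasureTheory
open UniformSpace (Completion)
open Complex (I)

namespace Vale.Agent.SP352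

open P352.GF (V Fn Ix Fld Theory IsTest IsLor IsCutoff sim one bar mdot pd eta)
open P352.H246 (Al In Cov)
open P352.BW.H234U (Sc So)
open P132 (ModData)
open N352.Dn (Reg Spc cur)

noncomputable section

/-! ### geometry -/

/-- right wedges -/
def Wr (c : V) : Set V := {x | |x 0 - c 0| < x 1 - c 1}

/-- left wedges -/
def Wl (c : V) : Set V := {x | |x 0 - c 0| < c 1 - x 1}

/-- boosts, `x 0 + x 1` is multiplied by `exp (-2 π t)` -/
def bo (t : ℝ) : Ix → V :=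
  ![![Real.cosh (2 * Real.pi * t), -Real.sinh (2 * Real.pi * t), 0, 0],
    ![-Real.sinh (2 * Real.pi * t), Real.cosh (2 * Real.pi * t), 0, 0], ![0, 0, 1, 0], ![0, 0, 0, 1]]

/-- rotations -/
def ro (t : ℝ) : Ix → V :=
  ![![1, 0, 0, 0], ![0, Real.cos t, Real.sin t, 0], ![0, -Real.sin t, Real.cos t, 0], ![0, 0, 0, 1]]

/-- the velocity field of the rotations -/
def xr (x : V) : V := ![0, -x 2, x 1, 0]

/-- the reflection in the edge of the wedge -/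
def rf (x : V) : V := ![-x 0, -x 1, x 2, x 3]

/-- composition with a Lorentz transformation -/
def cp (L : Ix → V) (g : Fn) : Fn := fun x => g (sim 1 L 0 x)

/-- one parameter groups of Lorentz transformations -/
structure Op (l : ℝ → Ix → V) : Prop where
  lor : ∀ t, IsLor (l t)
  zero : l 0 = one
  add : ∀ s t, (fun m => sim 1 (l s) 0 (l t m)) = l (s + t)

/-- **row Geo** -/
structure Geo : Prop where
  opb : Op bo
  opr : Op ro
  lor1 : IsLor one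
  sim1 : ∀ a x, sim 1 one a x = a + x
  simd : ∀ (s : ℝ) x, sim s one 0 x = s • x
  sim0 : ∀ s L a, sim s L a 0 = a
  sima : ∀ (s : ℝ) L a x, sim s L a x = a + s • sim 1 L 0 x
  lin : ∀ L x y (c : ℝ), sim 1 L 0 (x + c • y) = sim 1 L 0 x + c • sim 1 L 0 y
  comp : ∀ (L L' : Ix → V) x, sim 1 (fun m => sim 1 L 0 (L' m)) 0 x = sim 1 L 0 (sim 1 L' 0 x)
  onel : ∀ L : Ix → V, (fun m => sim 1 one 0 (L m)) = L
  oner : ∀ L : Ix → V, (fun m => sim 1 L 0 (one m)) = L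
  cont : ∀ s L a, Continuous (sim s L a)
  bij : ∀ s L a, 0 < s → IsLor L → Function.Bijective (sim s L a)
  inv : ∀ L, IsLor L → ∃ L', IsLor L' ∧ (fun m => sim 1 L 0 (L' m)) = one ∧
    (fun m => sim 1 L' 0 (L m)) = one
  reg : ∀ s L a O, 0 < s → IsLor L → Reg O → Reg (sim s L a '' O)
  opn : ∀ c, IsOpen (Wr c) ∧ IsOpen (Wl c)
  ne : ∀ c, (Wr c).Nonempty ∧ (Wl c).Nonempty
  spc : ∀ c, Spc (Wr c) (Wl c) ∧ Spc (Wl c) (Wr c)
  bow : ∀ t x, (sim 1 (bo t) 0 x ∈ Wr 0 ↔ x ∈ Wr 0) ∧ (sim 1 (bo t) 0 x ∈ Wl 0 ↔ x ∈ Wl 0)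
  row : ∀ x, (sim 1 (ro Real.pi) 0 x ∈ Wr 0 ↔ x ∈ Wl 0) ∧ (sim 1 (ro Real.pi) 0 x ∈ Wl 0 ↔ x ∈ Wr 0)
  rb : ∀ t, (fun m => sim 1 (ro Real.pi) 0 (bo t m)) = fun m => sim 1 (bo (-t)) 0 (ro Real.pi m)
  rfw : ∀ x, (rf x ∈ Wr 0 ↔ x ∈ Wl 0) ∧ (rf x ∈ Wl 0 ↔ x ∈ Wr 0)
  rfr : ∀ x, rf (rf x) = x
  test : ∀ s L a g, 0 < s → IsLor L → IsTest g → IsTest fun x => g (sim s L a x)
  inn : ∀ s L a W g, 0 < s → IsLor L → In W g → In (sim s L a ⁻¹' W) fun x => g (sim s L a x)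
  inr : ∀ W g, In W g → In (rf ⁻¹' W) fun x => g (rf x)
  inb : ∀ W g, In W g → In W (bar g)
  tb : ∀ g, IsTest g → IsTest (bar g)
  cov : ∀ K, Bornology.IsBounded K → (∃ c, K ⊆ Wr c) ∧ ∃ c, K ⊆ Wl c
  cyl : ∀ K, Bornology.IsBounded K → ∃ O S, Reg O ∧ K ⊆ O ∧ (∀ t, sim 1 (ro t) 0 '' O = O) ∧
    IsOpen S ∧ S.Nonempty ∧ Spc O S
  der : ∀ n x, HasDerivAt (fun e => sim 1 (ro e) 0 x n) (xr x n) 0
  isim : N352.Dn.IsSim 0 xr

/-- **row CUT**: a cutoff whose first moments are finite differences -/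
def CUT : Prop := ∃ F, IsCutoff F ∧ ∀ R, 0 < R → ∀ k : Ix, k = 1 ∨ k = 2 → ∃ (h : Fn) (b : V),
  IsTest h ∧ ∀ x, (x k : ℂ) * F R x = h x - h (b + x)

/-! ### complex analysis -/

/-- nice functions on the strip `-1/2 ≤ Im z ≤ 0` -/
structure Nc {E : Type*} [NormedAddCommGroup E] [NormedSpace ℂ E] (F : ℂ → E) : Prop where
  cont : ContinuousOn F Sc
  diff : DifferentiableOn ℂ F So
  gr : ∃ C r : ℝ, 0 ≤ C ∧ 0 ≤ r ∧ ∀ z ∈ Sc, ‖F z‖ ≤ C * Real.exp (r * |z.re|)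

/-- exponential polynomials -/
def EN (N : ℕ) (F : ℝ → ℂ) : Prop := ∃ c : ℤ → ℂ, ∀ t : ℝ,
  F t = ∑ k ∈ Finset.Icc (-(N : ℤ)) N, c k * (Real.exp (Real.pi * k * t) : ℝ)

/-- **row EN** -/
structure ENs : Prop where
  mono : ∀ N M F, N ≤ M → EN N F → EN M F
  const : ∀ N (c : ℂ), EN N fun _ => c
  add : ∀ N F G, EN N F → EN N G → EN N fun t => F t + G t
  sum : ∀ N (F : Ix → ℝ → ℂ), (∀ i, EN N (F i)) → EN N fun t => ∑ i, F i t
  mul : ∀ N M F G, EN N F → EN M G → EN (N + M) fun t => F t * G t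
  neg : ∀ N F, EN N F → EN N fun t => F (-t)
  bo : ∀ m n, EN 2 fun t => (bo t m n : ℂ)
  red : ∀ (K N : ℕ) F (C : ℝ), EN K F → (∀ t, ‖F t‖ ≤ C * Real.exp (Real.pi * N * |t|)) → EN N F
  bdd : ∀ N F (C : ℝ), EN N F → (∀ t, ‖F t‖ ≤ C) → ∀ t, F t = F 0
  itp : ∀ N, ∃ (n : ℕ) (τ : Fin n → ℝ) (l : ℝ → Fin n → ℂ), ∀ F, EN N F → ∀ t,
    F t = ∑ j, l t j * F (τ j)

/-- periodic continuation -/
def LP : Prop := ∀ (F G : ℂ → ℂ) (ε : ℂ) (N : ℕ) (C : ℝ), Nc F → Nc G → ε = 1 ∨ ε = -1 →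
  (∀ t : ℝ, F (t - I / 2) = G t) → (∀ t : ℝ, G (t - I / 2) = ε * F t) →
  (∀ t : ℝ, ‖F t‖ ≤ C * Real.exp (Real.pi * N * |t|)) → EN N fun t => F t

/-- **row LP** -/
def RowLP : Prop := ENs → LP

/-! ### operators -/

section

variable (H : Type*) [NormedAddCommGroup H] [InnerProductSpace ℂ H] [CompleteSpace H]

/-- **row MD**: modular theory -/
structure MD : Prop where
  nat : ∀ (M M' : VonNeumannAlgebra H) ξ (E : ModData M ξ) (E' : ModData M' ξ) (W : H →L[ℂ] H),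
    W ∈ unitary (H →L[ℂ] H) → W ξ = ξ → (∀ X ∈ M, W * X * star W ∈ M') →
    (∀ Y ∈ M', star W * Y * W ∈ M) → ∀ t, W * E.U t = E'.U t * W
  com : ∀ (M : VonNeumannAlgebra H) ξ (E : ModData M ξ), ∃ E' : ModData M.commutant ξ,
    ∀ t, E'.U t = E.U (-t)
  tak : ∀ (M M0 : VonNeumannAlgebra H) ξ (E : ModData M ξ), (∀ X ∈ M0, X ∈ M.commutant) →
    (∀ t, ∀ X ∈ M0, E.U t * X * E.U (-t) ∈ M0) → Dense {z | ∃ X ∈ M0, X ξ = z} →
    ∀ X ∈ M.commutant, X ∈ M0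
  ex : ∀ (M : VonNeumannAlgebra H) ξ, ‖ξ‖ = 1 → Dense {z | ∃ X ∈ M, X ξ = z} →
    Dense {z | ∃ X ∈ M.commutant, X ξ = z} → Nonempty (ModData M ξ)
  vac : ∀ (M : VonNeumannAlgebra H) ξ (E : ModData M ξ) t, E.U t ξ = ξ
  zero : ∀ (M : VonNeumannAlgebra H) ξ (E : ModData M ξ), E.U 0 = 1

/-- **row KV**: the KMS vector function -/
def KV : Prop := ∀ (M : VonNeumannAlgebra H) ξ (E : ModData M ξ), ∀ X ∈ M, ∃ k : ℂ → H,
  ContinuousOn k Sc ∧ DifferentiableOn ℂ k So ∧ (∃ B : ℝ, ∀ z ∈ Sc, ‖k z‖ ≤ B) ∧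
  (∀ t : ℝ, k t = E.U t (X ξ)) ∧ ∀ t : ℝ, k (t - I / 2) = E.U t (E.J (star X ξ))

variable {H} in
/-- strongly continuous unitary groups -/
structure UG (W : ℝ → H →L[ℂ] H) : Prop where
  zero : W 0 = 1
  add : ∀ s t, W (s + t) = W s * W t
  adj : ∀ t, star (W t) = W (-t)
  cont : ∀ v, Continuous fun t => W t v

variable {H} in
/-- positive generator -/
def Pos (W : ℝ → H →L[ℂ] H) : Prop := ∃ S : Set H, Dense S ∧ ∀ v ∈ S, ∃ ν : Measure ℝ,
  IsFiniteMeasure ν ∧ (∀ᵐ l ∂ν, 0 ≤ l) ∧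
    ∀ r : ℝ, inner ℂ v (W r v) = ∫ l, Complex.exp (I * (l * r : ℝ)) ∂ν

/-- **row EXT**: continuation to the upper half plane -/
def EXT : Prop := ∀ W : ℝ → H →L[ℂ] H, UG W → Pos W → ∃ We : ℂ → H →L[ℂ] H,
  (∀ r : ℝ, We r = W r) ∧ (∀ z : ℂ, 0 ≤ z.im → ‖We z‖ ≤ 1) ∧
  (∀ v, ContinuousOn (fun z => We z v) {z | 0 ≤ z.im}) ∧
  ∀ v, DifferentiableOn ℂ (fun z => We z v) {z | 0 < z.im}

/-- the theorem of Borchers -/
def BOR : Prop := ∀ (M : VonNeumannAlgebra H) ξ (E : ModData M ξ) (W : ℝ → H →L[ℂ] H), UG W →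
  Pos W → (∀ r, W r ξ = ξ) → (∀ r, 0 ≤ r → ∀ X ∈ M, W r * X * W (-r) ∈ M) →
  ∀ t r, E.U t * W r = W (Real.exp (-(2 * Real.pi * t)) * r) * E.U t

/-- **row BOR** -/
def RowBOR : Prop := MD H → KV H → EXT H → BOR H

/-- **row DER**: weak derivatives on an invariant dense set are strong derivatives -/
def DER : Prop := ∀ (W : ℝ → H →L[ℂ] H) (S : Set H) (ψ χ : H), UG W → Dense S →
  (∀ t, ∀ s ∈ S, W t s ∈ S) →
  (∀ s ∈ S, HasDerivAt (fun t => inner ℂ s (W t ψ)) (inner ℂ s χ) 0) →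
  HasDerivAt (fun t => W t ψ) χ 0

variable {H} in
/-- the commutant of a set of operators and their adjoints -/
def cm (S : Set (H →L[ℂ] H)) : VonNeumannAlgebra H where
  toStarSubalgebra := StarSubalgebra.centralizer ℂ S
  centralizer_centralizer' := by simp

end

variable {D : Type*} [NormedAddCommGroup D] [InnerProductSpace ℂ D]

/-- `X`, with the formal adjoint `X'`, commutes weakly with the commutant of `M` -/
def Af (M : VonNeumannAlgebra (Completion D)) (X X' : D → D) : Prop :=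
  ∀ Y ∈ M.commutant, ∀ v w : D, inner ℂ ((X' w : D) : Completion D) (Y v) =
    inner ℂ (w : Completion D) (Y (X v : D))

variable (D) in
/-- **row KEY** -/
def KEY : Prop := ∀ (M : VonNeumannAlgebra (Completion D)) (z : Completion D →L[ℂ] Completion D)
  (ω : D) (X X' Y Y' : D → D), z ∈ unitary (Completion D →L[ℂ] Completion D) → z ω = ω →
  (∀ A ∈ M, z * A * star z ∈ M) → Af M.commutant X X' → Af M Y Y' → ∃ ξ : Completion D,
    (∀ w : D, inner ℂ (w : Completion D) ξ = inner ℂ ((X' w : D) : Completion D) (z (Y' ω : D))) ∧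
    ∀ η : D, inner ℂ ξ (z η) = inner ℂ ((X ω : D) : Completion D) (z (Y η : D))

/-- **row OF**: continuation of the boosted one field vectors -/
def OF (Q : Theory D) : Prop := ∀ B g, Q.fld B →
  (In (Wr 0) g → ∃ b : ℂ → Completion D, Nc b ∧
    (∀ t : ℝ, b t = (B (cp (bo (-t)) g) Q.vac : D)) ∧
    ∀ t : ℝ, b (t - I / 2) = (B (cp (bo (-t)) fun x => g (rf x)) Q.vac : D)) ∧
  (In (Wl 0) g → ∃ b : ℂ → Completion D, Nc b ∧
    (∀ t : ℝ, b t = (B (cp (bo t) g) Q.vac : D)) ∧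
    ∀ t : ℝ, b (t - I / 2) = (B (cp (bo t) fun x => g (rf x)) Q.vac : D))

/-- **row GR**: growth of the boosted one field vectors -/
def GR (Q : Theory D) : Prop := ∀ B, Q.fld B → ∃ N : ℕ, ∀ g, IsTest g → ∃ C : ℝ, ∀ t : ℝ,
  ‖B (cp (bo t) g) Q.vac‖ ≤ C * Real.exp (Real.pi * N * |t|)

variable (D) in
/-- the setting -/
structure Cx where
  Q : Theory D
  G : D → D
  Γ : Completion D →L[ℂ] Completion D
  T : Ix → Ix → Fld D
  N : Set V → VonNeumannAlgebra (Completion D)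
  gr : N352.Dn.Gr Q G
  ev : G Q.vac = Q.vac
  st : N352.Dn.Stress Q T
  pg : N352.Dn.PGen Q T
  net : N352.Dn.Net Q G Γ N
  aff : N352.Dn.Aff Q N
  cy : ∀ v, N352.Dn.Cyc Q v
  cov : ∀ s L, 0 < s → IsLor L → Cov Q s L 0

namespace Cx

variable (C : Cx D)

/-- the vacuum -/
def om : Completion D := (C.Q.vac : D)

open Classical in
/-- the similitudes -/
def Uc (s : ℝ) (L : Ix → V) (a : V) : Completion D →L[ℂ] Completion D :=
  if h : ∃ W : Completion D →L[ℂ] Completion D, ∀ v : D, W v = (C.Q.U s L a v : D) then h.choose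
  else 1

/-- translations -/
def Tr (a : V) : Completion D →L[ℂ] Completion D := C.Uc 1 one a

/-- dilations -/
def Dl (s : ℝ) : Completion D →L[ℂ] Completion D := C.Uc s one 0

/-- the lift of a one parameter group -/
def Vg (l : ℝ → Ix → V) (t : ℝ) : Completion D →L[ℂ] Completion D :=
  C.Uc 1 (l (t / 2)) 0 * C.Uc 1 (l (t / 2)) 0

/-- the lift of a one parameter group, on the domain -/
def vd (l : ℝ → Ix → V) (t : ℝ) (v : D) : D := C.Q.U 1 (l (t / 2)) 0 (C.Q.U 1 (l (t / 2)) 0 v)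

/-- the twist (`e = 1`) and its inverse (`e = -1`) -/
def Zc (e : ℝ) : Completion D →L[ℂ] Completion D :=
  ((1 + e * I) / 2 : ℂ) • (1 : Completion D →L[ℂ] Completion D) + ((1 - e * I) / 2 : ℂ) • C.Γ

/-- the twist on the domain -/
def zd (e : ℝ) (v : D) : D := ((1 + e * I) / 2 : ℂ) • v + ((1 - e * I) / 2 : ℂ) • C.G v

/-- twisted operators -/
def tw (X : D → D) : D → D := fun v => C.zd 1 (X (C.zd (-1) v))

/-- the algebra generated by the local algebras in `S` -/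
def MA (S : Set V) : VonNeumannAlgebra (Completion D) :=
  (cm {X | ∃ O, Reg O ∧ O ⊆ S ∧ X ∈ C.N O}).commutant

/-- fields of parity `e` -/
def Par (e : ℂ) (B : Fld D) : Prop :=
  C.Q.fld B ∧ ∀ f v, IsTest f → B f (C.G v) = e • C.G (B f v)

/-- the regularized charge of the rotations -/
def qr (g : Fn) : D → D := cur C.T xr g

/-- modular data of the right wedge -/
abbrev Md := ModData (C.MA (Wr 0)) C.om

/-- the difference of the modular group and the boosts -/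
def zt (E : C.Md) (t : ℝ) : Completion D →L[ℂ] Completion D := E.U t * C.Vg bo (-t)

end Cx

/-- unitaries -/
structure B1 (C : Cx D) : Prop where
  coe : ∀ s L a (v : D), 0 < s → IsLor L → C.Uc s L a v = (C.Q.U s L a v : D)
  ue : ∀ s L a z, 0 < s → IsLor L → C.Uc s L a z = N352.Dn.Ue C.Q s L a z
  uni : ∀ s L a, 0 < s → IsLor L → C.Uc s L a ∈ unitary (Completion D →L[ℂ] Completion D)
  vac : ∀ s L a, 0 < s → IsLor L → C.Uc s L a C.om = C.om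
  nom : ‖C.om‖ = 1
  gg : C.Γ * C.Γ = 1
  gs : star C.Γ = C.Γ
  gv : C.Γ C.om = C.om
  gu : ∀ s L a, 0 < s → IsLor L → C.Γ * C.Uc s L a = C.Uc s L a * C.Γ
  gadd : ∀ v w, C.G (v + w) = C.G v + C.G w
  gsmul : ∀ (c : ℂ) v, C.G (c • v) = c • C.G v
  uadd : ∀ s L a v w, 0 < s → IsLor L → C.Q.U s L a (v + w) = C.Q.U s L a v + C.Q.U s L a w
  usmul : ∀ s L a (c : ℂ) v, 0 < s → IsLor L → C.Q.U s L a (c • v) = c • C.Q.U s L a v
  u1 : ∀ v, C.Q.U 1 one 0 v = v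
  mul : ∀ s L a s' L' a', 0 < s → 0 < s' → IsLor L → IsLor L' →
    C.Uc s L a * C.Uc s' L' a' = C.Uc (s * s') (fun m => sim 1 L 0 (L' m)) (sim s L a a') ∨
    C.Uc s L a * C.Uc s' L' a' = C.Γ * C.Uc (s * s') (fun m => sim 1 L 0 (L' m)) (sim s L a a')
  mul1 : ∀ s L a s' L' a', 0 < s → 0 < s' → IsLor L → IsLor L' → L = one ∨ L' = one →
    C.Uc s L a * C.Uc s' L' a' = C.Uc (s * s') (fun m => sim 1 L 0 (L' m)) (sim s L a a')
  t0 : C.Tr 0 = 1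
  tadd : ∀ a b, C.Tr (a + b) = C.Tr a * C.Tr b
  tadj : ∀ a, star (C.Tr a) = C.Tr (-a)
  tcont : ∀ z, Continuous fun a => C.Tr a z
  d1 : C.Dl 1 = 1
  dmul : ∀ s s', 0 < s → 0 < s' → C.Dl (s * s') = C.Dl s * C.Dl s'
  dadj : ∀ s, 0 < s → star (C.Dl s) = C.Dl s⁻¹
  dt : ∀ s a, 0 < s → C.Dl s * C.Tr a = C.Tr (s • a) * C.Dl s
  v0 : ∀ l, Op l → C.Vg l 0 = 1
  vadd : ∀ l s t, Op l → C.Vg l (s + t) = C.Vg l s * C.Vg l t
  vadj : ∀ l t, Op l → star (C.Vg l t) = C.Vg l (-t)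
  vu : ∀ l t, Op l → C.Vg l t = C.Uc 1 (l t) 0 ∨ C.Vg l t = C.Γ * C.Uc 1 (l t) 0
  vcoe : ∀ l t (v : D), Op l → C.Vg l t v = (C.vd l t v : D)
  vvac : ∀ l t, Op l → C.Vg l t C.om = C.om
  vg : ∀ l t, Op l → C.Γ * C.Vg l t = C.Vg l t * C.Γ
  vt : ∀ l t a, Op l → C.Vg l t * C.Tr a = C.Tr (sim 1 (l t) 0 a) * C.Vg l t
  vdl : ∀ l t s, Op l → 0 < s → C.Vg l t * C.Dl s = C.Dl s * C.Vg l t
  rb : ∀ t, C.Vg ro Real.pi * C.Vg bo t = C.Vg bo (-t) * C.Vg ro Real.pi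
  zcoe : ∀ e (v : D), C.Zc e v = (C.zd e v : D)
  zz : C.Zc 1 * C.Zc (-1) = 1 ∧ C.Zc (-1) * C.Zc 1 = 1
  zadj : ∀ e, star (C.Zc e) = C.Zc (-e)
  zv : ∀ e, C.Zc e C.om = C.om
  zc : ∀ e X, C.Γ * X = X * C.Γ → C.Zc e * X = X * C.Zc e

/-- **row B1** -/
def RowB1 (C : Cx D) : Prop := Geo → B1 C

/-- polynomial algebras -/
structure B2 (C : Cx D) : Prop where
  adj : ∀ W X X', Al C.Q W X X' → ∀ v w, inner ℂ (X v) w = inner ℂ v (X' w)
  add : ∀ W X X', Al C.Q W X X' → ∀ v w, X (v + w) = X v + X w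
  smul : ∀ W X X', Al C.Q W X X' → ∀ (c : ℂ) v, X (c • v) = c • X v
  mul : ∀ W X X' Y Y', Al C.Q W X X' → Al C.Q W Y Y' →
    Al C.Q W (fun v => X (Y v)) fun v => Y' (X' v)
  symm : ∀ W X X', Al C.Q W X X' → Al C.Q W X' X
  mono : ∀ W W' X X', W ⊆ W' → Al C.Q W X X' → Al C.Q W' X X'
  cov : ∀ s L a W X X', 0 < s → IsLor L → Al C.Q W X X' → ∃ Y Y', Al C.Q (sim s L a '' W) Y Y' ∧
    (∀ v, C.Q.U s L a (X v) = Y (C.Q.U s L a v)) ∧ ∀ v, C.Q.U s L a (X' v) = Y' (C.Q.U s L a v)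
  vd : ∀ l t W X X', Op l → Al C.Q W X X' → ∃ Y Y', Al C.Q (sim 1 (l t) 0 '' W) Y Y' ∧
    (∀ v, C.vd l t (X v) = Y (C.vd l t v)) ∧ ∀ v, C.vd l t (X' v) = Y' (C.vd l t v)
  gam : ∀ W X X', Al C.Q W X X' →
    Al C.Q W (fun v => C.G (X (C.G v))) fun v => C.G (X' (C.G v))
  zom : ∀ e W X X', Al C.Q W X X' → ∃ Y Y', Al C.Q W Y Y' ∧ C.zd e (X C.Q.vac) = Y C.Q.vac
  cpt : ∀ W X X', Al C.Q W X X' → ∃ K, IsCompact K ∧ K ⊆ W ∧ Al C.Q K X X'
  rs : ∀ O, IsOpen O → O.Nonempty →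
    Dense {z : Completion D | ∃ X X', Al C.Q O X X' ∧ z = (X C.Q.vac : D)}
  qr : ∀ F R, IsCutoff F → 0 < R → Al C.Q Set.univ (C.qr (F R)) (C.qr (F R))
  qg : ∀ F R v, IsCutoff F → 0 < R → C.qr (F R) (C.G v) = C.G (C.qr (F R) v)
  par : ∀ e B B', e = 1 ∨ e = -1 → C.Par e B → C.Q.fld B' → N352.Dn.IsAdj B B' → C.Par e B'

/-- **row B2** -/
def RowB2 (C : Cx D) : Prop := Geo → B1 C → B2 C

/-- the net -/
structure NT (C : Cx D) : Prop where
  mem : ∀ O S X, Reg O → O ⊆ S → X ∈ C.N O → X ∈ C.MA S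
  mono : ∀ S S' X, S ⊆ S' → X ∈ C.MA S → X ∈ C.MA S'
  symm : ∀ (M : VonNeumannAlgebra (Completion D)) X X', Af M X X' → Af M X' X
  af : ∀ S X X', IsOpen S → Al C.Q S X X' → Af (C.MA S) X X'
  tw : ∀ S S' X X', IsOpen S' → Spc S S' → Al C.Q S' X X' →
    Af (C.MA S).commutant (C.tw X) (C.tw X')
  cov : ∀ s L a S X, 0 < s → IsLor L → X ∈ C.MA S →
    C.Uc s L a * X * star (C.Uc s L a) ∈ C.MA (sim s L a '' S)
  vg : ∀ l t S X, Op l → X ∈ C.MA S → C.Vg l t * X * C.Vg l (-t) ∈ C.MA (sim 1 (l t) 0 '' S)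
  gam : ∀ S X, X ∈ C.MA S → C.Γ * X * C.Γ ∈ C.MA S
  loc : ∀ e S S' X, e = 1 ∨ e = -1 → Spc S S' → X ∈ C.MA S' →
    C.Zc e * X * C.Zc (-e) ∈ (C.MA S).commutant
  cyc : ∀ S, IsOpen S → S.Nonempty → Dense {z | ∃ X ∈ C.MA S, X C.om = z}
  cyc' : ∀ S S', IsOpen S' → S'.Nonempty → Spc S S' →
    Dense {z | ∃ X ∈ (C.MA S).commutant, X C.om = z}
  comm : ∀ (M : VonNeumannAlgebra (Completion D)) X X' Y Y', Af M X X' → Af M.commutant Y Y' →
    ∀ v, X (Y v) = Y (X v)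
  sep : ∀ X X', Al C.Q Set.univ X X' → X C.Q.vac = 0 → ∀ v, X v = 0

/-- **row NT** -/
def RowNT (C : Cx D) : Prop := Geo → B1 C → B2 C → NT C

/-- the basic facts -/
structure Bs (C : Cx D) : Prop where
  geo : Geo
  cut : CUT
  b1 : B1 C
  b2 : B2 C
  nt : NT C

/-- the matrix elements of the modular group are exponential polynomials -/
def LAU (C : Cx D) (E : C.Md) : Prop := ∀ e B, e = 1 ∨ e = -1 → C.Par e B → ∃ N, ∀ g,
  In (Wl 0) g → ∀ A ∈ C.MA (Wr 0), EN N fun t =>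
    inner ℂ ((B (cp (bo (-t)) g) C.Q.vac : D) : Completion D) (E.U t (A C.om))

/-- **row LAU** -/
def RowLAU (C : Cx D) : Prop := Bs C → MD (Completion D) → KV (Completion D) → OF C.Q → GR C.Q →
  LP → ∀ E, LAU C E

/-- the modular group acts on the translations like the boosts -/
def ZT (C : Cx D) (E : C.Md) : Prop :=
  ∀ t a, E.U t * C.Tr a = C.Tr (sim 1 (bo t) 0 a) * E.U t

/-- **row ZT** -/
def RowZT (C : Cx D) : Prop := Bs C → MD (Completion D) → BOR (Completion D) → ∀ E, ZT C E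

/-- the group `zt` -/
structure ZG (C : Cx D) (E : C.Md) : Prop where
  vc : ∀ s t, E.U s * C.Vg bo t = C.Vg bo t * E.U s
  ug : ∀ t, C.Γ * E.U t = E.U t * C.Γ
  zero : C.zt E 0 = 1
  add : ∀ s t, C.zt E (s + t) = C.zt E s * C.zt E t
  adj : ∀ t, star (C.zt E t) = C.zt E (-t)
  uni : ∀ t, C.zt E t ∈ unitary (Completion D →L[ℂ] Completion D)
  vac : ∀ t, C.zt E t C.om = C.om
  gam : ∀ t, C.Γ * C.zt E t = C.zt E t * C.Γ
  tr : ∀ t a, C.zt E t * C.Tr a = C.Tr a * C.zt E t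
  dl : ∀ t s, 0 < s → C.zt E t * C.Dl s = C.Dl s * C.zt E t
  nor : ∀ t c, ∀ A ∈ C.MA (Wr c), C.zt E t * A * star (C.zt E t) ∈ C.MA (Wr c)

/-- **row ZG** -/
def RowZG (C : Cx D) : Prop := Bs C → MD (Completion D) → ∀ E, ZT C E → ZG C E

/-- `zt` fixes the vectors made by the stress tensor from the vacuum -/
def FIX (C : Cx D) (E : C.Md) : Prop := ∀ t m n g, In Set.univ g →
  C.zt E t (C.T m n g C.Q.vac : D) = (C.T m n g C.Q.vac : D)

/-- **row FIX** -/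
def RowFIX (C : Cx D) : Prop := Bs C → ENs → ∀ E, LAU C E → ZG C E → FIX C E

/-- unique continuation in the translations -/
def HOL (C : Cx D) : Prop := ∀ A f (y y' : Completion D) (v : D) (O : Set V), C.Q.fld A →
  IsTest f → IsOpen O → O.Nonempty →
  (∀ a ∈ O, inner ℂ y ((A f (C.Q.U 1 one a v) : D) : Completion D) =
    inner ℂ y' ((C.Q.U 1 one a v : D) : Completion D)) →
  inner ℂ y ((A f v : D) : Completion D) = inner ℂ y' (v : Completion D)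

/-- **row HOL** -/
def RowHOL (C : Cx D) : Prop := Bs C → HOL C

/-- `zt` commutes weakly with the stress tensor -/
def WC (C : Cx D) (E : C.Md) : Prop := ∀ t m n f X X' (η : D), In Set.univ f →
  Al C.Q Set.univ X X' →
  inner ℂ ((C.T m n (bar f) (X C.Q.vac) : D) : Completion D) (C.zt E t η) =
    inner ℂ ((X C.Q.vac : D) : Completion D) (C.zt E t (C.T m n f η : D))

/-- **row WC** -/
def RowWC (C : Cx D) : Prop := Bs C → KEY D → HOL C → ∀ E, ZG C E → FIX C E → WC C E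

/-- the charge of the rotations has no vacuum expectation values -/
def VAC (C : Cx D) : Prop := ∃ F, IsCutoff F ∧ ∀ R, 0 < R → ∀ y : Completion D,
  (∀ a, C.Tr a y = y) → inner ℂ y ((C.qr (F R) C.Q.vac : D) : Completion D) = 0

/-- **row VAC** -/
def RowVAC (C : Cx D) : Prop := Bs C → VAC C

/-- the limit of short distances -/
def WL (C : Cx D) : Prop := ∀ ξ η : Completion D, (∀ y, (∀ a, C.Tr a y = y) → inner ℂ y η = 0) →
  Tendsto (fun s => inner ℂ (C.Dl s ξ) η) (𝓝[>] 0) (𝓝 0)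

/-- **row WL** -/
def RowWL (C : Cx D) : Prop := Bs C → WL C

/-- **row CT**: the rotations are continuous -/
def RowCT (C : Cx D) : Prop := Bs C → UG (C.Vg ro)

/-- the generator of the rotations on one field vectors -/
def LB0 (C : Cx D) : Prop := ∀ F O, IsCutoff F → Reg O → ∀ᶠ R in atTop, ∀ B f, C.Q.fld B →
  In O f → HasDerivAt (fun e => C.Vg ro e (B f C.Q.vac : D))
    (I • ((C.qr (F R) (B f C.Q.vac) - B f (C.qr (F R) C.Q.vac) : D) : Completion D)) 0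

/-- **row LB0** -/
def RowLB0 (C : Cx D) : Prop := Bs C → DER (Completion D) → UG (C.Vg ro) → LB0 C

/-- the generator of the rotations -/
def LB (C : Cx D) : Prop := ∀ F O, IsCutoff F → Reg O → ∀ᶠ R in atTop, ∀ X X', Al C.Q O X X' →
  HasDerivAt (fun e => C.Vg ro e (X C.Q.vac : D))
    (I • ((C.qr (F R) (X C.Q.vac) - X (C.qr (F R) C.Q.vac) : D) : Completion D)) 0

/-- **row LB** -/
def RowLB (C : Cx D) : Prop := Bs C → DER (Completion D) → UG (C.Vg ro) → LB0 C → LB C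

/-- `zt` is neutral, infinitesimally -/
def NE0 (C : Cx D) (E : C.Md) : Prop := ∀ t X X' Y Y', Al C.Q (Wl 0) X X' → Al C.Q (Wr 0) Y Y' →
  HasDerivAt (fun e => inner ℂ (C.Vg ro e (C.Zc 1 (X C.Q.vac : D)))
    (C.zt E t (C.Vg ro e (Y C.Q.vac : D)))) 0 0

/-- **row NE0** -/
def RowNE0 (C : Cx D) : Prop := Bs C → KEY D → VAC C → WL C → LB C → ∀ E, ZG C E → FIX C E →
  WC C E → NE0 C E

/-- `zt` commutes with the rotations -/
def NEU (C : Cx D) (E : C.Md) : Prop := ∀ t e, C.zt E t * C.Vg ro e = C.Vg ro e * C.zt E t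

/-- **row NEU** -/
def RowNEU (C : Cx D) : Prop := Bs C → ∀ E, ZG C E → NE0 C E → NEU C E

/-- the Bisognano-Wichmann property -/
def ONE (C : Cx D) (E : C.Md) : Prop := ∀ t, E.U t = C.Vg bo t

/-- **row ONE** -/
def RowONE (C : Cx D) : Prop := Bs C → MD (Completion D) → ∀ E, ZG C E → NEU C E → ONE C E

/-- the orbits under the boosts are finite dimensional -/
def FIN (C : Cx D) : Prop := ∀ e B, e = 1 ∨ e = -1 → C.Par e B → ∃ (n : ℕ) (τ : Fin n → ℝ), ∀ t,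
  ∃ μ : Fin n → ℂ, ∀ g, In Set.univ g → C.Q.U 1 (bo t) 0 (B (cp (bo t) g) C.Q.vac) =
    ∑ j, μ j • C.Q.U 1 (bo (τ j)) 0 (B (cp (bo (τ j)) g) C.Q.vac)

/-- **row FIN** -/
def RowFIN (C : Cx D) : Prop := Bs C → ENs → ∀ E, LAU C E → ONE C E → FIN C

end

end Vale.Agent.SP352
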