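import Vale.Agent.Q352.NS

/-!
# P352, project NS: row Geo
-/

set_option linter.all false

open Filter Topology MeasureTheory

namespace Vale.Agent.SP352

open P352.GF (V Fn Ix Fld Theory IsTest IsLor IsCutoff sim one bar mdot pd eta bas o ev)
open P352.H246 (Al In Cov)
open N352.Dn (Reg Spc cur)

noncomputable section

namespace GeoR

lemma eta_sq (m : Ix) : eta m * eta m = 1 := by
  unfold eta
  split_ifs <;> norm_num

lemma eta0 : eta 0 = 1 := by simp [eta, o]
lemma eta1 : eta 1 = -1 := by simp [eta, o]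
lemma eta2 : eta 2 = -1 := by simp [eta, o]
lemma eta3 : eta 3 = -1 := by simp [eta, o]

lemma mdot_eq (x y : V) : mdot x y = x 0 * y 0 - x 1 * y 1 - x 2 * y 2 - x 3 * y 3 := by
  unfold mdot
  rw [Fin.sum_univ_four, eta0, eta1, eta2, eta3]
  ring

lemma sim_apply (s : ℝ) (L : Ix → V) (a x : V) (n : Ix) :
    sim s L a x n = a n + s * ∑ m, x m * L m n := rfl

lemma sim4 (L : Ix → V) (x : V) (n : Ix) :
    sim 1 L 0 x n = x 0 * L 0 n + x 1 * L 1 n + x 2 * L 2 n + x 3 * L 3 n := by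
  rw [sim_apply, Fin.sum_univ_four]
  simp

lemma sum_one (x : V) (n : Ix) : ∑ m, x m * one m n = x n := by
  simp [one, bas]

lemma one_sum (L : Ix → V) (m n : Ix) : ∑ k, one m k * L k n = L m n := by
  simp [one, bas]

lemma sim1 (a x : V) : sim 1 one a x = a + x := by
  funext n
  rw [sim_apply, sum_one]
  simp

lemma simd (s : ℝ) (x : V) : sim s one 0 x = s • x := by
  funext n
  rw [sim_apply, sum_one]
  simp

lemma sim0 (s : ℝ) (L : Ix → V) (a : V) : sim s L a 0 = a := by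
  funext n
  simp [sim_apply]

lemma sima (s : ℝ) (L : Ix → V) (a x : V) : sim s L a x = a + s • sim 1 L 0 x := by
  funext n
  simp [sim_apply]

lemma lin (L : Ix → V) (x y : V) (c : ℝ) :
    sim 1 L 0 (x + c • y) = sim 1 L 0 x + c • sim 1 L 0 y := by
  funext n
  simp only [Pi.add_apply, Pi.smul_apply, smul_eq_mul, sim4]
  ring

lemma comp (L L' : Ix → V) (x : V) :
    sim 1 (fun m => sim 1 L 0 (L' m)) 0 x = sim 1 L 0 (sim 1 L' 0 x) := by
  funext n
  simp only [sim4]
  ring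

lemma onel (L : Ix → V) : (fun m => sim 1 one 0 (L m)) = L := by
  funext m
  rw [sim1, zero_add]

lemma oner (L : Ix → V) : (fun m => sim 1 L 0 (one m)) = L := by
  funext m n
  rw [sim_apply, one_sum]
  simp

lemma cont (s : ℝ) (L : Ix → V) (a : V) : Continuous (sim s L a) := by
  refine continuous_pi fun n => ?_
  simp only [sim_apply]
  fun_prop

lemma of_mul (L L' : Ix → V) :
    (Matrix.of fun m => sim 1 L 0 (L' m)) = Matrix.of L' * Matrix.of L := by
  ext m n
  simp [Matrix.mul_apply, sim_apply]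

lemma of_one : Matrix.of one = (1 : Matrix Ix Ix ℝ) := by
  ext m n
  simp only [one, bas, Matrix.of_apply, Matrix.one_apply, eq_comm]

lemma lor1 : IsLor one := by
  refine ⟨?_, ?_, ?_⟩
  · intro m n
    unfold mdot
    simp only [mul_assoc]
    simp only [one, bas]
    by_cases h : n = m
    · subst h
      simp
    · simp only [h, if_false]
      refine Finset.sum_eq_zero fun k _ => ?_
      by_cases hk : k = m
      · subst hk
        have : ¬ k = n := fun e => h e.symm
        simp [this]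
      · simp [hk]
  · simp [one, bas]
  · show (Matrix.of one).det = 1
    rw [of_one, Matrix.det_one]

/-- the inverse matrix -/
def linv (L : Ix → V) : Ix → V := fun m n => eta m * eta n * L n m

lemma inv {L : Ix → V} (hL : IsLor L) : ∃ L', IsLor L' ∧ (fun m => sim 1 L 0 (L' m)) = one ∧
    (fun m => sim 1 L' 0 (L m)) = one := by
  set E : Matrix Ix Ix ℝ := Matrix.diagonal eta with hE
  set M : Matrix Ix Ix ℝ := Matrix.of L with hM
  have hEE : E * E = 1 := by
    rw [hE, Matrix.diagonal_mul_diagonal]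
    have : (fun i => eta i * eta i) = fun _ => 1 := by
      funext i; exact eta_sq i
    rw [this, Matrix.diagonal_one]
  have h1 : M * E * M.transpose = E := by
    ext m n
    have := hL.1 m n
    rw [Matrix.mul_apply]
    simp only [Matrix.mul_diagonal, hE, Matrix.transpose_apply, hM, Matrix.of_apply]
    rw [Matrix.diagonal_apply]
    unfold mdot bas at this
    have e : (if m = n then eta m else 0) = if n = m then eta m else 0 := by
      simp only [eq_comm]
    rw [e, ← this]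
    refine Finset.sum_congr rfl fun i _ => ?_
    ring
  have h2 : M * (E * M.transpose * E) = 1 := by
    rw [← hEE]
    nth_rewrite 3 [← h1]
    simp only [Matrix.mul_assoc]
  have h3 : (E * M.transpose * E) * M = 1 := mul_eq_one_comm.1 h2
  have h4 : M.transpose * E * M = E := by
    calc M.transpose * E * M = (E * E) * M.transpose * E * M := by rw [hEE, Matrix.one_mul]
      _ = E * ((E * M.transpose * E) * M) := by simp only [Matrix.mul_assoc]
      _ = E := by rw [h3, Matrix.mul_one]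
  have h5 : Matrix.of (linv L) = E * M.transpose * E := by
    ext m n
    rw [hE, Matrix.mul_diagonal, Matrix.diagonal_mul]
    simp only [linv, hM, Matrix.of_apply, Matrix.transpose_apply]
    ring
  have ht : ∀ k l, ∑ m, eta m * L m k * L m l = bas k (eta k) l := by
    intro k l
    have := congrFun (congrFun h4 k) l
    rw [Matrix.mul_apply] at this
    simp only [Matrix.mul_diagonal, hE, Matrix.transpose_apply, hM, Matrix.of_apply] at this
    rw [Matrix.diagonal_apply] at this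
    unfold bas
    have e : (if k = l then eta k else 0) = if l = k then eta k else 0 := by
      simp only [eq_comm]
    rw [← e, ← this]
    refine Finset.sum_congr rfl fun i _ => ?_
    ring
  refine ⟨linv L, ⟨?_, ?_, ?_⟩, ?_, ?_⟩
  · intro m n
    have h := ht m n
    have e : mdot (linv L m) (linv L n) = eta m * eta n * ∑ k, eta k * L k m * L k n := by
      unfold mdot linv
      rw [Finset.mul_sum]
      refine Finset.sum_congr rfl fun k _ => ?_
      have := eta_sq k
      linear_combination (eta m * eta n * eta k * L k m * L k n) * this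
    rw [e, h]
    unfold bas
    split_ifs with hnm
    · subst hnm
      have := eta_sq n
      linear_combination eta n * this
    · ring
  · have : linv L o o = L o o := by simp [linv, eta]
    rw [this]; exact hL.2.1
  · have h6 : E.det * E.det = 1 := by rw [← Matrix.det_mul, hEE, Matrix.det_one]
    have h7 : M.det = 1 := hL.2.2
    show (Matrix.of (linv L)).det = 1
    rw [h5, Matrix.det_mul, Matrix.det_mul, Matrix.det_transpose, h7]
    linear_combination h6
  · apply Matrix.of.injective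
    rw [of_mul, of_one, h5, ← hM, h3]
  · apply Matrix.of.injective
    rw [of_mul, of_one, h5, ← hM, h2]

/-- the linear part of a similitude -/
def lm (s : ℝ) (L : Ix → V) : V →ₗ[ℝ] V where
  toFun := sim s L 0
  map_add' x y := by
    funext n
    simp only [sim_apply, Pi.add_apply, Pi.zero_apply, add_mul, Finset.sum_add_distrib]
    ring
  map_smul' c x := by
    funext n
    simp only [sim_apply, Pi.smul_apply, Pi.zero_apply, smul_eq_mul, RingHom.id_apply, mul_assoc,
      ← Finset.mul_sum]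
    ring

lemma lm_lm (s s' : ℝ) (L L' : Ix → V) (x : V) :
    sim s L 0 (sim s' L' 0 x) = (s * s') • sim 1 (fun m => sim 1 L 0 (L' m)) 0 x := by
  rw [comp, sima s, sima s', zero_add, zero_add]
  have := (lm 1 L).map_smul s' (sim 1 L' 0 x)
  simp only [lm, LinearMap.coe_mk, AddHom.coe_mk] at this
  rw [this, smul_smul]

lemma exE {s : ℝ} {L : Ix → V} (hs : 0 < s) (hL : IsLor L) :
    ∃ e : V ≃L[ℝ] V, ∀ a x, sim s L a x = a + e x := by
  obtain ⟨L', -, h1, h2⟩ := inv hL
  have hb : Function.Bijective (lm s L) := by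
    refine Function.bijective_iff_has_inverse.2 ⟨sim s⁻¹ L' 0, fun x => ?_, fun x => ?_⟩
    · show sim s⁻¹ L' 0 (sim s L 0 x) = x
      rw [lm_lm, h2, sim1, zero_add, inv_mul_cancel₀ hs.ne', one_smul]
    · show sim s L 0 (sim s⁻¹ L' 0 x) = x
      rw [lm_lm, h1, sim1, zero_add, mul_inv_cancel₀ hs.ne', one_smul]
  refine ⟨(LinearEquiv.ofBijective (lm s L) hb).toContinuousLinearEquiv, fun a x => ?_⟩
  show sim s L a x = a + sim s L 0 x
  rw [sima s L a, sima s L 0, zero_add]

lemma testE (e : V ≃L[ℝ] V) (a : V) (g : Fn) (hg : IsTest g) : IsTest fun x => g (a + e x) := by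
  obtain ⟨G, rfl⟩ := hg
  refine ⟨SchwartzMap.compCLMOfContinuousLinearEquiv ℂ e
    (SchwartzMap.compSubConstCLM ℂ (-a) G), ?_⟩
  funext x
  show G (e x - -a) = G (a + e x)
  rw [sub_neg_eq_add, add_comm]

/-- affine homeomorphisms -/
def hE (e : V ≃L[ℝ] V) (a : V) : V ≃ₜ V := e.toHomeomorph.trans (Homeomorph.addLeft a)

lemma hE_apply (e : V ≃L[ℝ] V) (a x : V) : hE e a x = a + e x := rfl

lemma inE (e : V ≃L[ℝ] V) (a : V) (W : Set V) (g : Fn) (hg : In W g) :
    In ((fun x => a + e x) ⁻¹' W) fun x => g (a + e x) := by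
  refine ⟨testE e a g hg.1, hg.2.1.comp_homeomorph (hE e a), ?_⟩
  intro x hx
  apply hg.2.2
  exact tsupport_comp_subset_preimage g (hE e a).continuous hx

lemma regE (e : V ≃L[ℝ] V) (a : V) (O : Set V) (hO : Reg O) : Reg ((fun x => a + e x) '' O) := by
  refine ⟨(hE e a).isOpenMap O hO.1, ?_⟩
  have h1 : Bornology.IsBounded (e '' O) := (e : V →L[ℝ] V).lipschitz.isBounded_image hO.2
  have h2 := (isometry_add_left a).lipschitz.isBounded_image h1
  rwa [Set.image_image] at h2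

lemma tb (g : Fn) (hg : IsTest g) : IsTest (bar g) := by
  obtain ⟨G, rfl⟩ := hg
  exact ⟨SchwartzMap.postcompCLM (Complex.conjCLE : ℂ →L[ℝ] ℂ) G, rfl⟩

lemma inb (W : Set V) (g : Fn) (hg : In W g) : In W (bar g) := by
  have h : Function.support (bar g) = Function.support g := by
    ext x
    simp [bar]
  have h' : tsupport (bar g) = tsupport g := by
    unfold tsupport
    rw [h]
  refine ⟨tb g hg.1, ?_, ?_⟩
  · have := hg.2.1
    unfold HasCompactSupport at this ⊢
    rwa [h']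
  · rw [h']
    exact hg.2.2

lemma rf0 (x : V) : rf x 0 = -x 0 := rfl
lemma rf1 (x : V) : rf x 1 = -x 1 := rfl
lemma rf2 (x : V) : rf x 2 = x 2 := rfl
lemma rf3 (x : V) : rf x 3 = x 3 := rfl

lemma ext4 {x y : V} (h0 : x 0 = y 0) (h1 : x 1 = y 1) (h2 : x 2 = y 2) (h3 : x 3 = y 3) :
    x = y := by
  funext n
  fin_cases n
  exacts [h0, h1, h2, h3]

lemma rfr (x : V) : rf (rf x) = x := by
  apply ext4 <;> simp [rf0, rf1, rf2, rf3]

/-- the reflection as a linear map -/
def rfl' : V ≃ₗ[ℝ] V where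
  toFun := rf
  invFun := rf
  map_add' x y := by
    apply ext4 <;> simp [rf0, rf1, rf2, rf3] <;> ring
  map_smul' c x := by
    apply ext4 <;> simp [rf0, rf1, rf2, rf3]
  left_inv := rfr
  right_inv := rfr

lemma inr (W : Set V) (g : Fn) (hg : In W g) : In (rf ⁻¹' W) fun x => g (rf x) := by
  have := inE rfl'.toContinuousLinearEquiv 0 W g hg
  simp only [zero_add] at this
  exact this

lemma bo_sim (t : ℝ) (x : V) : sim 1 (bo t) 0 x =
    ![Real.cosh (2 * Real.pi * t) * x 0 - Real.sinh (2 * Real.pi * t) * x 1,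
      Real.cosh (2 * Real.pi * t) * x 1 - Real.sinh (2 * Real.pi * t) * x 0, x 2, x 3] := by
  apply ext4 <;> simp [sim4, bo] <;> ring

lemma ro_sim (t : ℝ) (x : V) : sim 1 (ro t) 0 x =
    ![x 0, Real.cos t * x 1 - Real.sin t * x 2, Real.sin t * x 1 + Real.cos t * x 2, x 3] := by
  apply ext4 <;> simp [sim4, ro] <;> ring

lemma fext4 {L L' : Ix → V} (h0 : L 0 = L' 0) (h1 : L 1 = L' 1) (h2 : L 2 = L' 2)
    (h3 : L 3 = L' 3) : L = L' := by
  funext n
  fin_cases n
  exacts [h0, h1, h2, h3]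

lemma opb : Op bo where
  lor t := by
    have h := Real.cosh_sq (2 * Real.pi * t)
    refine ⟨?_, ?_, ?_⟩
    · intro m n
      rw [mdot_eq]
      fin_cases m <;> fin_cases n <;> simp [bo, bas, eta0, eta1, eta2, eta3] <;> nlinarith
    · simp [bo, o, Real.cosh_pos]
    · show (Matrix.of (bo t)).det = 1
      simp [bo, Matrix.det_succ_row_zero, Fin.sum_univ_succ, Fin.succAbove]
      nlinarith
  zero := by
    apply fext4 <;> apply ext4 <;> simp [bo, one, bas]
  add s t := by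
    apply fext4 <;> simp only [bo_sim] <;> apply ext4 <;>
      simp [bo, mul_add, Real.cosh_add, Real.sinh_add] <;> ring

lemma opr : Op ro where
  lor t := by
    have h := Real.sin_sq_add_cos_sq t
    refine ⟨?_, ?_, ?_⟩
    · intro m n
      rw [mdot_eq]
      fin_cases m <;> fin_cases n <;> simp [ro, bas, eta0, eta1, eta2, eta3] <;> nlinarith
    · simp [ro, o]
    · show (Matrix.of (ro t)).det = 1
      simp [ro, Matrix.det_succ_row_zero, Fin.sum_univ_succ, Fin.succAbove]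
      nlinarith
  zero := by
    apply fext4 <;> apply ext4 <;> simp [ro, one, bas]
  add s t := by
    apply fext4 <;> simp only [ro_sim] <;> apply ext4 <;>
      simp [ro, Real.cos_add, Real.sin_add] <;> ring

lemma opn (c : V) : IsOpen (Wr c) ∧ IsOpen (Wl c) :=
  ⟨isOpen_lt (by fun_prop) (by fun_prop), isOpen_lt (by fun_prop) (by fun_prop)⟩

lemma ne (c : V) : (Wr c).Nonempty ∧ (Wl c).Nonempty := by
  refine ⟨⟨![c 0, c 1 + 1, 0, 0], ?_⟩, ⟨![c 0, c 1 - 1, 0, 0], ?_⟩⟩
  · simp [Wr]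
  · simp [Wl]

lemma spc (c : V) : Spc (Wr c) (Wl c) ∧ Spc (Wl c) (Wr c) := by
  constructor
  · intro x hx y hy
    simp only [Wr, Wl, Set.mem_setOf_eq, abs_lt] at hx hy
    rw [mdot_eq]
    simp only [Pi.sub_apply]
    nlinarith [sq_nonneg (x 2 - y 2), sq_nonneg (x 3 - y 3),
      mul_pos (show 0 < (x 1 - y 1) - (x 0 - y 0) by linarith)
        (show 0 < (x 1 - y 1) + (x 0 - y 0) by linarith)]
  · intro x hx y hy
    simp only [Wr, Wl, Set.mem_setOf_eq, abs_lt] at hx hy
    rw [mdot_eq]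
    simp only [Pi.sub_apply]
    nlinarith [sq_nonneg (x 2 - y 2), sq_nonneg (x 3 - y 3),
      mul_pos (show 0 < (y 1 - x 1) - (x 0 - y 0) by linarith)
        (show 0 < (y 1 - x 1) + (x 0 - y 0) by linarith)]

lemma wr0 (x : V) : x ∈ Wr 0 ↔ 0 < x 1 + x 0 ∧ 0 < x 1 - x 0 := by
  simp only [Wr, Set.mem_setOf_eq, Pi.zero_apply, sub_zero, abs_lt]
  constructor <;> rintro ⟨h1, h2⟩ <;> constructor <;> linarith

lemma wl0 (x : V) : x ∈ Wl 0 ↔ x 1 + x 0 < 0 ∧ x 1 - x 0 < 0 := by
  simp only [Wl, Set.mem_setOf_eq, Pi.zero_apply, sub_zero, zero_sub, abs_lt]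
  constructor <;> rintro ⟨h1, h2⟩ <;> constructor <;> linarith

lemma mneg {p a : ℝ} (hp : 0 < p) : p * a < 0 ↔ a < 0 :=
  ⟨fun h => by by_contra h'; nlinarith [not_lt.1 h'], fun h => mul_neg_of_pos_of_neg hp h⟩

lemma bow (t : ℝ) (x : V) :
    (sim 1 (bo t) 0 x ∈ Wr 0 ↔ x ∈ Wr 0) ∧ (sim 1 (bo t) 0 x ∈ Wl 0 ↔ x ∈ Wl 0) := by
  have a0 : sim 1 (bo t) 0 x 0 =
      Real.cosh (2 * Real.pi * t) * x 0 - Real.sinh (2 * Real.pi * t) * x 1 := by
    rw [bo_sim]
    rfl
  have a1 : sim 1 (bo t) 0 x 1 =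
      Real.cosh (2 * Real.pi * t) * x 1 - Real.sinh (2 * Real.pi * t) * x 0 := by
    rw [bo_sim]
    rfl
  have e1 : sim 1 (bo t) 0 x 1 + sim 1 (bo t) 0 x 0 =
      Real.exp (-(2 * Real.pi * t)) * (x 1 + x 0) := by
    rw [a0, a1, ← Real.cosh_sub_sinh]
    ring
  have e2 : sim 1 (bo t) 0 x 1 - sim 1 (bo t) 0 x 0 =
      Real.exp (2 * Real.pi * t) * (x 1 - x 0) := by
    rw [a0, a1, ← Real.cosh_add_sinh]
    ring
  have p1 := Real.exp_pos (-(2 * Real.pi * t))
  have p2 := Real.exp_pos (2 * Real.pi * t)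
  rw [wr0, wr0, wl0, wl0, e1, e2, mul_pos_iff_of_pos_left p1, mul_pos_iff_of_pos_left p2,
    mneg p1, mneg p2]
  exact ⟨Iff.rfl, Iff.rfl⟩

lemma row (x : V) :
    (sim 1 (ro Real.pi) 0 x ∈ Wr 0 ↔ x ∈ Wl 0) ∧ (sim 1 (ro Real.pi) 0 x ∈ Wl 0 ↔ x ∈ Wr 0) := by
  have e0 : sim 1 (ro Real.pi) 0 x 0 = x 0 := by simp [ro_sim]
  have e1 : sim 1 (ro Real.pi) 0 x 1 = -x 1 := by simp [ro_sim]
  rw [wr0, wr0, wl0, wl0, e0, e1]
  constructor <;> constructor <;> rintro ⟨h1, h2⟩ <;> constructor <;> linarith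

lemma rb (t : ℝ) :
    (fun m => sim 1 (ro Real.pi) 0 (bo t m)) = fun m => sim 1 (bo (-t)) 0 (ro Real.pi m) := by
  apply fext4 <;> simp only [ro_sim, bo_sim] <;> apply ext4 <;> simp [bo, ro]

lemma rfw (x : V) : (rf x ∈ Wr 0 ↔ x ∈ Wl 0) ∧ (rf x ∈ Wl 0 ↔ x ∈ Wr 0) := by
  rw [wr0, wr0, wl0, wl0, rf0, rf1]
  constructor <;> constructor <;> rintro ⟨h1, h2⟩ <;> constructor <;> linarith

lemma bnd {K : Set V} (hK : Bornology.IsBounded K) : ∃ R : ℝ, 0 < R ∧ ∀ x ∈ K, ∀ n, |x n| ≤ R := by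
  obtain ⟨R, hR, h⟩ := hK.exists_pos_norm_le
  exact ⟨R, hR, fun x hx n => (norm_le_pi_norm x n).trans (h x hx)⟩

lemma cov (K : Set V) (hK : Bornology.IsBounded K) : (∃ c, K ⊆ Wr c) ∧ ∃ c, K ⊆ Wl c := by
  obtain ⟨R, hR, h⟩ := bnd hK
  refine ⟨⟨![0, -(3 * R), 0, 0], fun x hx => ?_⟩, ⟨![0, 3 * R, 0, 0], fun x hx => ?_⟩⟩
  · have h0 := h x hx 0
    have h1 := abs_le.1 (h x hx 1)
    show |x 0 - 0| < x 1 - -(3 * R)
    rw [sub_zero]
    linarith [h1.1]
  · have h0 := h x hx 0
    have h1 := abs_le.1 (h x hx 1)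
    show |x 0 - 0| < 3 * R - x 1
    rw [sub_zero]
    linarith [h1.2]

lemma cyl (K : Set V) (hK : Bornology.IsBounded K) : ∃ O S, Reg O ∧ K ⊆ O ∧
    (∀ t, sim 1 (ro t) 0 '' O = O) ∧ IsOpen S ∧ S.Nonempty ∧ Spc O S := by
  obtain ⟨R, hR, h⟩ := bnd hK
  set O : Set V := {x | |x 0| < 2 * R} ∩ ({x | x 1 ^ 2 + x 2 ^ 2 < (2 * R) ^ 2} ∩
    {x | |x 3| < 2 * R}) with hO
  have mem : ∀ x : V, x ∈ O ↔ |x 0| < 2 * R ∧ x 1 ^ 2 + x 2 ^ 2 < (2 * R) ^ 2 ∧ |x 3| < 2 * R :=
    fun x => Iff.rfl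
  have inv1 : ∀ t x, x ∈ O → sim 1 (ro t) 0 x ∈ O := by
    intro t x hx
    rw [mem] at hx ⊢
    have hs := Real.sin_sq_add_cos_sq t
    have e : sim 1 (ro t) 0 x 1 ^ 2 + sim 1 (ro t) 0 x 2 ^ 2 = x 1 ^ 2 + x 2 ^ 2 := by
      rw [ro_sim]
      simp
      linear_combination (x 1 ^ 2 + x 2 ^ 2) * hs
    have e0 : sim 1 (ro t) 0 x 0 = x 0 := by simp [ro_sim]
    have e3 : sim 1 (ro t) 0 x 3 = x 3 := by simp [ro_sim]
    rw [e, e0, e3]
    exact hx
  refine ⟨O, {y | |y 0| + 2 * R < y 3 - 2 * R}, ⟨?_, ?_⟩, ?_, ?_, ?_, ?_, ?_⟩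
  · exact (isOpen_lt (by fun_prop) (by fun_prop)).inter
      ((isOpen_lt (by fun_prop) (by fun_prop)).inter (isOpen_lt (by fun_prop) (by fun_prop)))
  · refine isBounded_iff_forall_norm_le.2 ⟨2 * R, fun x hx => ?_⟩
    rw [mem] at hx
    refine (pi_norm_le_iff_of_nonneg (by positivity)).2 fun n => ?_
    rw [Real.norm_eq_abs]
    have h1 : |x 1| ≤ 2 * R := abs_le_of_sq_le_sq' (by nlinarith [sq_nonneg (x 2)])
      (by positivity) |> abs_le.2
    have h2 : |x 2| ≤ 2 * R := abs_le_of_sq_le_sq' (by nlinarith [sq_nonneg (x 1)])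
      (by positivity) |> abs_le.2
    fin_cases n
    exacts [hx.1.le, h1, h2, hx.2.2.le]
  · intro x hx
    rw [mem]
    have h1 := abs_le.1 (h x hx 1)
    have h2 := abs_le.1 (h x hx 2)
    refine ⟨by linarith [h x hx 0], by nlinarith, by linarith [h x hx 3]⟩
  · intro t
    apply Set.Subset.antisymm
    · rintro _ ⟨x, hx, rfl⟩
      exact inv1 t x hx
    · intro x hx
      refine ⟨sim 1 (ro (-t)) 0 x, inv1 _ x hx, ?_⟩
      rw [← comp, opr.add, add_neg_cancel, opr.zero, sim1, zero_add]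
  · exact isOpen_lt (by fun_prop) (by fun_prop)
  · refine ⟨![0, 0, 0, 5 * R], ?_⟩
    show |(0 : ℝ)| + 2 * R < 5 * R - 2 * R
    rw [abs_zero]
    linarith
  · intro x hx y hy
    rw [mem] at hx
    have hy' : |y 0| + 2 * R < y 3 - 2 * R := hy
    have h0 := abs_lt.1 hx.1
    have h3 := abs_lt.1 hx.2.2
    have h4 := le_abs_self (y 0)
    have h5 := neg_abs_le (y 0)
    rw [mdot_eq]
    simp only [Pi.sub_apply]
    nlinarith [sq_nonneg (x 1 - y 1), sq_nonneg (x 2 - y 2),
      mul_pos (show 0 < (y 3 - x 3) - (x 0 - y 0) by linarith)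
        (show 0 < (y 3 - x 3) + (x 0 - y 0) by linarith)]

lemma der (n : Ix) (x : V) : HasDerivAt (fun e => sim 1 (ro e) 0 x n) (xr x n) 0 := by
  simp only [ro_sim]
  have hc := Real.hasDerivAt_cos 0
  have hs := Real.hasDerivAt_sin 0
  fin_cases n
  · exact hasDerivAt_const _ _
  · have := (hc.mul_const (x 1)).sub (hs.mul_const (x 2))
    simp only [Real.sin_zero, Real.cos_zero, neg_zero, zero_mul, one_mul, zero_sub] at this
    exact this
  · have := (hs.mul_const (x 1)).add (hc.mul_const (x 2))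
    simp only [Real.sin_zero, Real.cos_zero, neg_zero, zero_mul, one_mul, add_zero] at this
    exact this
  · exact hasDerivAt_const _ _

lemma isim : N352.Dn.IsSim 0 xr := by
  refine ⟨0, ![0, ![0, 0, 1, 0], ![0, -1, 0, 0], 0], ?_, ?_⟩
  · intro m n
    fin_cases m <;> fin_cases n <;> simp [eta0, eta1, eta2, eta3]
  · intro z n
    rw [Fin.sum_univ_four]
    fin_cases n <;> simp [xr]

end GeoR

theorem rowGeo : Geo where
  opb := GeoR.opb
  opr := GeoR.opr
  lor1 := GeoR.lor1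
  sim1 := GeoR.sim1
  simd := GeoR.simd
  sim0 := GeoR.sim0
  sima := GeoR.sima
  lin := GeoR.lin
  comp := GeoR.comp
  onel := GeoR.onel
  oner := GeoR.oner
  cont := GeoR.cont
  bij s L a hs hL := by
    obtain ⟨e, he⟩ := GeoR.exE hs hL
    rw [funext (he a)]
    exact (GeoR.hE e a).bijective
  inv L hL := GeoR.inv hL
  reg s L a O hs hL hO := by
    obtain ⟨e, he⟩ := GeoR.exE hs hL
    rw [funext (he a)]
    exact GeoR.regE e a O hO
  opn := GeoR.opn
  ne := GeoR.ne
  spc := GeoR.spc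
  bow := GeoR.bow
  row := GeoR.row
  rb := GeoR.rb
  rfw := GeoR.rfw
  rfr := GeoR.rfr
  test s L a g hs hL hg := by
    obtain ⟨e, he⟩ := GeoR.exE hs hL
    simp only [he a]
    exact GeoR.testE e a g hg
  inn s L a W g hs hL hg := by
    obtain ⟨e, he⟩ := GeoR.exE hs hL
    rw [funext (he a)]
    exact GeoR.inE e a W g hg
  inr := GeoR.inr
  inb := GeoR.inb
  tb := GeoR.tb
  cov := GeoR.cov
  cyl := GeoR.cyl
  der := GeoR.der
  isim := GeoR.isim

end

end Vale.Agent.SP352
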