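import Vale.Agent.Q352.NS

/-!
# P352, project NS, row ZT: the modular group of the wedge acts on the translations like the boosts
-/

set_option linter.all false

open Filter Topology MeasureTheory
open UniformSpace (Completion)
open Complex (I)

namespace Vale.Agent.SP352

open P352.GF (V Fn Ix Fld Theory IsTest IsLor IsCutoff sim one bar mdot pd eta)

noncomputable section

namespace ZT

variable {D : Type*} [NormedAddCommGroup D] [InnerProductSpace ℂ D] {C : Cx D}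

theorem ug (h : Bs C) (a : V) : UG fun r : ℝ => C.Tr (r • a) where
  zero := by simpa using h.b1.t0
  add s t := by rw [add_smul, h.b1.tadd]
  adj t := by rw [h.b1.tadj, neg_smul]
  cont v := (h.b1.tcont v).comp (continuous_id.smul continuous_const)

theorem mdot_smul (p a : V) (r : ℝ) : mdot p (r • a) = mdot p a * r := by
  simp only [mdot, Finset.sum_mul, Pi.smul_apply, smul_eq_mul]
  exact Finset.sum_congr rfl fun m _ => by ring

theorem cont_mdot (a : V) : Continuous fun p : V => mdot p a := by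
  unfold mdot
  fun_prop

theorem pos (h : Bs C) (a : V) (ha : ∀ p : V, 0 ≤ p P352.GF.o → 0 ≤ mdot p p → 0 ≤ mdot p a) :
    Pos fun r : ℝ => C.Tr (r • a) := by
  refine ⟨Set.range ((↑) : D → Completion D), Completion.denseRange_coe, ?_⟩
  rintro _ ⟨v, rfl⟩
  obtain ⟨ν, h1, h2, h3⟩ := C.Q.spectrum v
  have hm : Measurable fun p : V => mdot p a := (cont_mdot a).measurable
  refine ⟨ν.map fun p => mdot p a, inferInstance, ?_, fun r => ?_⟩
  · rw [ae_map_iff hm.aemeasurable measurableSet_Ici]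
    exact h2.mono fun p hp => ha p hp.1 hp.2
  · rw [integral_map hm.aemeasurable (Continuous.aestronglyMeasurable (by fun_prop))]
    have h4 : C.Tr (r • a) (v : Completion D) = (C.Q.U 1 one (r • a) v : D) :=
      h.b1.coe 1 one (r • a) v one_pos h.geo.lor1
    rw [h4, Completion.inner_coe, h3]
    simp only [mdot_smul]

theorem vac (h : Bs C) (a : V) : C.Tr a C.om = C.om := h.b1.vac 1 one a one_pos h.geo.lor1

theorem mem (h : Bs C) {a : V} {S : Set V} (ha : ∀ x ∈ S, a + x ∈ S) {X} (hX : X ∈ C.MA S) :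
    C.Tr a * X * C.Tr (-a) ∈ C.MA S := by
  have h1 := h.nt.cov 1 one a S X one_pos h.geo.lor1 hX
  rw [← h.b1.tadj]
  refine h.nt.mono _ _ _ ?_ h1
  rintro _ ⟨x, hx, rfl⟩
  rw [h.geo.sim1]
  exact ha x hx

theorem tinv (h : Bs C) (a : V) : C.Tr a * C.Tr (-a) = 1 := by
  rw [← h.b1.tadd, add_neg_cancel, h.b1.t0]

theorem tinv' (h : Bs C) (a : V) : C.Tr (-a) * C.Tr a = 1 := by
  rw [← h.b1.tadd, neg_add_cancel, h.b1.t0]

theorem mem' (h : Bs C) {a : V} {S : Set V} (ha : ∀ x ∈ S, -a + x ∈ S) {X}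
    (hX : X ∈ (C.MA S).commutant) : C.Tr a * X * C.Tr (-a) ∈ (C.MA S).commutant := by
  rw [VonNeumannAlgebra.mem_commutant_iff] at hX ⊢
  intro g hg
  have h1 := hX _ (mem h ha hg)
  rw [neg_neg] at h1
  calc g * (C.Tr a * X * C.Tr (-a))
      = (C.Tr a * C.Tr (-a)) * g * (C.Tr a * X * C.Tr (-a)) := by rw [tinv h, one_mul]
    _ = C.Tr a * (C.Tr (-a) * g * C.Tr a * X) * C.Tr (-a) := by simp only [mul_assoc]
    _ = C.Tr a * (X * (C.Tr (-a) * g * C.Tr a)) * C.Tr (-a) := by rw [h1]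
    _ = C.Tr a * X * C.Tr (-a) * g * (C.Tr a * C.Tr (-a)) := by simp only [mul_assoc]
    _ = C.Tr a * X * C.Tr (-a) * g := by rw [tinv h, mul_one]

/-- the light-like directions -/
def nv (e : ℝ) : V := ![1, e, 0, 0]

theorem nv_pos {e : ℝ} (he : e = 1 ∨ e = -1) (p : V) (h0 : 0 ≤ p P352.GF.o) (h1 : 0 ≤ mdot p p) :
    0 ≤ mdot p (nv e) := by
  simp only [mdot, Fin.sum_univ_four, eta, P352.GF.o, nv] at h0 h1 ⊢
  simp at h1 ⊢
  have h2 : |p 1| ≤ p 0 := by
    refine abs_le_of_sq_le_sq' ?_ h0 |> fun h => abs_le.2 h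
    nlinarith [sq_nonneg (p 2), sq_nonneg (p 3)]
  obtain ⟨h3, h4⟩ := abs_le.1 h2
  rcases he with rfl | rfl <;> linarith

theorem plus (h : Bs C) (hb : BOR (Completion D)) (E : C.Md) (t r : ℝ) :
    E.U t * C.Tr (r • nv 1) = C.Tr ((Real.exp (-(2 * Real.pi * t)) * r) • nv 1) * E.U t := by
  refine hb _ _ E (fun r => C.Tr (r • nv 1)) (ug h _) (pos h _ (nv_pos (Or.inl rfl)))
    (fun r => vac h _) (fun r hr X hX => ?_) t r
  simp only [neg_smul]
  refine mem h (fun x hx => ?_) hX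
  simp only [Wr, Set.mem_setOf_eq, nv, Pi.zero_apply, sub_zero, Pi.add_apply, Pi.smul_apply,
    smul_eq_mul] at hx ⊢
  simp
  rw [abs_lt] at hx ⊢
  constructor <;> linarith [hx.1, hx.2]

theorem minus (h : Bs C) (hm : MD (Completion D)) (hb : BOR (Completion D)) (E : C.Md)
    (t r : ℝ) :
    E.U t * C.Tr (r • nv (-1)) = C.Tr ((Real.exp (2 * Real.pi * t) * r) • nv (-1)) * E.U t := by
  obtain ⟨E', hE⟩ := hm.com _ _ E
  have h1 := hb _ _ E' (fun r => C.Tr (r • nv (-1))) (ug h _) (pos h _ (nv_pos (Or.inr rfl)))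
    (fun r => vac h _) (fun r hr X hX => ?_) (-t) r
  · simpa only [hE, neg_neg, mul_neg] using h1
  simp only [neg_smul]
  refine mem' h (fun x hx => ?_) hX
  simp only [Wr, Set.mem_setOf_eq, nv, Pi.zero_apply, sub_zero, Pi.add_apply, Pi.smul_apply,
    Pi.neg_apply, smul_eq_mul] at hx ⊢
  simp
  rw [abs_lt] at hx ⊢
  constructor <;> linarith [hx.1, hx.2]

theorem trans (h : Bs C) (hm : MD (Completion D)) (E : C.Md) (t : ℝ) {a : V} (h0 : a 0 = 0)
    (h1 : a 1 = 0) : E.U t * C.Tr a = C.Tr a * E.U t := by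
  have h2 : ∀ b : V, b 0 = 0 → b 1 = 0 → ∀ x ∈ Wr 0, b + x ∈ Wr 0 := fun b b0 b1 x hx => by
    simpa only [Wr, Set.mem_setOf_eq, Pi.add_apply, b0, b1, zero_add] using hx
  refine (hm.nat _ _ _ E E (C.Tr a) (h.b1.uni 1 one a one_pos h.geo.lor1) (vac h a)
    (fun X hX => ?_) (fun X hX => ?_) t).symm
  · rw [h.b1.tadj]
    exact mem h (h2 a h0 h1) hX
  · rw [h.b1.tadj]
    have := mem h (h2 (-a) (by simp [h0]) (by simp [h1])) hX
    rwa [neg_neg] at this

theorem split (a : V) : a = ((a 0 + a 1) / 2) • nv 1 + (((a 0 - a 1) / 2) • nv (-1) +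
    ![0, 0, a 2, a 3]) := by
  funext m
  fin_cases m <;> simp [nv] <;> ring

theorem split' (t : ℝ) (a : V) : sim 1 (bo t) 0 a =
    (Real.exp (-(2 * Real.pi * t)) * ((a 0 + a 1) / 2)) • nv 1 +
      ((Real.exp (2 * Real.pi * t) * ((a 0 - a 1) / 2)) • nv (-1) + ![0, 0, a 2, a 3]) := by
  funext m
  fin_cases m <;> simp [nv, sim, bo, Fin.sum_univ_four, Real.cosh_eq, Real.sinh_eq] <;> ring

end ZT

theorem rowZT {D : Type*} [NormedAddCommGroup D] [InnerProductSpace ℂ D] (C : Cx D) :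
    RowZT C := by
  intro h hm hb E t a
  rw [ZT.split' t a, h.b1.tadd, h.b1.tadd]
  conv_lhs => rw [ZT.split a, h.b1.tadd, h.b1.tadd]
  rw [← mul_assoc, ZT.plus h hb, mul_assoc (C.Tr _), ← mul_assoc (E.U t), ZT.minus h hm hb,
    mul_assoc (C.Tr _) (E.U t), ZT.trans h hm E t (by simp) (by simp)]
  simp only [mul_assoc]

end

end Vale.Agent.SP352
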