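import Vale.Agent.Q352.Spec

/-!
# P352, rows GL and U: the Lorentz group, and the unitary operators of the similitudes
-/

set_option linter.all false

open Filter Topology Set Matrix

namespace Vale.Agent.Q352

noncomputable section

namespace RowG

/-- the metric -/
def E : Matrix (Fin 4) (Fin 4) ℝ := Matrix.diagonal eta

/-- a family of rows as a matrix -/
def M (L : Fin 4 → V) : Matrix (Fin 4) (Fin 4) ℝ := Matrix.of L

theorem eta_sq (m : Fin 4) : eta m * eta m = 1 := by
  unfold eta; split_ifs <;> norm_num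

theorem EE : E * E = 1 := by
  unfold E
  rw [Matrix.diagonal_mul_diagonal, ← Matrix.diagonal_one]
  congr 1; funext m; exact eta_sq m

theorem ET : Eᵀ = E := by unfold E; simp

theorem M_inj {A B : Fin 4 → V} (h : M A = M B) : A = B := h

theorem M_mm (A B : Fin 4 → V) : M (mm A B) = M A * M B := by
  ext m n; simp [M, mm, Matrix.mul_apply]

theorem M_one : M one = 1 := by
  ext m n; simp only [M, one, bas, Matrix.of_apply, Matrix.one_apply]
  by_cases h : m = n
  · simp [h]
  · simp [h, Ne.symm h]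

theorem M_linv (L : Fin 4 → V) : M (linv L) = E * (M L)ᵀ * E := by
  ext m n
  simp only [M, linv, E, Matrix.of_apply, Matrix.mul_diagonal, Matrix.diagonal_mul,
    Matrix.transpose_apply]
  ring

theorem det_M (L : Fin 4 → V) : Matrix.det L = (M L).det := rfl

theorem orth_iff (L : Fin 4 → V) :
    (∀ m n, mdot (L m) (L n) = bas m (eta m) n) ↔ M L * E * (M L)ᵀ = E := by
  have h1 : ∀ m n, (M L * E * (M L)ᵀ) m n = mdot (L m) (L n) := by
    intro m n
    rw [Matrix.mul_apply]
    simp only [M, E, Matrix.mul_diagonal, Matrix.transpose_apply, Matrix.of_apply, mdot]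
    exact Finset.sum_congr rfl fun k _ => by ring
  have h2 : ∀ m n, E m n = bas m (eta m) n := by
    intro m n
    simp only [E, bas, Matrix.diagonal_apply]
    by_cases h : m = n
    · simp [h]
    · simp [h, Ne.symm h]
  constructor
  · intro h; ext m n; rw [h1, h2, h]
  · intro h m n; rw [← h1, ← h2, h]

theorem right_inv {L : Fin 4 → V} (h : M L * E * (M L)ᵀ = E) : M L * M (linv L) = 1 := by
  rw [M_linv, ← Matrix.mul_assoc, ← Matrix.mul_assoc, h, EE]

theorem left_inv {L : Fin 4 → V} (h : M L * E * (M L)ᵀ = E) : M (linv L) * M L = 1 :=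
  mul_eq_one_comm.mp (right_inv h)

theorem col {L : Fin 4 → V} (h : M L * E * (M L)ᵀ = E) : (M L)ᵀ * E * M L = E := by
  have h1 := left_inv h
  rw [M_linv] at h1
  calc (M L)ᵀ * E * M L = (E * E) * ((M L)ᵀ * E * M L) := by rw [EE, Matrix.one_mul]
    _ = E * (E * (M L)ᵀ * E * M L) := by simp only [Matrix.mul_assoc]
    _ = E := by rw [h1, Matrix.mul_one]

theorem det_sq {L : Fin 4 → V} (h : M L * E * (M L)ᵀ = E) : (M L).det * (M L).det = 1 := by
  have h1 := congrArg Matrix.det h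
  have h2 := congrArg Matrix.det EE
  rw [Matrix.det_mul, Matrix.det_mul, Matrix.det_transpose] at h1
  rw [Matrix.det_mul, Matrix.det_one] at h2
  have : (M L).det * (M L).det * (E.det * E.det) = E.det * E.det := by
    linear_combination E.det * h1
  rwa [h2, mul_one] at this

theorem row0 {L : Fin 4 → V} (h : ∀ m n, mdot (L m) (L n) = bas m (eta m) n) :
    L 0 0 ^ 2 = 1 + L 0 1 ^ 2 + L 0 2 ^ 2 + L 0 3 ^ 2 := by
  have := h 0 0
  simp [mdot, bas, eta, Fin.sum_univ_four] at this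
  linarith

theorem orth_linv {L : Fin 4 → V} (h : M L * E * (M L)ᵀ = E) :
    M (linv L) * E * (M (linv L))ᵀ = E := by
  rw [M_linv, Matrix.transpose_mul, Matrix.transpose_mul, ET, Matrix.transpose_transpose]
  calc E * (M L)ᵀ * E * E * (E * (M L * E)) = E * ((M L)ᵀ * (E * E) * E * M L) * E := by
        simp only [Matrix.mul_assoc]
    _ = E := by rw [EE, Matrix.mul_one, col h, EE, Matrix.one_mul]

theorem col0 {L : Fin 4 → V} (h : ∀ m n, mdot (L m) (L n) = bas m (eta m) n) :
    L 0 0 ^ 2 = 1 + L 1 0 ^ 2 + L 2 0 ^ 2 + L 3 0 ^ 2 := by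
  have := row0 ((orth_iff _).2 (orth_linv ((orth_iff L).1 h)))
  simp [linv, eta] at this
  linarith

theorem pos_aux (a a1 a2 a3 b b1 b2 b3 : ℝ) (ha : 0 < a) (hb : 0 < b)
    (h1 : a ^ 2 = 1 + a1 ^ 2 + a2 ^ 2 + a3 ^ 2) (h2 : b ^ 2 = 1 + b1 ^ 2 + b2 ^ 2 + b3 ^ 2) :
    0 < a * b + a1 * b1 + a2 * b2 + a3 * b3 := by
  have h3 : (a1 * b1 + a2 * b2 + a3 * b3) ^ 2 < (a * b) ^ 2 := by
    rw [mul_pow, h1, h2]
    nlinarith [sq_nonneg (a1 * b2 - a2 * b1), sq_nonneg (a1 * b3 - a3 * b1),
      sq_nonneg (a2 * b3 - a3 * b2), sq_nonneg a1, sq_nonneg a2, sq_nonneg a3, sq_nonneg b1,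
      sq_nonneg b2, sq_nonneg b3]
  have h4 := abs_lt_of_sq_lt_sq' h3 (mul_pos ha hb).le
  linarith [h4.1]

theorem lor_one : IsLor one := by
  refine ⟨(orth_iff _).2 ?_, by simp [one, bas], ?_⟩
  · rw [M_one]; simp
  · rw [det_M, M_one, Matrix.det_one]

theorem lor_mul (L L' : Fin 4 → V) (h : IsLor L) (h' : IsLor L') : IsLor (mm L L') := by
  refine ⟨(orth_iff _).2 ?_, ?_, ?_⟩
  · rw [M_mm, Matrix.transpose_mul]
    calc M L * M L' * E * ((M L')ᵀ * (M L)ᵀ) = M L * (M L' * E * (M L')ᵀ) * (M L)ᵀ := by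
          simp only [Matrix.mul_assoc]
      _ = E := by rw [(orth_iff _).1 h'.1, (orth_iff _).1 h.1]
  · have := pos_aux _ _ _ _ _ _ _ _ h.2.1 h'.2.1 (row0 h.1) (col0 h'.1)
    simpa [mm, Fin.sum_univ_four] using this
  · rw [det_M, M_mm, Matrix.det_mul, ← det_M, ← det_M, h.2.2, h'.2.2, one_mul]

theorem lor_inv (L : Fin 4 → V) (h : IsLor L) :
    IsLor (linv L) ∧ mm L (linv L) = one ∧ mm (linv L) L = one := by
  have h1 := (orth_iff _).1 h.1
  refine ⟨⟨(orth_iff _).2 (orth_linv h1), ?_, ?_⟩, M_inj ?_, M_inj ?_⟩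
  · simpa [linv, eta] using h.2.1
  · have := congrArg Matrix.det (right_inv h1)
    rw [Matrix.det_mul, Matrix.det_one, ← det_M, h.2.2, one_mul] at this
    exact this
  · rw [M_mm, right_inv h1, M_one]
  · rw [M_mm, left_inv h1, M_one]

theorem sim_one (s : ℝ) (a x : V) : sim s one a x = a + s • x := by
  funext n; simp [sim, one, bas]

theorem dot (L : Fin 4 → V) (x y : V) (h : IsLor L) :
    mdot (sim 1 L 0 x) (sim 1 L 0 y) = mdot x y := by
  have h1 : mdot (sim 1 L 0 x) (sim 1 L 0 y) = ∑ m, ∑ n, x m * y n * mdot (L m) (L n) := by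
    simp only [mdot, sim, Fin.sum_univ_four, Pi.zero_apply]; ring
  rw [h1]
  simp only [h.1]
  simp [bas, mdot, Fin.sum_univ_four]
  ring

theorem skew (L : ℝ → Fin 4 → V) (w : Fin 4 → V) (h0 : L 0 = one)
    (hL : ∀ᶠ e in 𝓝 (0 : ℝ), IsLor (L e)) (hd : HasDerivAt L w 0) : Skew w := by
  intro m n
  have hc : ∀ i j, HasDerivAt (fun e => L e i j) (w i j) 0 := fun i j =>
    hasDerivAt_pi.1 (hasDerivAt_pi.1 hd i) j
  have h1 : HasDerivAt (fun e => mdot (L e m) (L e n))
      (∑ k, (eta k * w m k * L 0 n k + eta k * L 0 m k * w n k)) 0 := by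
    unfold mdot
    exact HasDerivAt.fun_sum fun k _ => ((hc m k).const_mul (eta k)).mul (hc n k)
  have h2 : HasDerivAt (fun e => mdot (L e m) (L e n)) 0 0 :=
    (hasDerivAt_const (0 : ℝ) (bas m (eta m) n)).congr_of_eventuallyEq
      (hL.mono fun e he => he.1 m n)
  have h3 := h1.unique h2
  rw [h0] at h3
  simp [one, bas, Finset.sum_add_distrib] at h3
  linarith

end RowG

open RowG in
theorem rowGL : RowGL where
  one := lor_one
  sim_mm L L' := by funext m n; simp [sim, mm]
  mul := lor_mul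
  inv := lor_inv
  one_mm L := ⟨M_inj (by rw [M_mm, M_one, Matrix.one_mul]),
    M_inj (by rw [M_mm, M_one, Matrix.mul_one])⟩
  assoc A B C := M_inj (by simp only [M_mm, Matrix.mul_assoc])
  sim_sim s L a s' L' a' x := by
    funext n; simp only [sim, mm, Fin.sum_univ_four]; ring
  sim_one := RowG.sim_one
  sim_add s L a x := by funext n; simp [sim]
  lin L x y c := by
    funext n
    simp only [sim, Fin.sum_univ_four, Pi.add_apply, Pi.smul_apply, smul_eq_mul, Pi.zero_apply]
    ring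
  dot := RowG.dot
  skew := RowG.skew
  skwd a b m n := by
    simp only [wd]; ring

namespace RowG

variable {H : Type*} [NormedAddCommGroup H] [InnerProductSpace ℂ H] [CompleteSpace H]

/-- a surjective map that preserves inner products is a unitary operator -/
theorem exists_unitary (f : H → H) (h : ∀ v w, inner ℂ (f v) (f w) = inner ℂ v w)
    (hs : Function.Surjective f) : ∃ u ∈ unitary (H →L[ℂ] H), ∀ v, u v = f v := by
  let l : H →ₗ[ℂ] H :=
    { toFun := f
      map_add' := fun x y => ext_inner_right ℂ fun z => by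
        obtain ⟨z, rfl⟩ := hs z
        rw [inner_add_left, h, h, h, inner_add_left]
      map_smul' := fun c x => ext_inner_right ℂ fun z => by
        obtain ⟨z, rfl⟩ := hs z
        rw [RingHom.id_apply, inner_smul_left, h, h, inner_smul_left] }
  let e : H ≃ₗᵢ[ℂ] H := LinearIsometryEquiv.ofSurjective (l.isometryOfInner h) hs
  exact ⟨_, (Unitary.linearIsometryEquiv.symm e).2, fun v => rfl⟩

theorem inj (f : H → H) (h : ∀ v w, inner ℂ (f v) (f w) = inner ℂ v w) :
    Function.Injective f := by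
  intro x y hxy
  refine ext_inner_right ℂ fun z => ?_
  rw [← h, hxy, h]

theorem U_one (g : RowGL) (K : Frame H) (v : H) : K.U 1 one 0 v = v := by
  rcases K.mul 1 one 0 1 one 0 one_pos one_pos g.one g.one with h | h
  · apply inj _ fun v w => K.unitary 1 one 0 v w one_pos g.one
    rw [h, g.sim_mm, (g.one_mm _).1, g.sim_one]
    simp
  · exact absurd rfl h.1

theorem U_surj (g : RowGL) (K : Frame H) (s : ℝ) (L : Fin 4 → V) (a : V) (hs : 0 < s)
    (hL : IsLor L) : Function.Surjective (K.U s L a) := by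
  intro v
  obtain ⟨h1, h2, h3⟩ := g.inv L hL
  have h4 : sim s L a (sim (-s⁻¹) (linv L) 0 a) = 0 := by
    have h0 : sim s L a 0 = a := by funext n; simp [sim]
    rw [g.sim_sim, h3, g.sim_one, h0, mul_neg, mul_inv_cancel₀ hs.ne']
    simp
  have hG : ∀ x, K.Γ (K.Γ x) = x := fun x => by
    have := congrArg (fun T : H →L[ℂ] H => T x) K.inv
    simpa using this
  rcases K.mul s L a s⁻¹ (linv L) (sim (-s⁻¹) (linv L) 0 a) hs (inv_pos.2 hs) hL h1 with h | h
  · refine ⟨_, (h v).trans ?_⟩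
    rw [g.sim_mm, h3, h4, mul_inv_cancel₀ hs.ne', U_one g]
  · refine ⟨_, (h.2.2 (K.Γ v)).trans ?_⟩
    rw [g.sim_mm, h3, h4, mul_inv_cancel₀ hs.ne', U_one g, hG]

end RowG

open RowG in
theorem rowU (g : RowGL) {H : Type*} [NormedAddCommGroup H] [InnerProductSpace ℂ H]
    [CompleteSpace H] (K : Frame H) : RowU K := by
  have h : ∀ s L a, ∃ u : H →L[ℂ] H, 0 < s → IsLor L →
      u ∈ unitary (H →L[ℂ] H) ∧ ∀ v, u v = K.U s L a v := by
    intro s L a
    by_cases hh : 0 < s ∧ IsLor L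
    · obtain ⟨u, hu, hv⟩ := exists_unitary (K.U s L a)
        (fun v w => K.unitary s L a v w hh.1 hh.2) (U_surj g K s L a hh.1 hh.2)
      exact ⟨u, fun _ _ => ⟨hu, hv⟩⟩
    · exact ⟨1, fun h1 h2 => absurd ⟨h1, h2⟩ hh⟩
  choose u hu using h
  refine ⟨u, ?_, hu⟩
  ext v
  rw [(hu 1 one 0 one_pos g.one).2, U_one g]
  rfl

end

end Vale.Agent.Q352
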