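import Vale.Agent.Q352.Spec

/-!
# Row GC, the path of conformal maps
-/

set_option linter.all false

open Filter Topology Set Metric

namespace Vale.Agent.Q352

noncomputable section

namespace RowGCp

theorem dot_add (x y z : V) : mdot x (y + z) = mdot x y + mdot x z := by
  simp only [mdot, Fin.sum_univ_four, Pi.add_apply]
  ring

theorem dot_sub (x y z : V) : mdot x (y - z) = mdot x y - mdot x z := by
  simp only [mdot, Fin.sum_univ_four, Pi.sub_apply]
  ring

theorem dot_smul (c : ℝ) (x y : V) : mdot x (c • y) = c * mdot x y := by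
  simp only [mdot, Fin.sum_univ_four, Pi.smul_apply, smul_eq_mul]
  ring

theorem add_dot (x y z : V) : mdot (y + z) x = mdot y x + mdot z x := by
  simp only [mdot, Fin.sum_univ_four, Pi.add_apply]
  ring

theorem sub_dot (x y z : V) : mdot (y - z) x = mdot y x - mdot z x := by
  simp only [mdot, Fin.sum_univ_four, Pi.sub_apply]
  ring

theorem smul_dot (c : ℝ) (x y : V) : mdot (c • y) x = c * mdot y x := by
  simp only [mdot, Fin.sum_univ_four, Pi.smul_apply, smul_eq_mul]
  ring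

theorem dot_comm (x y : V) : mdot x y = mdot y x := by
  simp only [mdot, Fin.sum_univ_four]
  ring

theorem dot_one (x : V) (m : Fin 4) : mdot x (one m) = eta m * x m := by
  simp [mdot, one, bas]

theorem eta_sq (m : Fin 4) : eta m * eta m = 1 := by
  unfold eta
  split_ifs <;> norm_num

theorem one_one (m n : Fin 4) : mdot (one m) (one n) = bas m (eta m) n := by
  rw [dot_one]
  by_cases h : n = m <;> simp [one, bas, h]

theorem sum_one (y : V) (n : Fin 4) : ∑ m, y m * one m n = y n := by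
  simp [one, bas]

variable (a b : V)

/-- the conformal factor -/
def N (σ : ℝ) : ℝ := 1 - 2 * σ * mdot a b + σ ^ 2 * mdot a a * mdot b b

/-- the Lorentz transformation -/
def Lv (σ : ℝ) (v : V) : V := v - (2 * σ * mdot a v) • b +
  (2 * (σ * mdot b v - σ ^ 2 * mdot b b * mdot a v) * (N a b σ)⁻¹) • (a - (σ * mdot a a) • b)

/-- the path -/
def P (σ : ℝ) : Pm := ((N a b σ)⁻¹, fun m => Lv a b σ (one m),
  (N a b σ)⁻¹ • (a - (σ * mdot a a) • b), (N a b σ)⁻¹ • (σ • b - (σ ^ 2 * mdot b b) • a))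

theorem N_eq (σ : ℝ) : den (σ • b) a = N a b σ := by
  simp only [den, N, dot_smul, smul_dot, dot_comm b a]
  ring

theorem P_zero : P a b 0 = (1, one, a, 0) := by
  simp [P, N, Lv]

variable {a b}

theorem Lv_dot {σ : ℝ} (h : N a b σ ≠ 0) (v w : V) :
    mdot (Lv a b σ v) (Lv a b σ w) = mdot v w := by
  simp only [Lv, dot_add, dot_sub, dot_smul, add_dot, sub_dot, smul_dot, dot_comm b a,
    dot_comm v a, dot_comm v b]
  field_simp
  unfold N
  ring

theorem Lv_sum (σ : ℝ) (y : V) (n : Fin 4) : ∑ m, y m * Lv a b σ (one m) n = Lv a b σ y n := by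
  have h := sum_one y n
  simp only [Lv, dot_one, Pi.add_apply, Pi.sub_apply, Pi.smul_apply, smul_eq_mul]
  simp only [Fin.sum_univ_four] at h ⊢
  rw [← h]
  have e1 : mdot a y = ∑ m, eta m * a m * y m := rfl
  have e2 : mdot b y = ∑ m, eta m * b m * y m := rfl
  rw [e1, e2]
  simp only [Fin.sum_univ_four]
  ring

theorem sq_der (σ : ℝ) : HasDerivAt (fun τ : ℝ => τ ^ 2) (2 * σ) σ := by
  simpa using hasDerivAt_pow 2 σ

theorem k_der {σ : ℝ} (h : N a b σ ≠ 0) : HasDerivAt (fun τ => (N a b τ)⁻¹)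
    (2 * (mdot a b - σ * mdot a a * mdot b b) * (N a b σ)⁻¹ ^ 2) σ := by
  have h0 := hasDerivAt_id' σ
  have h1 := (((h0.const_mul 2).mul_const (mdot a b)).const_sub 1).fun_add
      (((sq_der σ).mul_const (mdot a a)).mul_const (mdot b b))
  refine (h1.fun_inv h).congr_deriv ?_
  change _ / (N a b σ) ^ 2 = _
  field_simp
  ring

theorem s_der {σ : ℝ} (h : N a b σ ≠ 0) :
    HasDerivAt (fun τ => (P a b τ).1) (2 * mdot b (P a b σ).2.2.1 * (P a b σ).1) σ := by
  refine (k_der h).congr_deriv ?_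
  simp only [P, dot_sub, dot_smul, dot_comm b a]
  ring

theorem a_der {σ : ℝ} (h : N a b σ ≠ 0) :
    HasDerivAt (fun τ => (P a b τ).2.2.1) (kil (pK b) (P a b σ).2.2.1) σ := by
  have h0 := hasDerivAt_id' σ
  refine hasDerivAt_pi.2 fun n => ?_
  refine ((k_der h).fun_mul
    (((h0.mul_const (mdot a a)).mul_const (b n)).const_sub (a n))).congr_deriv ?_
  simp only [P, kil, pK, dot_sub, dot_smul, sub_dot, smul_dot, dot_comm b a, Pi.zero_apply,
    Pi.sub_apply, Pi.smul_apply, smul_eq_mul, mul_zero, Finset.sum_const_zero]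
  field_simp
  unfold N
  ring

theorem b_der {σ : ℝ} (h : N a b σ ≠ 0) :
    HasDerivAt (fun τ => (P a b τ).2.2.2) ((P a b σ).1 • sim 1 (linv (P a b σ).2.1) 0 b) σ := by
  have h0 := hasDerivAt_id' σ
  refine hasDerivAt_pi.2 fun n => ?_
  have e : sim 1 (linv (P a b σ).2.1) 0 b n = eta n * mdot b (Lv a b σ (one n)) := by
    simp only [sim, linv, P, mdot, Fin.sum_univ_four, Pi.zero_apply]
    ring
  refine ((k_der h).fun_mul ((h0.mul_const (b n)).fun_sub
    (((sq_der σ).mul_const (mdot b b)).mul_const (a n)))).congr_deriv ?_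
  rw [Pi.smul_apply, e]
  simp only [P, Lv, dot_add, dot_sub, dot_smul, dot_one, dot_comm b a, smul_eq_mul]
  linear_combination (-(N a b σ)⁻¹ * (b n - 2 * σ * mdot b b * a n +
    2 * (σ * b n - σ ^ 2 * mdot b b * a n) * (N a b σ)⁻¹ *
      (mdot a b - σ * mdot a a * mdot b b))) * eta_sq n

theorem L_der {σ : ℝ} (h : N a b σ ≠ 0) :
    HasDerivAt (fun τ => (P a b τ).2.1) (mm (P a b σ).2.1 (wd (P a b σ).2.2.1 b)) σ := by
  have h0 := hasDerivAt_id' σ
  refine hasDerivAt_pi.2 fun m => hasDerivAt_pi.2 fun n => ?_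
  have e : ∀ (L : Fin 4 → V) (x : V),
      mm L (wd x b) m n = 2 * mdot b (L m) * x n - 2 * mdot x (L m) * b n := fun L x => by
    simp only [mm, wd, mdot, Fin.sum_univ_four]
    ring
  rw [e]
  simp only [P]
  generalize one m = v
  refine (((((h0.const_mul 2).mul_const (mdot a v)).mul_const (b n)).const_sub (v n)).fun_add
    (((((h0.mul_const (mdot b v)).fun_sub (((sq_der σ).mul_const (mdot b b)).mul_const
      (mdot a v))).const_mul 2).fun_mul (k_der h)).fun_mul
      (((h0.mul_const (mdot a a)).mul_const (b n)).const_sub (a n)))).congr_deriv ?_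
  simp only [Lv, dot_add, dot_sub, dot_smul, sub_dot, smul_dot, dot_comm b a,
    Pi.sub_apply, Pi.smul_apply, smul_eq_mul]
  field_simp
  unfold N
  ring

theorem P_der {σ : ℝ} (h : N a b σ ≠ 0) :
    HasDerivAt (P a b) (2 * mdot b (P a b σ).2.2.1 * (P a b σ).1,
      mm (P a b σ).2.1 (wd (P a b σ).2.2.1 b), kil (pK b) (P a b σ).2.2.1,
      (P a b σ).1 • sim 1 (linv (P a b σ).2.1) 0 b) σ :=
  (s_der h).prodMk ((L_der h).prodMk ((a_der h).prodMk (b_der h)))

theorem den_P {σ : ℝ} (h : N a b σ ≠ 0) (x : V) :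
    den (σ • b) (x + a) = N a b σ * den (P a b σ).2.2.2 x := by
  simp only [den, P, dot_add, add_dot, dot_sub, dot_smul, sub_dot, smul_dot, dot_comm b a,
    dot_comm x a]
  field_simp
  unfold N
  ring

theorem map_P {σ : ℝ} (h : N a b σ ≠ 0) (x : V) (hx : den (P a b σ).2.2.2 x ≠ 0) :
    sct (σ • b) (x + a) = cf (P a b σ) x := by
  ext n
  have e : (fun n => (x n - mdot x x * (P a b σ).2.2.2 n) / den (P a b σ).2.2.2 x) =
      (den (P a b σ).2.2.2 x)⁻¹ • (x - mdot x x • (P a b σ).2.2.2) := by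
    ext n
    simp [div_eq_inv_mul]
  have hd : den (P a b σ).2.2.2 x = (N a b σ)⁻¹ * den (σ • b) (x + a) := by
    rw [den_P h]
    field_simp
  have hx' : den (σ • b) (x + a) ≠ 0 := by
    rw [den_P h]
    exact mul_ne_zero h hx
  unfold cf sim sct
  rw [e, hd]
  simp only [P]
  rw [Lv_sum]
  simp only [Lv, dot_add, add_dot, dot_sub, dot_smul, sub_dot, smul_dot, dot_comm b a,
    dot_comm x a, Pi.add_apply, Pi.sub_apply, Pi.smul_apply, smul_eq_mul]
  field_simp
  simp only [den, N, dot_add, add_dot, dot_smul, smul_dot, dot_comm b a, dot_comm x a]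
  ring

theorem det_sq {L : Fin 4 → V} (h : ∀ m n, mdot (L m) (L n) = bas m (eta m) n) :
    Matrix.det L * Matrix.det L = 1 := by
  have e : Matrix.of L * Matrix.diagonal eta * (Matrix.of L).transpose = Matrix.diagonal eta := by
    ext m n
    rw [Matrix.mul_apply, Matrix.diagonal_apply]
    simp only [Matrix.mul_diagonal, Matrix.transpose_apply, Matrix.of_apply]
    have := h m n
    unfold mdot bas at this
    rw [show (if m = n then eta m else 0) = if n = m then eta m else 0 by simp [eq_comm], ← this]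
    exact Finset.sum_congr rfl fun k _ => by ring
  have d := congrArg Matrix.det e
  rw [Matrix.det_mul, Matrix.det_mul, Matrix.det_transpose, Matrix.det_diagonal] at d
  have p : ∏ i, eta i = -1 := by simp [Fin.prod_univ_four, eta]
  rw [p] at d
  change Matrix.det (Matrix.of L) * Matrix.det (Matrix.of L) = 1
  linarith

theorem pos_of {f : ℝ → ℝ} (hc : ContinuousOn f (Icc 0 1)) (h0 : 0 < f 0)
    (hn : ∀ σ ∈ Icc (0 : ℝ) 1, f σ ≠ 0) {σ : ℝ} (hσ : σ ∈ Icc (0 : ℝ) 1) : 0 < f σ := by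
  by_contra hf
  obtain ⟨τ, hτ, e⟩ := intermediate_value_Icc' hσ.1 (hc.mono (Icc_subset_Icc_right hσ.2))
    (show (0 : ℝ) ∈ Icc (f σ) (f 0) from ⟨not_lt.1 hf, h0.le⟩)
  exact hn τ ⟨hτ.1, hτ.2.trans hσ.2⟩ e

theorem P_adm (hN : ∀ σ ∈ Icc (0 : ℝ) 1, 0 < N a b σ) {σ : ℝ} (hσ : σ ∈ Icc (0 : ℝ) 1) :
    Adm (P a b σ) := by
  have o : ∀ τ ∈ Icc (0 : ℝ) 1, ∀ m n,
      mdot ((P a b τ).2.1 m) ((P a b τ).2.1 n) = bas m (eta m) n := fun τ hτ m n => by
    simp only [P]
    rw [Lv_dot (hN τ hτ).ne', one_one]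
  have hc : ContinuousOn (fun τ => (P a b τ).2.1) (Icc 0 1) := fun τ hτ =>
    (L_der (hN τ hτ).ne').continuousAt.continuousWithinAt
  refine ⟨inv_pos.2 (hN σ hσ), o σ hσ, ?_, ?_⟩
  · refine pos_of (f := fun τ => (P a b τ).2.1 0 0) ?_ ?_ ?_ hσ
    · exact ((continuous_apply 0).comp (continuous_apply 0)).comp_continuousOn hc
    · simp [P_zero, one, bas]
    · intro τ hτ e
      have := o τ hτ 0 0
      simp only [mdot, Fin.sum_univ_four, e] at this
      simp [eta, bas] at this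
      nlinarith [mul_self_nonneg ((P a b τ).2.1 0 1), mul_self_nonneg ((P a b τ).2.1 0 2),
        mul_self_nonneg ((P a b τ).2.1 0 3)]
  · have h1 : 0 < Matrix.det (P a b σ).2.1 := by
      refine pos_of (f := fun τ => Matrix.det (P a b τ).2.1) ?_ ?_ ?_ hσ
      · exact (Continuous.matrix_det continuous_id).comp_continuousOn hc
      · have e : Matrix.of one = (1 : Matrix (Fin 4) (Fin 4) ℝ) := by
          ext m n
          simp [one, bas, Matrix.one_apply, eq_comm]
        simp only [P_zero]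
        change 0 < Matrix.det (Matrix.of one)
        rw [e, Matrix.det_one]
        exact one_pos
      · intro τ hτ e
        have := det_sq (o τ hτ)
        rw [e] at this
        simp at this
    have h2 := det_sq (o σ hσ)
    nlinarith

end RowGCp

open RowGCp in
theorem gc_path (a b : V) (hab : ∀ τ ∈ Icc (0 : ℝ) 1, 0 < den (τ • b) a) :
    ∃ p : ℝ → Pm, p 0 = (1, one, a, 0) ∧
    (∀ᶠ x in 𝓝 0, sct b (x + a) = cf (p 1) x) ∧ (∀ σ, Adm (p σ)) ∧ ContinuousOn p (Icc 0 1) ∧
    ∀ σ ∈ Ioo (0 : ℝ) 1, HasDerivAt p (2 * mdot b (p σ).2.2.1 * (p σ).1,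
      mm (p σ).2.1 (wd (p σ).2.2.1 b), kil (pK b) (p σ).2.2.1,
      (p σ).1 • sim 1 (linv (p σ).2.1) 0 b) σ := by
  have hN : ∀ σ ∈ Icc (0 : ℝ) 1, 0 < N a b σ := fun σ hσ => N_eq a b σ ▸ hab σ hσ
  have hm : ∀ σ : ℝ, max 0 (min 1 σ) ∈ Icc (0 : ℝ) 1 := fun σ =>
    ⟨le_max_left _ _, max_le zero_le_one (min_le_left _ _)⟩
  have he : ∀ σ ∈ Icc (0 : ℝ) 1, max 0 (min 1 σ) = σ := fun σ hσ => by
    rw [min_eq_right hσ.2, max_eq_right hσ.1]
  refine ⟨fun σ => P a b (max 0 (min 1 σ)), ?_, ?_, fun σ => P_adm hN (hm σ), ?_, ?_⟩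
  · beta_reduce
    rw [he 0 ⟨le_rfl, zero_le_one⟩, P_zero]
  · beta_reduce
    rw [he 1 ⟨zero_le_one, le_rfl⟩]
    have hc : Continuous (den (P a b 1).2.2.2) := by
      unfold den mdot
      fun_prop
    have h0 : den (P a b 1).2.2.2 0 ≠ 0 := by simp [den, mdot]
    filter_upwards [hc.continuousAt.eventually_ne h0] with x hx
    simpa using map_P (hN 1 ⟨zero_le_one, le_rfl⟩).ne' x hx
  · refine ContinuousOn.congr (f := P a b) (fun σ hσ => ?_) fun σ hσ => ?_
    · exact (P_der (hN σ hσ).ne').continuousAt.continuousWithinAt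
    · beta_reduce
      rw [he σ hσ]
  · intro σ hσ
    have hσ' := Ioo_subset_Icc_self hσ
    beta_reduce
    rw [he σ hσ']
    refine (P_der (hN σ hσ').ne').congr_of_eventuallyEq ?_
    filter_upwards [Ioo_mem_nhds hσ.1 hσ.2] with τ hτ
    rw [he τ (Ioo_subset_Icc_self hτ)]

end

end Vale.Agent.Q352
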